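import Vale.Agent.P330.Q.Net

/-!
# Sequences of networks over an abstract local code

The limit of a sequence of networks with smaller and smaller errors, along an ultrafilter
(compare `S/AE.lean`).
-/

namespace Vale.Agent.P330.Q

open Finset PCP.AR Filter Topology
open H855 (mean)
open S

/-! ### Resolvent averages over points and pads -/

section RA

theorem gap_mono {V J : Type*} [Fintype V] [Fintype J] {s : J → V ≃ V} {g g' : ℝ} (h : g ≤ g')
    (hs : H855.Gap s g) : H855.Gap s g' := fun f hf =>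
  (hs f hf).trans (mul_le_mul_of_nonneg_right h (Finset.sum_nonneg fun z _ => sq_nonneg (f z)))

variable {V W : Type} [Fintype V] [Nonempty V] [Fintype W] [Nonempty W]

/-- Averaging over all sites. -/
theorem ra_glob_pr {s : Fin 4 → V ≃ V} {t : Fin 4 → W ≃ W} {g : ℝ} (hs : H855.Gap s g)
    (ht : H855.Gap t g) (hg0 : 0 ≤ g) (hg1 : g < 1) {nb : Fin 8 → V × W → V × W}
    (hnb : ∀ k ω, nb k ω = if h : (k : ℕ) < 4 then (ω.1, t ⟨k, h⟩ ω.2)
      else (s ⟨k - 4, by omega⟩ ω.1, ω.2))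
    {w b : V × W → ℝ} (hw : ∀ ω, 0 ≤ w ω ∧ w ω ≤ 1) (hb : ∀ ω, 0 ≤ b ω ∧ b ω ≤ 1)
    {l ε β η : ℝ} (hl : 0 < l) (hl1 : l ≤ 1) (hε : 0 ≤ ε) (hη0 : 0 < η)
    (h : pr (fun ω => ¬ |w ω - ((1 - l) * ((∑ k : Fin 8, w (nb k ω)) / 8) + l * b ω)| ≤ ε) ≤ β)
    (hη : 2 * (β + ε) ≤ η * l) :
    pr (fun ω => η < |w ω - mean b|) ≤
      8 / (1 - (1 + g) / 2) ^ 2 * ((l ^ 2 + β + ε ^ 2) / η ^ 2) := by
  classical
  have hN : (0 : ℝ) < Fintype.card (V × W) := by exact_mod_cast Fintype.card_pos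
  have havg : ∀ ω, H855.avg (H855.prodPerm s t) w ω = (∑ k : Fin 8, w (nb k ω)) / 8 := by
    intro ω
    unfold H855.avg
    rw [Fintype.card_sum, Fintype.card_fin, Fintype.sum_sum_type, Fin.sum_univ_eight,
      Fin.sum_univ_four, Fin.sum_univ_four]
    have e : ∀ k : Fin 8, w (nb k ω) = w (if h : (k : ℕ) < 4 then (ω.1, t ⟨k, h⟩ ω.2)
      else (s ⟨k - 4, by omega⟩ ω.1, ω.2)) := fun k => by rw [hnb]
    simp only [e]
    have e2 : ((4 + 4 : ℕ) : ℝ) = 8 := by norm_num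
    rw [e2]
    congr 1
    have f0 : ∀ j, H855.prodPerm s t (Sum.inl j) ω = (s j ω.1, ω.2) := fun j => rfl
    have f1 : ∀ j, H855.prodPerm s t (Sum.inr j) ω = (ω.1, t j ω.2) := fun j => rfl
    simp only [f0, f1]
    simp
    ring
  set B : Finset (V × W) := univ.filter fun ω =>
    ¬ |w ω - ((1 - l) * ((∑ k : Fin 8, w (nb k ω)) / 8) + l * b ω)| ≤ ε with hB
  have hBc : (B.card : ℝ) ≤ β * Fintype.card (V × W) := by
    have h1 := h
    rw [pr_eq_card, div_le_iff₀ hN] at h1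
    refine le_trans (le_of_eq ?_) h1
    rw [hB]
    congr!
  have h2 := H855.resolvent (w := w) (b := b) (H855.gap_prod hs ht) (by linarith) (by linarith)
    hl hl1 hε hw hb B hBc (fun z hz => by
      rw [hB, mem_filter] at hz
      rw [havg]
      by_contra hc
      exact hz ⟨mem_univ _, hc⟩) hη hη0
  rw [pr_eq_card, div_le_iff₀ hN]
  refine le_trans (le_of_eq ?_) h2
  congr!

/-- Averaging over the pads, for every point. -/
theorem ra_pad_pr {t : Fin 4 → W ≃ W} {g : ℝ} (ht : H855.Gap t g) (hg0 : 0 ≤ g) (hg1 : g < 1)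
    {w b : V × W → ℝ} (hw : ∀ ω, 0 ≤ w ω ∧ w ω ≤ 1) (hb : ∀ ω, 0 ≤ b ω ∧ b ω ≤ 1)
    {l ε β δ η : ℝ} (hl : 0 < l) (hl1 : l ≤ 1) (hε : 0 ≤ ε) (hη0 : 0 < η) (hδ : 0 < δ)
    (h : pr (fun ω : V × W => ¬ |w ω - ((1 - l) * ((w (ω.1, t 0 ω.2) + w (ω.1, t 1 ω.2) +
      w (ω.1, t 2 ω.2) + w (ω.1, t 3 ω.2)) / 4) + l * b ω)| ≤ ε) ≤ β)
    (hη : 2 * (δ + ε) ≤ η * l) :
    pr (fun ω : V × W => η < |w ω - mean fun z => b (ω.1, z)|) ≤
      8 / (1 - g) ^ 2 * ((l ^ 2 + δ + ε ^ 2) / η ^ 2) + β / δ := by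
  classical
  have hN2 : (0 : ℝ) < Fintype.card (V × W) := by exact_mod_cast Fintype.card_pos
  have hN3 : (0 : ℝ) < Fintype.card (W × V) := by exact_mod_cast Fintype.card_pos
  have hcard : ((Fintype.card (V × W) : ℕ) : ℝ) = Fintype.card W * Fintype.card V := by
    rw [Fintype.card_prod]; push_cast; ring
  have hcard' : ((Fintype.card (W × V) : ℕ) : ℝ) = Fintype.card W * Fintype.card V := by
    rw [Fintype.card_prod]; push_cast; ring
  have havg : ∀ z y, H855.avg t (fun z' => w (y, z')) z = (w (y, t 0 z) + w (y, t 1 z) +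
      w (y, t 2 z) + w (y, t 3 z)) / 4 := by
    intro z y
    unfold H855.avg
    rw [Fintype.card_fin, Fin.sum_univ_four]
    norm_num
  have hsw := pr_equiv (Equiv.prodComm W V) (fun ω : V × W => ¬ |w ω - ((1 - l) *
    ((w (ω.1, t 0 ω.2) + w (ω.1, t 1 ω.2) + w (ω.1, t 2 ω.2) + w (ω.1, t 3 ω.2)) / 4) +
      l * b ω)| ≤ ε)
  rw [← hsw] at h
  simp only [Equiv.prodComm_apply, Prod.fst_swap, Prod.snd_swap] at h
  set B : Finset (W × V) := univ.filter fun p => ¬ |w p.swap - ((1 - l) *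
    ((w (p.2, t 0 p.1) + w (p.2, t 1 p.1) + w (p.2, t 2 p.1) + w (p.2, t 3 p.1)) / 4) +
      l * b p.swap)| ≤ ε with hB
  have hBc : (B.card : ℝ) ≤ β * (Fintype.card W * Fintype.card V) := by
    have h1 := h
    rw [pr_eq_card, div_le_iff₀ hN3, hcard'] at h1
    refine le_trans (le_of_eq ?_) h1
    rw [hB]
    congr!
  have h2 := H855.resolvent_prod (w := fun z y => w (y, z)) (b := fun z y => b (y, z)) ht
    hg1 hg0 hl hl1 hε hδ (fun z y => hw _) (fun z y => hb _) B hBc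
    (fun z y hz => by
      rw [hB, mem_filter] at hz
      rw [havg]
      by_contra hc
      exact hz ⟨mem_univ _, hc⟩) hη hη0
  have hsw2 := pr_equiv (Equiv.prodComm W V) (fun ω : V × W => η < |w ω - mean fun z => b (ω.1, z)|)
  rw [← hsw2, pr_eq_card, div_le_iff₀ hN3, hcard']
  refine le_trans (le_of_eq ?_) h2
  simp only [Equiv.prodComm_apply, Prod.fst_swap]
  congr!

end RA

/-! ### Sequences of networks -/

variable {N : LSpec}

/-- A sequence of networks with smaller and smaller errors, and an ultrafilter. -/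
structure GLim (N : LSpec) where
  U : Ultrafilter ℕ
  I : ℕ → LInst N
  τ : ℚ
  θ : ℝ
  ρ₁ : ℝ
  g : ℝ
  ε : ℕ → ℝ
  lam : ℕ → ℝ
  β : ℕ → ℝ
  x : ∀ n, LReg N.C → (I n).Site → ℝ
  facts : ∀ n, (I n).Facts θ ρ₁ g
  obeys : ∀ n, (I n).Obeys τ (ε n) (lam n) (β n) (x n)
  g_nonneg : 0 ≤ g
  g_lt : g < 1
  ε_pos : ∀ n, 0 < ε n
  ε_lt : ∀ n, ε n < 1 / 100
  ε_lim : Tendsto ε U (𝓝 0)
  β_lim : Tendsto β U (𝓝 0)
  lam_pos : ∀ n, 0 < lam n
  lam_lt : ∀ n, lam n < 1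
  lam_lim : Tendsto lam U (𝓝 0)
  ε_lam : Tendsto (fun n => ε n / lam n) U (𝓝 0)
  β_lam : Tendsto (fun n => β n / lam n) U (𝓝 0)

namespace GLim

variable (A : GLim N)

/-- sites of all networks -/
abbrev Pt : Type := Σ n, (A.I n).P × (A.I n).Z

/-- almost all sites -/
abbrev F : Filter A.Pt := aef A.U fun n => (A.I n).P × (A.I n).Z

/-- almost all points -/
abbrev FV : Filter (Σ n, (A.I n).P) := aef A.U fun n => (A.I n).P

/-- the value of a register at a site -/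
abbrev v (ρ : LReg N.C) (ω : A.Pt) : ℝ := A.x ω.1 ρ ω.2

/-- the site read -/
def rd (R : N.Rd) (ω : A.Pt) : A.Pt := ⟨ω.1, (A.I ω.1).rd R ω.2⟩

/-- At almost all sites the register `ρ` has the pure value `b`. -/
def Is (b : A.Pt → Bool) (ρ : LReg N.C) : Prop := ∀ᶠ ω in A.F, IsB (A.ε ω.1) (b ω) (A.v ρ ω)

/-- the pad mean of a register -/
noncomputable def pm (ρ : LReg N.C) (ω : A.Pt) : ℝ := mean fun z => A.x ω.1 ρ (ω.2.1, z)

variable {A}

theorem v_mem (ρ : LReg N.C) (ω : A.Pt) : 0 ≤ A.v ρ ω ∧ A.v ρ ω ≤ 1 := (A.obeys ω.1).1 ρ ω.2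

theorem ae_rd {P : A.Pt → Prop} (h : ∀ᶠ ω in A.F, P ω) (R : N.Rd) :
    ∀ᶠ ω in A.F, P (A.rd R ω) :=
  (ae_map_bij fun n => (A.facts n).rd_bij R).eventually h

/-- Almost all sites obey the network. -/
theorem rel (ρ : LReg N.C) : ∀ᶠ ω in A.F,
    (net N A.τ ρ).Rel (A.I ω.1).sem (A.ε ω.1) (A.lam ω.1) (A.x ω.1) ρ ω.2 :=
  ae_of_le A.β_lim (Eventually.of_forall fun n => (A.obeys n).2 ρ)

variable (A)

theorem exists_av (ρ : LReg N.C) : ∃ a, (0 ≤ a ∧ a ≤ 1) ∧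
    Tendsto (fun n => mean (A.x n ρ)) A.U (𝓝 a) :=
  exists_lim A.U fun n => ⟨mean_nonneg fun ω => ((A.obeys n).1 ρ ω).1,
    mean_le_one fun ω => ((A.obeys n).1 ρ ω).2⟩

/-- the limit of the averages of a register -/
noncomputable def av (ρ : LReg N.C) : ℝ := (A.exists_av ρ).choose

theorem av_mem (ρ : LReg N.C) : 0 ≤ A.av ρ ∧ A.av ρ ≤ 1 := (A.exists_av ρ).choose_spec.1

theorem tendsto_av (ρ : LReg N.C) : Tendsto (fun n => mean (A.x n ρ)) A.U (𝓝 (A.av ρ)) :=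
  (A.exists_av ρ).choose_spec.2

variable {A}

theorem pm_mem (ρ : LReg N.C) (ω : A.Pt) : 0 ≤ A.pm ρ ω ∧ A.pm ρ ω ≤ 1 :=
  ⟨mean_nonneg fun _ => ((A.obeys ω.1).1 ρ _).1, mean_le_one fun _ => ((A.obeys ω.1).1 ρ _).2⟩

theorem glob_eq {ρ ρ' : LReg N.C} (h : net N A.τ ρ = .ra true ρ') (n : ℕ) :
    pr (fun ω : (A.I n).Site => ¬ |A.x n ρ ω - ((1 - A.lam n) *
      ((∑ k : Fin 8, A.x n ρ ((A.I n).sem.nb k ω)) / 8) + A.lam n * A.x n ρ' ω)| ≤
        20 * A.ε n) ≤ A.β n := by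
  have h1 := (A.obeys n).2 ρ
  rw [h] at h1
  exact h1

theorem pad_eq {ρ ρ' : LReg N.C} (h : net N A.τ ρ = .ra false ρ') (n : ℕ) :
    pr (fun ω : (A.I n).Site => ¬ |A.x n ρ ω - ((1 - A.lam n) *
      ((A.x n ρ (ω.1, (A.I n).sZ 0 ω.2) + A.x n ρ (ω.1, (A.I n).sZ 1 ω.2) +
        A.x n ρ (ω.1, (A.I n).sZ 2 ω.2) + A.x n ρ (ω.1, (A.I n).sZ 3 ω.2)) / 4) +
        A.lam n * A.x n ρ' ω)| ≤ 20 * A.ε n) ≤ A.β n := by
  have h1 := (A.obeys n).2 ρ
  rw [h] at h1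
  exact h1

/-- the error terms tend to `0` -/
theorem tendsto_err (C η : ℝ) : Tendsto (fun n => C * ((A.lam n ^ 2 + A.β n + (20 * A.ε n) ^ 2) /
    η ^ 2)) A.U (𝓝 0) := by
  have h : Tendsto (fun n => C * ((A.lam n ^ 2 + A.β n + (20 * A.ε n) ^ 2) / η ^ 2)) A.U
      (𝓝 (C * ((0 ^ 2 + 0 + (20 * 0) ^ 2) / η ^ 2))) :=
    ((((A.lam_lim.pow 2).add A.β_lim).add ((A.ε_lim.const_mul 20).pow 2)).div_const _).const_mul C
  simpa using h

/-- **Global averages**: at almost all sites the register is close to the limit of the averages. -/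
theorem ra_true {ρ ρ' : LReg N.C} (h : net N A.τ ρ = .ra true ρ') {η : ℝ} (hη : 0 < η) :
    ∀ᶠ ω in A.F, |A.v ρ ω - A.av ρ'| < η := by
  have h1 : ∀ᶠ ω in A.F, ¬ η / 2 < |A.v ρ ω - mean (A.x ω.1 ρ')| := by
    refine ae_of_le (tendsto_err (A := A) (8 / (1 - (1 + A.g) / 2) ^ 2) (η / 2)) ?_
    have e1 : ∀ᶠ n in A.U, A.β n / A.lam n < η / 80 :=
      (A.β_lam.eventually (gt_mem_nhds (by positivity : (0 : ℝ) < η / 80)))
    have e2 : ∀ᶠ n in A.U, A.ε n / A.lam n < η / 400 :=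
      (A.ε_lam.eventually (gt_mem_nhds (by positivity : (0 : ℝ) < η / 400)))
    filter_upwards [e1, e2] with n hn1 hn2
    rw [div_lt_iff₀ (A.lam_pos n)] at hn1 hn2
    have := ra_glob_pr (A.facts n).gapP (A.facts n).gapZ A.g_nonneg A.g_lt
      (nb := (A.I n).sem.nb) (fun k ω => rfl)
      (w := A.x n ρ) (b := A.x n ρ') ((A.obeys n).1 ρ) ((A.obeys n).1 ρ') (A.lam_pos n)
      (A.lam_lt n).le (ε := 20 * A.ε n) (by have := A.ε_pos n; linarith) (half_pos hη)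
      (glob_eq h n) (by nlinarith [A.lam_pos n])
    refine le_trans (le_of_eq (pr_congr fun ω => ?_)) this
    exact not_not
  have h2 : ∀ᶠ ω in A.F, |mean (A.x ω.1 ρ') - A.av ρ'| < η / 2 := by
    have h3 : ∀ᶠ n in (A.U : Filter ℕ), |mean (A.x n ρ') - A.av ρ'| < η / 2 := by
      filter_upwards [Metric.tendsto_nhds.1 (A.tendsto_av ρ') (η / 2) (by linarith)] with n hn
      rwa [Real.dist_eq] at hn
    exact ae_fst (Ω := fun n => (A.I n).P × (A.I n).Z)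
      (Q := fun n => |mean (A.x n ρ') - A.av ρ'| < η / 2) h3
  filter_upwards [h1, h2] with ω g1 g2
  push Not at g1
  have := abs_sub_le (A.v ρ ω) (mean (A.x ω.1 ρ')) (A.av ρ')
  linarith

/-- **Averages over the pads.** -/
theorem ra_false {ρ ρ' : LReg N.C} (h : net N A.τ ρ = .ra false ρ') {η : ℝ} (hη : 0 < η) :
    ∀ᶠ ω in A.F, |A.v ρ ω - A.pm ρ' ω| < η := by
  have h1 : ∀ᶠ ω in A.F, ¬ η / 2 < |A.v ρ ω - A.pm ρ' ω| := by
    have e0 : Tendsto (fun n => 8 / (1 - A.g) ^ 2 * ((A.lam n ^ 2 + A.lam n * (η / 16) +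
        (20 * A.ε n) ^ 2) / (η / 2) ^ 2) + A.β n / (A.lam n * (η / 16))) A.U (𝓝 0) := by
      have a1 : Tendsto (fun n => A.β n / A.lam n / (η / 16)) A.U (𝓝 (0 / (η / 16))) :=
        A.β_lam.div_const _
      have a2 : Tendsto (fun n => 8 / (1 - A.g) ^ 2 * ((A.lam n ^ 2 + A.lam n * (η / 16) +
        (20 * A.ε n) ^ 2) / (η / 2) ^ 2) + A.β n / A.lam n / (η / 16)) A.U
        (𝓝 (8 / (1 - A.g) ^ 2 * ((0 ^ 2 + 0 * (η / 16) + (20 * 0) ^ 2) / (η / 2) ^ 2) +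
          0 / (η / 16))) :=
        (((((A.lam_lim.pow 2).add (A.lam_lim.mul_const _)).add
          ((A.ε_lim.const_mul 20).pow 2)).div_const _).const_mul _).add a1
      have a3 : (8 / (1 - A.g) ^ 2 * ((0 ^ 2 + 0 * (η / 16) + (20 * 0) ^ 2) / (η / 2) ^ 2) +
          0 / (η / 16) : ℝ) = 0 := by ring
      rw [a3] at a2
      refine a2.congr fun n => ?_
      rw [div_div]
    refine ae_of_le e0 ?_
    have e2 : ∀ᶠ n in A.U, A.ε n / A.lam n < η / 400 :=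
      (A.ε_lam.eventually (gt_mem_nhds (by positivity : (0 : ℝ) < η / 400)))
    filter_upwards [e2] with n hn2
    rw [div_lt_iff₀ (A.lam_pos n)] at hn2
    have := ra_pad_pr (V := (A.I n).P) (A.facts n).gapZ A.g_nonneg A.g_lt
      (w := A.x n ρ) (b := A.x n ρ') ((A.obeys n).1 ρ) ((A.obeys n).1 ρ') (A.lam_pos n)
      (A.lam_lt n).le (ε := 20 * A.ε n) (δ := A.lam n * (η / 16))
      (by have := A.ε_pos n; linarith) (half_pos hη)
      (mul_pos (A.lam_pos n) (by positivity)) (pad_eq h n) (by nlinarith [A.lam_pos n])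
    refine le_trans (le_of_eq (pr_congr fun ω => ?_)) this
    exact not_not
  filter_upwards [h1] with ω g1
  push Not at g1
  linarith

/-- **Thresholds.** -/
theorem thr {σ ρ : LReg N.C} {α : ℚ} (h : net N A.τ σ = .thr α ρ) {η : ℝ} (hη : 0 < η) :
    ∀ᶠ ω in A.F, ((α : ℝ) + η < A.v ρ ω → IsB (A.ε ω.1) true (A.v σ ω)) ∧
      (A.v ρ ω < (α : ℝ) - η → IsB (A.ε ω.1) false (A.v σ ω)) := by
  have e2 : ∀ᶠ n in A.U, A.ε n < η / 2 := A.ε_lim.eventually (gt_mem_nhds (half_pos hη))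
  filter_upwards [A.rel σ, ae_fst (Ω := fun n => (A.I n).P × (A.I n).Z) e2] with ω g1 g2
  rw [h] at g1
  exact ⟨fun hc => g1.1 (by linarith), fun hc => g1.2 (by linarith)⟩

/-- thresholds of global averages -/
theorem thr_av_true {σ ρ ρ' : LReg N.C} {α : ℚ} (h : net N A.τ σ = .thr α ρ)
    (h' : net N A.τ ρ = .ra true ρ') (hα : (α : ℝ) < A.av ρ') : A.Is (fun _ => true) σ := by
  have hη : 0 < (A.av ρ' - α) / 2 := by linarith
  filter_upwards [A.thr h hη, A.ra_true h' hη] with ω g1 g2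
  exact g1.1 (by have := (abs_lt.1 g2).1; linarith)

theorem thr_av_false {σ ρ ρ' : LReg N.C} {α : ℚ} (h : net N A.τ σ = .thr α ρ)
    (h' : net N A.τ ρ = .ra true ρ') (hα : A.av ρ' < (α : ℝ)) : A.Is (fun _ => false) σ := by
  have hη : 0 < (α - A.av ρ') / 2 := by linarith
  filter_upwards [A.thr h hη, A.ra_true h' hη] with ω g1 g2
  exact g1.2 (by have := (abs_lt.1 g2).2; linarith)

/-- thresholds of averages over the pads -/
theorem thr_pm {σ ρ ρ' : LReg N.C} {α : ℚ} (h : net N A.τ σ = .thr α ρ)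
    (h' : net N A.τ ρ = .ra false ρ') {η : ℝ} (hη : 0 < η) :
    ∀ᶠ ω in A.F, ((α : ℝ) + η < A.pm ρ' ω → IsB (A.ε ω.1) true (A.v σ ω)) ∧
      (A.pm ρ' ω < (α : ℝ) - η → IsB (A.ε ω.1) false (A.v σ ω)) := by
  filter_upwards [A.thr h (half_pos hη), A.ra_false h' (half_pos hη)] with ω g1 g2
  exact ⟨fun hc => g1.1 (by have := (abs_lt.1 g2).1; linarith),
    fun hc => g1.2 (by have := (abs_lt.1 g2).2; linarith)⟩

theorem th_true {i : Fin 3} {l : Fin 5} (h : (((l : ℕ) + 1 : ℝ)) / 6 < A.av (.q i)) :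
    A.Is (fun _ => true) (.th i l) :=
  thr_av_true (α := ((l : ℕ) + 1 : ℚ) / 6) (ρ := .qa i) rfl rfl (by push_cast; exact h)

theorem th_false {i : Fin 3} {l : Fin 5} (h : A.av (.q i) < (((l : ℕ) + 1 : ℝ)) / 6) :
    A.Is (fun _ => false) (.th i l) :=
  thr_av_false (α := ((l : ℕ) + 1 : ℚ) / 6) (ρ := .qa i) rfl rfl (by push_cast; exact h)

theorem tf_true {k : Tst} (h : (A.τ : ℝ) < A.av (.t k)) : A.Is (fun _ => true) (.tf k) :=
  thr_av_true (ρ := .ta k) rfl rfl h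

theorem tf_false {k : Tst} (h : A.av (.t k) < (A.τ : ℝ)) : A.Is (fun _ => false) (.tf k) :=
  thr_av_false (ρ := .ta k) rfl rfl h

/-- the registers `x`, `lo`, `hi` from the pad mean of `m` -/
theorem x_pm (z : Bool) (c : N.C) {η : ℝ} (hη : 0 < η) :
    ∀ᶠ ω in A.F, (1 / 2 + η < A.pm (.m z c) ω → IsB (A.ε ω.1) true (A.v (.x z c) ω)) ∧
      (A.pm (.m z c) ω < 1 / 2 - η → IsB (A.ε ω.1) false (A.v (.x z c) ω)) := by
  have h := A.thr_pm (σ := .x z c) (ρ := .p z c) (ρ' := .m z c) (α := 1 / 2) rfl rfl hη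
  push_cast at h
  exact h

theorem lo_pm (z : Bool) (c : N.C) {η : ℝ} (hη : 0 < η) :
    ∀ᶠ ω in A.F, (1 / 4 + η < A.pm (.m z c) ω → IsB (A.ε ω.1) true (A.v (.lo z c) ω)) ∧
      (A.pm (.m z c) ω < 1 / 4 - η → IsB (A.ε ω.1) false (A.v (.lo z c) ω)) := by
  have h := A.thr_pm (σ := .lo z c) (ρ := .p z c) (ρ' := .m z c) (α := 1 / 4) rfl rfl hη
  push_cast at h
  exact h

theorem hi_pm (z : Bool) (c : N.C) {η : ℝ} (hη : 0 < η) :
    ∀ᶠ ω in A.F, (3 / 4 + η < A.pm (.m z c) ω → IsB (A.ε ω.1) true (A.v (.hi z c) ω)) ∧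
      (A.pm (.m z c) ω < 3 / 4 - η → IsB (A.ε ω.1) false (A.v (.hi z c) ω)) := by
  have h := A.thr_pm (σ := .hi z c) (ρ := .p z c) (ρ' := .m z c) (α := 3 / 4) rfl rfl hη
  push_cast at h
  exact h

/-- a pure register: the mean is the mean of the bits -/
theorem mean_of_is {ρ : LReg N.C} {b : A.Pt → Bool} (h : A.Is b ρ) :
    Tendsto (fun n => mean (A.x n ρ) -
      mean (fun ω : (A.I n).Site => if b ⟨n, ω⟩ then (1 : ℝ) else 0)) A.U (𝓝 0) := by
  refine tendsto_mean_sub (f := A.v ρ) (g := fun ω => if b ω then (1 : ℝ) else 0)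
    (v_mem ρ) (fun ω => by split_ifs <;> norm_num) fun η hη => ?_
  have e2 : ∀ᶠ n in A.U, A.ε n < η := A.ε_lim.eventually (gt_mem_nhds hη)
  filter_upwards [h, ae_fst (Ω := fun n => (A.I n).P × (A.I n).Z) e2] with ω g1 g2
  exact (S.Lim.abs_sub_le_of_isB (A.ε_pos _).le (v_mem ρ ω) g1).trans g2.le

theorem av_of_is_true {ρ : LReg N.C} (h : A.Is (fun _ => true) ρ) : A.av ρ = 1 := by
  have h1 := mean_of_is h
  simp only [if_true] at h1
  have h2 := (A.tendsto_av ρ).sub h1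
  have h3 : Tendsto (fun n => mean (A.x n ρ) - (mean (A.x n ρ) -
      mean (fun _ : (A.I n).Site => (1 : ℝ)))) A.U (𝓝 1) := by
    refine tendsto_const_nhds.congr fun n => ?_
    rw [mean_const]
    ring
  rw [sub_zero] at h2
  exact tendsto_nhds_unique h2 h3

theorem av_of_is_false {ρ : LReg N.C} (h : A.Is (fun _ => false) ρ) : A.av ρ = 0 := by
  have h1 := mean_of_is h
  simp only [Bool.false_eq_true, if_false] at h1
  have h2 := (A.tendsto_av ρ).sub h1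
  have h3 : Tendsto (fun n => mean (A.x n ρ) - (mean (A.x n ρ) -
      mean (fun _ : (A.I n).Site => (0 : ℝ)))) A.U (𝓝 0) := by
    refine tendsto_const_nhds.congr fun n => ?_
    rw [mean_const]
    ring
  rw [sub_zero] at h2
  exact tendsto_nhds_unique h2 h3

/-- The pad mean of a pure register whose bit depends on the point only. -/
theorem pm_of_is {ρ : LReg N.C} {g : (Σ n, (A.I n).P) → Bool}
    (h : A.Is (fun ω => g ⟨ω.1, ω.2.1⟩) ρ) {η : ℝ} (hη : 0 < η) :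
    ∀ᶠ ω in A.F, |A.pm ρ ω - (if g ⟨ω.1, ω.2.1⟩ then 1 else 0)| < η := by
  have h1 := ae_fiber (A := fun n => (A.I n).P) (B := fun n => (A.I n).Z) h
    (c := η / 2) (half_pos hη)
  have e2 : ∀ᶠ n in A.U, A.ε n < η / 2 := A.ε_lim.eventually (gt_mem_nhds (half_pos hη))
  have h2 := (ae_prod_fst (U := (A.U : Filter ℕ)) (A := fun n => (A.I n).P)
    (B := fun n => (A.I n).Z)).2 h1
  filter_upwards [h2, ae_fst (Ω := fun n => (A.I n).P × (A.I n).Z) e2] with ω g1 g2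
  have h3 := abs_mean_sub_le (f := fun z => A.x ω.1 ρ (ω.2.1, z))
    (g := fun _ => if g ⟨ω.1, ω.2.1⟩ then (1 : ℝ) else 0) (η := A.ε ω.1) (A.ε_pos _).le
    (fun z => (A.obeys ω.1).1 ρ _) (fun z => by split_ifs <;> norm_num)
  rw [mean_const] at h3
  have h4 : pr (fun z => ¬ |A.x ω.1 ρ (ω.2.1, z) - (if g ⟨ω.1, ω.2.1⟩ then (1 : ℝ) else 0)| ≤
      A.ε ω.1) ≤ pr (fun z => ¬ IsB (A.ε ω.1) (g ⟨ω.1, ω.2.1⟩) (A.x ω.1 ρ (ω.2.1, z))) :=
    pr_mono fun z hz hc =>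
      hz (S.Lim.abs_sub_le_of_isB (A.ε_pos _).le ((A.obeys ω.1).1 ρ _) hc)
  calc |A.pm ρ ω - (if g ⟨ω.1, ω.2.1⟩ then 1 else 0)| ≤ _ := h3
    _ < η := by linarith

/-- **Codes from the multiplexers** -/
theorem codes_of_m {z : Bool} {c : N.C} {g : (Σ n, (A.I n).P) → Bool}
    (h : A.Is (fun ω => g ⟨ω.1, ω.2.1⟩) (.m z c)) :
    A.Is (fun ω => g ⟨ω.1, ω.2.1⟩) (.x z c) ∧ A.Is (fun ω => g ⟨ω.1, ω.2.1⟩) (.lo z c) ∧
      A.Is (fun ω => g ⟨ω.1, ω.2.1⟩) (.hi z c) := by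
  have h0 := A.pm_of_is h (η := 1 / 10) (by norm_num)
  refine ⟨?_, ?_, ?_⟩
  · filter_upwards [h0, A.x_pm z c (η := 1 / 10) (by norm_num)] with ω g1 g2
    rcases hg : g ⟨ω.1, ω.2.1⟩ with _ | _
    · rw [hg] at g1
      simp only [Bool.false_eq_true, if_false] at g1
      exact g2.2 (by have := (abs_lt.1 g1).2; linarith)
    · rw [hg] at g1
      simp only [if_true] at g1
      exact g2.1 (by have := (abs_lt.1 g1).1; linarith)
  · filter_upwards [h0, A.lo_pm z c (η := 1 / 10) (by norm_num)] with ω g1 g2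
    rcases hg : g ⟨ω.1, ω.2.1⟩ with _ | _
    · rw [hg] at g1
      simp only [Bool.false_eq_true, if_false] at g1
      exact g2.2 (by have := (abs_lt.1 g1).2; linarith)
    · rw [hg] at g1
      simp only [if_true] at g1
      exact g2.1 (by have := (abs_lt.1 g1).1; linarith)
  · filter_upwards [h0, A.hi_pm z c (η := 1 / 10) (by norm_num)] with ω g1 g2
    rcases hg : g ⟨ω.1, ω.2.1⟩ with _ | _
    · rw [hg] at g1
      simp only [Bool.false_eq_true, if_false] at g1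
      exact g2.2 (by have := (abs_lt.1 g1).2; linarith)
    · rw [hg] at g1
      simp only [if_true] at g1
      exact g2.1 (by have := (abs_lt.1 g1).1; linarith)

/-- the fraction of the sites with the pure value `1` is at most the average -/
theorem pr_true_le (ρ : LReg N.C) {η : ℝ} (hη : 0 < η) :
    ∀ᶠ n in A.U, pr (fun ω => IsB (A.ε n) true (A.x n ρ ω)) ≤ A.av ρ + η := by
  have e1 : ∀ᶠ n in A.U, A.ε n < η / 2 := A.ε_lim.eventually (gt_mem_nhds (half_pos hη))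
  have e2 : ∀ᶠ n in A.U, mean (A.x n ρ) < A.av ρ + η / 2 :=
    (A.tendsto_av ρ).eventually (gt_mem_nhds (by linarith))
  filter_upwards [e1, e2] with n h1 h2
  have h3 := mul_pr_le_mean (f := A.x n ρ) (p := fun ω => IsB (A.ε n) true (A.x n ρ ω))
    (c := 1 - A.ε n) (fun ω => ((A.obeys n).1 ρ ω).1) fun ω hω => hω
  have h4 := pr_le_one (fun ω => IsB (A.ε n) true (A.x n ρ ω))
  have h5 := A.ε_pos n
  have h6 := pr_nonneg (fun ω => IsB (A.ε n) true (A.x n ρ ω))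
  nlinarith

/-- the average is at most the fraction of the sites which do not have the pure value `0` -/
theorem av_le_pr (ρ : LReg N.C) {η : ℝ} (hη : 0 < η) :
    ∀ᶠ n in A.U, A.av ρ - η ≤ pr (fun ω => ¬ IsB (A.ε n) false (A.x n ρ ω)) := by
  have e1 : ∀ᶠ n in A.U, A.ε n < η / 2 := A.ε_lim.eventually (gt_mem_nhds (half_pos hη))
  have e2 : ∀ᶠ n in A.U, A.av ρ - η / 2 < mean (A.x n ρ) :=
    (A.tendsto_av ρ).eventually (lt_mem_nhds (by linarith))
  filter_upwards [e1, e2] with n h1 h2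
  have h3 := abs_mean_sub_le (f := A.x n ρ) (g := fun _ => (0 : ℝ)) (η := A.ε n) (A.ε_pos n).le
    ((A.obeys n).1 ρ) (fun _ => by norm_num)
  rw [mean_const, sub_zero, abs_of_nonneg (mean_nonneg fun ω => ((A.obeys n).1 ρ ω).1)] at h3
  have h4 : pr (fun ω => ¬ |A.x n ρ ω - 0| ≤ A.ε n) ≤
      pr (fun ω => ¬ IsB (A.ε n) false (A.x n ρ ω)) :=
    pr_mono fun ω hω hc => hω (by
      rw [sub_zero, abs_of_nonneg ((A.obeys n).1 ρ ω).1]
      exact hc)
  linarith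

theorem le_av_of_pr {ρ : LReg N.C} {c : ℝ}
    (h : ∀ᶠ n in A.U, c ≤ pr (fun ω => IsB (A.ε n) true (A.x n ρ ω))) : c ≤ A.av ρ := by
  refine le_of_forall_pos_le_add fun η hη => ?_
  obtain ⟨n, h1, h2⟩ := (h.and (A.pr_true_le ρ hη)).exists
  exact h1.trans h2

theorem av_le_of_pr {ρ : LReg N.C} {c : ℝ}
    (h : ∀ᶠ n in A.U, pr (fun ω => ¬ IsB (A.ε n) false (A.x n ρ ω)) ≤ c) : A.av ρ ≤ c := by
  refine le_of_forall_pos_le_add fun η hη => ?_
  obtain ⟨n, h1, h2⟩ := (h.and (A.av_le_pr ρ hη)).exists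
  linarith

end GLim

end Vale.Agent.P330.Q
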