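import Vale.Agent.P330.H855.Asm
import Vale.Agent.P330.EX

/-!
# Assembly of the reduction

From polynomial time algorithms for the list of gates and for the decoder to the statement
`PolySizePCP` of `H241/Defs.lean`. Finitely many instances may be left out; unused nodes are
added, so that every polynomial which is eventually at least `C * M` can be taken as the bound for
the length of acceptable assignments.
-/

namespace Vale.Agent.P330

open Vale.Agent.Lib.PolyTime

/-- More nodes. -/
theorem WFNet.mono {nodes nodes' : ℕ} {gates : List Gate} (h : WFNet nodes gates)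
    (hn : nodes ≤ nodes') : WFNet nodes' gates :=
  ⟨h.gates_ne, fun g hg => (h.out_lt g hg).trans_le hn,
    fun g hg a ha => (h.ins_lt g hg a ha).trans_le hn, h.out_nodup, h.params_mem⟩

/-- All instances but finitely many. -/
def big (m : ℕ) (I : EndOfLine) : Bool := decide (m ≤ (eolW I).length)

theorem big_iff {m : ℕ} {I : EndOfLine} : big m I = true ↔ m ≤ (eolW I).length := by
  simp [big]

theorem PT_big (m : ℕ) : PT ∅ (big m) := by
  have h : PT ∅ (fun I : EndOfLine => decide (m ≤ esize I)) := PT.le (PT.const m) (PT.size PT.id)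
  exact h

/-- **The assembly lemma**: polynomial time algorithms `nodes`, `gates`, `dec` which work on all
instances but finitely many. -/
theorem pcp_of {ε δ : ℚ} (hε : 0 < ε) (hδ : 0 < δ)
    {nodes : EndOfLine → ℕ} (hn : PT ∅ nodes) (hnb : PBd nodes)
    {gates : EndOfLine → List Gate} (hg : PT ∅ gates)
    {dec : EndOfLine × List ℚ → Raw} (hd : PT ∅ dec) (m : ℕ)
    (hwf : ∀ I : EndOfLine, m ≤ (eolW I).length → WFNet (nodes I) (gates I))
    (hsound : ∀ I : EndOfLine, m ≤ (eolW I).length → ∀ x : List ℚ, (∀ r ∈ x, 0 ≤ r ∧ r ≤ 1) →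
      (1 - (δ : ℝ)) * (gates I).length ≤
        ({g : Gate | g ∈ gates I ∧ g.Sat (ε : ℝ) (val x)}.ncard : ℝ) →
      I.IsSolution (dec (I, x)).w) :
    ∃ C : ℕ, ∀ p : Polynomial ℕ, (∀ᶠ M in Filter.atTop, C * M ≤ p.eval M) →
      PolySizePCP ε δ p := by
  classical
  obtain ⟨C, hC⟩ := exists_acceptable (ε : ℝ) (by exact_mod_cast hε)
  refine ⟨max C 6, fun p hp => ?_⟩
  obtain ⟨m0, hm0⟩ := Filter.eventually_atTop.1 hp
  have hwf' : ∀ I, big m I = true → WFNet (nodes I + m0) (gates I) := fun I h =>
    (hwf I (big_iff.1 h)).mono (Nat.le_add_right _ _)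
  let R : EndOfLine → GenCircuit := fun I =>
    if h : big m I = true then (hwf' I h).toCircuit else oneGate m0
  have hR : PT ∅ R := by
    have h1 : PT ∅ (fun I : EndOfLine => bif big m I then (Un.mk (nodes I + m0), gates I)
        else (Un.mk (m0 + 1), [Gate.const 0 0])) :=
      PT.cond (PT_big m) ((PT.mkUn (hn.add (PT.const m0)) (hnb.add (PBd.const m0))).pair hg)
        (PT.const _)
    obtain ⟨g, h2, h3⟩ := h1
    refine ⟨g, h2, fun q => ?_⟩
    rw [h3]
    show enc (bif big m q then (Un.mk (nodes q + m0), gates q)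
        else (Un.mk (m0 + 1), [Gate.const 0 0])) = circuitW (R q)
    by_cases h : big m q = true
    · simp only [R]
      rw [dif_pos h, h, cond_true, enc_pair, pr_eq_pairW, enc_un, enc_listGate]
      rfl
    · simp only [R]
      rw [dif_neg h, Bool.eq_false_iff.2 h, cond_false, enc_pair, pr_eq_pairW, enc_un,
        enc_listGate]
      rfl
  let D : EndOfLine × List ℚ → Raw := fun q =>
    bif big m q.1 then dec q
    else Raw.mk (if (eolW q.1).length < m then q.1.sol else [])
  have hD : PT ∅ D :=
    PT.cond ((PT_big m).comp PT.fst') hd ((PT_patchSol m).comp PT.fst')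
  refine ⟨R, fun q => (D q).w, ?_, ?_, fun I => ?_⟩
  · obtain ⟨g, h1, h2⟩ := hR
    exact polyTime_iff.2 ⟨g, h1, h2⟩
  · obtain ⟨g, h1, h2⟩ := hD
    refine polyTime_iff.2 ⟨g, h1, fun q => ?_⟩
    have h3 := h2 q
    rw [enc_pair, pr_eq_pairW, enc_listRat] at h3
    exact h3
  · by_cases h : big m I = true
    · have hR1 : R I = (hwf' I h).toCircuit := by
        simp only [R]
        rw [dif_pos h]
      have hlen : m0 ≤ (circuitW (R I)).length := by
        refine le_trans ?_ (nodes_le _)
        rw [hR1]
        show m0 ≤ nodes I + m0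
        omega
      refine ⟨?_, fun x hx => ?_⟩
      · obtain ⟨x, hx, _⟩ := hC (R I) δ (Polynomial.C C * Polynomial.X) (by exact_mod_cast hδ.le)
          (fun M => by simp)
        refine ⟨x, hx.1, hx.2.1.trans ?_, hx.2.2⟩
        refine le_trans ?_ (hm0 _ hlen)
        simp only [Polynomial.eval_mul, Polynomial.eval_C, Polynomial.eval_X]
        exact Nat.mul_le_mul_right _ (le_max_left _ _)
      · have hD1 : D (I, x) = dec (I, x) := by
          simp only [D]
          rw [h, cond_true]
        rw [hR1] at hx
        show I.IsSolution (D (I, x)).w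
        rw [hD1]
        refine hsound I (big_iff.1 h) x hx.1.2 ?_
        have h2 := hx.2.2
        exact h2
    · have hR1 : R I = oneGate m0 := by
        simp only [R]
        rw [dif_neg h]
      have hlt : (eolW I).length < m := by
        by_contra h1
        exact h (big_iff.2 (not_lt.1 h1))
      show (∃ x, Acceptable ε δ p (R I) x) ∧
        ∀ x, Acceptable ε δ p (R I) x → I.IsSolution (D (I, x)).w
      rw [hR1]
      refine ⟨⟨_, acceptable_oneGate (by exact_mod_cast hε) (by exact_mod_cast hδ)
        (le_max_right C 6) hm0⟩, fun x _ => ?_⟩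
      have hD1 : D (I, x) = Raw.mk I.sol := by
        simp only [D]
        rw [Bool.eq_false_iff.2 h, cond_false, if_pos hlt]
      rw [hD1]
      exact I.isSolution_sol

end Vale.Agent.P330
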