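import Mathlib

/-!
# Existence of `(α, β)` (block Q:BIAS)

`K` is a finite vector space over `ZMod 2`, `h = 2 ^ a`.  A functional `f` on
`Bool × ZMod h → K` that kills all cyclic shifts of a suitable element `g = (α, β)` is zero or
is nonzero on many coordinate axes; moreover `∑ j, α j ≠ 0`.
-/

namespace Vale.Agent.P330.Q.Bias

open Finset Module

/-! ### Shift-invariant subspaces of small dimension are periodic -/

section periodic

variable {a : ℕ}

/-- the shift of binary sequences of period `2 ^ a` -/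
def sh (a : ℕ) : (ZMod (2 ^ a) → ZMod 2) →ₗ[ZMod 2] (ZMod (2 ^ a) → ZMod 2) :=
  LinearMap.funLeft (ZMod 2) (ZMod 2) fun k => k + 1

lemma sh_apply (z : ZMod (2 ^ a) → ZMod 2) (k : ZMod (2 ^ a)) : sh a z k = z (k + 1) := rfl

lemma sh_pow_apply (n : ℕ) (z : ZMod (2 ^ a) → ZMod 2) (k : ZMod (2 ^ a)) :
    (sh a ^ n) z k = z (k + n) := by
  induction n generalizing z k with
  | zero => simp
  | succ n ih =>
    rw [pow_succ, Module.End.mul_apply, ih, sh_apply]
    congr 1
    push_cast
    ring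

lemma add_one_pow_two_pow {V : Type*} [AddCommGroup V] [Module (ZMod 2) V]
    (T : Module.End (ZMod 2) V) (c : ℕ) : (T + 1) ^ 2 ^ c = T ^ 2 ^ c + 1 := by
  have h : ((Polynomial.X + 1 : Polynomial (ZMod 2)) ^ 2 ^ c) = Polynomial.X ^ 2 ^ c + 1 := by
    rw [add_pow_char_pow, one_pow]
  have h2 := congrArg (Polynomial.aeval T) h
  simpa using h2

/-- An invariant subspace of dimension at most `2 ^ c` consists of `2 ^ c`-periodic
sequences. -/
lemma periodic_of_finrank_le {c : ℕ} (R : Submodule (ZMod 2) (ZMod (2 ^ a) → ZMod 2))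
    (hR : ∀ z ∈ R, sh a z ∈ R) (hc : finrank (ZMod 2) R ≤ 2 ^ c) :
    ∀ z ∈ R, ∀ k : ZMod (2 ^ a), z (k + ((2 ^ c : ℕ) : ZMod (2 ^ a))) = z k := by
  set T : Module.End (ZMod 2) R := (sh a).restrict hR with hT
  have hTpow : ∀ (n : ℕ) (z : R), ((T ^ n) z : ZMod (2 ^ a) → ZMod 2) = (sh a ^ n) z := by
    intro n
    induction n with
    | zero => intro z; simp
    | succ n ih =>
      intro z
      rw [pow_succ, Module.End.mul_apply, ih, pow_succ, Module.End.mul_apply]
      rfl
  have hnil : (T + 1) ^ 2 ^ a = 0 := by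
    rw [add_one_pow_two_pow]
    ext z k
    simp only [LinearMap.add_apply, Submodule.coe_add, Pi.add_apply, hTpow, sh_pow_apply,
      Module.End.one_apply, LinearMap.zero_apply, ZeroMemClass.coe_zero, Pi.zero_apply]
    rw [Nat.cast_pow, show ((2 : ℕ) : ZMod (2 ^ a)) ^ a = ((2 ^ a : ℕ) : ZMod (2 ^ a)) by
      push_cast; rfl, ZMod.natCast_self, add_zero]
    exact CharTwo.add_self_eq_zero _
  have hker : ∀ m, finrank (ZMod 2) R ≤ m → (T + 1) ^ m = 0 := by
    intro m hm
    have h1 := Module.End.ker_pow_eq_ker_pow_finrank_of_le (f := T + 1) hm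
    have h2 := Module.End.ker_pow_eq_ker_pow_finrank_of_le (f := T + 1)
      (m := 2 ^ a + finrank (ZMod 2) R) (Nat.le_add_left _ _)
    have h3 : (T + 1) ^ (2 ^ a + finrank (ZMod 2) R) = 0 := by
      rw [pow_add, hnil, zero_mul]
    rw [h3, LinearMap.ker_zero] at h2
    rw [← h2] at h1
    exact LinearMap.ker_eq_top.1 h1
  have h4 := hker _ hc
  rw [add_one_pow_two_pow] at h4
  intro z hz k
  have h5 := congrArg (fun φ : Module.End (ZMod 2) R =>
    ((φ ⟨z, hz⟩ : R) : ZMod (2 ^ a) → ZMod 2) k) h4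
  simp only [LinearMap.add_apply, Submodule.coe_add, Pi.add_apply, hTpow, sh_pow_apply,
    Module.End.one_apply, LinearMap.zero_apply, ZeroMemClass.coe_zero, Pi.zero_apply] at h5
  exact CharTwo.add_eq_zero.1 h5

end periodic

/-! ### Words of small weight -/

section weight

variable {ι Q : Type*} [Fintype ι] [DecidableEq ι] [Fintype Q] [DecidableEq Q] [Zero Q]

/-- number of nonzero coordinates -/
def wt (g : ι → Q) : ℕ := (univ.filter fun i => g i ≠ 0).card

lemma card_small_le {s m : ℕ} (hQ : Fintype.card Q ≤ 2 ^ s) (hι : Fintype.card ι = 16 * m) :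
    (univ.filter fun g : ι → Q => 16 * (s + 5) * wt g < 16 * m).card ≤ 2 ^ (2 * m) := by
  set y : ℝ := 1 / 2 ^ (s + 5) with hy
  have hy0 : 0 < y := by positivity
  have h1 : ∀ g : ι → Q, y ^ wt g = ∏ i, (if g i = 0 then (1 : ℝ) else y) := by
    intro g
    unfold wt
    rw [Finset.prod_ite, Finset.prod_const_one, one_mul, Finset.prod_const]
  have h2 : ∑ g : ι → Q, y ^ wt g ≤ (1 + 1 / 32) ^ (16 * m) := by
    simp_rw [h1]
    have h3 := (Finset.prod_univ_sum (fun _ : ι => (univ : Finset Q))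
      (fun _ x => (if x = 0 then (1 : ℝ) else y))).symm
    rw [Fintype.piFinset_univ] at h3
    rw [h3, Finset.prod_const, Finset.card_univ, hι]
    refine pow_le_pow_left₀ (Finset.sum_nonneg fun x _ => by split_ifs <;> positivity) ?_ _
    rw [Finset.sum_ite, Finset.sum_const, Finset.sum_const, nsmul_eq_mul, nsmul_eq_mul]
    have h4 : (univ.filter fun x : Q => x = 0).card = 1 := by
      rw [Finset.card_eq_one]
      exact ⟨0, by ext x; simp⟩
    rw [h4]
    have h5 : ((univ.filter fun x : Q => ¬ x = 0).card : ℝ) ≤ 2 ^ s := by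
      calc ((univ.filter fun x : Q => ¬ x = 0).card : ℝ) ≤ (Fintype.card Q : ℝ) := by
            exact_mod_cast Finset.card_le_univ _
        _ ≤ 2 ^ s := by exact_mod_cast hQ
    have h6 : (2 : ℝ) ^ s * y = 1 / 32 := by
      rw [hy, pow_add]
      field_simp
      norm_num
    have h7 := mul_le_mul_of_nonneg_right h5 hy0.le
    rw [h6] at h7
    push_cast
    linarith
  have h8 : ((univ.filter fun g : ι → Q => 16 * (s + 5) * wt g < 16 * m).card : ℝ) ≤
      2 ^ m * ∑ g : ι → Q, y ^ wt g := by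
    rw [Finset.card_eq_sum_ones, Nat.cast_sum, Finset.mul_sum, Finset.sum_filter]
    refine Finset.sum_le_sum fun g _ => ?_
    split_ifs with hg
    · have h9 : (s + 5) * wt g ≤ m := by
        have : 16 * ((s + 5) * wt g) < 16 * m := by rw [← mul_assoc]; exact hg
        omega
      have h10 : (2 : ℝ) ^ m * y ^ wt g = 2 ^ m / 2 ^ ((s + 5) * wt g) := by
        rw [hy, one_div, inv_pow, ← pow_mul]
        rfl
      rw [h10, Nat.cast_one, le_div_iff₀ (by positivity), one_mul]
      exact pow_le_pow_right₀ (by norm_num) h9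
    · positivity
  have h11 : ((1 : ℝ) + 1 / 32) ^ (16 * m) ≤ 2 ^ m := by
    rw [pow_mul]
    refine pow_le_pow_left₀ (by positivity) ?_ _
    norm_num
  have h12 : ((univ.filter fun g : ι → Q => 16 * (s + 5) * wt g < 16 * m).card : ℝ) ≤
      2 ^ (2 * m) := by
    refine h8.trans ?_
    rw [two_mul, pow_add]
    exact mul_le_mul_of_nonneg_left (h2.trans h11) (by positivity)
  exact_mod_cast h12

end weight

/-! ### The pairing -/

section pairing

variable {a : ℕ} {K : Type*} [AddCommGroup K] [Module (ZMod 2) K]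

/-- the ambient space -/
abbrev V (a : ℕ) (K : Type*) : Type _ := Bool × ZMod (2 ^ a) → K

/-- cyclic shift by `k` -/
def S (k : ZMod (2 ^ a)) : V a K →ₗ[ZMod 2] V a K :=
  LinearMap.funLeft (ZMod 2) K fun p => (p.1, p.2 - k)

lemma S_apply (k : ZMod (2 ^ a)) (g : V a K) (p : Bool × ZMod (2 ^ a)) :
    S k g p = g (p.1, p.2 - k) := rfl

lemma S_S (k l : ZMod (2 ^ a)) (g : V a K) : S k (S l g) = S (l + k) g := by
  ext p
  simp only [S_apply]
  congr 2
  ring

lemma S_single (k : ZMod (2 ^ a)) (p : Bool × ZMod (2 ^ a)) (x : K) :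
    S k (Pi.single p x) = Pi.single (p.1, p.2 + k) x := by
  ext p'
  rw [S_apply]
  by_cases h : (p'.1, p'.2 - k) = p
  · subst h
    simp
  · rw [Pi.single_eq_of_ne h, Pi.single_eq_of_ne]
    rintro rfl
    exact h (by simp)

/-- all values of `f` on the shifts -/
def Phi (f : V a K →ₗ[ZMod 2] ZMod 2) : V a K →ₗ[ZMod 2] (ZMod (2 ^ a) → ZMod 2) :=
  LinearMap.pi fun k => f ∘ₗ S k

lemma Phi_apply (f : V a K →ₗ[ZMod 2] ZMod 2) (g : V a K) (k : ZMod (2 ^ a)) :
    Phi f g k = f (S k g) := rfl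

/-- invariance under the shift by `2 ^ c` -/
def Per (c : ℕ) (f : V a K →ₗ[ZMod 2] ZMod 2) : Prop :=
  ∀ g, f (S ((2 ^ c : ℕ) : ZMod (2 ^ a)) g) = f g

lemma per_of_finrank_le {c : ℕ} (f : V a K →ₗ[ZMod 2] ZMod 2)
    (h : finrank (ZMod 2) (LinearMap.range (Phi f)) ≤ 2 ^ c) : Per c f := by
  intro g
  have h1 := periodic_of_finrank_le (LinearMap.range (Phi f)) (by
    rintro _ ⟨g, rfl⟩
    refine ⟨S 1 g, ?_⟩
    ext k
    rw [Phi_apply, S_S, sh_apply, Phi_apply, add_comm]) h (Phi f g) ⟨g, rfl⟩ 0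
  rw [zero_add, Phi_apply, Phi_apply] at h1
  rw [h1]
  congr 1
  ext p
  simp [S_apply]

lemma card_ker_le [Fintype K] [DecidableEq K] {c : ℕ} (f : V a K →ₗ[ZMod 2] ZMod 2)
    (h : ¬ Per c f) :
    (univ.filter fun g : V a K => Phi f g = 0).card * 2 ^ (2 ^ c + 1) ≤ Fintype.card (V a K) := by
  classical
  have h1 : 2 ^ c + 1 ≤ finrank (ZMod 2) (LinearMap.range (Phi f)) := by
    by_contra hcon
    exact h (per_of_finrank_le f (by omega))
  have h2 : Nat.card (LinearMap.range (Phi f)) =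
      2 ^ finrank (ZMod 2) (LinearMap.range (Phi f)) := by
    rw [Nat.card_eq_fintype_card, Module.card_eq_pow_finrank (K := ZMod 2), ZMod.card]
  have h3 := AddSubgroup.card_mul_index (Phi f).toAddMonoidHom.ker
  rw [AddSubgroup.index_ker] at h3
  have h4 : Nat.card (Phi f).toAddMonoidHom.ker =
      (univ.filter fun g : V a K => Phi f g = 0).card := by
    rw [Nat.card_eq_fintype_card]
    refine Fintype.card_of_subtype _ fun g => ?_
    simp [AddMonoidHom.mem_ker]
  have h5 : Nat.card (Phi f).toAddMonoidHom.range = Nat.card (LinearMap.range (Phi f)) :=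
    Nat.card_congr (Equiv.subtypeEquivRight fun z => by
      simp [AddMonoidHom.mem_range, LinearMap.mem_range])
  rw [h4, h5, h2] at h3
  rw [← Nat.card_eq_fintype_card, ← h3]
  exact Nat.mul_le_mul_left _ (Nat.pow_le_pow_right (by norm_num) h1)

/-- component of a functional -/
def comp (f : V a K →ₗ[ZMod 2] ZMod 2) (p : Bool × ZMod (2 ^ a)) : K →ₗ[ZMod 2] ZMod 2 :=
  f ∘ₗ LinearMap.single (ZMod 2) (fun _ => K) p

lemma comp_apply (f : V a K →ₗ[ZMod 2] ZMod 2) (p : Bool × ZMod (2 ^ a)) (x : K) :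
    comp f p x = f (Pi.single p x) := rfl

lemma comp_inj {f f' : V a K →ₗ[ZMod 2] ZMod 2} (h : comp f = comp f') : f = f' := by
  refine LinearMap.pi_ext fun p x => ?_
  have := DFunLike.congr_fun (congrFun h p) x
  exact this

lemma Per.comp_add {c : ℕ} {f : V a K →ₗ[ZMod 2] ZMod 2} (h : Per c f) (i : Bool)
    (j : ZMod (2 ^ a)) (n : ℕ) :
    comp f (i, j + ((2 ^ c * n : ℕ) : ZMod (2 ^ a))) = comp f (i, j) := by
  induction n with
  | zero => simp
  | succ n ih =>
    rw [← ih]
    ext x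
    have h1 := h (Pi.single (i, j + ((2 ^ c * n : ℕ) : ZMod (2 ^ a))) x)
    rw [S_single] at h1
    rw [comp_apply, comp_apply, ← h1]
    congr 3
    push_cast
    ring

/-- restriction to one period -/
def res (c : ℕ) (f : V a K →ₗ[ZMod 2] ZMod 2) (q : Bool × Fin (2 ^ c)) : K →ₗ[ZMod 2] ZMod 2 :=
  comp f (q.1, ((q.2 : ℕ) : ZMod (2 ^ a)))

lemma Per.comp_eq_res {c : ℕ} {f : V a K →ₗ[ZMod 2] ZMod 2} (h : Per c f)
    (p : Bool × ZMod (2 ^ a)) :
    comp f p = res c f (p.1, ⟨p.2.val % 2 ^ c, Nat.mod_lt _ (by positivity)⟩) := by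
  have h1 : p.2 = ((p.2.val % 2 ^ c : ℕ) : ZMod (2 ^ a)) +
      ((2 ^ c * (p.2.val / 2 ^ c) : ℕ) : ZMod (2 ^ a)) := by
    rw [← Nat.cast_add, Nat.mod_add_div, ZMod.natCast_zmod_val]
  unfold res
  rw [show p = (p.1, p.2) from rfl]
  conv_lhs => rw [h1]
  rw [h.comp_add]

lemma Per.res_inj {c : ℕ} {f f' : V a K →ₗ[ZMod 2] ZMod 2} (h : Per c f) (h' : Per c f')
    (he : res c f = res c f') : f = f' := by
  apply comp_inj
  funext p
  rw [h.comp_eq_res, h'.comp_eq_res, he]

lemma Per.wt_res_le {c : ℕ} (hc : c ≤ a) {f : V a K →ₗ[ZMod 2] ZMod 2} (h : Per c f)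
    [DecidableEq (K →ₗ[ZMod 2] ZMod 2)] :
    2 ^ (a - c) * wt (res c f) ≤ wt (comp f) := by
  classical
  unfold wt
  have h1 : 2 ^ (a - c) * (univ.filter fun i => res c f i ≠ 0).card =
      ((univ : Finset (Fin (2 ^ (a - c)))) ×ˢ (univ.filter fun i => res c f i ≠ 0)).card := by
    rw [Finset.card_product, Finset.card_univ, Fintype.card_fin]
  rw [h1]
  refine Finset.card_le_card_of_injOn
    (fun q => (q.2.1, ((q.2.2 : ℕ) : ZMod (2 ^ a)) + ((2 ^ c * (q.1 : ℕ) : ℕ) : ZMod (2 ^ a))))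
    ?_ ?_
  · intro q hq
    simp only [Finset.coe_product, Finset.coe_univ, Set.mem_prod, Set.mem_univ, true_and,
      Finset.coe_filter, Set.mem_ofPred_eq, Finset.mem_univ] at hq ⊢
    rw [h.comp_add]
    exact hq
  · intro q _ q' _ hqq
    simp only [Prod.mk.injEq] at hqq
    obtain ⟨h2, h3⟩ := hqq
    have hlt : ∀ q : Fin (2 ^ (a - c)) × Bool × Fin (2 ^ c),
        (q.2.2 : ℕ) + 2 ^ c * (q.1 : ℕ) < 2 ^ a := by
      intro q
      have e1 := q.1.isLt
      have e2 := q.2.2.isLt
      calc (q.2.2 : ℕ) + 2 ^ c * (q.1 : ℕ) < 2 ^ c + 2 ^ c * (q.1 : ℕ) := by omega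
        _ = 2 ^ c * ((q.1 : ℕ) + 1) := by ring
        _ ≤ 2 ^ c * 2 ^ (a - c) := Nat.mul_le_mul_left _ e1
        _ = 2 ^ a := by rw [← pow_add]; congr 1; omega
    rw [← Nat.cast_add, ← Nat.cast_add] at h3
    have h4 := (ZMod.natCast_eq_natCast_iff' _ _ _).1 h3
    rw [Nat.mod_eq_of_lt (hlt q), Nat.mod_eq_of_lt (hlt q')] at h4
    have e2 := q.2.2.isLt
    have e2' := q'.2.2.isLt
    have h5 : (q.2.2 : ℕ) = q'.2.2 := by
      have := congrArg (· % 2 ^ c) h4
      simpa [Nat.add_mul_mod_self_left, Nat.mod_eq_of_lt e2, Nat.mod_eq_of_lt e2'] using this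
    have h6 : (q.1 : ℕ) = q'.1 := by
      rw [h5] at h4
      have : 2 ^ c * (q.1 : ℕ) = 2 ^ c * q'.1 := by omega
      exact Nat.eq_of_mul_eq_mul_left (by positivity) this
    refine Prod.ext (Fin.ext h6) (Prod.ext h2 (Fin.ext h5))

end pairing

/-! ### The union bound -/

section union

variable {a : ℕ} {K : Type*} [AddCommGroup K] [Module (ZMod 2) K]

/-- the sum of the first half -/
def sumF (a : ℕ) (K : Type*) [AddCommGroup K] : V a K →+ K where
  toFun g := ∑ j, g (false, j)
  map_zero' := by simp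
  map_add' := by intro x y; simp [Finset.sum_add_distrib]

omit [Module (ZMod 2) K] in
lemma card_sumF_le [Fintype K] [DecidableEq K] :
    (univ.filter fun g : V a K => ∑ j, g (false, j) = 0).card * Fintype.card K =
      Fintype.card (V a K) := by
  classical
  have h3 := AddSubgroup.card_mul_index (sumF a K).ker
  rw [AddSubgroup.index_ker] at h3
  have h4 : Nat.card (sumF a K).ker =
      (univ.filter fun g : V a K => ∑ j, g (false, j) = 0).card := by
    rw [Nat.card_eq_fintype_card]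
    refine Fintype.card_of_subtype _ fun g => ?_
    simp [AddMonoidHom.mem_ker, sumF]
  have h5 : (sumF a K).range = ⊤ := by
    rw [AddMonoidHom.range_eq_top]
    intro x
    refine ⟨Pi.single (false, 0) x, ?_⟩
    have h6 : ∀ j : ZMod (2 ^ a), (Pi.single (false, 0) x : V a K) (false, j) =
        if j = 0 then x else 0 := by
      intro j
      by_cases h : j = 0
      · subst h; simp
      · rw [Pi.single_eq_of_ne (by simpa using h), if_neg h]
    simp [sumF, h6]
  rw [h5, AddSubgroup.card_top, h4, Nat.card_eq_fintype_card, Nat.card_eq_fintype_card] at h3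
  exact h3

noncomputable instance instFintypeDual {M : Type*} [AddCommGroup M] [Module (ZMod 2) M]
    [Fintype M] : Fintype (M →ₗ[ZMod 2] ZMod 2) :=
  have : Finite (M →ₗ[ZMod 2] ZMod 2) :=
    Finite.of_injective (fun f : M →ₗ[ZMod 2] ZMod 2 => (f : M → ZMod 2)) DFunLike.coe_injective
  Fintype.ofFinite _

lemma card_dual [Fintype K] : Fintype.card (K →ₗ[ZMod 2] ZMod 2) = Fintype.card K := by
  rw [Module.card_eq_pow_finrank (K := ZMod 2) (V := K →ₗ[ZMod 2] ZMod 2),
    Module.card_eq_pow_finrank (K := ZMod 2) (V := K)]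
  congr 1
  exact Subspace.dual_finrank_eq

lemma per_self (f : V a K →ₗ[ZMod 2] ZMod 2) : Per a f := by
  intro g
  rw [ZMod.natCast_self]
  congr 1
  ext p
  simp [S_apply]

open Classical in
/-- the functionals of small weight and exact period `2 ^ c` -/
noncomputable def P (s c : ℕ) (a : ℕ) (K : Type*) [AddCommGroup K] [Module (ZMod 2) K]
    [Fintype K] : Finset (V a K →ₗ[ZMod 2] ZMod 2) :=
  univ.filter fun f => Per c f ∧ ¬ Per (c - 1) f ∧ 16 * (s + 5) * wt (comp f) < 2 * 2 ^ a

lemma small_res [Fintype K] {s c : ℕ} (hc : c ≤ a) {f : V a K →ₗ[ZMod 2] ZMod 2}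
    (h : Per c f) [DecidableEq (K →ₗ[ZMod 2] ZMod 2)]
    (hf : 16 * (s + 5) * wt (comp f) < 2 * 2 ^ a) :
    16 * (s + 5) * wt (res c f) < 2 * 2 ^ c := by
  have h1 := h.wt_res_le hc
  have h2 : 2 ^ (a - c) * (16 * (s + 5) * wt (res c f)) < 2 ^ (a - c) * (2 * 2 ^ c) := by
    calc 2 ^ (a - c) * (16 * (s + 5) * wt (res c f)) =
          16 * (s + 5) * (2 ^ (a - c) * wt (res c f)) := by ring
      _ ≤ 16 * (s + 5) * wt (comp f) := Nat.mul_le_mul_left _ h1
      _ < 2 * 2 ^ a := hf
      _ = 2 ^ (a - c) * (2 * 2 ^ c) := by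
        have : 2 ^ a = 2 ^ (a - c) * 2 ^ c := by rw [← pow_add]; congr 1; omega
        rw [this]; ring
  exact Nat.lt_of_mul_lt_mul_left h2

lemma card_P_le [Fintype K] {s c : ℕ} (hK : Fintype.card K ≤ 2 ^ s) (hc : c ≤ a) (h6 : 6 ≤ c) :
    (P s c a K).card ≤ 2 ^ 2 ^ (c - 2) := by
  classical
  have h1 : Fintype.card (Bool × Fin (2 ^ c)) = 16 * 2 ^ (c - 3) := by
    rw [Fintype.card_prod, Fintype.card_bool, Fintype.card_fin]
    have : 2 ^ c = 2 ^ 3 * 2 ^ (c - 3) := by rw [← pow_add]; congr 1; omega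
    rw [this]; ring
  have h2 := card_small_le (ι := Bool × Fin (2 ^ c)) (Q := K →ₗ[ZMod 2] ZMod 2)
    (s := s) (m := 2 ^ (c - 3)) (by rw [card_dual]; exact hK) h1
  have h3 : 2 * 2 ^ (c - 3) = 2 ^ (c - 2) := by
    rw [← pow_succ']; congr 1; omega
  rw [h3] at h2
  refine le_trans ?_ h2
  refine Finset.card_le_card_of_injOn (res c) ?_ ?_
  · intro f hf
    simp only [P, Finset.coe_filter, Finset.mem_univ, true_and, Set.mem_ofPred_eq] at hf ⊢
    have h4 := small_res hc hf.1 hf.2.2
    have h5 : 16 * 2 ^ (c - 3) = 2 * 2 ^ c := by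
      have : 2 ^ c = 2 ^ 3 * 2 ^ (c - 3) := by rw [← pow_add]; congr 1; omega
      rw [this]; ring
    rw [h5]
    exact h4
  · intro f hf f' hf' he
    simp only [P, Finset.coe_filter, Finset.mem_univ, true_and, Set.mem_ofPred_eq] at hf hf'
    exact hf.1.res_inj hf'.1 he

lemma exists_mem_P [Fintype K] {s : ℕ} {f : V a K →ₗ[ZMod 2] ZMod 2}
    [DecidableEq (K →ₗ[ZMod 2] ZMod 2)] (h0 : f ≠ 0)
    (hf : 16 * (s + 5) * wt (comp f) < 2 * 2 ^ a) :
    ∃ c ∈ Finset.Ico 6 (a + 1), f ∈ P s c a K := by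
  classical
  have hex : ∃ c, Per c f := ⟨a, per_self f⟩
  have hc := Nat.find_spec hex
  have hca : Nat.find hex ≤ a := Nat.find_min' hex (per_self f)
  have h6 : 6 ≤ Nat.find hex := by
    have h1 := small_res hca hc hf
    have h2 : 1 ≤ wt (res (Nat.find hex) f) := by
      rw [Nat.one_le_iff_ne_zero]
      intro h3
      unfold wt at h3
      rw [Finset.card_eq_zero, Finset.filter_eq_empty_iff] at h3
      refine h0 (hc.res_inj (fun g => ?_) ?_)
      · simp
      · funext q
        have := h3 (Finset.mem_univ q)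
        rw [not_not] at this
        rw [this]
        rfl
    by_contra hcon
    have h3 : 2 ^ Nat.find hex ≤ 2 ^ 5 := Nat.pow_le_pow_right (by norm_num) (by omega)
    nlinarith
  refine ⟨_, Finset.mem_Ico.2 ⟨h6, by omega⟩, ?_⟩
  simp only [P, Finset.mem_filter, Finset.mem_univ, true_and]
  refine ⟨hc, Nat.find_min hex (by omega), ?_⟩
  have h7 : ∀ d1 d2 : DecidableEq (K →ₗ[ZMod 2] ZMod 2),
      @wt _ _ _ d1 _ (comp f) = @wt _ _ _ d2 _ (comp f) := fun d1 d2 => by
    rw [Subsingleton.elim d1 d2]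
  exact lt_of_le_of_lt (Nat.mul_le_mul_left _ (h7 _ _).le) hf

/-- **Existence of `(α, β)`.** -/
theorem exists_good (a s : ℕ) [Fintype K] [Nontrivial K] (hK : Fintype.card K ≤ 2 ^ s) :
    ∃ g : V a K, (∑ j, g (false, j)) ≠ 0 ∧ ∀ f : V a K →ₗ[ZMod 2] ZMod 2, f ≠ 0 →
      (∀ k, f (S k g) = 0) →
      2 * 2 ^ a ≤ 16 * (s + 5) *
        Nat.card {p : Bool × ZMod (2 ^ a) // ∃ x : K, f (Pi.single p x) ≠ 0} := by
  classical
  by_contra hcon
  push Not at hcon
  set B0 : Finset (V a K) := univ.filter fun g => ∑ j, g (false, j) = 0 with hB0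
  set B1 : Finset (V a K) := (Finset.Ico 6 (a + 1)).biUnion fun c =>
    (P s c a K).biUnion fun f => univ.filter fun g => Phi f g = 0 with hB1
  have hcover : (univ : Finset (V a K)) ⊆ B0 ∪ B1 := by
    intro g _
    rw [Finset.mem_union]
    by_cases hg : ∑ j, g (false, j) = 0
    · left
      simp [hB0, hg]
    · right
      obtain ⟨f, hf0, hfg, hfw⟩ := hcon g hg
      have hw : Nat.card {p : Bool × ZMod (2 ^ a) // ∃ x : K, f (Pi.single p x) ≠ 0} =
          wt (comp f) := by
        rw [Nat.card_eq_fintype_card]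
        unfold wt
        refine Fintype.card_of_subtype _ fun p => ?_
        simp only [Finset.mem_filter, Finset.mem_univ, true_and]
        constructor
        · intro h
          by_contra hx
          push Not at hx
          exact h (by ext x; exact hx x)
        · rintro ⟨x, hx⟩ h0
          apply hx
          rw [← comp_apply, h0]
          rfl
      rw [hw] at hfw
      obtain ⟨c, hc, hfP⟩ := exists_mem_P hf0 hfw
      simp only [hB1, Finset.mem_biUnion]
      refine ⟨c, hc, f, hfP, ?_⟩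
      simp only [Finset.mem_filter, Finset.mem_univ, true_and]
      ext k
      exact hfg k
  set N : ℝ := (Fintype.card (V a K) : ℝ) with hN
  have hNpos : 0 < N := by
    rw [hN]
    exact_mod_cast Fintype.card_pos
  have h1 : (B0.card : ℝ) ≤ N / 2 := by
    have h2 := card_sumF_le (a := a) (K := K)
    have h3 : 2 ≤ Fintype.card K := Fintype.one_lt_card
    have h4 : B0.card * 2 ≤ Fintype.card (V a K) := by
      rw [← h2]
      exact Nat.mul_le_mul_left _ h3
    rw [le_div_iff₀ (by norm_num), hN]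
    exact_mod_cast h4
  have h2 : ∀ c ∈ Finset.Ico 6 (a + 1), (((P s c a K).biUnion fun f =>
      univ.filter fun g : V a K => Phi f g = 0).card : ℝ) ≤ N * (1 / 2) ^ c := by
    intro c hc
    rw [Finset.mem_Ico] at hc
    have h3 : ∀ f ∈ P s c a K, ((univ.filter fun g : V a K => Phi f g = 0).card : ℝ) ≤
        N / 2 ^ (2 ^ (c - 1) + 1) := by
      intro f hf
      simp only [P, Finset.mem_filter, Finset.mem_univ, true_and] at hf
      have h4 := card_ker_le f hf.2.1
      rw [le_div_iff₀ (by positivity), hN]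
      exact_mod_cast h4
    calc (((P s c a K).biUnion fun f =>
        univ.filter fun g : V a K => Phi f g = 0).card : ℝ)
        ≤ ((∑ f ∈ P s c a K, (univ.filter fun g : V a K => Phi f g = 0).card : ℕ) : ℝ) := by
          exact_mod_cast Finset.card_biUnion_le
      _ = ∑ f ∈ P s c a K, ((univ.filter fun g : V a K => Phi f g = 0).card : ℝ) := by
          push_cast; rfl
      _ ≤ ∑ f ∈ P s c a K, N / 2 ^ (2 ^ (c - 1) + 1) := Finset.sum_le_sum h3
      _ = (P s c a K).card * (N / 2 ^ (2 ^ (c - 1) + 1)) := by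
          rw [Finset.sum_const, nsmul_eq_mul]
      _ ≤ (2 ^ 2 ^ (c - 2) : ℝ) * (N / 2 ^ (2 ^ (c - 1) + 1)) := by
          refine mul_le_mul_of_nonneg_right ?_ (by positivity)
          exact_mod_cast card_P_le hK (by omega) hc.1
      _ ≤ N * (1 / 2) ^ c := by
          have h5 : 2 ^ (c - 1) = 2 ^ (c - 2) + 2 ^ (c - 2) := by
            rw [← two_mul, ← pow_succ']
            congr 1
            omega
          have h6 : c ≤ 2 ^ (c - 2) + 1 := by
            have := Nat.lt_two_pow_self (n := c - 2)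
            omega
          have h7 : (2 ^ 2 ^ (c - 2) : ℝ) * (N / 2 ^ (2 ^ (c - 1) + 1)) =
              N * (1 / 2) ^ (2 ^ (c - 2) + 1) := by
            rw [h5, add_assoc, pow_add, one_div, inv_pow]
            field_simp
          rw [h7]
          refine mul_le_mul_of_nonneg_left ?_ hNpos.le
          exact pow_le_pow_of_le_one (by norm_num) (by norm_num) h6
  have h3 : (B1.card : ℝ) ≤ N / 32 := by
    calc (B1.card : ℝ) ≤ ((∑ c ∈ Finset.Ico 6 (a + 1), ((P s c a K).biUnion fun f =>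
        univ.filter fun g : V a K => Phi f g = 0).card : ℕ) : ℝ) := by
          exact_mod_cast Finset.card_biUnion_le
      _ = ∑ c ∈ Finset.Ico 6 (a + 1), (((P s c a K).biUnion fun f =>
        univ.filter fun g : V a K => Phi f g = 0).card : ℝ) := by push_cast; rfl
      _ ≤ ∑ c ∈ Finset.Ico 6 (a + 1), N * (1 / 2) ^ c := Finset.sum_le_sum h2
      _ = N * (1 / 64 * ∑ c ∈ Finset.range (a + 1 - 6), (1 / (2 : ℝ)) ^ c) := by
          rw [Finset.sum_Ico_eq_sum_range, Finset.mul_sum, Finset.mul_sum]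
          refine Finset.sum_congr rfl fun i _ => ?_
          rw [pow_add]
          norm_num
      _ ≤ N * (1 / 64 * 2) := by
          refine mul_le_mul_of_nonneg_left ?_ hNpos.le
          exact mul_le_mul_of_nonneg_left (sum_geometric_two_le _) (by norm_num)
      _ = N / 32 := by ring
  have h4 : N ≤ B0.card + B1.card := by
    have h5 := (Finset.card_le_card hcover).trans (Finset.card_union_le _ _)
    rw [Finset.card_univ] at h5
    rw [hN]
    exact_mod_cast h5
  linarith

end union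

/-! ### The form with additive homomorphisms and pairs -/

section final

/-- the pair `(α, β)` as one function -/
def mk {h : ℕ} {K : Type*} (al be : ZMod h → K) (p : Bool × ZMod h) : K :=
  if p.1 then be p.2 else al p.2

/-- the cyclic shift of the pair by `k` -/
def shp {h : ℕ} {K : Type*} (al be : ZMod h → K) (k : ZMod h) (p : Bool × ZMod h) : K :=
  mk al be (p.1, p.2 - k)

/-- **Existence of `(α, β)`**: `α(1) ≠ 0`, and every nonzero functional that kills all shifts of
`(α, β)` is nonzero on at least the fraction `1 / (16 (s + 5))` of the coordinate axes. -/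
theorem exists_al_be (a s : ℕ) (K : Type*) [AddCommGroup K] [Fintype K] [Nontrivial K]
    (h2 : ∀ x : K, x + x = 0) (hK : Fintype.card K ≤ 2 ^ s) :
    ∃ al be : ZMod (2 ^ a) → K, (∑ j, al j) ≠ 0 ∧
      ∀ f : (Bool × ZMod (2 ^ a) → K) →+ ZMod 2, f ≠ 0 → (∀ k, f (shp al be k) = 0) →
        2 * 2 ^ a ≤ 16 * (s + 5) *
          Nat.card {p : Bool × ZMod (2 ^ a) // ∃ x : K, f (Pi.single p x) ≠ 0} := by
  have h2' : ∀ x : K, 2 • x = 0 := fun x => by rw [two_nsmul]; exact h2 x
  let _ : Module (ZMod 2) K := AddCommGroup.zmodModule h2'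
  obtain ⟨g, hg, hgf⟩ := exists_good a s (K := K) hK
  refine ⟨fun j => g (false, j), fun j => g (true, j), hg, fun f hf hk => ?_⟩
  have h3 := hgf (f.toZModLinearMap 2) (fun h0 => hf (AddMonoidHom.ext fun x =>
    DFunLike.congr_fun h0 x)) (fun k => by
      have h4 : S k g = shp (fun j => g (false, j)) (fun j => g (true, j)) k := by
        ext ⟨i, j⟩
        cases i <;> rfl
      rw [h4]
      exact hk k)
  exact h3

end final

end Vale.Agent.P330.Q.Bias
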