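import Vale.Agent.P330.Q.CbFam

/-!
# The kernels of the machine in polynomial time
-/

namespace Vale.Agent.P330.Q

open Finset Vale.Agent.Lib.PolyTime
open S (Inst Spec)
open S.Mach (spec)

/-! ### Closed forms of the kernels -/

section closed

variable {S : Spec} {r : ℕ} (I : Inst S r)

theorem gamN_inj {e e' : S.Cell} {g g' : S.Off → S.Cell} (h : gamN e g = gamN e' g') :
    e = e' ∧ g = g' := by
  constructor
  · have h1 := congrFun h (Sum.inl none)
    exact Option.some.inj h1
  · funext o
    have h1 := congrFun h (Sum.inl (some o))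
    exact Option.some.inj h1

theorem ker_next_iff (z : Bool) (e e' : S.Cell) (g : S.Off → S.Cell) (a : I.J)
    (α : PSlot S → I.J) : kerO I (.next z e) (gamN e' g) a α ↔
      S.hd (g S.zero) = true ∧ IsRes I z g e' (α (Sum.inl (some S.zero))) a e ∧
        α = alN I a (α (Sum.inl (some S.zero))) := by
  constructor
  · rintro ⟨g', e'', h, hd, hres, hγ, hα⟩
    obtain ⟨rfl, rfl⟩ := gamN_inj hγ
    have h1 : α (Sum.inl (some S.zero)) = h := by
      rw [hα]
      show h + I.off S.zero = h
      rw [I.off_zero, add_zero]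
    rw [h1]
    exact ⟨hd, hres, hα⟩
  · rintro ⟨hd, hres, hα⟩
    exact ⟨g, e', _, hd, hres, rfl, hα⟩

theorem ker_next_ne (z : Bool) (e : S.Cell) (γ : PSlot S → Option S.Cell) (a : I.J)
    (α : PSlot S → I.J) (hγ : ∀ e' g, γ ≠ gamN e' g) : ¬ kerO I (.next z e) γ a α := by
  rintro ⟨g', e'', h, hd, hres, hγ', hα⟩
  exact hγ _ _ hγ'

end closed

section PT

variable {A : Set Word} {β : Type*} [Enc β] {f : β → EndOfLine}

/-- **The kernels in polynomial time.** -/
theorem DP_ker (hf : PT A f) (o : Out spec) (γ : PSlot spec → Option spec.Cell) {a : β → ℕ}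
    (ha : PT A a) {α : β → PSlot spec → ℕ} (hα : ∀ t, PT A (fun b => α b t)) :
    DP A (fun b => kerO (famQ (f b)) o γ (ptQ (f b) (a b)) (fun t => ptQ (f b) (α b t))) := by
  have hall : DP A (fun b => (fun t => ptQ (f b) (α b t)) =
      fun _ : PSlot spec => ptQ (f b) (a b)) :=
    (DP.forall (κ := PSlot spec) fun t => DP_ptQ hf (hα t) ha).congr fun b => funext_iff.symm
  cases o with
  | two e e' => exact (DP.const _).and ((DP.const _).and hall)
  | sum => exact (DP.const _).and hall
  | stat e =>
    exact ((DP_stat hf ha (spec.statOf e)).congr fun b => eq_comm).not.and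
      ((DP.const _).and hall)
  | win c =>
    refine (DP.const _).and ((DP.const _).and ?_)
    refine (DP.forall (κ := PSlot spec) (p := fun t b => ptQ (f b) (α b t) =
      alW (famQ (f b)) (ptQ (f b) (a b)) t) fun t => ?_).congr fun b => funext_iff.symm
    rcases t with t | t
    · exact DP_ptQ hf (hα _) ha
    · exact DP_ptQ_off hf (hα _) ha _
  | proj e => exact (DP.const _).and hall
  | next z e =>
    by_cases hγ : ∃ e' g, γ = gamN e' g
    · obtain ⟨e', g, rfl⟩ := hγ
      have hh := hα (Sum.inl (some spec.zero))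
      refine DP.congr ?_ fun b => (ker_next_iff _ z e e' g _ _).symm
      refine (DP.const _).and (DP.and ?_ ?_)
      · refine DP.or ?_ ?_
        · exact DP.exists (κ := spec.Off) fun o' =>
            (DP.const _).and ((DP_ptQ_off hf ha hh o').and (DP.const _))
        · exact (DP.forall (κ := spec.Off) fun o' =>
            (DP.const _).imp (DP_ptQ_off hf ha hh o').not).and (DP.const _)
      · refine (DP.forall (κ := PSlot spec) (p := fun t b => ptQ (f b) (α b t) =
          alN (famQ (f b)) (ptQ (f b) (a b)) (ptQ (f b) (α b (Sum.inl (some spec.zero)))) t)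
          fun t => ?_).congr fun b => funext_iff.symm
        rcases t with (_ | t) | t
        · exact DP_ptQ hf (hα _) ha
        · exact DP_ptQ_off hf (hα _) hh _
        · exact DP_ptQ hf (hα _) ha
    · push Not at hγ
      exact (DP.const False).congr fun b => (iff_of_false (fun h => h)
        (ker_next_ne _ z e γ _ _ hγ))

end PT

/-! ### The coefficients -/

variable {K : Type} [Field K] [Fintype K] {B : ℕ} (σ : PSlot spec ≃ Fin B)

/-- The coefficients of the output `o` on numbers. -/
noncomputable def cofN (K : Type) [Field K] (σ : PSlot spec ≃ Fin B) (o : Out spec)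
    (γ : Fin B → Option spec.Cell) (I : EndOfLine) (m : ℕ) (n : Fin B → ℕ) : K :=
  kerF K (famQ I) σ (epsQ I) o γ (adr (kQ I) m) (fun t => adr (kQ I) (n t))

theorem PTt_cofN {A : Set Word} {β : Type} [Enc β] {f : β → EndOfLine} {m : β → ℕ}
    {n : β → Fin B → ℕ} (hf : PT A f) (hm : PT A m) (hn : ∀ t, PT A (fun b => n b t))
    (o : Out spec) (γ : Fin B → Option spec.Cell) :
    PTt A (fun b => cofN K σ o γ (f b) (m b) (n b)) := by
  classical
  have h1 := DP_ker hf o (fun t => γ (σ t)) hm (α := fun b t => n b (σ t)) fun t => hn (σ t)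
  refine (PTt.boolK (K := K) h1).congr fun b => ?_
  unfold cofN kerF
  simp only [epsQ_symm_adr, decide_eq_true_eq]

end Vale.Agent.P330.Q
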