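import Vale.Agent.P330.Q.CbFam

/-!
# The size of the code domain
-/

namespace Vale.Agent.P330.Q

open Finset Vale.Agent.Lib.PolyTime

/-- the exponent `a` of the length `h = 2 ^ a` of the cube -/
def aQ (a0 B : ℕ) (I : EndOfLine) : ℕ := max a0 (Nat.size (2 * kQ I * B))

theorem a0_le_aQ (a0 B : ℕ) (I : EndOfLine) : a0 ≤ aQ a0 B I := le_max_left _ _

theorem le_hQ (a0 B : ℕ) (I : EndOfLine) : 2 * kQ I * B ≤ 2 ^ aQ a0 B I :=
  (Nat.lt_size_self _).le.trans (Nat.pow_le_pow_right (by norm_num) (le_max_right _ _))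

theorem kQ_pos (I : EndOfLine) : 0 < kQ I := Nat.size_pos.2 (by omega)

theorem hQ_le (a0 B : ℕ) (I : EndOfLine) : 2 ^ aQ a0 B I ≤ 2 ^ a0 + (4 * B) * kQ I := by
  unfold aQ
  rcases le_total a0 (Nat.size (2 * kQ I * B)) with h | h
  · rw [max_eq_right h]
    rcases Nat.eq_zero_or_pos (Nat.size (2 * kQ I * B)) with h0 | h0
    · rw [h0] at h ⊢
      have : a0 = 0 := by omega
      rw [this]
      omega
    · have h1 : Nat.size (2 * kQ I * B) - 1 < Nat.size (2 * kQ I * B) := by omega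
      have h2 := Nat.lt_size.1 h1
      have h3 : 2 ^ Nat.size (2 * kQ I * B) = 2 * 2 ^ (Nat.size (2 * kQ I * B) - 1) := by
        rw [← pow_succ']
        congr 1
        omega
      have h4 : (4 * B) * kQ I = 2 * (2 * kQ I * B) := by ring
      rw [h3, h4]
      exact (Nat.mul_le_mul_left 2 h2).trans (Nat.le_add_left _ _)
  · rw [max_eq_left h]
    omega

theorem two_pow_hQ_le (a0 B : ℕ) (I : EndOfLine) :
    2 ^ 2 ^ aQ a0 B I ≤ 2 ^ 2 ^ a0 * LQ I ^ (4 * B) := by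
  refine (Nat.pow_le_pow_right (by norm_num) (hQ_le a0 B I)).trans (le_of_eq ?_)
  rw [pow_add, LQ, ← pow_mul, mul_comm (kQ I)]

section

variable {A : Set Word} {β : Type*} [Enc β] {f : β → EndOfLine}

theorem PT_aQ (a0 B : ℕ) (hf : PT A f) : PT A (fun b => aQ a0 B (f b)) :=
  PT.max (PT.const a0) (PT.natSize (PT.mul (PT.mul (PT.const 2) (PT_kQ hf)) (PT.const B)))

/-- `2 ^ h` is polynomially large. -/
theorem PBd_two_pow_hQ (a0 B : ℕ) (hf : PT A f) : PBd (fun b => 2 ^ 2 ^ aQ a0 B (f b)) :=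
  ((PBd.const (2 ^ 2 ^ a0)).mul ((PBd_LQ hf).pow (4 * B))).mono fun b => two_pow_hQ_le a0 B (f b)

theorem PBd_hQ (a0 B : ℕ) (hf : PT A f) : PBd (fun b => 2 ^ aQ a0 B (f b)) :=
  (PBd_two_pow_hQ a0 B hf).mono fun _ => Nat.lt_two_pow_self.le

theorem PBd_aQ (a0 B : ℕ) (hf : PT A f) : PBd (fun b => aQ a0 B (f b)) :=
  (PBd_hQ a0 B hf).mono fun _ => Nat.lt_two_pow_self.le

theorem PT_hQ (a0 B : ℕ) (hf : PT A f) : PT A (fun b => 2 ^ aQ a0 B (f b)) :=
  PT.pow (PT.const 2) (PT_aQ a0 B hf) (PBd_aQ a0 B hf)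

/-- Powers of `2 ^ h` are polynomially large. -/
theorem PBd_pow_hQ (a0 B c : ℕ) (hf : PT A f) : PBd (fun b => (2 ^ c) ^ 2 ^ aQ a0 B (f b)) :=
  ((PBd_two_pow_hQ a0 B hf).pow c).mono fun b => le_of_eq (by rw [← pow_mul, ← pow_mul, mul_comm])

end

end Vale.Agent.P330.Q
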