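import Vale.Agent.P330.Q.State

/-!
# Project Q: the state layer, theorems

`Dom.sound`: a word that satisfies the local identities is the word of a good state.
`Dom.complete`: the word of a good state satisfies them.  `Dom.word_inj`.
-/

namespace Vale.Agent.P330.Q

open Finset

namespace DomData

variable {F : Type*} [Field F] {h B : ℕ} {Y Cell V X : Type*} [AddCommGroup Y]
  [Fintype Cell] [DecidableEq Cell] {M : DomData F h B Y Cell V X}

theorem vv_zero (c : Chn Cell V) (W : Cell → Y → F) (ρ y : Y) :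
    M.vv c W 0 ρ y = M.v0 c W ρ y := rfl

theorem vv_succ (c : Chn Cell V) (W : Cell → Y → F) (j : ℕ) (ρ y : Y) :
    M.vv c W (j + 1) ρ y = M.vv c W j ρ (M.θ y) + M.vv c W j ρ (M.θ y + M.e0) := rfl

theorem rv0_eq {G : Y × Y → Comp Cell V h → F} {σ : Bool} {W : Cell → Y → F}
    (hW : ∀ ρ y e, G (ρ, y) (.W σ e) = W e y) (c : Chn Cell V) (ρ y : Y) :
    M.rv0 G σ c (ρ, y) = M.v0 c W ρ y := by
  unfold rv0 v0
  refine Finset.sum_congr rfl fun γ _ => ?_
  simp only [hW]

theorem eq_zero_or_one {x : F} (hx : x * x = x) : x = 0 ∨ x = 1 := by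
  have : x * (x - 1) = 0 := by rw [mul_sub, hx, mul_one, sub_self]
  rcases mul_eq_zero.1 this with h | h
  · exact Or.inl h
  · exact Or.inr (sub_eq_zero.1 h)

theorem Ids.exists_ht {G : Y × Y → Comp Cell V h → F} (hG : M.Ids G) (σ : Bool) :
    ∃ H : ℕ, H ≤ h + 1 ∧ ∀ p (j : Fin (h + 1)), G p (.T σ j) = if (j : ℕ) + 1 = H then 1 else 0 := by
  by_cases hex : ∃ j : Fin (h + 1), G (0, 0) (.T σ j) = 1
  · obtain ⟨j, hj⟩ := hex
    refine ⟨j + 1, by omega, fun p j' => ?_⟩
    have h1 := hG.T_mul (0, 0) σ j j'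
    rw [hj, one_mul] at h1
    rw [hG.T_const p (0, 0) σ j', h1]
    by_cases hjj : j = j'
    · subst hjj; simp
    · have : (j' : ℕ) ≠ j := fun e => hjj (Fin.ext e.symm)
      simp [hjj, this]
  · push Not at hex
    refine ⟨0, by omega, fun p j => ?_⟩
    have h1 := hG.T_mul (0, 0) σ j j
    rw [if_pos rfl] at h1
    rw [hG.T_const p (0, 0) σ j]
    rcases eq_zero_or_one h1 with h2 | h2
    · simp [h2]
    · exact absurd h2 (hex j)

theorem Ids.exists_rel {G : Y × Y → Comp Cell V h → F} (hG : M.Ids G) :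
    ∃ r : Bool, ∀ p, G p .rel = if r then 1 else 0 := by
  rcases eq_zero_or_one (hG.rel_sq (0, 0)) with h1 | h1
  · exact ⟨false, fun p => by rw [hG.rel_const p (0, 0), h1]; simp⟩
  · exact ⟨true, fun p => by rw [hG.rel_const p (0, 0), h1]; simp⟩

/-- The stacks are determined by the base and the height. -/
theorem Ids.stack_eq {G : Y × Y → Comp Cell V h → F} (hG : M.Ids G) (σ : Bool) {H : ℕ}
    (hH : H ≤ h + 1)
    (hT : ∀ p (j : Fin (h + 1)), G p (.T σ j) = if (j : ℕ) + 1 = H then 1 else 0)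
    {W : Cell → Y → F} (hW : ∀ ρ y e, G (ρ, y) (.W σ e) = W e y) (c : Chn Cell V)
    (i : ℕ) : ∀ (j : Fin (h + 1)), (j : ℕ) + i = h → ∀ ρ y, G (ρ, y) (.S σ c j) =
      if (j : ℕ) < H then M.vv c W (H - 1 - j) ρ y else 0 := by
  induction i with
  | zero =>
    intro j hj ρ y
    rw [hG.stack, dif_neg (by omega), hT, rv0_eq hW, zero_add]
    by_cases h1 : (j : ℕ) + 1 = H
    · rw [if_pos h1, if_pos (by omega), one_mul, show H - 1 - (j : ℕ) = 0 by omega, vv_zero]
    · rw [if_neg h1, zero_mul, if_neg (by omega)]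
  | succ i ih =>
    intro j hj ρ y
    have hj1 : (j : ℕ) + 1 < h + 1 := by omega
    rw [hG.stack, dif_pos hj1, hT, rv0_eq hW, ih ⟨j + 1, hj1⟩ (by simp only; omega),
      ih ⟨j + 1, hj1⟩ (by simp only; omega)]
    simp only
    rcases lt_trichotomy ((j : ℕ) + 1) H with h1 | h1 | h1
    · simp only [if_pos h1, if_neg (show ¬ (j : ℕ) + 1 = H by omega),
        if_pos (show (j : ℕ) < H by omega)]
      rw [show H - 1 - (j : ℕ) = (H - 1 - ((j : ℕ) + 1)) + 1 by omega, vv_succ]
      ring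
    · simp only [if_pos h1, if_neg (show ¬ (j : ℕ) + 1 < H by omega),
        if_pos (show (j : ℕ) < H by omega)]
      rw [show H - 1 - (j : ℕ) = 0 by omega, vv_zero]
      ring
    · simp only [if_neg (show ¬ (j : ℕ) + 1 = H by omega),
        if_neg (show ¬ (j : ℕ) + 1 < H by omega), if_neg (show ¬ (j : ℕ) < H by omega)]
      ring

theorem Ids.stack_eq' {G : Y × Y → Comp Cell V h → F} (hG : M.Ids G) (σ : Bool) {H : ℕ}
    (hH : H ≤ h + 1)
    (hT : ∀ p (j : Fin (h + 1)), G p (.T σ j) = if (j : ℕ) + 1 = H then 1 else 0)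
    {W : Cell → Y → F} (hW : ∀ ρ y e, G (ρ, y) (.W σ e) = W e y) (c : Chn Cell V)
    (j : Fin (h + 1)) (ρ y : Y) : G (ρ, y) (.S σ c j) =
      if (j : ℕ) < H then M.vv c W (H - 1 - j) ρ y else 0 :=
  hG.stack_eq σ hH hT hW c (h - j) j (by omega) ρ y

/-- the top of a full stack -/
theorem Ids.top_eq {G : Y × Y → Comp Cell V h → F} (hG : M.Ids G) (σ : Bool)
    (hT : ∀ p (j : Fin (h + 1)), G p (.T σ j) = if (j : ℕ) + 1 = h + 1 then 1 else 0)
    {W : Cell → Y → F} (hW : ∀ ρ y e, G (ρ, y) (.W σ e) = W e y) (c : Chn Cell V)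
    (ρ y : Y) : G (ρ, y) (.S σ c 0) = M.vv c W h ρ y := by
  rw [hG.stack_eq' σ le_rfl hT hW c 0 ρ y, if_pos (by simp)]
  simp

end DomData

namespace Dom

variable {F : Type*} [Field F] {h B : ℕ} {Y Cell V X : Type*} [AddCommGroup Y]
  [Fintype Cell] [DecidableEq Cell] (M : Dom F h B Y Cell V X)

/-- What a full side gives. -/
theorem full_side {G : Y × Y → Comp Cell V h → F} (hG : M.toDomData.Ids G) {r : Bool}
    (hr : ∀ p, G p .rel = if r then 1 else 0) (σ : Bool)
    (hT : ∀ p (j : Fin (h + 1)), G p (.T σ j) = if (j : ℕ) + 1 = h + 1 then 1 else 0) :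
    ∃ w, M.D.Valid w ∧ (∀ ρ y e, G (ρ, y) (.W σ e) = M.cd w e y) ∧
      ∀ ρ y e, G (ρ, y) (.W (!σ) e) = M.cd (M.D.other r σ w) e y := by
  have hW : ∀ ρ y e, G (ρ, y) (.W σ e) = (fun e y => G (0, y) (.W σ e)) e y :=
    fun ρ y e => hG.W_ind ρ 0 y σ e
  have hT1 : ∀ p, G p (.T σ (Fin.last h)) = 1 := fun p => by rw [hT]; simp
  obtain ⟨w, hw, hcd⟩ := M.sound_cd (fun e y => G (0, y) (.W σ e))
    (fun e ρ y => by
      have h1 := hG.full_id ρ y σ e
      rw [hT1, one_mul, sub_eq_zero, hG.top_eq σ hT hW, hW] at h1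
      exact h1)
    (fun i ρ y => by
      have h1 := hG.full_val (ρ, y) σ i
      rw [hT1, one_mul, hG.top_eq σ hT hW] at h1
      exact h1)
  have hW' : ∀ ρ y e, G (ρ, y) (.W σ e) = M.cd w e y := fun ρ y e => by
    rw [hcd]; exact hW ρ y e
  refine ⟨w, hw, hW', fun ρ y e => ?_⟩
  have h1 := hG.full_other ρ y σ e
  rw [hT1, one_mul, sub_eq_zero, hG.top_eq σ hT hW', hG.top_eq σ hT hW', hr,
    M.top_st σ w hw, M.top_id w hw] at h1
  rw [h1]
  cases r <;> simp [Dyn.other]

/-- **Soundness of the identities.** -/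
theorem sound {G : Y × Y → Comp Cell V h → F} (hG : M.toDomData.Ids G) :
    ∃ s, M.D.VE (h + 1) s ∧ G = M.toDomData.word s := by
  obtain ⟨r, hr⟩ := hG.exists_rel
  choose H hH hT using fun σ => hG.exists_ht σ
  -- some side is full
  have hfull : ∃ σ, H σ = h + 1 := by
    by_contra hcon
    push Not at hcon
    have h1 := hG.some_full (0, 0)
    rw [hT, hT, if_neg, if_neg] at h1
    · simp at h1
    · have := hcon true
      simp only [Fin.val_last]
      omega
    · have := hcon false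
      simp only [Fin.val_last]
      omega
  obtain ⟨σ, hσ⟩ := hfull
  have hTσ := hT σ
  rw [hσ] at hTσ
  obtain ⟨w, hw, hW, hW'⟩ := M.full_side hG hr σ hTσ
  -- the bases
  let base : Bool → X := fun τ => if τ = σ then w else M.D.other r σ w
  have hbσ : base σ = w := by simp [base]
  have hbσ' : base (!σ) = M.D.other r σ w := by simp [base]
  have hbase : ∀ τ ρ y e, G (ρ, y) (.W τ e) = M.cd (base τ) e y := by
    intro τ ρ y e
    by_cases hτ : τ = σ
    · subst hτ; rw [hbσ]; exact hW ρ y e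
    · have : τ = !σ := Bool.eq_not.2 hτ
      subst this; rw [hbσ']; exact hW' ρ y e
  refine ⟨⟨r, base, H⟩, ⟨hH, ⟨σ, hσ⟩, fun τ hτ => ?_⟩, ?_⟩
  · simp only at hτ
    by_cases hτσ : τ = σ
    · subst hτσ
      simp only [hbσ, hbσ']
      exact ⟨hw, trivial⟩
    · have hτ' : τ = !σ := Bool.eq_not.2 hτσ
      subst hτ'
      have hT2 := hT (!σ)
      rw [hτ] at hT2
      obtain ⟨w', hw', hW2, hW2'⟩ := M.full_side hG hr (!σ) hT2
      have e1 : base (!σ) = w' := by
        apply M.cd_inj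
        funext e y
        rw [← hbase (!σ) 0 y e, hW2]
      have e2 : base σ = M.D.other r (!σ) w' := by
        apply M.cd_inj
        funext e y
        rw [← hbase σ 0 y e]
        have := hW2' 0 y e
        rw [Bool.not_not] at this
        exact this
      simp only [Bool.not_not]
      rw [e1, ← e2]
      exact ⟨hw', rfl⟩
  · funext p c
    obtain ⟨ρ, y⟩ := p
    cases c with
    | W τ e => exact hbase τ ρ y e
    | S τ c j => exact hG.stack_eq' τ (hH τ) (hT τ) (hbase τ) c j ρ y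
    | T τ j => exact hT τ (ρ, y) j
    | rel => exact hr (ρ, y)

theorem word_W (s : St X) (ρ y : Y) (σ : Bool) (e : Cell) :
    M.toDomData.word (h := h) s (ρ, y) (.W σ e) = M.cd (s.base σ) e y := rfl

/-- **Completeness.** -/
theorem complete {s : St X} (hs : M.D.VE (h + 1) s) :
    M.toDomData.Ids (M.toDomData.word s) := by
  obtain ⟨hle, ⟨σ₀, hσ₀⟩, hfull⟩ := hs
  have hrv : ∀ ρ y σ c, M.toDomData.rv0 (M.toDomData.word (h := h) s) σ c (ρ, y) =
      M.toDomData.v0 c (M.cd (s.base σ)) ρ y := fun ρ y σ c =>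
    DomData.rv0_eq (fun ρ y e => rfl) c ρ y
  have hTl : ∀ p σ, M.toDomData.word s p (.T σ (Fin.last h)) = if s.ht σ = h + 1 then (1 : F) else 0 := by
    intro p σ
    simp only [DomData.word, Fin.val_last]
    by_cases hh : s.ht σ = h + 1
    · simp [hh]
    · rw [if_neg (fun e => hh e.symm), if_neg hh]
  have htop : ∀ σ c ρ y, s.ht σ = h + 1 → M.toDomData.word s (ρ, y) (.S σ c 0) =
      M.toDomData.vv c (M.cd (s.base σ)) h ρ y := by
    intro σ c ρ y hh
    simp only [DomData.word, hh]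
    simp
  refine ⟨fun _ _ => rfl, fun p => ?_, fun _ _ _ _ => rfl, fun p σ j j' => ?_, fun _ _ _ _ _ => rfl,
    fun ρ y σ c j => ?_, fun p => ?_, fun p σ i => ?_, fun ρ y σ e => ?_, fun ρ y σ e => ?_⟩
  · simp only [DomData.word]
    split_ifs <;> simp
  · simp only [DomData.word]
    by_cases hj : j = j'
    · subst hj
      simp
    · have : (j : ℕ) ≠ j' := fun e => hj (Fin.ext e)
      rw [if_neg hj]
      by_cases h1 : (j : ℕ) + 1 = s.ht σ
      · rw [if_neg (show ¬ (j' : ℕ) + 1 = s.ht σ by omega), mul_zero]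
      · rw [if_neg h1, zero_mul]
  · rw [hrv]
    have hl := hle σ
    simp only [DomData.word]
    rcases lt_trichotomy ((j : ℕ) + 1) (s.ht σ) with h1 | h1 | h1
    · rw [if_pos (by omega), dif_pos (by omega), if_pos h1, if_pos h1, if_neg (by omega),
        show s.ht σ - 1 - (j : ℕ) = (s.ht σ - 1 - ((j : ℕ) + 1)) + 1 by omega, DomData.vv_succ]
      ring
    · rw [if_pos (by omega), if_neg (by omega), if_neg (by omega), if_pos h1,
        show s.ht σ - 1 - (j : ℕ) = 0 by omega, DomData.vv_zero]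
      simp
    · rw [if_neg (by omega), if_neg (by omega), if_neg (by omega), if_neg (by omega)]
      simp
  · rw [hTl, hTl]
    cases σ₀ <;> simp [hσ₀]
  · rw [hTl]
    by_cases hh : s.ht σ = h + 1
    · obtain ⟨p1, p2⟩ := p
      rw [htop σ _ p1 p2 hh, M.top_val _ (hfull σ hh).1, mul_zero]
    · rw [if_neg hh, zero_mul]
  · rw [hTl]
    by_cases hh : s.ht σ = h + 1
    · rw [htop σ _ ρ y hh, M.top_id _ (hfull σ hh).1, word_W, sub_self, mul_zero]
    · rw [if_neg hh, zero_mul]
  · rw [hTl]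
    by_cases hh : s.ht σ = h + 1
    · rw [htop σ _ y ρ hh, htop σ _ y ρ hh, M.top_id _ (hfull σ hh).1,
        M.top_st _ _ (hfull σ hh).1, word_W, (hfull σ hh).2]
      simp only [DomData.word, Dyn.other]
      cases s.rel <;> simp
    · rw [if_neg hh, zero_mul]

/-- Words determine the states. -/
theorem word_inj {s s' : St X} (hs : ∀ σ, s.ht σ ≤ h + 1) (hs' : ∀ σ, s'.ht σ ≤ h + 1)
    (e : M.toDomData.word (h := h) s = M.toDomData.word s') : s = s' := by
  have h1 : ∀ p c, M.toDomData.word (h := h) s p c = M.toDomData.word s' p c := fun p c => by rw [e]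
  ext σ
  · have h2 := h1 (0, 0) .rel
    simp only [DomData.word] at h2
    revert h2
    cases s.rel <;> cases s'.rel <;> simp
  · apply M.cd_inj
    funext e y
    exact h1 (0, y) (.W σ e)
  · by_contra hne
    have key : ∀ a b : ℕ, a ≤ h + 1 → b < a →
        (∀ j : Fin (h + 1), (if (j : ℕ) + 1 = a then (1 : F) else 0) = if (j : ℕ) + 1 = b then 1 else 0) →
        False := by
      intro a b ha hab hh
      have h3 := hh ⟨a - 1, by omega⟩
      simp only at h3
      rw [if_pos (by omega), if_neg (by omega)] at h3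
      exact one_ne_zero h3
    rcases lt_or_gt_of_ne hne with h2 | h2
    · exact key (s'.ht σ) (s.ht σ) (hs' σ) h2 fun j => (h1 (0, 0) (.T σ j)).symm
    · exact key (s.ht σ) (s'.ht σ) (hs σ) h2 fun j => h1 (0, 0) (.T σ j)

end Dom

end Vale.Agent.P330.Q
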