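import Vale.Agent.P330.Q.State

/-!
# Project Q: one step of the extended dynamics, on words

The value of a functional `c` at a point of the word of `D.stepE (h + 1) z s` is computed from
`O(1)` values of functionals at `O(1)` points of the word of `s` (`AK`: names of the values read)
and from `O(1)` public values (`AV`), see `stepF_ok`.
-/

namespace Vale.Agent.P330.Q

open Finset

/-! ### Sums over the components -/

namespace Comp

variable {Cell V : Type*} {h : ℕ}

/-- The components as a sum type. -/
def equivSum : Comp Cell V h ≃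
    Unit ⊕ (Bool × Cell) ⊕ (Bool × Fin (h + 1)) ⊕ (Bool × Chn Cell V × Fin (h + 1)) where
  toFun
    | rel => .inl ()
    | W σ e => .inr (.inl (σ, e))
    | T σ j => .inr (.inr (.inl (σ, j)))
    | S σ i j => .inr (.inr (.inr (σ, i, j)))
  invFun
    | .inl () => rel
    | .inr (.inl p) => W p.1 p.2
    | .inr (.inr (.inl p)) => T p.1 p.2
    | .inr (.inr (.inr p)) => S p.1 p.2.1 p.2.2
  left_inv k := by cases k <;> rfl
  right_inv k := by rcases k with k | k | k | k <;> rfl

theorem sum_eq [Fintype Cell] [DecidableEq Cell] [Fintype V] [DecidableEq V] {M : Type*}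
    [AddCommMonoid M] (f : Comp Cell V h → M) :
    ∑ k, f k = f rel + (∑ σ, ∑ e, f (W σ e)) + (∑ σ, ∑ j, f (T σ j)) +
      ∑ σ, ∑ i, ∑ j, f (S σ i j) := by
  rw [← Equiv.sum_comp equivSum.symm, Fintype.sum_sum_type, Fintype.sum_sum_type,
    Fintype.sum_sum_type, Fintype.sum_prod_type, Fintype.sum_prod_type, Fintype.sum_prod_type]
  simp only [Fintype.sum_prod_type, univ_unique, sum_singleton, ← add_assoc]
  rfl

end Comp

/-! ### Rotations of functionals -/

section rot

variable {F : Type*} [Field F] {h : ℕ}

/-- The functional on a stack before a push. -/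
def rotU (c : Fin (h + 1) → F) : Fin (h + 1) → F := Fin.lastCases 0 fun j => c j.succ

/-- The functional on a stack before a pop. -/
def rotD (c : Fin (h + 1) → F) : Fin (h + 1) → F := Fin.cases 0 fun j => c j.castSucc

theorem sum_rotU (c w w' : Fin (h + 1) → F) (hw : ∀ j : Fin h, w' j.succ = w j.castSucc) :
    ∑ j, c j * w' j = ∑ j, rotU c j * w j + c 0 * w' 0 := by
  rw [Fin.sum_univ_succ, Fin.sum_univ_castSucc (fun j => rotU c j * w j)]
  simp only [rotU, Fin.lastCases_castSucc, Fin.lastCases_last, zero_mul, add_zero]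
  rw [add_comm]
  congr 1
  exact sum_congr rfl fun j _ => by rw [hw]

theorem sum_rotD (c w w' : Fin (h + 1) → F) (hw : ∀ j : Fin h, w' j.castSucc = w j.succ)
    (hl : w' (Fin.last h) = 0) :
    ∑ j, c j * w' j = ∑ j, rotD c j * w j := by
  rw [Fin.sum_univ_castSucc, Fin.sum_univ_succ (fun j => rotD c j * w j)]
  simp only [rotD, Fin.cases_zero, Fin.cases_succ, zero_mul, zero_add, hl, mul_zero, add_zero]
  exact sum_congr rfl fun j _ => by rw [hw]

end rot

section

variable {F Cell V : Type*} [Field F] [Fintype Cell] [DecidableEq Cell] [Fintype V]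
  [DecidableEq V] {h : ℕ}

/-- The value of a functional. -/
def pair (c w : Comp Cell V h → F) : F := ∑ k, c k * w k

/-- The functional before a push on the side `s`. -/
def pushc (s : Bool) (c : Comp Cell V h → F) : Comp Cell V h → F
  | .rel => c .rel
  | .W σ e => c (.W σ e)
  | .T σ j => if σ = s then rotU (fun j => c (.T σ j)) j else c (.T σ j)
  | .S σ i j => if σ = s then rotU (fun j => c (.S σ i j)) j else c (.S σ i j)

/-- The functional before a pop on the side `s`. -/
def popc (s : Bool) (c : Comp Cell V h → F) : Comp Cell V h → F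
  | .rel => c .rel
  | .W σ e => c (.W σ e)
  | .T σ j => if σ = s then rotD (fun j => c (.T σ j)) j else c (.T σ j)
  | .S σ i j => if σ = s then rotD (fun j => c (.S σ i j)) j else c (.S σ i j)

/-- The functional before a change of the relation: the part which is not changed. -/
def flipc (s : Bool) (c : Comp Cell V h → F) : Comp Cell V h → F
  | .rel => 0
  | .W σ e => if σ = s then 0 else c (.W σ e)
  | .T σ j => c (.T σ j)
  | .S σ i j => c (.S σ i j)

/-- The part of the functional which sees the new entries on the side `s`. -/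
def topc (s : Bool) (c : Comp Cell V h → F) : Comp Cell V h → F
  | .S σ i j => if σ = s ∧ j = 0 then c (.S σ i j) else 0
  | _ => 0

/-- The functional which sees the new base of the side `s`, through the chains `ch e` of the other
side. -/
def swapc (s : Bool) (ch : Cell → Chn Cell V) (c : Comp Cell V h → F) : Comp Cell V h → F
  | .S σ i j => if σ = (!s) ∧ j = 0 then ∑ e, (if ch e = i then c (.W s e) else 0) else 0
  | _ => 0

/-- Unit functionals. -/
def unitc (k : Comp Cell V h) (l : F) : Comp Cell V h → F := fun k' => if k' = k then l else 0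

/-- The functional which is the sum of the marker. -/
def nec (s : Bool) (l : F) : Comp Cell V h → F
  | .T σ _ => if σ = s then l else 0
  | _ => 0

theorem pair_unitc (k : Comp Cell V h) (l : F) (w : Comp Cell V h → F) :
    pair (unitc k l) w = l * w k := by
  simp [pair, unitc]

theorem pair_nec (s : Bool) (l : F) (w : Comp Cell V h → F) :
    pair (nec s l) w = l * ∑ j, w (.T s j) := by
  rw [pair, Comp.sum_eq]
  cases s <;> simp [nec, mul_sum]

theorem pair_topc (s : Bool) (c w : Comp Cell V h → F) :
    pair (topc s c) w = ∑ i, c (.S s i 0) * w (.S s i 0) := by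
  rw [pair, Comp.sum_eq]
  cases s <;> simp [topc, ite_mul]

theorem pair_swapc (s : Bool) (ch : Cell → Chn Cell V) (c w : Comp Cell V h → F) :
    pair (swapc s ch c) w = ∑ e, c (.W s e) * w (.S (!s) (ch e) 0) := by
  rw [pair, Comp.sum_eq]
  have key : ∀ σ : Bool, ∑ i, (∑ e, if ch e = i then c (.W s e) else 0) * w (.S σ i 0) =
      ∑ e, c (.W s e) * w (.S σ (ch e) 0) := by
    intro σ
    calc ∑ i, (∑ e, if ch e = i then c (.W s e) else 0) * w (.S σ i 0)
        = ∑ i, ∑ e, if ch e = i then c (.W s e) * w (.S σ i 0) else 0 := by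
          refine sum_congr rfl fun i _ => ?_
          rw [sum_mul]
          exact sum_congr rfl fun e _ => by rw [ite_mul, zero_mul]
      _ = ∑ e, ∑ i, if ch e = i then c (.W s e) * w (.S σ i 0) else 0 := sum_comm
      _ = _ := sum_congr rfl fun e _ => by rw [sum_ite_eq univ (ch e)]; simp
  cases s <;> simp [swapc, ite_mul, key]

end

namespace DomData

variable {F : Type*} [Field F] {h B : ℕ} {Y Cell V X : Type*} [AddCommGroup Y]
  [Fintype Cell] [DecidableEq Cell] [Fintype V] [DecidableEq V] (M : DomData F h B Y Cell V X)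

/-- Push on words. -/
theorem pair_push (s : St X) (g : Bool) (c : Comp Cell V h → F) (p : Y × Y) :
    pair c (M.word ⟨s.rel, s.base, Function.update s.ht g (s.ht g + 1)⟩ p) =
      pair (pushc g c) (M.word s p) +
      if s.ht g = 0 then c (.T g 0) + ∑ i, c (.S g i 0) * M.v0 i (M.cd (s.base g)) p.1 p.2
      else pair (topc g c) (M.word s (p.1, M.θ p.2)) +
        pair (topc g c) (M.word s (p.1, M.θ p.2 + M.e0)) := by
  set s' : St X := ⟨s.rel, s.base, Function.update s.ht g (s.ht g + 1)⟩ with hs'
  have hT : ∑ σ, ∑ j, c (.T σ j) * M.word s' p (.T σ j) =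
      ∑ σ, ∑ j, pushc g c (.T σ j) * M.word s p (.T σ j) +
        (if s.ht g = 0 then c (.T g 0) else 0) := by
    have h1 : ∀ σ, ∑ j, c (.T σ j) * M.word s' p (.T σ j) =
        ∑ j, pushc g c (.T σ j) * M.word s p (.T σ j) +
          if σ = g then (if s.ht g = 0 then c (.T g 0) else 0) else 0 := by
      intro σ
      by_cases hσ : σ = g
      · subst hσ
        refine (sum_rotU (fun j => c (.T σ j)) (fun j => M.word s p (.T σ j)) _
          (fun j => ?_)).trans ?_
        · simp only [hs', word, Function.update_self, Fin.val_succ, Fin.val_castSucc,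
            Nat.add_right_cancel_iff]
        · simp only [pushc, if_true, hs', word, Function.update_self, Fin.val_zero, zero_add]
          congr 1
          by_cases h0 : s.ht σ = 0
          · simp [h0]
          · simp [h0]
      · simp only [pushc, if_neg hσ, hs', word, Function.update_of_ne hσ, add_zero]
    rw [sum_congr rfl fun σ _ => h1 σ, sum_add_distrib, sum_ite_eq' univ g]
    simp only [mem_univ, if_true]
  have hS : ∑ σ, ∑ i, ∑ j, c (.S σ i j) * M.word s' p (.S σ i j) =
      ∑ σ, ∑ i, ∑ j, pushc g c (.S σ i j) * M.word s p (.S σ i j) +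
        ∑ i, c (.S g i 0) * M.vv i (M.cd (s.base g)) (s.ht g) p.1 p.2 := by
    have h1 : ∀ σ, ∑ i, ∑ j, c (.S σ i j) * M.word s' p (.S σ i j) =
        ∑ i, ∑ j, pushc g c (.S σ i j) * M.word s p (.S σ i j) +
          if σ = g then (∑ i, c (.S g i 0) * M.vv i (M.cd (s.base g)) (s.ht g) p.1 p.2)
          else 0 := by
      intro σ
      by_cases hσ : σ = g
      · subst hσ
        rw [if_pos rfl, ← sum_add_distrib]
        refine sum_congr rfl fun i _ => ?_
        refine (sum_rotU (fun j => c (.S σ i j)) (fun j => M.word s p (.S σ i j)) _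
          (fun j => ?_)).trans ?_
        · simp only [hs', word, Function.update_self, Fin.val_succ, Fin.val_castSucc,
            Nat.add_lt_add_iff_right, Nat.add_sub_cancel]
          rw [show s.ht σ - ((j : ℕ) + 1) = s.ht σ - 1 - (j : ℕ) by omega]
        · simp only [pushc, if_true, hs', word, Function.update_self, Fin.val_zero,
            Nat.zero_lt_succ, Nat.add_sub_cancel, Nat.sub_zero]
      · simp only [pushc, if_neg hσ, hs', word, Function.update_of_ne hσ, add_zero]
    rw [sum_congr rfl fun σ _ => h1 σ, sum_add_distrib, sum_ite_eq' univ g]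
    simp only [mem_univ, if_true]
  have hpar : ∀ i, s.ht g ≠ 0 → M.vv i (M.cd (s.base g)) (s.ht g) p.1 p.2 =
      M.word (h := h) s (p.1, M.θ p.2) (.S g i 0) +
        M.word (h := h) s (p.1, M.θ p.2 + M.e0) (.S g i 0) := by
    intro i h0
    obtain ⟨n, hn⟩ := Nat.exists_eq_succ_of_ne_zero h0
    simp only [word, Fin.val_zero, hn, Nat.succ_eq_add_one, Nat.zero_lt_succ, if_true,
      Nat.add_sub_cancel, Nat.sub_zero]
    rfl
  have hr : c .rel * M.word (h := h) s' p .rel = pushc g c .rel * M.word (h := h) s p .rel := rfl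
  have hW : ∑ σ, ∑ e, c (.W σ e) * M.word (h := h) s' p (.W σ e) =
      ∑ σ, ∑ e, pushc g c (.W σ e) * M.word (h := h) s p (.W σ e) := rfl
  rw [pair, Comp.sum_eq, pair, Comp.sum_eq (fun k => pushc g c k * M.word s p k), pair_topc,
    pair_topc, hT, hS, hr, hW]
  by_cases h0 : s.ht g = 0
  · have e0 : ∀ i, M.vv i (M.cd (s.base g)) (s.ht g) p.1 p.2 =
        M.v0 i (M.cd (s.base g)) p.1 p.2 := by
      intro i; rw [h0]; rfl
    simp only [e0]
    rw [if_pos h0, if_pos h0]
    ring
  · have e1 : ∑ i, c (.S g i 0) * M.vv i (M.cd (s.base g)) (s.ht g) p.1 p.2 =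
        ∑ i, c (.S g i 0) * M.word (h := h) s (p.1, M.θ p.2) (.S g i 0) +
        ∑ i, c (.S g i 0) * M.word (h := h) s (p.1, M.θ p.2 + M.e0) (.S g i 0) := by
      rw [← sum_add_distrib]
      exact sum_congr rfl fun i _ => by rw [hpar i h0, mul_add]
    rw [e1, if_neg h0, if_neg h0]
    ring

/-- Pop on words. -/
theorem pair_pop (s : St X) (g : Bool) (hg : s.ht g ≠ 0) (hle : s.ht g ≤ h + 1)
    (c : Comp Cell V h → F) (p : Y × Y) :
    pair c (M.word ⟨s.rel, s.base, Function.update s.ht g (s.ht g - 1)⟩ p) =
      pair (popc g c) (M.word s p) := by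
  have hT : ∀ σ, ∑ j, c (.T σ j) * M.word
      ⟨s.rel, s.base, Function.update s.ht g (s.ht g - 1)⟩ p (.T σ j) =
      ∑ j, popc g c (.T σ j) * M.word s p (.T σ j) := by
    intro σ
    by_cases hσ : σ = g
    · subst hσ
      refine (sum_rotD (fun j => c (.T σ j)) (fun j => M.word s p (.T σ j)) _
        (fun j => ?_) ?_).trans ?_
      · simp only [word, Function.update_self, Fin.val_succ, Fin.val_castSucc]
        congr 1
        apply propext
        omega
      · simp only [word, Function.update_self, Fin.val_last]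
        rw [if_neg (by omega)]
      · simp only [popc, if_true]
    · simp only [popc, if_neg hσ, word, Function.update_of_ne hσ]
  have hS : ∀ σ, ∑ i, ∑ j, c (.S σ i j) * M.word
      ⟨s.rel, s.base, Function.update s.ht g (s.ht g - 1)⟩ p (.S σ i j) =
      ∑ i, ∑ j, popc g c (.S σ i j) * M.word s p (.S σ i j) := by
    intro σ
    by_cases hσ : σ = g
    · subst hσ
      refine sum_congr rfl fun i _ => ?_
      refine (sum_rotD (fun j => c (.S σ i j)) (fun j => M.word s p (.S σ i j)) _
        (fun j => ?_) ?_).trans ?_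
      · simp only [word, Function.update_self, Fin.val_succ, Fin.val_castSucc]
        rw [show s.ht σ - 1 - ((j : ℕ) + 1) = s.ht σ - 1 - 1 - (j : ℕ) by omega]
        congr 1
        apply propext
        omega
      · simp only [word, Function.update_self, Fin.val_last]
        rw [if_neg (by omega)]
      · simp only [popc, if_true]
    · simp only [popc, if_neg hσ, word, Function.update_of_ne hσ]
  rw [pair, Comp.sum_eq, sum_congr rfl fun σ _ => hT σ, sum_congr rfl fun σ _ => hS σ, pair,
    Comp.sum_eq (fun k => popc g c k * M.word s p k)]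
  rfl

/-- Change of the relation on words: the side `g` is full, the other side is empty and gets the
base `x'`, which is the top of the chains `ch e` of the side `g`. -/
theorem pair_flip (s : St X) (g : Bool) (h0 : s.ht (!g) = 0) (hg : s.ht g = h + 1) (x' : X)
    (ch : Cell → Chn Cell V)
    (htop : ∀ e ρ y, M.vv (ch e) (M.cd (s.base g)) h ρ y = M.cd x' e ρ)
    (c : Comp Cell V h → F) (p : Y × Y) :
    pair c (M.word ⟨!s.rel, Function.update s.base (!g) x', s.ht⟩ p) =
      pair (flipc (!g) c) (M.word s p) + pair (swapc (!g) ch c) (M.word s (p.2, p.1)) +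
        if s.rel then 0 else c .rel := by
  have hgg : g ≠ !g := by cases g <;> decide
  have hcase : ∀ σ, σ = g ∨ σ = !g := by intro σ; cases σ <;> cases g <;> simp
  set s' : St X := ⟨!s.rel, Function.update s.base (!g) x', s.ht⟩ with hs'
  have hW : ∑ σ, ∑ e, c (.W σ e) * M.word (h := h) s' p (.W σ e) =
      ∑ σ, ∑ e, flipc (!g) c (.W σ e) * M.word (h := h) s p (.W σ e) +
        ∑ e, c (.W (!g) e) * M.word (h := h) s (p.2, p.1) (.S g (ch e) 0) := by
    have h1 : ∀ σ, ∑ e, c (.W σ e) * M.word (h := h) s' p (.W σ e) =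
        ∑ e, flipc (!g) c (.W σ e) * M.word (h := h) s p (.W σ e) +
          if σ = !g then ∑ e, c (.W (!g) e) * M.word (h := h) s (p.2, p.1) (.S g (ch e) 0)
          else 0 := by
      intro σ
      by_cases hσ : σ = !g
      · rw [if_pos hσ, hσ]
        simp only [flipc, if_true, zero_mul, sum_const_zero, zero_add]
        refine sum_congr rfl fun e _ => ?_
        simp only [hs', word, Function.update_self, Fin.val_zero, hg, Nat.zero_lt_succ, if_true,
          Nat.add_sub_cancel, Nat.sub_zero, htop]
      · rw [if_neg hσ, add_zero]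
        refine sum_congr rfl fun e _ => ?_
        simp only [flipc, if_neg hσ, hs', word, Function.update_of_ne hσ]
    rw [sum_congr rfl fun σ _ => h1 σ, sum_add_distrib, sum_ite_eq' univ (!g)]
    simp only [mem_univ, if_true]
  have hS : ∀ σ i j, M.word (h := h) s' p (.S σ i j) = M.word s p (.S σ i j) := by
    intro σ i j
    by_cases hσ : σ = !g
    · simp only [hs', word, hσ, h0, Nat.not_lt_zero, if_false]
    · simp only [hs', word, Function.update_of_ne hσ]
  have hT : ∀ σ j, M.word (h := h) s' p (.T σ j) = M.word s p (.T σ j) := fun σ j => rfl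
  have hr : c .rel * M.word (h := h) s' p .rel =
      (flipc (!g) c .rel * M.word (h := h) s p .rel + if s.rel then 0 else c .rel) := by
    simp only [flipc, hs', word]
    cases s.rel <;> simp
  rw [pair, Comp.sum_eq, pair, Comp.sum_eq (fun k => flipc (!g) c k * M.word s p k), pair_swapc,
    Bool.not_not, hr, hW]
  simp only [hS, hT]
  have h5 : ∀ σ i j, flipc (!g) c (.S σ i j) = c (.S σ i j) := fun σ i j => rfl
  have h6 : ∀ σ j, flipc (!g) c (.T σ j) = c (.T σ j) := fun σ j => rfl
  simp only [h5, h6]
  ring

end DomData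

/-! ### Names of reads and public values -/

/-- Names of the values read by a step. -/
inductive AK (F Cell : Type*) (B : ℕ)
  | push (s : Bool)
  | pop (s : Bool)
  | flip (s : Bool)
  /-- the top entries at `θ y` and at `θ y + e0` -/
  | top (s b : Bool)
  /-- the tops of the chains which give the new base of the side `s` for the relation `r` -/
  | swap (s r : Bool)
  /-- the value of the base `W s e` at the shift `t` of `y` -/
  | wv (s : Bool) (t : Fin B) (e : Cell) (l : F)
  | full (s : Bool)
  | ne (s : Bool)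
  | rel
  deriving DecidableEq, Fintype

/-- Names of the public values of a step. -/
inductive AV (F Cell V : Type*) (B : ℕ)
  | cT (s : Bool)
  | cR
  | cS (s : Bool) (i : Chn Cell V) (l : F)
  | K (i : Chn Cell V) (γ : Fin B → Option Cell) (l : F)
  deriving Fintype

/-- The chain whose top on the full side `σ` is the component `e` of the base of the other side, for
the relation `r`. -/
def chOf {Cell V : Type*} (r σ : Bool) (e : Cell) : Chn Cell V := if r then .st σ e else .id e

section

variable {F : Type*} [Field F] {h B : ℕ} {Y Cell V X : Type*} [AddCommGroup Y]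
  [Fintype Cell] [DecidableEq Cell] [Fintype V] [DecidableEq V]

/-- The points read. -/
def AK.mv (M : DomData F h B Y Cell V X) : AK F Cell B → (Y × Y ≃ Y × Y)
  | .push _ => Equiv.refl _
  | .pop _ => Equiv.refl _
  | .flip _ => Equiv.refl _
  | .top _ b => Equiv.prodCongr (Equiv.refl _)
      (if b then M.θ.trans (Equiv.addRight M.e0) else M.θ)
  | .swap _ _ => Equiv.prodComm _ _
  | .wv _ t _ _ => Equiv.prodCongr (Equiv.refl _) (M.sh t)
  | .full _ => Equiv.refl _
  | .ne _ => Equiv.refl _
  | .rel => Equiv.refl _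

/-- The functionals read. -/
def AK.fn (l₁ : F) : AK F Cell B → (Comp Cell V h → F) → Comp Cell V h → F
  | .push s, c => pushc s c
  | .pop s, c => popc s c
  | .flip s, c => flipc s c
  | .top s _, c => topc s c
  | .swap s r, c => swapc s (chOf r (!s)) c
  | .wv s _ e l, _ => unitc (.W s e) l
  | .full s, _ => unitc (.T s (Fin.last h)) l₁
  | .ne s, _ => nec s l₁
  | .rel, _ => unitc .rel l₁

/-- The public values, from the functional and the point. -/
def AV.val (M : DomData F h B Y Cell V X) (φ : F →+ ZMod 2) (c : Comp Cell V h → F) (p : Y × Y) :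
    AV F Cell V B → ZMod 2
  | .cT s => φ (c (.T s 0))
  | .cR => φ (c .rel)
  | .cS s i l => φ (l * c (.S s i 0))
  | .K i γ l => φ (l * M.K i γ p.1 p.2)

open Classical in
/-- The element of the field, from the bits `φ (l * u)`. -/
noncomputable def dec (φ : F →+ ZMod 2) (b : F → ZMod 2) : F :=
  if h : ∃ u, ∀ l, φ (l * u) = b l then h.choose else 0

theorem dec_spec {φ : F →+ ZMod 2} {l₁ : F} (h₁ : φ l₁ = 1) (u : F) :
    dec φ (fun l => φ (l * u)) = u := by
  have hex : ∃ u', ∀ l, φ (l * u') = φ (l * u) := ⟨u, fun _ => rfl⟩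
  rw [dec, dif_pos hex]
  have h2 := hex.choose_spec
  by_contra hne
  have h3 : hex.choose - u ≠ 0 := sub_ne_zero.2 hne
  have h4 := h2 (l₁ * (hex.choose - u)⁻¹)
  have h5 : φ (l₁ * (hex.choose - u)⁻¹ * (hex.choose - u)) = 0 := by
    rw [mul_sub, map_sub, h4, sub_self]
  rw [mul_assoc, inv_mul_cancel₀ h3, mul_one, h₁] at h5
  exact one_ne_zero h5

/-- The summand of a chain, from the values of the kernels and of the base functions. -/
def v0F (K : (Fin B → Option Cell) → F) (w : Fin B → Cell → F) : F :=
  ∑ γ : Fin B → Option Cell, K γ * ∏ t, optv (w t) (γ t)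

/-- The step, from the values read and the public values. -/
noncomputable def stepZ (φ : F →+ ZMod 2) (z : Bool) (rd : AK F Cell B → ZMod 2)
    (pub : AV F Cell V B → ZMod 2) : ZMod 2 :=
  if rd (.full (xor z (decide (rd .rel = 1)))) = 0 then
    rd (.push (xor z (decide (rd .rel = 1)))) +
      if rd (.ne (xor z (decide (rd .rel = 1)))) = 0 then
        pub (.cT (xor z (decide (rd .rel = 1)))) +
          φ (∑ i, dec φ (fun l => pub (.cS (xor z (decide (rd .rel = 1))) i l)) *
            v0F (fun γ => dec φ fun l => pub (.K i γ l))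
              (fun t e => dec φ fun l => rd (.wv (xor z (decide (rd .rel = 1))) t e l)))
      else rd (.top (xor z (decide (rd .rel = 1))) false) +
        rd (.top (xor z (decide (rd .rel = 1))) true)
  else if rd (.ne (!(xor z (decide (rd .rel = 1))))) = 0 then
    rd (.flip (!(xor z (decide (rd .rel = 1))))) +
      rd (.swap (!(xor z (decide (rd .rel = 1)))) (!(decide (rd .rel = 1)))) +
      if decide (rd .rel = 1) = true then 0 else pub .cR
  else rd (.pop (!(xor z (decide (rd .rel = 1)))))

omit [Fintype V] [DecidableEq V] in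
theorem sum_T_word (M : DomData F h B Y Cell V X) (s : St X) (σ : Bool) (hσ : s.ht σ ≤ h + 1)
    (p : Y × Y) : ∑ j, M.word (h := h) s p (.T σ j) = if s.ht σ = 0 then 0 else 1 := by
  simp only [DomData.word]
  split_ifs with h0
  · exact sum_eq_zero fun j _ => if_neg (by omega)
  · rw [sum_eq_single_of_mem (⟨s.ht σ - 1, by omega⟩ : Fin (h + 1)) (mem_univ _)]
    · exact if_pos (by simp only; omega)
    · intro j _ hj
      refine if_neg fun h1 => hj (Fin.ext ?_)
      simp only
      omega

/-- **One step on words.** -/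
theorem stepZ_ok (M : Dom F h B Y Cell V X) {φ : F →+ ZMod 2} {l₁ : F} (h₁ : φ l₁ = 1) (z : Bool)
    {s : St X} (hs : M.D.VE (h + 1) s) (c : Comp Cell V h → F) (p : Y × Y) :
    stepZ φ z (fun k => φ (pair (k.fn l₁ c) (M.word s (k.mv M.toDomData p))))
        (AV.val M.toDomData φ c p) =
      φ (pair c (M.word (M.D.stepE (h + 1) z s) p)) := by
  obtain ⟨hle, -, hfull⟩ := hs
  have hr : φ (pair (AK.fn (B := B) (h := h) (V := V) l₁ .rel c)
      (M.word s ((AK.rel : AK F Cell B).mv M.toDomData p))) = if s.rel then 1 else 0 := by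
    simp only [AK.fn, pair_unitc, DomData.word]
    cases s.rel <;> simp [h₁]
  have hrd : decide (φ (pair (AK.fn (B := B) (h := h) (V := V) l₁ .rel c)
      (M.word s ((AK.rel : AK F Cell B).mv M.toDomData p))) = 1) = s.rel := by
    rw [hr]; cases s.rel <;> simp
  have hF : ∀ σ, (φ (pair (AK.fn (B := B) (h := h) (V := V) l₁ (.full σ) c)
      (M.word s ((AK.full σ : AK F Cell B).mv M.toDomData p))) = 0) ↔ s.ht σ ≠ h + 1 := by
    intro σ
    simp only [AK.fn, pair_unitc, DomData.word, Fin.val_last]
    by_cases h0 : s.ht σ = h + 1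
    · simp [h0, h₁]
    · simp [h0, Ne.symm h0]
  have hN : ∀ σ, (φ (pair (AK.fn (B := B) (h := h) (V := V) l₁ (.ne σ) c)
      (M.word s ((AK.ne σ : AK F Cell B).mv M.toDomData p))) = 0) ↔ s.ht σ = 0 := by
    intro σ
    simp only [AK.fn, pair_nec]
    rw [sum_T_word _ _ _ (hle σ)]
    by_cases h0 : s.ht σ = 0
    · simp [h0]
    · simp [h0, h₁]
  simp only [stepZ]
  rw [hrd]
  simp only [hF, hN]
  unfold Dyn.stepE
  generalize xor z s.rel = g
  by_cases h1 : s.ht g ≠ h + 1
  · rw [if_pos h1, if_pos h1, M.toDomData.pair_push s g c p, map_add]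
    congr 1
    by_cases h2 : s.ht g = 0
    · rw [if_pos h2, if_pos h2, map_add]
      congr 2
      refine sum_congr rfl fun i _ => ?_
      simp only [AV.val, AK.fn, pair_unitc]
      rw [dec_spec h₁]
      congr 1
      rw [v0F, DomData.v0]
      refine sum_congr rfl fun γ _ => ?_
      rw [dec_spec h₁]
      congr 1
      refine prod_congr rfl fun t _ => ?_
      congr 1
      funext e
      exact dec_spec h₁ (M.cd (s.base g) e (M.sh t p.2))
    · rw [if_neg h2, if_neg h2, map_add]
      rfl
  · rw [if_neg h1, if_neg h1]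
    push Not at h1
    by_cases h2 : s.ht (!g) = 0
    · rw [if_pos h2, if_neg (not_not.2 h2)]
      rw [M.toDomData.pair_flip s g h2 h1 (M.D.other (!s.rel) g (s.base g)) (chOf (!s.rel) g) ?_ c p,
        map_add, map_add]
      · have e1 : (!(!g)) = g := Bool.not_not g
        congr 1
        · congr 1
          simp only [AK.fn, e1]
          rfl
        · cases s.rel <;> simp [AV.val]
      · intro e ρ y
        obtain ⟨hv, -⟩ := hfull g h1
        unfold chOf Dyn.other
        by_cases h3 : (!s.rel) = true
        · rw [if_pos h3, if_pos h3]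
          exact M.top_st g _ hv e ρ y
        · rw [if_neg h3, if_neg h3]
          exact M.top_id _ hv e ρ y
    · rw [if_neg h2, if_pos h2, M.toDomData.pair_pop s (!g) h2 (hle _) c p]
      rfl

/-- A bit as an element of `ZMod 2`. -/
def zb (b : Bool) : ZMod 2 := if b then 1 else 0

theorem zb_decide (x : ZMod 2) : zb (decide (x = 1)) = x := by
  revert x; decide

/-- The step, with bits. -/
noncomputable def stepF (φ : F →+ ZMod 2) (z : Bool) (rd : AK F Cell B → Bool)
    (pub : AV F Cell V B → Bool) : Bool :=
  decide (stepZ φ z (fun k => zb (rd k)) (fun v => zb (pub v)) = 1)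

theorem stepF_ok (M : Dom F h B Y Cell V X) {φ : F →+ ZMod 2} {l₁ : F} (h₁ : φ l₁ = 1) (z : Bool)
    {s : St X} (hs : M.D.VE (h + 1) s) (c : Comp Cell V h → F) (p : Y × Y) :
    stepF φ z (fun k => decide (φ (pair (k.fn l₁ c) (M.word s (k.mv M.toDomData p))) = 1))
        (fun v => decide (AV.val M.toDomData φ c p v = 1)) =
      decide (φ (pair c (M.word (M.D.stepE (h + 1) z s) p)) = 1) := by
  rw [stepF]
  simp only [zb_decide]
  rw [stepZ_ok M h₁ z hs c p]

end

end Vale.Agent.P330.Q
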