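import Vale.Agent.P330.Q.Low
import Vale.Agent.P330.Q.Step
import Vale.Agent.P330.Q.State2

/-!
# Project Q: the concrete code and its instances

`mkCode`: the finite data `Code`, from the field `F`, the functional `φ`, the degree `D` and the
finite data of the test (`THalf`).  `mkInst`: the instance `CInst` of a domain `M : Dom` with the
moves and functionals of the test (`TInst`).  `mkInst_facts`: `CFacts` of the instance, from the
facts on the directions, the degree of the words of states, and the completeness of the test.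
-/

namespace Vale.Agent.P330.Q

open Finset

/-- The finite data of the test of the identities. -/
structure THalf where
  KT : Type
  fKT : Fintype KT
  VT : Type
  fVT : Fintype VT
  testF : (KT → Bool) → (VT → Bool) → Bool

attribute [instance] THalf.fKT THalf.fVT

section

variable {F : Type} [Field F] [Fintype F] [DecidableEq F] [CharP F 2] {Cell V : Type}
  [Fintype Cell] [DecidableEq Cell] [Fintype V] [DecidableEq V]

/-- The finite data of the network. -/
noncomputable def mkCode (Cell V : Type) [Fintype Cell] [DecidableEq Cell] [Fintype V]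
    [DecidableEq V] (B : ℕ) (φ : F →+ ZMod 2) (hφ : φ ≠ 0) (D : ℕ)
    (hD : Fintype.card F ≤ 2 * D + 1) (hD2 : D + 2 ≤ Fintype.card F) (T : THalf) : Code where
  F := F
  fF := inferInstance
  tF := inferInstance
  dF := inferInstance
  cF := inferInstance
  φ := φ
  hφ := hφ
  D := D
  hD := hD
  hD2 := hD2
  K := Option (AK F Cell B)
  fK := inferInstance
  KT := Option T.KT
  fKT := inferInstance
  V := Unit ⊕ AV F Cell V B ⊕ T.VT
  fV := inferInstance
  k0 := none
  kt0 := none
  v0 := .inl ()
  stepF z rd pub := stepF φ z (fun k => rd (some k)) fun v => pub (.inr (.inl v))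
  testF rd pub := T.testF (fun k => rd (some k)) fun v => pub (.inr (.inr v))

/-- The moves, the functionals and the public bits of the test. -/
structure TInst (T : THalf) (F Y Cell V : Type) (h : ℕ) where
  g : T.KT → (Y × Y) ≃ (Y × Y)
  A : T.KT → Y × Y → (Comp Cell V h → F) → Comp Cell V h → F
  v : T.VT → Y × Y → (Comp Cell V h → F) → Bool

/-- The bit of a word at a point, for the functional `c`. -/
def wbit {h : ℕ} (φ : F →+ ZMod 2) (c x : Comp Cell V h → F) : Bool :=
  decide (φ (∑ j, c j * x j) = 1)

variable {B h : ℕ} {Y X : Type} [AddCommGroup Y] [Fintype Y] [DecidableEq Y]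
  {φ : F →+ ZMod 2} {hφ : φ ≠ 0} {D : ℕ} {hD : Fintype.card F ≤ 2 * D + 1}
  {hD2 : D + 2 ≤ Fintype.card F} {T : THalf} {ι : Type} [Fintype ι] [Nonempty ι]

/-- The instance of a domain. -/
noncomputable def mkInst (M : Dom F h B Y Cell V X) (l₁ : F) (TI : TInst T F Y Cell V h)
    (r : ι → F →+ Y × Y) (h2 : ∀ y : Y, y + y = 0) :
    CInst (mkCode Cell V B φ hφ D hD hD2 T) where
  Y := Y × Y
  gY := inferInstance
  fY := inferInstance
  dY := inferInstance
  exp2 _ := Prod.ext (h2 _) (h2 _)
  ι := ι
  fι := inferInstance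
  nι := inferInstance
  r := r
  R := Comp Cell V h
  fR := inferInstance
  dR := inferInstance
  g
    | .inl none => Equiv.refl _
    | .inl (some k) => k.mv M.toDomData
    | .inr none => Equiv.refl _
    | .inr (some k) => TI.g k
  A
    | .inl none, _, c => c
    | .inl (some k), _, c => k.fn l₁ c
    | .inr none, _, c => c
    | .inr (some k), p, c => TI.A k p c
  g_k0 _ := rfl
  g_kt0 _ := rfl
  A_k0 _ _ := rfl
  A_kt0 _ _ := rfl
  v
    | .inl (), p, c => wbit φ c (M.word (M.D.st0 (h + 1)) p)
    | .inr (.inl v), p, c => decide (AV.val M.toDomData φ c p v = 1)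
    | .inr (.inr v), p, c => TI.v v p c
  St := St X
  Val := M.D.VE (h + 1)
  st0 := M.D.st0 (h + 1)
  step := M.D.stepE (h + 1)
  sec := M.word

variable {M : Dom F h B Y Cell V X} {l₁ : F} {TI : TInst T F Y Cell V h}
    {r : ι → F →+ Y × Y} {h2 : ∀ y : Y, y + y = 0}

theorem stepE_ht_le {D : Dyn X} {m : ℕ} {z : Bool} {s : St X} (hs : ∀ σ, s.ht σ ≤ m) (σ : Bool) :
    (D.stepE m z s).ht σ ≤ m := by
  unfold Dyn.stepE
  split_ifs with h1 h3
  · by_cases hσ : σ = xor z s.rel
    · have := hs (xor z s.rel)
      simp only [hσ, Function.update_self]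
      omega
    · simp only [Function.update_of_ne hσ]
      exact hs σ
  · by_cases hσ : σ = !(xor z s.rel)
    · have := hs (!(xor z s.rel))
      simp only [hσ, Function.update_self]
      omega
    · simp only [Function.update_of_ne hσ]
      exact hs σ
  · exact hs σ

theorem mkInst_facts {lam : ℝ} (h₁ : φ l₁ = 1)
    (inj : ∀ i, Function.Injective (r i)) (spr : Spr r lam)
    (low : ∀ s : St X, ∀ i p, Vale.Agent.P318.S.Low (Fintype.card F - 2 - D) fun u : F =>
      M.word (h := h) s (p + r i u))
    (test_ok : ∀ s : St X, M.D.VE (h + 1) s → ∀ p (c : Comp Cell V h → F),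
      T.testF (fun k => wbit φ (TI.A k p c) (M.word s (TI.g k p)))
        (fun v => TI.v v p c) = false) :
    (mkInst M l₁ TI r h2 : CInst (mkCode Cell V B φ hφ D hD hD2 T)).CFacts lam where
  inj := inj
  spr := spr
  low s i p := low s i p
  sec_inj _ _ hs hs' he := M.word_inj hs.1 hs'.1 he
  sec_inj' _ _ _ hs hs' he := M.word_inj (stepE_ht_le hs.1) hs'.1 he
  val0 := Dyn.ve_st0 (Nat.succ_pos h)
  inv _ _ hs _ := Dyn.inv_stepE hs (Nat.succ_pos h)
  start := Dyn.start_st0 (Nat.succ_pos h)
  start_v _ _ := rfl
  step_ok z _ hs p c := stepF_ok M h₁ z hs c p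
  test_ok s hs p c := test_ok s hs p c

end

end Vale.Agent.P330.Q
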