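import Vale.Agent.P330.Q.NumE
import Vale.Agent.P330.Q.Step

/-!
# Project Q: numbers of the components of a word, functional maps on numbers

`compE : Comp Cell V h ≃ Fin (nC Cell V h)` : the numbers `< c1` are `rel` and the components
`W σ e`, the number of the stack component `κ : Bool ⊕ Bool × Chn Cell V` (marker of a side or chain
of a side) at height `j` is `c1 + (κ + c2 * j)`.  `decK`, `decC`: component and functional of a
number.  The functional maps of the step (`AK.fn`) are computed in polynomial time.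
-/

namespace Vale.Agent.P330.Q

open Vale.Agent.Lib.PolyTime

section defs

variable (Cell V : Type*) [Fintype Cell] [DecidableEq Cell] [Fintype V] [DecidableEq V]

/-- Components without height. -/
abbrev CLo : Type _ := Option (Bool × Cell)

/-- Components with a height. -/
abbrev CHi : Type _ := Bool ⊕ Bool × Chn Cell V

variable {Cell V} {h : ℕ}

/-- Components without height. -/
def loC : CLo Cell → Comp Cell V h
  | none => .rel
  | some (σ, e) => .W σ e

/-- Components with a height. -/
def hiC : CHi Cell V → Fin (h + 1) → Comp Cell V h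
  | .inl σ, j => .T σ j
  | .inr (σ, i), j => .S σ i j

/-- The components as a sum type. -/
def compSum : Comp Cell V h ≃ CLo Cell ⊕ Fin (h + 1) × CHi Cell V where
  toFun
    | .rel => .inl none
    | .W σ e => .inl (some (σ, e))
    | .T σ j => .inr (j, .inl σ)
    | .S σ i j => .inr (j, .inr (σ, i))
  invFun
    | .inl x => loC x
    | .inr (j, κ) => hiC κ j
  left_inv k := by cases k <;> rfl
  right_inv k := by
    rcases k with x | ⟨j, κ⟩
    · rcases x with _ | ⟨σ, e⟩ <;> rfl
    · rcases κ with σ | ⟨σ, i⟩ <;> rfl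

variable (Cell V) in
/-- The number of components. -/
def nC (h : ℕ) : ℕ := Fintype.card (CLo Cell) + (h + 1) * Fintype.card (CHi Cell V)

/-- **The numbers of the components.** -/
noncomputable def compE (h : ℕ) : Comp Cell V h ≃ Fin (nC Cell V h) :=
  compSum.trans ((Equiv.sumCongr (Fintype.equivFin _)
    (((Equiv.refl _).prodCongr (Fintype.equivFin _)).trans finProdFinEquiv)).trans
      finSumFinEquiv)

omit [DecidableEq Cell] [DecidableEq V] in
theorem compE_lo (x : CLo Cell) : (compE h (loC x : Comp Cell V h) : ℕ) = tix x := by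
  rcases x with _ | ⟨σ, e⟩ <;> rfl

omit [DecidableEq Cell] [DecidableEq V] in
theorem compE_hi (κ : CHi Cell V) (j : Fin (h + 1)) :
    (compE h (hiC κ j) : ℕ) = Fintype.card (CLo Cell) + (tix κ + Fintype.card (CHi Cell V) * j) := by
  rcases κ with σ | ⟨σ, i⟩ <;> rfl

/-- The component of a number. -/
noncomputable def decK (h n : ℕ) : Comp Cell V h :=
  if n < Fintype.card (CLo Cell) then loC (tOf (CLo Cell) n)
  else hiC (tOf (CHi Cell V) (n - Fintype.card (CLo Cell)))
    (Fin.ofNat (h + 1) ((n - Fintype.card (CLo Cell)) / Fintype.card (CHi Cell V)))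

theorem decK_compE (k : Comp Cell V h) : decK h (compE h k) = k := by
  obtain ⟨s, rfl⟩ := compSum.symm.surjective k
  rcases s with x | ⟨j, κ⟩
  · show decK h (compE h (loC x : Comp Cell V h)) = loC x
    unfold decK
    rw [compE_lo, if_pos (tix_lt x), tOf_tix]
  · show decK h (compE h (hiC κ j)) = hiC κ j
    unfold decK
    rw [compE_hi, if_neg (by omega), Nat.add_sub_cancel_left]
    congr 1
    · apply tix_inj
      rw [tix_tOf, Nat.add_mul_mod_self_left, Nat.mod_eq_of_lt (tix_lt κ)]
    · rw [Nat.add_mul_div_left _ _ Fintype.card_pos, Nat.div_eq_of_lt (tix_lt κ), zero_add]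
      apply Fin.ext
      exact Nat.mod_eq_of_lt j.2

variable {F : Type*} [Fintype F] [Nonempty F]

/-- The functional of a number. -/
noncomputable def decC (h c : ℕ) (k : Comp Cell V h) : F := dgT F c (compE h k)

end defs

section pt

variable {A : Set Word} {α : Type*} [Enc α]
variable {Cell V : Type*} [Fintype Cell] [DecidableEq Cell] [Fintype V] [DecidableEq V]
variable {T : Type*} [Fintype T]

/-- **Case distinction on the component of a number.** -/
theorem PTt.compCases {h n : α → ℕ} (hn : PT A n) {G : ∀ a, Comp Cell V (h a) → T}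
    (h1 : ∀ x : CLo Cell, PTt A (fun a => G a (loC x)))
    (h2 : ∀ κ : CHi Cell V, PTt A (fun p : α × ℕ => G p.1 (hiC κ (Fin.ofNat (h p.1 + 1) p.2)))) :
    PTt A (fun a => G a (decK (h a) (n a))) := by
  have e1 : PTt A (fun a => G a (loC (Q.tOf (CLo Cell) (n a)))) :=
    PTt.casesT (f := fun a => Q.tOf (CLo Cell) (n a)) (g := fun x a => G a (loC x))
      (PTt.tOf hn) h1
  have hn' : PT A (fun a => n a - Fintype.card (CLo Cell)) := PT.sub hn (PT.const _)
  have e2 : PTt A (fun a => G a (hiC (Q.tOf (CHi Cell V) (n a - Fintype.card (CLo Cell)))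
      (Fin.ofNat (h a + 1) ((n a - Fintype.card (CLo Cell)) / Fintype.card (CHi Cell V))))) :=
    PTt.casesT (f := fun a => Q.tOf (CHi Cell V) (n a - Fintype.card (CLo Cell)))
      (g := fun κ a => G a (hiC κ (Fin.ofNat (h a + 1)
        ((n a - Fintype.card (CLo Cell)) / Fintype.card (CHi Cell V)))))
      (PTt.tOf hn') fun κ => (h2 κ).comp (PT.id.pair (PT.div hn' (PT.const _)))
  refine (PTt.ite (p := fun a => n a < Fintype.card (CLo Cell)) (PT.lt hn (PT.const _))
    e1 e2).congr fun a => ?_
  unfold decK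
  split_ifs <;> rfl

variable [Nonempty T]

theorem PTt.decC_lo {h c : α → ℕ} (hc : PT A c) (x : CLo Cell) :
    PTt A (fun a => (decC (h a) (c a) (loC x : Comp Cell V (h a)) : T)) :=
  (PTt.dg hc (PT.const (tix x)) (PBd.const _)).congr fun a => by
    unfold decC
    rw [compE_lo]

theorem PTt.decC_hi {h c j : α → ℕ} (hh : PT A h) (hhb : PBd h) (hc : PT A c) (hj : PT A j)
    (κ : CHi Cell V) :
    PTt A (fun a => (decC (h a) (c a) (hiC κ (Fin.ofNat (h a + 1) (j a))) : T)) := by
  have e1 : PT A (fun a => Fintype.card (CLo Cell) +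
      (tix κ + Fintype.card (CHi Cell V) * (j a % (h a + 1)))) :=
    PT.add (PT.const _) (PT.add (PT.const _) (PT.mul (PT.const _)
      (PT.mod hj (PT.add hh (PT.const 1)))))
  have e2 : PBd (fun a => Fintype.card (CLo Cell) +
      (tix κ + Fintype.card (CHi Cell V) * (j a % (h a + 1)))) := by
    refine ((PBd.const (α := α) (Fintype.card (CLo Cell))).add ((PBd.const (tix κ)).add
      ((PBd.const (Fintype.card (CHi Cell V))).mul (hhb.add (PBd.const 1))))).mono fun a => ?_
    have := (Nat.mod_lt (j a) (Nat.succ_pos (h a))).le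
    gcongr
  refine (PTt.dg hc e1 e2).congr fun a => ?_
  unfold decC
  rw [compE_hi]
  rfl

end pt

/-! ### The functional maps of the step -/

section fn

variable {F : Type*} [Field F] [Fintype F] {A : Set Word} {α : Type*} [Enc α]
variable {Cell V : Type*} [Fintype Cell] [DecidableEq Cell] [Fintype V] [DecidableEq V]
variable {h c n : α → ℕ}

theorem rotU_ofNat {h : ℕ} (c : Fin (h + 1) → F) (j : ℕ) :
    rotU c (Fin.ofNat (h + 1) j) =
      if j % (h + 1) < h then c (Fin.ofNat (h + 1) (j % (h + 1) + 1)) else 0 := by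
  by_cases hj : j % (h + 1) < h
  · rw [if_pos hj]
    have e : Fin.ofNat (h + 1) j = (⟨j % (h + 1), hj⟩ : Fin h).castSucc := Fin.ext rfl
    rw [e, rotU, Fin.lastCases_castSucc]
    congr 1
    apply Fin.ext
    exact (Nat.mod_eq_of_lt (a := j % (h + 1) + 1) (by omega)).symm
  · rw [if_neg hj]
    have h1 := Nat.mod_lt j (show 0 < h + 1 by omega)
    have e : Fin.ofNat (h + 1) j = Fin.last h := by
      apply Fin.ext
      show j % (h + 1) = h
      omega
    rw [e, rotU, Fin.lastCases_last]

theorem rotD_ofNat {h : ℕ} (c : Fin (h + 1) → F) (j : ℕ) :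
    rotD c (Fin.ofNat (h + 1) j) =
      if j % (h + 1) = 0 then 0 else c (Fin.ofNat (h + 1) (j % (h + 1) - 1)) := by
  by_cases hj : j % (h + 1) = 0
  · rw [if_pos hj]
    have e : Fin.ofNat (h + 1) j = 0 := Fin.ext hj
    rw [e, rotD, Fin.cases_zero]
  · rw [if_neg hj]
    have h1 := Nat.mod_lt j (show 0 < h + 1 by omega)
    have e : Fin.ofNat (h + 1) j = (⟨j % (h + 1) - 1, by omega⟩ : Fin h).succ := by
      apply Fin.ext
      show j % (h + 1) = j % (h + 1) - 1 + 1
      omega
    rw [e, rotD, Fin.cases_succ]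
    congr 1
    apply Fin.ext
    exact (Nat.mod_eq_of_lt (a := j % (h + 1) - 1) (by omega)).symm

theorem PTt.pushc (hh : PT A h) (hhb : PBd h) (hc : PT A c) (hn : PT A n) (s : Bool) :
    PTt A (fun a => pushc s (decC (h a) (c a)) (decK (h a) (n a) : Comp Cell V (h a)) : α → F) := by
  have g1 : PT A (fun p : α × ℕ => p.1) := PT.fst'
  have hm : PT A (fun p : α × ℕ => p.2 % (h p.1 + 1)) :=
    PT.mod PT.snd' (PT.add (hh.comp g1) (PT.const 1))
  have hlt : PT A (fun p : α × ℕ => decide (p.2 % (h p.1 + 1) < h p.1)) :=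
    PT.lt hm (hh.comp g1)
  refine PTt.compCases (G := fun a => Q.pushc s (decC (h a) (c a))) hn (fun x => ?_) (fun κ => ?_)
  · refine (PTt.decC_lo (V := V) (h := h) hc x).congr fun a => ?_
    rcases x with _ | ⟨σ, e⟩ <;> rfl
  · have e1 := PTt.decC_hi (T := F) (V := V) (hh.comp g1) (PBd.comp hhb g1) (hc.comp g1) PT.snd' κ
    have e2 := PTt.decC_hi (T := F) (V := V) (hh.comp g1) (PBd.comp hhb g1) (hc.comp g1)
      (PT.add hm (PT.const 1)) κ
    have e3 := PTt.ite hlt e2 (PTt.const (0 : F))
    rcases κ with σ | ⟨σ, i⟩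
    · by_cases hσ : σ = s
      · refine e3.congr fun p => ?_
        show _ = (if σ = s then _ else _)
        rw [if_pos hσ, rotU_ofNat]
        rfl
      · refine e1.congr fun p => ?_
        show _ = (if σ = s then _ else _)
        rw [if_neg hσ]
        rfl
    · by_cases hσ : σ = s
      · refine e3.congr fun p => ?_
        show _ = (if σ = s then _ else _)
        rw [if_pos hσ, rotU_ofNat]
        rfl
      · refine e1.congr fun p => ?_
        show _ = (if σ = s then _ else _)
        rw [if_neg hσ]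
        rfl

theorem PTt.popc (hh : PT A h) (hhb : PBd h) (hc : PT A c) (hn : PT A n) (s : Bool) :
    PTt A (fun a => popc s (decC (h a) (c a)) (decK (h a) (n a) : Comp Cell V (h a)) : α → F) := by
  have g1 : PT A (fun p : α × ℕ => p.1) := PT.fst'
  have hm : PT A (fun p : α × ℕ => p.2 % (h p.1 + 1)) :=
    PT.mod PT.snd' (PT.add (hh.comp g1) (PT.const 1))
  have hlt : PT A (fun p : α × ℕ => decide (p.2 % (h p.1 + 1) = 0)) :=
    PT.eqNat hm (PT.const 0)
  refine PTt.compCases (G := fun a => Q.popc s (decC (h a) (c a))) hn (fun x => ?_) (fun κ => ?_)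
  · refine (PTt.decC_lo (V := V) (h := h) hc x).congr fun a => ?_
    rcases x with _ | ⟨σ, e⟩ <;> rfl
  · have e1 := PTt.decC_hi (T := F) (V := V) (hh.comp g1) (PBd.comp hhb g1) (hc.comp g1) PT.snd' κ
    have e2 := PTt.decC_hi (T := F) (V := V) (hh.comp g1) (PBd.comp hhb g1) (hc.comp g1)
      (PT.sub hm (PT.const 1)) κ
    have e3 := PTt.ite hlt (PTt.const (0 : F)) e2
    rcases κ with σ | ⟨σ, i⟩
    · by_cases hσ : σ = s
      · refine e3.congr fun p => ?_
        show _ = (if σ = s then _ else _)
        rw [if_pos hσ, rotD_ofNat]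
        rfl
      · refine e1.congr fun p => ?_
        show _ = (if σ = s then _ else _)
        rw [if_neg hσ]
        rfl
    · by_cases hσ : σ = s
      · refine e3.congr fun p => ?_
        show _ = (if σ = s then _ else _)
        rw [if_pos hσ, rotD_ofNat]
        rfl
      · refine e1.congr fun p => ?_
        show _ = (if σ = s then _ else _)
        rw [if_neg hσ]
        rfl

theorem PTt.flipc (hh : PT A h) (hhb : PBd h) (hc : PT A c) (hn : PT A n) (s : Bool) :
    PTt A (fun a => flipc s (decC (h a) (c a)) (decK (h a) (n a) : Comp Cell V (h a)) : α → F) := by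
  have g1 : PT A (fun p : α × ℕ => p.1) := PT.fst'
  refine PTt.compCases (G := fun a => Q.flipc s (decC (h a) (c a))) hn (fun x => ?_) (fun κ => ?_)
  · have e1 := PTt.decC_lo (T := F) (V := V) (h := h) hc x
    rcases x with _ | ⟨σ, e⟩
    · exact PTt.const 0
    · by_cases hσ : σ = s
      · exact (PTt.const (0 : F)).congr fun a => (if_pos hσ).symm
      · exact e1.congr fun a => (if_neg hσ).symm
  · refine (PTt.decC_hi (T := F) (V := V) (hh.comp g1) (PBd.comp hhb g1) (hc.comp g1) PT.snd'
      κ).congr fun p => ?_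
    rcases κ with σ | ⟨σ, i⟩ <;> rfl

theorem ofNat_eq_zero {h j : ℕ} : Fin.ofNat (h + 1) j = 0 ↔ j % (h + 1) = 0 :=
  ⟨fun e => congrArg Fin.val e, fun e => Fin.ext e⟩

theorem PTt.topc (hh : PT A h) (hhb : PBd h) (hc : PT A c) (hn : PT A n) (s : Bool) :
    PTt A (fun a => topc s (decC (h a) (c a)) (decK (h a) (n a) : Comp Cell V (h a)) : α → F) := by
  have g1 : PT A (fun p : α × ℕ => p.1) := PT.fst'
  have hm : PT A (fun p : α × ℕ => p.2 % (h p.1 + 1)) :=
    PT.mod PT.snd' (PT.add (hh.comp g1) (PT.const 1))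
  have hlt : PT A (fun p : α × ℕ => decide (p.2 % (h p.1 + 1) = 0)) :=
    PT.eqNat hm (PT.const 0)
  refine PTt.compCases (G := fun a => Q.topc s (decC (h a) (c a))) hn (fun x => ?_) (fun κ => ?_)
  · rcases x with _ | ⟨σ, e⟩ <;> exact PTt.const 0
  · have e1 := PTt.decC_hi (T := F) (V := V) (hh.comp g1) (PBd.comp hhb g1) (hc.comp g1) PT.snd' κ
    have e3 := PTt.ite hlt e1 (PTt.const (0 : F))
    rcases κ with σ | ⟨σ, i⟩
    · exact PTt.const 0
    · by_cases hσ : σ = s
      · refine e3.congr fun p => ?_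
        show _ = (if σ = s ∧ _ = 0 then _ else _)
        simp only [hσ, true_and, ofNat_eq_zero]
        rfl
      · refine (PTt.const (0 : F)).congr fun p => ?_
        show _ = (if σ = s ∧ _ = 0 then _ else _)
        rw [if_neg fun e => hσ e.1]

theorem PTt.swapc (hh : PT A h) (hc : PT A c) (hn : PT A n) (s : Bool) (ch : Cell → Chn Cell V) :
    PTt A (fun a => swapc s ch (decC (h a) (c a)) (decK (h a) (n a) : Comp Cell V (h a)) :
      α → F) := by
  have g1 : PT A (fun p : α × ℕ => p.1) := PT.fst'
  have hm : PT A (fun p : α × ℕ => p.2 % (h p.1 + 1)) :=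
    PT.mod PT.snd' (PT.add (hh.comp g1) (PT.const 1))
  have hlt : PT A (fun p : α × ℕ => decide (p.2 % (h p.1 + 1) = 0)) :=
    PT.eqNat hm (PT.const 0)
  have hsum : ∀ (i : Chn Cell V) (l : List Cell), PTt A (fun a => (l.map fun e =>
      if ch e = i then (decC (h a) (c a) (.W s e : Comp Cell V (h a)) : F) else 0).sum) := by
    intro i l
    induction l with
    | nil => exact PTt.const 0
    | cons e l ih =>
      simp only [List.map_cons, List.sum_cons]
      refine PTt.add ?_ ih
      by_cases he : ch e = i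
      · exact (PTt.decC_lo (T := F) (V := V) (h := h) hc (some (s, e))).congr fun a =>
          (if_pos he).symm
      · exact (PTt.const (0 : F)).congr fun a => (if_neg he).symm
  have hsum' : ∀ i : Chn Cell V, PTt A (fun a => ∑ e,
      if ch e = i then (decC (h a) (c a) (.W s e : Comp Cell V (h a)) : F) else 0) := by
    intro i
    refine (hsum i Finset.univ.toList).congr fun a => ?_
    rw [Finset.sum_map_toList]
  refine PTt.compCases (G := fun a => Q.swapc s ch (decC (h a) (c a))) hn (fun x => ?_)
    (fun κ => ?_)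
  · rcases x with _ | ⟨σ, e⟩ <;> exact PTt.const 0
  · rcases κ with σ | ⟨σ, i⟩
    · exact PTt.const 0
    · by_cases hσ : σ = !s
      · refine (PTt.ite hlt ((hsum' i).comp g1) (PTt.const (0 : F))).congr fun p => ?_
        show _ = (if σ = (!s) ∧ _ = 0 then _ else _)
        simp only [hσ, true_and, ofNat_eq_zero]
      · refine (PTt.const (0 : F)).congr fun p => ?_
        show _ = (if σ = (!s) ∧ _ = 0 then _ else _)
        rw [if_neg fun e => hσ e.1]

theorem PTt.unit_lo (hn : PT A n) (x : CLo Cell) (l : F) :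
    PTt A (fun a => unitc (loC x) l (decK (h a) (n a) : Comp Cell V (h a)) : α → F) := by
  refine PTt.compCases (G := fun a => unitc (loC x) l) hn (fun x' => ?_) (fun κ => ?_)
  · exact (PTt.const (A := A) (α := α) (if (loC x' : Comp Cell V 0) = loC x then l else 0)).congr
      fun a => by
        unfold unitc
        refine if_congr ?_ rfl rfl
        rcases x with _ | ⟨σ, e⟩ <;> rcases x' with _ | ⟨σ', e'⟩ <;> simp [loC]
  · refine (PTt.const (0 : F)).congr fun p => ?_
    unfold unitc
    rw [if_neg]
    rcases x with _ | ⟨σ, e⟩ <;> rcases κ with σ' | ⟨σ', i'⟩ <;> simp [loC, hiC]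

theorem PTt.unit_T (hh : PT A h) (hn : PT A n) (s : Bool) (l : F) :
    PTt A (fun a => unitc (.T s (Fin.last (h a))) l (decK (h a) (n a) : Comp Cell V (h a)) :
      α → F) := by
  have g1 : PT A (fun p : α × ℕ => p.1) := PT.fst'
  have hm : PT A (fun p : α × ℕ => p.2 % (h p.1 + 1)) :=
    PT.mod PT.snd' (PT.add (hh.comp g1) (PT.const 1))
  refine PTt.compCases (G := fun a => unitc (.T s (Fin.last (h a))) l) hn (fun x => ?_)
    (fun κ => ?_)
  · refine (PTt.const (0 : F)).congr fun p => ?_
    unfold unitc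
    rw [if_neg]
    rcases x with _ | ⟨σ, e⟩ <;> simp [loC]
  · rcases κ with σ | ⟨σ, i⟩
    · by_cases hσ : σ = s
      · refine (PTt.ite (PT.eqNat hm (hh.comp g1)) (PTt.const l) (PTt.const (0 : F))).congr
          fun p => ?_
        unfold unitc
        refine if_congr ?_ rfl rfl
        show _ ↔ Comp.T σ (Fin.ofNat (h p.1 + 1) p.2) = Comp.T s (Fin.last (h p.1))
        rw [Comp.T.injEq, Fin.ext_iff]
        exact ⟨fun e => ⟨hσ, e⟩, fun e => e.2⟩
      · refine (PTt.const (0 : F)).congr fun p => ?_
        unfold unitc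
        rw [if_neg]
        show Comp.T σ (Fin.ofNat (h p.1 + 1) p.2) ≠ Comp.T s (Fin.last (h p.1))
        simp [hσ]
    · refine (PTt.const (0 : F)).congr fun p => ?_
      unfold unitc
      rw [if_neg]
      simp [hiC]

theorem PTt.nec (hn : PT A n) (s : Bool) (l : F) :
    PTt A (fun a => nec s l (decK (h a) (n a) : Comp Cell V (h a)) : α → F) := by
  refine PTt.compCases (G := fun a => Q.nec s l) hn (fun x => ?_) (fun κ => ?_)
  · rcases x with _ | ⟨σ, e⟩ <;> exact PTt.const 0
  · rcases κ with σ | ⟨σ, i⟩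
    · exact PTt.const (if σ = s then l else 0)
    · exact PTt.const 0

/-- **The functional maps of the step, on numbers.** -/
theorem PTt.akfn {B : ℕ} (hh : PT A h) (hhb : PBd h) (hc : PT A c) (hn : PT A n) (l₁ : F)
    (k : AK F Cell B) :
    PTt A (fun a => k.fn l₁ (decC (h a) (c a)) (decK (h a) (n a) : Comp Cell V (h a)) :
      α → F) := by
  cases k with
  | push s => exact PTt.pushc hh hhb hc hn s
  | pop s => exact PTt.popc hh hhb hc hn s
  | flip s => exact PTt.flipc hh hhb hc hn s
  | top s b => exact PTt.topc hh hhb hc hn s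
  | swap s r => exact PTt.swapc hh hc hn s _
  | wv s t e l => exact PTt.unit_lo hn (some (s, e)) l
  | full s => exact PTt.unit_T hh hn s l₁
  | ne s => exact PTt.nec hn s l₁
  | rel => exact PTt.unit_lo hn none l₁

end fn

end Vale.Agent.P330.Q
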