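import Vale.Agent.P330.Q.CbVal
import Vale.Agent.P330.Q.CbPar
import Vale.Agent.P330.Q.NumComp
import Vale.Agent.P330.Q.Inst

/-!
# The start word on numbers
-/

namespace Vale.Agent.P330.Q

open Finset Vale.Agent.Lib.PolyTime
open S (Inst Spec)
open S.Mach (spec prm Prm)

/-! ### The predecessor of the start configuration -/

/-- Going back from the start configuration: the arrays are exchanged. -/
theorem step_true_w0 (I : EndOfLine) (j : (famQ I).J) :
    (famQ I).step true (famQ I).w0 j = S.Mach.jmp .B4 true ((famQ I).w0 j) := by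
  obtain ⟨h, H⟩ := (famQ_facts I).head _ (famQ_facts I).valid0
  have hW : (prm I).W < (prm I).R * (prm I).W := (goodQ I).W_lt
  have hW2 := (goodQ I).W2
  -- the cell of the head
  have e1 : (famQ I).w0 h = (prm I).w0 (prm I).W := by
    have h1 : S.Mach.Cell.hd ((famQ I).w0 h) = true := H.1
    have h2 : ((prm I).w0 (S.Mach.posn (famQ I).L ((prm I).R * (prm I).W) h)).hd = true := h1
    have h3 : S.Mach.posn (famQ I).L ((prm I).R * (prm I).W) h = (prm I).W := by
      simpa [Prm.w0] using h2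
    show (prm I).w0 (S.Mach.posn (famQ I).L ((prm I).R * (prm I).W) h) = _
    rw [h3]
  have hst : ((prm I).st (prm I).W).isW = true := by
    unfold Prm.st
    rw [if_neg (by omega), if_pos hW]
    simp
  have hrule : spec.rule true (Inst.around (famQ I).w0 h) =
      (S.Mach.jmp .B4 true, fun o => S.Mach.jmp .B4 true (Inst.around (famQ I).w0 h o)) := by
    have hx : Inst.around (famQ I).w0 h S.Mach.Off.o0 = (prm I).w0 (prm I).W := by
      rw [← e1]
      show (famQ I).w0 (h + (famQ I).off spec.zero) = _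
      rw [(famQ I).off_zero, add_zero]
    show S.Mach.doAct _ (S.Mach.actOf true (Inst.around (famQ I).w0 h S.Mach.Off.o0)) = _
    rw [hx]
    have hact : S.Mach.actOf true ((prm I).w0 (prm I).W) = .jump .B4 true .o0 := by
      show (if ((prm I).st (prm I).W).isW then S.Mach.Act.jump .B4 true .o0
        else .unfill false) = _
      rw [if_pos hst]
    rw [hact]
    rfl
  by_cases hj : ∃ o, spec.upd o = true ∧ j = h + (famQ I).off o
  · obtain ⟨o, ho, rfl⟩ := hj
    rw [Inst.step_upd H true ho, hrule]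
    rfl
  · push Not at hj
    rw [Inst.step_off H true hj, hrule]

section

variable {A : Set Word} {β : Type*} [Enc β] {f : β → EndOfLine}

theorem DP_pred_w0 (hf : PT A f) {a : β → ℕ} (ha : PT A a) (s : spec.Cell) :
    DP A (fun x => (famQ (f x)).step true (famQ (f x)).w0 (ptQ (f x) (a x)) = s) := by
  have : Finite spec.Cell := inferInstance
  refine (DP.exists (κ := spec.Cell) (p := fun t x =>
    (famQ (f x)).w0 (ptQ (f x) (a x)) = t ∧ S.Mach.jmp .B4 true t = s) fun t =>
      (DP_w0 hf ha t).and (DP.const _)).congr fun x => ?_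
  rw [step_true_w0]
  constructor
  · rintro ⟨t, rfl, h⟩
    exact h
  · intro h
    exact ⟨_, rfl, h⟩

end

/-- The base configurations of the start state. -/
noncomputable def base0 (I : EndOfLine) (s : Bool) : (famQ I).J → spec.Cell :=
  if s then (famQ I).w0 else (famQ I).step true (famQ I).w0

theorem DP_base0 {A : Set Word} {β : Type*} [Enc β] {f : β → EndOfLine} (hf : PT A f)
    {a : β → ℕ} (ha : PT A a) (s : Bool) (e : spec.Cell) :
    DP A (fun x => base0 (f x) s (ptQ (f x) (a x)) = e) := by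
  cases s
  · exact DP_pred_w0 hf ha e
  · exact DP_w0 hf ha e


/-! ### The start word -/

theorem sum_fin_succ_range {M : Type*} [AddCommMonoid M] (h : ℕ) (f : Fin (h + 1) → M) :
    ∑ j, f j = ∑ n ∈ range (h + 1), f (Fin.ofNat (h + 1) n) := by
  rw [← Fin.sum_univ_eq_sum_range (fun n => f (Fin.ofNat (h + 1) n))]
  refine Finset.sum_congr rfl fun j _ => congrArg f ?_
  apply Fin.ext
  exact (Nat.mod_eq_of_lt j.2).symm

/-- heights of the start state -/
def ht0 (h : ℕ) (s : Bool) : ℕ := if s then h + 1 else h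

section generic

variable {F : Type*} [Field F] {h B : ℕ} {Y Cell V X : Type*} [AddCommGroup Y]
  [Fintype Cell] [DecidableEq Cell] [Fintype V] [DecidableEq V] (M : DomData F h B Y Cell V X)

/-- The base of a side in the start state. -/
def DomData.b0 (s : Bool) : X := if s then M.D.w0 else M.D.step true M.D.w0

omit [Fintype V] [DecidableEq V] in
theorem word_st0_S (ρ y : Y) (s : Bool) (i : Chn Cell V) (j : Fin (h + 1)) :
    M.word (M.D.st0 (h + 1)) (ρ, y) (.S s i j) =
      if (j : ℕ) < ht0 h s then M.vv i (M.cd (M.b0 s)) (ht0 h s - 1 - j) ρ y else 0 := by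
  cases s <;> rfl

omit [Fintype V] [DecidableEq V] in
theorem word_st0_T (ρ y : Y) (s : Bool) (j : Fin (h + 1)) :
    M.word (M.D.st0 (h + 1)) (ρ, y) (.T s j) = if (j : ℕ) + 1 = ht0 h s then 1 else 0 := by
  cases s <;> rfl

/-- The value of a functional at the start word. -/
theorem pair_st0 (c : Comp Cell V h → F) (ρ y : Y) :
    pair c (M.word (M.D.st0 (h + 1)) (ρ, y)) =
      c (loC none) + (∑ s : Bool, ∑ e : Cell, c (loC (some (s, e))) * M.cd (M.b0 s) e y) +
      (∑ s : Bool, ∑ j ∈ range (h + 1), c (hiC (.inl s) (Fin.ofNat (h + 1) j)) *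
        if j + 1 = ht0 h s then 1 else 0) +
      ∑ s : Bool, ∑ i : Chn Cell V, ∑ j ∈ range (h + 1),
        c (hiC (.inr (s, i)) (Fin.ofNat (h + 1) j)) *
        if j < ht0 h s then M.vv i (M.cd (M.b0 s)) (ht0 h s - 1 - j) ρ y else 0 := by
  rw [pair, Comp.sum_eq]
  congr 1
  · congr 1
    · congr 1
      exact mul_one _
    · refine Finset.sum_congr rfl fun s _ => ?_
      rw [sum_fin_succ_range]
      refine Finset.sum_congr rfl fun j hj => ?_
      rw [word_st0_T]
      have hj' : ((Fin.ofNat (h + 1) j : Fin (h + 1)) : ℕ) = j :=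
        Nat.mod_eq_of_lt (mem_range.1 hj)
      rw [hj']
      rfl
  · refine Finset.sum_congr rfl fun s _ => Finset.sum_congr rfl fun i _ => ?_
    rw [sum_fin_succ_range]
    refine Finset.sum_congr rfl fun j hj => ?_
    rw [word_st0_S]
    have hj' : ((Fin.ofNat (h + 1) j : Fin (h + 1)) : ℕ) = j :=
      Nat.mod_eq_of_lt (mem_range.1 hj)
    rw [hj']
    rfl

end generic

namespace ENum

variable {A : Set Word} {K : Type} [Field K] [Fintype K] {h : EndOfLine → ℕ}
  [∀ I, NeZero (h I)] {Y : EndOfLine → Type} [∀ I, AddCommGroup (Y I)]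
  {D : ∀ I, ESys K (h I) (Y I)} (N : ENum A h D) {B : ℕ} (σ : PSlot spec ≃ Fin B)

/-- The codes of the bases of the start state, on numbers. -/
noncomputable def cdN (I : EndOfLine) (s : Bool) (e : spec.Cell) (y : ℕ) : K :=
  N.code I (kQ I) (fun m => @ite _ (base0 I s (ptQ I m) = e) (Classical.propDecidable _) 1 0) y

theorem cdN_num (I : EndOfLine) (s : Bool) (e : spec.Cell) (y : Y I) :
    N.cdN I s e (N.num I y) =
      (domData (D I) (famQ I) (famQ_facts I) σ (epsQ I)).cd
        ((domData (D I) (famQ I) (famQ_facts I) σ (epsQ I)).b0 s) e y := by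
  show _ = (D I).code (arr (famQ I) (epsQ I) (base0 I s) e) y
  rw [← N.code_num]
  unfold cdN
  refine congrArg (fun x => N.code I (kQ I) x (N.num I y)) (funext fun m => ?_)
  unfold arr onehot
  simp only [epsQ_symm_adr]
  split_ifs <;> rfl

omit [∀ I, NeZero (h I)] in
theorem PT_cdN {β : Type} [Enc β] {g : β → EndOfLine} {y : β → ℕ} (hg : PT A g) (hy : PT A y)
    (s : Bool) (e : spec.Cell) : PTt A (fun b => N.cdN (g b) s e (y b)) := by
  refine N.PT_code hg (PT_kQ hg) (PBd_LQ hg) (x := fun b m =>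
    @ite _ (base0 (g b) s (ptQ (g b) m) = e) (Classical.propDecidable _) 1 0) ?_ hy
  have h1 : DP A (fun p : β × ℕ => base0 (g p.1) s (ptQ (g p.1) (min p.2 (2 ^ kQ (g p.1)))) = e) :=
    DP_base0 (hg.comp PT.fst') (PT.min PT.snd' (PT_LQ (hg.comp PT.fst'))) s e
  refine (PTt.boolK (K := K) h1).congr fun p => ?_
  simp only [decide_eq_true_eq]
  split_ifs <;> rfl

variable [DecidableEq (VOut spec)]

/-- The value of a functional at the start word, on numbers. -/
noncomputable def startN (I : EndOfLine) (c ρ y : ℕ) : K :=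
  decC (h I) c (loC none : Comp spec.Cell (VOut spec) (h I)) +
  (∑ s : Bool, ∑ e : spec.Cell, decC (h I) c (loC (some (s, e)) : Comp spec.Cell (VOut spec) (h I)) *
    N.cdN I s e y) +
  (∑ s : Bool, ∑ j ∈ range (h I + 1),
    decC (h I) c (hiC (.inl s) (Fin.ofNat (h I + 1) j) : Comp spec.Cell (VOut spec) (h I)) *
    if j + 1 = ht0 (h I) s then 1 else 0) +
  ∑ s : Bool, ∑ i : Chn spec.Cell (VOut spec), ∑ j ∈ range (h I + 1),
    decC (h I) c (hiC (.inr (s, i)) (Fin.ofNat (h I + 1) j) : Comp spec.Cell (VOut spec) (h I)) *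
    if j < ht0 (h I) s then N.vvN σ i I (N.cdN I s) (ht0 (h I) s - 1 - j) ρ y else 0

theorem startN_num (I : EndOfLine) (c : ℕ) (ρ y : Y I) :
    N.startN σ I c (N.num I ρ) (N.num I y) =
      pair (decC (h I) c) ((domData (D I) (famQ I) (famQ_facts I) σ (epsQ I)).word
        ((domData (D I) (famQ I) (famQ_facts I) σ (epsQ I)).D.st0 (h I + 1)) (ρ, y)) := by
  rw [pair_st0]
  unfold startN
  have hle : ∀ s, ht0 (h I) s ≤ h I + 1 := by
    intro s
    cases s <;> simp [ht0]
  congr 1
  · congr 1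
    congr 1
    refine Finset.sum_congr rfl fun s _ => Finset.sum_congr rfl fun e _ => ?_
    rw [N.cdN_num σ]
  · refine Finset.sum_congr rfl fun s _ => Finset.sum_congr rfl fun i _ => ?_
    refine Finset.sum_congr rfl fun j hj => ?_
    congr 1
    split_ifs with hlt
    · refine N.vvN_num σ i I (fun e y => N.cdN_num σ I s e y) ?_ ρ y
      have := hle s
      omega
    · rfl

omit [∀ I, NeZero (h I)] in
/-- **The start word in polynomial time.** -/
theorem PT_startN {β : Type} [Enc β] {g : β → EndOfLine} {c ρ y : β → ℕ} (hg : PT A g)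
    (hc : PT A c) (hρ : PT A ρ) (hy : PT A y) :
    PTt A (fun b => N.startN σ (g b) (c b) (ρ b) (y b)) := by
  have hh : PT A (fun b => h (g b)) := N.PT_h.comp hg
  have hb2 : PBd (fun b => 2 ^ h (g b)) := N.PB_h.comp hg
  have hhb : PBd (fun b => h (g b)) := N.PB_h'.comp hg
  have hg1 : PT A (fun p : β × ℕ => g p.1) := hg.comp PT.fst'
  have hh1 : PT A (fun p : β × ℕ => h (g p.1)) := hh.comp PT.fst'
  have hhb1 : PBd (fun p : β × ℕ => h (g p.1)) := pbFst hhb
  have hc1 : PT A (fun p : β × ℕ => c p.1) := hc.comp PT.fst'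
  have hht : ∀ s, PT A (fun p : β × ℕ => ht0 (h (g p.1)) s) := by
    intro s
    cases s
    · exact hh1
    · exact PT.add hh1 (PT.const 1)
  have hhi : ∀ κ : CHi spec.Cell (VOut spec), PTt A (fun p : β × ℕ =>
      (decC (h (g p.1)) (c p.1) (hiC κ (Fin.ofNat (h (g p.1) + 1) p.2)) : K)) := fun κ =>
    PTt.decC_hi (h := fun p : β × ℕ => h (g p.1)) hh1 hhb1 hc1 PT.snd' κ
  refine PTt.add (PTt.add (PTt.add ?_ ?_) ?_) ?_
  · exact PTt.decC_lo (h := fun b => h (g b)) hc none
  · refine PTt.sumF (κ := Bool) (f := fun s b => ∑ e : spec.Cell,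
      decC (h (g b)) (c b) (loC (some (s, e)) : Comp spec.Cell (VOut spec) (h (g b))) *
        N.cdN (g b) s e (y b)) univ fun s => ?_
    refine PTt.sumF (κ := spec.Cell) (f := fun e b =>
      decC (h (g b)) (c b) (loC (some (s, e)) : Comp spec.Cell (VOut spec) (h (g b))) *
        N.cdN (g b) s e (y b)) univ fun e => ?_
    exact PTt.mul (PTt.decC_lo (h := fun b => h (g b)) hc _) (N.PT_cdN hg hy s e)
  · refine PTt.sumF (κ := Bool) (f := fun s b => ∑ j ∈ range (h (g b) + 1),
      decC (h (g b)) (c b) (hiC (.inl s) (Fin.ofNat (h (g b) + 1) j) :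
        Comp spec.Cell (VOut spec) (h (g b))) *
      if j + 1 = ht0 (h (g b)) s then 1 else 0) univ fun s => ?_
    refine PTt.sum' (PT.add hh (PT.const 1)) (hhb.add (PBd.const 1))
      (f := fun b j => decC (h (g b)) (c b) (hiC (.inl s) (Fin.ofNat (h (g b) + 1) j) :
        Comp spec.Cell (VOut spec) (h (g b))) *
      if j + 1 = ht0 (h (g b)) s then 1 else 0) ?_
    exact PTt.mul (hhi (.inl s)) (PTt.ite (PT.eqNat (PT.add PT.snd' (PT.const 1)) (hht s))
      (PTt.const 1) (PTt.const 0))
  · refine PTt.sumF (κ := Bool) (f := fun s b => ∑ i : Chn spec.Cell (VOut spec),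
      ∑ j ∈ range (h (g b) + 1),
      decC (h (g b)) (c b) (hiC (.inr (s, i)) (Fin.ofNat (h (g b) + 1) j) :
        Comp spec.Cell (VOut spec) (h (g b))) *
      if j < ht0 (h (g b)) s then N.vvN σ i (g b) (N.cdN (g b) s)
        (ht0 (h (g b)) s - 1 - j) (ρ b) (y b) else 0) univ fun s => ?_
    refine PTt.sumF (κ := Chn spec.Cell (VOut spec)) (f := fun i b =>
      ∑ j ∈ range (h (g b) + 1),
      decC (h (g b)) (c b) (hiC (.inr (s, i)) (Fin.ofNat (h (g b) + 1) j) :
        Comp spec.Cell (VOut spec) (h (g b))) *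
      if j < ht0 (h (g b)) s then N.vvN σ i (g b) (N.cdN (g b) s)
        (ht0 (h (g b)) s - 1 - j) (ρ b) (y b) else 0) univ fun i => ?_
    refine PTt.sum' (PT.add hh (PT.const 1)) (hhb.add (PBd.const 1))
      (f := fun b j => decC (h (g b)) (c b) (hiC (.inr (s, i)) (Fin.ofNat (h (g b) + 1) j) :
        Comp spec.Cell (VOut spec) (h (g b))) *
      if j < ht0 (h (g b)) s then N.vvN σ i (g b) (N.cdN (g b) s)
        (ht0 (h (g b)) s - 1 - j) (ρ b) (y b) else 0) ?_
    refine PTt.mul (hhi (.inr (s, i))) (PTt.ite (PT.lt PT.snd' (hht s)) ?_ (PTt.const 0))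
    refine N.PT_vvN σ i (W := fun (p : β × ℕ) => N.cdN (g p.1) s) hg1
      (fun e => N.PT_cdN (hg1.comp PT.fst') PT.snd' s e)
      (PT.sub (PT.sub (hht s) (PT.const 1)) PT.snd') ?_ (hρ.comp PT.fst') (hy.comp PT.fst')
    refine (pbFst hb2).mono fun p => Nat.pow_le_pow_right (by norm_num) ?_
    have : ht0 (h (g p.1)) s ≤ h (g p.1) + 1 := by cases s <;> simp [ht0]
    omega

end ENum

end Vale.Agent.P330.Q
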