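import Vale.Agent.P318.H591.Dirs
import Vale.Agent.P330.Q.LTC.Defs
import Vale.Agent.P330.Q.Bias

/-!
# Directions: additive homs from the field, their bias, injective ones, products, moves

`ax : κ → F →+ Y` are the axes of `Y` (for `Y = F ^ κ / W`: the classes of `u e_j`).
`Spread δ ax` : every nonzero `f : Y →+ ZMod 2` is nonzero on at least `δ |κ|` of the axes.
`tdir ax i`, `i : Fin t → F × κ` : the hom `u ↦ ∑ k, ax (i k).2 (u * (i k).1)`.
-/

namespace Vale.Agent.P330.Q

open Finset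
open scoped BigOperators
open Vale.Agent.P318.S (sgn CharBd)
open Vale.Agent.P318.H591

/-! ### Families of homs -/

section fam

variable {F : Type*} [Field F] {Y Y' : Type*} [AddCommGroup Y] [AddCommGroup Y']
  {ι ι' : Type*} [Fintype ι] [Fintype ι']

lemma Spr.mono {ρ : ι → F →+ Y} {lam lam' : ℝ} (h : Spr ρ lam) (hl : lam ≤ lam') :
    Spr ρ lam' := fun u hu => (h u hu).mono hl

lemma Spr.comp_equiv {ρ : ι → F →+ Y} {lam : ℝ} (h : Spr ρ lam) (e : ι' ≃ ι) :
    Spr (fun i => ρ (e i)) lam := fun u hu => (h u hu).comp_equiv e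

lemma Spr.map {ρ : ι → F →+ Y} {lam : ℝ} (h : Spr ρ lam) (g : Y →+ Y')
    (hg : Function.Surjective g) : Spr (fun i => g.comp (ρ i)) lam :=
  fun u hu => (h u hu).map g hg

/-- Product of two families. -/
def pdir (ρ : ι → F →+ Y) (ρ' : ι' → F →+ Y') (p : ι × ι') : F →+ Y × Y' :=
  (ρ p.1).prod (ρ' p.2)

omit [Fintype ι] [Fintype ι'] in
@[simp] lemma pdir_apply (ρ : ι → F →+ Y) (ρ' : ι' → F →+ Y') (p : ι × ι') (u : F) :
    pdir ρ ρ' p u = (ρ p.1 u, ρ' p.2 u) := rfl

lemma charBd_prod [Nonempty ι] [Nonempty ι'] {r : ι → Y} {r' : ι' → Y'} {lam : ℝ}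
    (h : CharBd r lam) (h' : CharBd r' lam) :
    CharBd (fun p : ι × ι' => (r p.1, r' p.2)) lam := by
  rw [charBd_iff] at h h' ⊢
  intro f hf
  set f1 : Y →+ ZMod 2 := f.comp (AddMonoidHom.inl Y Y') with hf1
  set f2 : Y' →+ ZMod 2 := f.comp (AddMonoidHom.inr Y Y') with hf2
  have hsplit : ∀ y y', f (y, y') = f1 y + f2 y' := by
    intro y y'
    rw [hf1, hf2, AddMonoidHom.comp_apply, AddMonoidHom.comp_apply, ← map_add]
    simp
  have h1 : ∑ p : ι × ι', sgn (f (r p.1, r' p.2)) =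
      (∑ i, sgn (f1 (r i))) * ∑ j, sgn (f2 (r' j)) := by
    rw [Fintype.sum_prod_type, Finset.sum_mul_sum]
    refine Finset.sum_congr rfl fun i _ => Finset.sum_congr rfl fun j _ => ?_
    rw [hsplit, sgn_add]
  rw [h1, abs_mul, Fintype.card_prod]
  push_cast
  have e1 := abs_sum_sgn_le r f1
  have e2 := abs_sum_sgn_le r' f2
  by_cases h0 : f1 = 0
  · have h0' : f2 ≠ 0 := by
      intro h2
      apply hf
      ext p
      obtain ⟨y, y'⟩ := p
      rw [hsplit, h0, h2]
      simp
    have := h' f2 h0'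
    calc |∑ i, sgn (f1 (r i))| * |∑ j, sgn (f2 (r' j))|
        ≤ Fintype.card ι * (lam * Fintype.card ι') :=
          mul_le_mul e1 this (abs_nonneg _) (Nat.cast_nonneg _)
      _ = lam * (Fintype.card ι * Fintype.card ι') := by ring
  · have := h f1 h0
    calc |∑ i, sgn (f1 (r i))| * |∑ j, sgn (f2 (r' j))|
        ≤ (lam * Fintype.card ι) * Fintype.card ι' :=
          mul_le_mul this e2 (abs_nonneg _) ((abs_nonneg _).trans this)
      _ = lam * (Fintype.card ι * Fintype.card ι') := by ring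

theorem Spr.prod [Nonempty ι] [Nonempty ι'] {ρ : ι → F →+ Y} {ρ' : ι' → F →+ Y'} {lam : ℝ}
    (h : Spr ρ lam) (h' : Spr ρ' lam) : Spr (pdir ρ ρ') lam := by
  intro u hu
  have h1 := charBd_prod (r := fun i => ρ i u) (r' := fun i => ρ' i u) (h u hu) (h' u hu)
  simp only [pdir_apply]
  exact h1

/-! ### Restriction to most of the indices -/

omit [AddCommGroup Y'] [Fintype ι'] in
lemma card_sub_add (P : ι → Prop) [DecidablePred P] :
    (Fintype.card {i // P i} : ℝ) + ((univ.filter fun i => ¬ P i).card : ℝ) =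
      Fintype.card ι := by
  have h1 : Fintype.card {i // P i} = (univ.filter fun i => P i).card := Fintype.card_subtype _
  have h2 := Finset.card_filter_add_card_filter_not (s := (univ : Finset ι)) P
  rw [h1]
  rw [Finset.card_univ] at h2
  rw [← h2]
  push_cast
  ring

lemma nonempty_sub [Nonempty ι] (P : ι → Prop) [DecidablePred P] {z : ℝ}
    (hz : ((univ.filter fun i => ¬ P i).card : ℝ) ≤ z * Fintype.card ι) (hz1 : z < 1) :
    Nonempty {i // P i} := by
  have h4 := card_sub_add P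
  have h5 : (0 : ℝ) < Fintype.card ι := by exact_mod_cast Fintype.card_pos
  have h6 : (0 : ℝ) < Fintype.card {i // P i} := by nlinarith
  exact Fintype.card_pos_iff.1 (by exact_mod_cast h6)

/-- Arithmetic of the restriction. -/
lemma sub_arith {lam z n b m S T : ℝ} (hl : 0 ≤ lam) (hz : b ≤ z * n) (hz1 : z < 1)
    (hm : m + b = n) (hS : S ≤ lam * n) (hT : T ≤ b) :
    S + T ≤ (lam + z) / (1 - z) * m := by
  have h9 : 0 < 1 - z := by linarith
  have h10 : m = n - b := by linarith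
  rw [div_mul_eq_mul_div, le_div_iff₀ h9, h10]
  have h12 : (S + T) * (1 - z) ≤ (lam * n + b) * (1 - z) :=
    mul_le_mul_of_nonneg_right (add_le_add hS hT) h9.le
  have h13 : 0 ≤ (1 + lam) * (z * n - b) := mul_nonneg (by linarith) (by linarith)
  linarith [h12, h13, (by ring : (lam + z) * (n - b) =
    (lam * n + b) * (1 - z) + (1 + lam) * (z * n - b))]

lemma charBd_sub [Nonempty ι] (P : ι → Prop) [DecidablePred P] {r : ι → Y} {lam z : ℝ}
    (h : CharBd r lam) (hl : 0 ≤ lam)
    (hz : ((univ.filter fun i => ¬ P i).card : ℝ) ≤ z * Fintype.card ι) (hz1 : z < 1) :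
    CharBd (fun i : {i // P i} => r i) ((lam + z) / (1 - z)) := by
  have hne := nonempty_sub P hz hz1
  have h4 := card_sub_add P
  rw [charBd_iff] at h ⊢
  intro f hf
  have h6 := h f hf
  have a1 : ∑ i : {i // P i}, sgn (f (r i)) =
      ∑ i ∈ univ.filter (fun i => P i), sgn (f (r i)) :=
    (Finset.sum_subtype _ (fun c => by simp) (fun i => sgn (f (r i)))).symm
  have a2 := Finset.sum_filter_add_sum_filter_not univ P (fun i => sgn (f (r i)))
  have a3 : |∑ i ∈ univ.filter (fun i => ¬ P i), sgn (f (r i))| ≤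
      ((univ.filter fun i => ¬ P i).card : ℝ) := by
    refine (Finset.abs_sum_le_sum_abs _ _).trans ?_
    simp [abs_sgn]
  have a4 : ∑ i : {i // P i}, sgn (f (r i)) =
      (∑ i, sgn (f (r i))) - ∑ i ∈ univ.filter (fun i => ¬ P i), sgn (f (r i)) := by
    rw [a1]
    linarith
  rw [a4]
  exact (abs_sub _ _).trans (sub_arith hl hz hz1 h4 h6 a3)

theorem Spr.sub [Nonempty ι] (P : ι → Prop) [DecidablePred P] {ρ : ι → F →+ Y} {lam z : ℝ}
    (h : Spr ρ lam) (hl : 0 ≤ lam)
    (hz : ((univ.filter fun i => ¬ P i).card : ℝ) ≤ z * Fintype.card ι) (hz1 : z < 1) :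
    Spr (fun i : {i // P i} => ρ i) ((lam + z) / (1 - z)) :=
  fun u hu => charBd_sub P (h u hu) hl hz hz1

/-- Few homs of a biased family are not injective. -/
theorem Spr.card_not_injective [Fintype F] [Fintype Y] [Nonempty ι] (h2 : ∀ y : Y, y + y = 0)
    {ρ : ι → F →+ Y} {lam : ℝ} (h : Spr ρ lam) (hl : 0 ≤ lam)
    [DecidablePred fun i => ¬ Function.Injective (ρ i)] :
    ((univ.filter fun i => ¬ Function.Injective (ρ i)).card : ℝ) ≤
      (Fintype.card F * (lam + 1 / Fintype.card Y)) * Fintype.card ι := by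
  classical
  have hsub : (univ.filter fun i => ¬ Function.Injective (ρ i)) ⊆
      (univ.filter fun u : F => u ≠ 0).biUnion fun u => univ.filter fun i => ρ i u = 0 := by
    intro i hi
    rw [mem_filter] at hi
    have h3 : ∃ u, ρ i u = 0 ∧ u ≠ 0 := by
      by_contra hcon
      push Not at hcon
      exact hi.2 ((injective_iff_map_eq_zero (ρ i)).2 hcon)
    obtain ⟨u, hu0, hu⟩ := h3
    rw [mem_biUnion]
    exact ⟨u, by simpa using hu, by simpa using hu0⟩
  have hc : ((univ.filter fun i => ¬ Function.Injective (ρ i)).card : ℝ) ≤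
      ∑ u ∈ univ.filter fun u : F => u ≠ 0, ((univ.filter fun i => ρ i u = 0).card : ℝ) := by
    exact_mod_cast (Finset.card_le_card hsub).trans Finset.card_biUnion_le
  refine hc.trans ?_
  have h5 : ∀ u ∈ univ.filter (fun u : F => u ≠ 0),
      ((univ.filter fun i => ρ i u = 0).card : ℝ) ≤
        (lam + 1 / Fintype.card Y) * Fintype.card ι := by
    intro u hu
    exact card_zero_le h2 (h u (by simpa using hu)) hl
  refine (Finset.sum_le_sum h5).trans ?_
  rw [Finset.sum_const, nsmul_eq_mul, mul_assoc]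
  refine mul_le_mul_of_nonneg_right ?_ (by positivity)
  have : (univ.filter fun u : F => u ≠ 0).card ≤ Fintype.card F := by
    rw [← Finset.card_univ]
    exact Finset.card_filter_le _ _
  exact_mod_cast this

end fam

/-! ### Sums of axis directions -/

section axes

variable {F : Type*} [Field F] {Y Y' : Type*} [AddCommGroup Y] [AddCommGroup Y']
  {κ : Type*} {t : ℕ}

/-- The elementary direction `u ↦ ax j (u * c)`. -/
def edir (ax : κ → F →+ Y) (p : F × κ) : F →+ Y := (ax p.2).comp (AddMonoidHom.mulRight p.1)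

@[simp] lemma edir_apply (ax : κ → F →+ Y) (p : F × κ) (u : F) :
    edir ax p u = ax p.2 (u * p.1) := rfl

/-- The direction `u ↦ ∑ k, ax (i k).2 (u * (i k).1)`. -/
def tdir (ax : κ → F →+ Y) (i : Fin t → F × κ) : F →+ Y := ∑ k, edir ax (i k)

lemma tdir_apply (ax : κ → F →+ Y) (i : Fin t → F × κ) (u : F) :
    tdir ax i u = ∑ k, ax (i k).2 (u * (i k).1) := by
  rw [tdir, AddMonoidHom.finsetSum_apply]
  rfl

/-- Every nonzero functional is nonzero on at least `δ |κ|` axes. -/
def Spread [Fintype κ] (δ : ℝ) (ax : κ → F →+ Y) : Prop :=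
  ∀ f : Y →+ ZMod 2, f ≠ 0 →
    δ * Fintype.card κ ≤ (Nat.card {j : κ // f.comp (ax j) ≠ 0} : ℝ)

lemma natCard_add [Fintype κ] (ax : κ → F →+ Y) (f : Y →+ ZMod 2) :
    (Nat.card {j : κ // f.comp (ax j) ≠ 0} : ℝ) + (Nat.card {j : κ // f.comp (ax j) = 0} : ℝ) =
      Fintype.card κ := by
  classical
  have h := card_sub_add (ι := κ) (fun j => f.comp (ax j) ≠ 0)
  rw [Nat.card_eq_fintype_card, Nat.card_eq_fintype_card, ← h]
  congr 2
  rw [Fintype.card_subtype]
  congr 1
  ext j
  simp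

/-- The sign sum over the elementary directions counts the axes on which `f` is zero. -/
lemma sum_edir [Fintype F] [Fintype κ] (ax : κ → F →+ Y) (f : Y →+ ZMod 2) {u : F} (hu : u ≠ 0) :
    ∑ p : F × κ, sgn (f (edir ax p u)) =
      (Nat.card {j : κ // f.comp (ax j) = 0} : ℝ) * Fintype.card F := by
  classical
  rw [Fintype.sum_prod_type_right]
  have h1 : ∀ j : κ, ∑ c : F, sgn (f (edir ax (c, j) u)) =
      if f.comp (ax j) = 0 then (Fintype.card F : ℝ) else 0 := by
    intro j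
    have h2 : ∑ c : F, sgn (f (edir ax (c, j) u)) = ∑ c : F, sgn ((f.comp (ax j)) c) :=
      Equiv.sum_comp (Equiv.mulLeft₀ u hu) (fun c => sgn ((f.comp (ax j)) c))
    rw [h2]
    split_ifs with h0
    · rw [h0]
      simp
    · exact sum_sgn_eq_zero _ h0
  simp_rw [h1]
  rw [← Finset.sum_filter, Finset.sum_const, nsmul_eq_mul, Nat.card_eq_fintype_card,
    Fintype.card_subtype]

/-- Bias of the `t`-fold sums. -/
theorem Spread.spr [Fintype F] [Fintype κ] [Nonempty κ] {δ : ℝ} {ax : κ → F →+ Y}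
    (h : Spread δ ax) (t : ℕ) : Spr (tdir (t := t) ax) ((1 - δ) ^ t) := by
  intro u hu
  rw [charBd_iff]
  intro f hf
  have h1 : ∀ i : Fin t → F × κ, tdir ax i u = ∑ k, edir ax (i k) u := fun i => by
    rw [tdir, AddMonoidHom.finsetSum_apply]
  simp_rw [h1]
  rw [sum_sgn_pow f (fun p => edir ax p u) t, sum_edir ax f hu, abs_pow,
    abs_of_nonneg (by positivity), Fintype.card_fun, Fintype.card_fin, Fintype.card_prod]
  push_cast
  rw [← mul_pow]
  have h2 := h f hf
  have h3 := natCard_add ax f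
  refine pow_le_pow_left₀ (by positivity) ?_ t
  have h4 : (Nat.card {j : κ // f.comp (ax j) = 0} : ℝ) ≤ (1 - δ) * Fintype.card κ := by
    linarith
  calc (Nat.card {j : κ // f.comp (ax j) = 0} : ℝ) * Fintype.card F
      ≤ ((1 - δ) * Fintype.card κ) * Fintype.card F :=
        mul_le_mul_of_nonneg_right h4 (Nat.cast_nonneg _)
    _ = (1 - δ) * (Fintype.card F * Fintype.card κ) := by ring

/-- The axes of a quotient `π : (κ → F) →+ Y`. -/
def qax [DecidableEq κ] (π : (κ → F) →+ Y) (j : κ) : F →+ Y :=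
  π.comp (AddMonoidHom.single (fun _ : κ => F) j)

@[simp] lemma qax_apply [DecidableEq κ] (π : (κ → F) →+ Y) (j : κ) (u : F) :
    qax π j u = π (Pi.single j u) := rfl

lemma tdir_qax [DecidableEq κ] (π : (κ → F) →+ Y) (i : Fin t → F × κ) (u : F) :
    tdir (qax π) i u = π (∑ k, Pi.single (i k).2 (u * (i k).1)) := by
  rw [tdir_apply, map_sum]
  rfl

/-- Spread of a quotient, from the functionals on `κ → F` that kill the kernel. -/
theorem spread_qax [Fintype κ] [DecidableEq κ] {δ : ℝ} (π : (κ → F) →+ Y)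
    (hπ : Function.Surjective π)
    (h : ∀ f : (κ → F) →+ ZMod 2, f ≠ 0 → (∀ v, π v = 0 → f v = 0) →
      δ * Fintype.card κ ≤
        (Nat.card {j : κ // f.comp (AddMonoidHom.single (fun _ : κ => F) j) ≠ 0} : ℝ)) :
    Spread δ (qax π) := by
  intro f hf
  refine h (f.comp π) (fun h0 => hf ?_) fun v hv => by simp [hv]
  ext y
  obtain ⟨v, rfl⟩ := hπ y
  exact DFunLike.congr_fun h0 v

/-- Spread does not change under an isomorphism. -/
theorem Spread.map [Fintype κ] {δ : ℝ} {ax : κ → F →+ Y} (h : Spread δ ax) (g : Y →+ Y')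
    (hg : Function.Surjective g) : Spread δ (fun j => g.comp (ax j)) := by
  intro f hf
  refine h (f.comp g) fun h0 => hf ?_
  ext z
  obtain ⟨y, rfl⟩ := hg z
  exact DFunLike.congr_fun h0 y

/-- The property of `(al, be)` from `Bias.exists_al_be`. -/
def GoodPair (M : ℕ) {h : ℕ} {K : Type*} [AddCommGroup K] (al be : ZMod h → K) : Prop :=
  ∀ f : (Bool × ZMod h → K) →+ ZMod 2, f ≠ 0 → (∀ k, f (Bias.shp al be k) = 0) →
    2 * h ≤ M * Nat.card {p : Bool × ZMod h // ∃ x : K, f (Pi.single p x) ≠ 0}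

theorem exists_goodPair (a s : ℕ) (K : Type*) [AddCommGroup K] [Fintype K] [Nontrivial K]
    (h2 : ∀ x : K, x + x = 0) (hK : Fintype.card K ≤ 2 ^ s) :
    ∃ al be : ZMod (2 ^ a) → K, (∑ j, al j) ≠ 0 ∧ GoodPair (16 * (s + 5)) al be := by
  obtain ⟨al, be, h1, h3⟩ := Bias.exists_al_be a s K h2 hK
  exact ⟨al, be, h1, fun f hf hk => by exact_mod_cast h3 f hf hk⟩

/-- Spread of the axes of a quotient by the shifts of a good pair. -/
theorem GoodPair.spread {M h : ℕ} [NeZero h] {al be : ZMod h → F} (hg : GoodPair M al be)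
    (π : (Bool × ZMod h → F) →+ Y) (hπ : Function.Surjective π)
    (h0 : ∀ k, π (Bias.shp al be k) = 0) : Spread (1 / (M : ℝ)) (qax π) := by
  refine spread_qax π hπ fun f hf hk => ?_
  have h1 := hg f hf fun k => hk _ (h0 k)
  have h2 : Nat.card {p : Bool × ZMod h // ∃ x : F, f (Pi.single p x) ≠ 0} =
      Nat.card {j : Bool × ZMod h // f.comp (AddMonoidHom.single (fun _ => F) j) ≠ 0} := by
    refine Nat.card_congr (Equiv.subtypeEquivRight fun p => ?_)
    constructor
    · rintro ⟨x, hx⟩ hz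
      exact hx (DFunLike.congr_fun hz x)
    · intro hz
      by_contra hcon
      push Not at hcon
      exact hz (AddMonoidHom.ext hcon)
  rw [h2] at h1
  have hh : 0 < h := Nat.pos_of_ne_zero (NeZero.ne h)
  have hM : 0 < M := by
    rcases Nat.eq_zero_or_pos M with h3 | h3
    · rw [h3] at h1
      omega
    · exact h3
  have hM' : (0 : ℝ) < M := by exact_mod_cast hM
  rw [Fintype.card_prod, Fintype.card_bool, ZMod.card, one_div, inv_mul_le_iff₀ hM']
  exact_mod_cast h1

/-! ### The injective directions -/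

/-- Index type of the injective directions. -/
abbrev DIx (ax : κ → F →+ Y) (t : ℕ) : Type _ :=
  {i : Fin t → F × κ // Function.Injective (tdir ax i)}

/-- The injective directions. -/
def idir (ax : κ → F →+ Y) (t : ℕ) (i : DIx ax t) : F →+ Y := tdir ax i.1

lemma idir_injective (ax : κ → F →+ Y) (t : ℕ) (i : DIx ax t) :
    Function.Injective (idir ax t i) := i.2

noncomputable instance instFintypeDIx [Fintype F] [Fintype κ] (ax : κ → F →+ Y) (t : ℕ) :
    Fintype (DIx ax t) := by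
  classical
  exact Subtype.fintype fun i : Fin t → F × κ => Function.Injective (tdir ax i)

/-- The fraction of the directions that are not injective. -/
noncomputable def zfr (F Y : Type*) [Fintype F] [Fintype Y] (δ : ℝ) (t : ℕ) : ℝ :=
  Fintype.card F * ((1 - δ) ^ t + 1 / Fintype.card Y)

theorem Spread.nonempty [Fintype F] [Fintype κ] [Nonempty κ] [Fintype Y]
    (h2 : ∀ y : Y, y + y = 0) {δ : ℝ} {ax : κ → F →+ Y} (h : Spread δ ax) (hδ : δ ≤ 1) {t : ℕ}
    (hz : zfr F Y δ t < 1) : Nonempty (DIx ax t) := by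
  classical
  have h1 := (h.spr t).card_not_injective h2 (pow_nonneg (by linarith) t)
  exact nonempty_sub (fun i : Fin t → F × κ => Function.Injective (tdir ax i)) h1 hz

theorem Spread.spr_idir [Fintype F] [Fintype κ] [Nonempty κ] [Fintype Y]
    (h2 : ∀ y : Y, y + y = 0) {δ : ℝ} {ax : κ → F →+ Y} (h : Spread δ ax) (hδ : δ ≤ 1) {t : ℕ}
    (hz : zfr F Y δ t < 1) :
    Spr (idir ax t) (((1 - δ) ^ t + zfr F Y δ t) / (1 - zfr F Y δ t)) := by
  classical
  have h1 := (h.spr t).card_not_injective h2 (pow_nonneg (by linarith) t)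
  have h3 := (h.spr t).sub (fun i : Fin t → F × κ => Function.Injective (tdir ax i))
    (pow_nonneg (by linarith) t) h1 hz
  intro u hu f hf
  have h4 := h3 u hu f hf
  unfold zfr
  exact h4

/-- Numbers: for `t` and `|Y|` large the injective directions are as unbiased as we like. -/
theorem exists_numbers (q : ℕ) {δ η : ℝ} (hδ : 0 < δ) (hδ1 : δ ≤ 1) (hη : 0 < η) :
    ∃ t0 N0 : ℕ, ∀ t ≥ t0, ∀ N ≥ N0, (q : ℝ) * ((1 - δ) ^ t + 1 / N) < 1 ∧
      ((1 - δ) ^ t + q * ((1 - δ) ^ t + 1 / N)) / (1 - q * ((1 - δ) ^ t + 1 / N)) ≤ η := by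
  have hq : (0 : ℝ) ≤ q := Nat.cast_nonneg q
  -- a bound `e` for both numbers
  obtain ⟨e, he, he1, he2⟩ : ∃ e : ℝ, 0 < e ∧ q * (e + e) ≤ 1 / 2 ∧ 2 * (e + q * (e + e)) ≤ η := by
    refine ⟨min (1 / (4 * ((q : ℝ) + 1))) (η / (2 * (1 + 2 * (q : ℝ)))), ?_, ?_, ?_⟩
    · exact lt_min (by positivity) (by positivity)
    · have h1 : min (1 / (4 * ((q : ℝ) + 1))) (η / (2 * (1 + 2 * (q : ℝ)))) ≤
          1 / (4 * ((q : ℝ) + 1)) :=
        min_le_left _ _
      have h2 : (q : ℝ) * (1 / (4 * ((q : ℝ) + 1))) ≤ 1 / 4 := by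
        rw [mul_one_div, div_le_div_iff₀ (by positivity) (by norm_num)]
        linarith
      have h3 := mul_le_mul_of_nonneg_left h1 hq
      linarith
    · have h1 : min (1 / (4 * ((q : ℝ) + 1))) (η / (2 * (1 + 2 * (q : ℝ)))) ≤
          η / (2 * (1 + 2 * (q : ℝ))) :=
        min_le_right _ _
      have h2 : 2 * (1 + 2 * (q : ℝ)) * (η / (2 * (1 + 2 * (q : ℝ)))) = η := by
        field_simp
      have h3 := mul_le_mul_of_nonneg_left h1 (by positivity : 0 ≤ 2 * (1 + 2 * (q : ℝ)))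
      linarith
  obtain ⟨t0, ht0⟩ : ∃ t0 : ℕ, (1 - δ) ^ t0 < e := exists_pow_lt_of_lt_one he (by linarith)
  obtain ⟨N0, hN0⟩ := exists_nat_gt (1 / e)
  refine ⟨t0, N0, fun t ht N hN => ?_⟩
  have hN' : (1 / e : ℝ) < N := lt_of_lt_of_le hN0 (by exact_mod_cast hN)
  have h1 : (1 - δ) ^ t ≤ e :=
    (pow_le_pow_of_le_one (by linarith) (by linarith) ht).trans ht0.le
  have hNpos : (0 : ℝ) < N := lt_trans (by positivity) hN'
  have h2 : 1 / (N : ℝ) ≤ e := by
    rw [div_le_iff₀ hNpos]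
    rw [div_lt_iff₀ he] at hN'
    linarith
  have h0 : 0 ≤ (1 - δ) ^ t := pow_nonneg (by linarith) t
  have h3 : (q : ℝ) * ((1 - δ) ^ t + 1 / N) ≤ q * (e + e) :=
    mul_le_mul_of_nonneg_left (add_le_add h1 h2) hq
  have h4 : (0 : ℝ) ≤ q * ((1 - δ) ^ t + 1 / N) := by positivity
  refine ⟨by linarith, ?_⟩
  rw [div_le_iff₀ (by linarith)]
  have h5 : η * (1 / 2) ≤ η * (1 - q * ((1 - δ) ^ t + 1 / N)) :=
    mul_le_mul_of_nonneg_left (by linarith) hη.le
  linarith

end axes

/-! ### Moves: permutations of the points which map lines to lines -/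

/-- A permutation of the points that maps the line `p + ρ i u` to the line `g p + ρ (act i) u`. -/
structure Move {F P ι : Type*} [Field F] [AddCommGroup P] (ρ : ι → F →+ P) where
  /-- the permutation of the points -/
  g : P ≃ P
  /-- the permutation of the indices -/
  act : ι ≃ ι
  line : ∀ p i u, g (p + ρ i u) = g p + ρ (act i) u

namespace Move

variable {F P P' ι ι' κ : Type*} [Field F] [AddCommGroup P] [AddCommGroup P']
  {ρ : ι → F →+ P} {ρ' : ι' → F →+ P'}

/-- identity -/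
def one (ρ : ι → F →+ P) : Move ρ := ⟨Equiv.refl _, Equiv.refl _, fun _ _ _ => rfl⟩

/-- composition: first `m`, then `n` -/
def comp (n m : Move ρ) : Move ρ :=
  ⟨m.g.trans n.g, m.act.trans n.act, fun p i u => by
    simp only [Equiv.trans_apply, m.line, n.line]⟩

/-- inverse -/
def inv (m : Move ρ) : Move ρ :=
  ⟨m.g.symm, m.act.symm, fun p i u => by
    rw [Equiv.symm_apply_eq, m.line, Equiv.apply_symm_apply, Equiv.apply_symm_apply]⟩

/-- translation -/
def tr (ρ : ι → F →+ P) (a : P) : Move ρ :=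
  ⟨Equiv.addRight a, Equiv.refl _, fun p i u => by
    simp only [Equiv.coe_addRight, Equiv.refl_apply]
    abel⟩

/-- an automorphism that permutes the family -/
def aut (g : P ≃+ P) (γ : ι ≃ ι) (h : ∀ i u, g (ρ i u) = ρ (γ i) u) : Move ρ :=
  ⟨g.toEquiv, γ, fun p i u => by
    show g (p + ρ i u) = g p + ρ (γ i) u
    rw [map_add, h]⟩

/-- product -/
def prod (m : Move ρ) (m' : Move ρ') : Move (pdir ρ ρ') :=
  ⟨m.g.prodCongr m'.g, m.act.prodCongr m'.act, fun p i u => by
    refine Prod.ext ?_ ?_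
    · exact m.line p.1 i.1 u
    · exact m'.line p.2 i.2 u⟩

/-- swap of the factors of `P × P` -/
def swap (ρ : ι → F →+ P) : Move (pdir ρ ρ) :=
  ⟨Equiv.prodComm P P, Equiv.prodComm ι ι, fun _ _ _ => rfl⟩

/-- `k`-th power -/
def pow (m : Move ρ) : ℕ → Move ρ
  | 0 => one ρ
  | k + 1 => comp m (pow m k)

@[simp] lemma one_g (p : P) : (one ρ).g p = p := rfl
@[simp] lemma comp_g (n m : Move ρ) (p : P) : (comp n m).g p = n.g (m.g p) := rfl
@[simp] lemma inv_g (m : Move ρ) (p : P) : m.inv.g p = m.g.symm p := rfl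
@[simp] lemma tr_g (a p : P) : (tr ρ a).g p = p + a := rfl
@[simp] lemma aut_g (g : P ≃+ P) (γ : ι ≃ ι) (h : ∀ i u, g (ρ i u) = ρ (γ i) u) (p : P) :
    (aut g γ h).g p = g p := rfl
@[simp] lemma prod_g (m : Move ρ) (m' : Move ρ') (p : P × P') :
    (prod m m').g p = (m.g p.1, m'.g p.2) := rfl
@[simp] lemma swap_g (p : P × P) : (swap ρ).g p = (p.2, p.1) := rfl
@[simp] lemma pow_g (m : Move ρ) (k : ℕ) (p : P) : (pow m k).g p = m.g^[k] p := by
  induction k generalizing p with
  | zero => rfl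
  | succ k ih =>
    rw [Function.iterate_succ_apply', ← ih]
    rfl

end Move

section act

variable {F Y κ : Type*} [Field F] [AddCommGroup Y] {ax : κ → F →+ Y} {t : ℕ}

/-- Permutation of the axes, on the indices. -/
def actIx (γ : κ ≃ κ) : (Fin t → F × κ) ≃ (Fin t → F × κ) :=
  Equiv.piCongrRight fun _ => (Equiv.refl F).prodCongr γ

omit [Field F] in
@[simp] lemma actIx_apply (γ : κ ≃ κ) (i : Fin t → F × κ) (k : Fin t) :
    actIx γ i k = ((i k).1, γ (i k).2) := rfl

lemma tdir_actIx (g : Y ≃+ Y) (γ : κ ≃ κ) (h : ∀ j u, g (ax j u) = ax (γ j) u)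
    (i : Fin t → F × κ) (u : F) : tdir ax (actIx γ i) u = g (tdir ax i u) := by
  rw [tdir_apply, tdir_apply, map_sum]
  refine Finset.sum_congr rfl fun k _ => ?_
  rw [h]
  rfl

/-- The move of the `t`-fold sums given by an automorphism that permutes the axes. -/
def mvT (g : Y ≃+ Y) (γ : κ ≃ κ) (h : ∀ j u, g (ax j u) = ax (γ j) u) (t : ℕ) :
    Move (tdir (t := t) ax) :=
  Move.aut g (actIx γ) fun i u => (tdir_actIx g γ h i u).symm

lemma injective_actIx (g : Y ≃+ Y) (γ : κ ≃ κ) (h : ∀ j u, g (ax j u) = ax (γ j) u)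
    (i : Fin t → F × κ) :
    Function.Injective (tdir ax i) ↔ Function.Injective (tdir ax (actIx γ i)) := by
  have h1 : (tdir ax (actIx γ i) : F → Y) = g ∘ tdir ax i := by
    funext u
    exact tdir_actIx g γ h i u
  rw [h1]
  exact (g.injective.of_comp_iff _).symm

/-- Permutation of the axes, on the injective indices. -/
def actD (g : Y ≃+ Y) (γ : κ ≃ κ) (h : ∀ j u, g (ax j u) = ax (γ j) u) (t : ℕ) :
    DIx ax t ≃ DIx ax t :=
  (actIx γ).subtypeEquiv fun i => injective_actIx g γ h i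

/-- The move of the injective directions given by an automorphism that permutes the axes. -/
def mvD (g : Y ≃+ Y) (γ : κ ≃ κ) (h : ∀ j u, g (ax j u) = ax (γ j) u) (t : ℕ) :
    Move (idir ax t) :=
  Move.aut g (actD g γ h t) fun i u => (tdir_actIx g γ h i.1 u).symm

@[simp] lemma mvD_g (g : Y ≃+ Y) (γ : κ ≃ κ) (h : ∀ j u, g (ax j u) = ax (γ j) u) (t : ℕ)
    (y : Y) : (mvD g γ h t).g y = g y := rfl

end act

end Vale.Agent.P330.Q
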