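import Vale.Agent.P330.Q.NumY
import Vale.Agent.P330.Q.Dirs

/-!
# Search of the pair `(al, be)` and of the inverse of `al`

`sch K M h` is the first number `z < card (K × K × K) ^ h` whose digits are `(al, be, al')` with
`al' * al = 1` (cyclic convolution) and `GoodPair M al be`.  It is computable in polynomial time in
`2 ^ h`, and it is found if `h = 2 ^ a` and `M = 16 (s + 5)`, `card K ≤ 2 ^ s`.
-/

namespace Vale.Agent.P330.Q.Srch

open Vale.Agent.Lib.PolyTime
open Finset

/-! ### Cyclic indices -/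

/-- The number of `j - k`. -/
def ixN (h j k : ℕ) : ℕ := min ((j + h - k) % h) h

theorem ixN_eq {h : ℕ} [NeZero h] (j k : ZMod h) : ixN h j.val k.val = (j - k).val := by
  have h1 : ((j.val + h - k.val : ℕ) : ZMod h) = j - k := by
    rw [Nat.cast_sub (by have := ZMod.val_lt k; omega), Nat.cast_add, ZMod.natCast_zmod_val,
      ZMod.natCast_zmod_val, ZMod.natCast_self, add_zero]
  have h2 : (j.val + h - k.val) % h = (j - k).val := by
    rw [← h1, ZMod.val_natCast]
  unfold ixN
  rw [h2, min_eq_left (ZMod.val_lt _).le]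

/-! ### The test on numbers -/

section test

variable (K : Type*) [Field K] [Fintype K]

/-- Pairs of functionals. -/
def FD : Type _ := (K →+ ZMod 2) × (K →+ ZMod 2)

noncomputable instance : Fintype (FD K) :=
  have : Finite (K →+ ZMod 2) := Finite.of_injective (fun f : K →+ ZMod 2 => (f : K → ZMod 2))
    DFunLike.coe_injective
  have : Finite (FD K) := inferInstanceAs (Finite ((K →+ ZMod 2) × (K →+ ZMod 2)))
  Fintype.ofFinite _

instance : Nonempty (FD K) := ⟨(0, 0)⟩

/-- the convolution of `al'` and `al` -/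
noncomputable def scv (h z j : ℕ) : K :=
  ∑ i ∈ range h, (dgT (T3 K) z i).2.2 * (dgT (T3 K) z (ixN h j i)).1

/-- the value of the functional with number `w` on the shift by `k` of `(al, be)` -/
noncomputable def fnN (h z w k : ℕ) : ZMod 2 :=
  ∑ j ∈ range h, ((dgT (FD K) w j).1 (dgT (T3 K) z (ixN h j k)).1 +
    (dgT (FD K) w j).2 (dgT (T3 K) z (ixN h j k)).2.1)

open Classical in
/-- the number of nonzero components of a pair of functionals -/
noncomputable def wt1 (d : FD K) : ℕ := (if d.1 = 0 then 0 else 1) + if d.2 = 0 then 0 else 1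

/-- the weight of the functional with number `w` -/
noncomputable def wtN (h w : ℕ) : ℕ := ∑ j ∈ range h, wt1 K (dgT (FD K) w j)

open Classical in
/-- The test. -/
noncomputable def okN (M h z : ℕ) : Bool :=
  ((List.range h).all fun j => decide (scv K h z (min j h) = if min j h = 0 then 1 else 0)) &&
  (List.range (Fintype.card (FD K) ^ h)).all fun w =>
    decide (wtN K h w = 0) || (decide (2 * h ≤ M * wtN K h w) ||
      (List.range h).any fun k => decide (fnN K h z w (min k h) = 1))

/-- The search. -/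
noncomputable def sch (M h : ℕ) : ℕ :=
  ((List.range (Fintype.card (T3 K) ^ h)).find? (okN K M h)).getD 0

end test

/-! ### Polynomial time -/

section pt

variable {K : Type*} [Field K] [Fintype K] {A : Set Word} {α : Type*} [Enc α]

theorem powT {h : α → ℕ} (hb : PBd fun a => 2 ^ h a) (c : ℕ) : PBd fun a => c ^ h a := by
  refine (hb.pow c).mono fun a => ?_
  rw [← pow_mul, mul_comm, pow_mul]
  exact Nat.pow_le_pow_left Nat.lt_two_pow_self.le _

theorem of_pow {h : α → ℕ} (hb : PBd fun a => 2 ^ h a) : PBd h :=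
  hb.mono fun _ => Nat.lt_two_pow_self.le

theorem PT.ixN {h j k : α → ℕ} (hh : PT A h) (hj : PT A j) (hk : PT A k) :
    PT A fun a => ixN (h a) (j a) (k a) :=
  PT.min (PT.mod (PT.sub (PT.add hj hh) hk) hh) hh

theorem PBd.ixN {h j k : α → ℕ} (hb : PBd h) : PBd fun a => ixN (h a) (j a) (k a) :=
  hb.mono fun _ => min_le_right _ _

theorem PTt.scv {h z j : α → ℕ} (hh : PT A h) (hb : PBd h) (hz : PT A z) (hj : PT A j) :
    PTt A fun a => scv K (h a) (z a) (j a) := by
  refine PTt.sum hh hb ?_
  have hi : PT A (fun p : α × ℕ => min p.2 (h p.1)) := PT.min PT.snd' (hh.comp PT.fst')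
  have hib : PBd (fun p : α × ℕ => min p.2 (h p.1)) :=
    (PBd.comp hb (PT.fst' (A := A))).mono fun p => min_le_right _ _
  exact (PTt.dg (T := T3 K) (hz.comp PT.fst') hi hib).map₂
    (PTt.dg (T := T3 K) (hz.comp PT.fst') (PT.ixN (hh.comp PT.fst') (hj.comp PT.fst') hi)
      (PBd.ixN (PBd.comp hb (PT.fst' (A := A))))) fun x y => x.2.2 * y.1

theorem PTt.fnN {h z w k : α → ℕ} (hh : PT A h) (hb : PBd h) (hz : PT A z) (hw : PT A w)
    (hk : PT A k) : PTt A fun a => fnN K (h a) (z a) (w a) (k a) := by
  refine PTt.sum hh hb ?_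
  have hi : PT A (fun p : α × ℕ => min p.2 (h p.1)) := PT.min PT.snd' (hh.comp PT.fst')
  have hib : PBd (fun p : α × ℕ => min p.2 (h p.1)) :=
    (PBd.comp hb (PT.fst' (A := A))).mono fun p => min_le_right _ _
  exact (PTt.dg (T := FD K) (hw.comp PT.fst') hi hib).map₂
    (PTt.dg (T := T3 K) (hz.comp PT.fst') (PT.ixN (hh.comp PT.fst') hi (hk.comp PT.fst'))
      (PBd.ixN (PBd.comp hb (PT.fst' (A := A))))) fun x y => x.1 y.1 + x.2 y.2.1

theorem PT.wtN {h w : α → ℕ} (hh : PT A h) (hb : PBd h) (hw : PT A w) :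
    PT A fun a => wtN K (h a) (w a) := by
  have hi : PT A (fun p : α × ℕ => min p.2 (h p.1)) := PT.min PT.snd' (hh.comp PT.fst')
  have hib : PBd (fun p : α × ℕ => min p.2 (h p.1)) :=
    (PBd.comp hb (PT.fst' (A := A))).mono fun p => min_le_right _ _
  refine (PT.sum (PT.map (f := fun a i => wt1 K (dgT (FD K) (w a) (min i (h a))))
    (PT.range hh hb)
    ((PTt.dg (T := FD K) (hw.comp PT.fst') hi hib).mapP (wt1 K)))).congr fun a => ?_
  unfold Srch.wtN
  show ∑ i ∈ range (h a), wt1 K (dgT (FD K) (w a) (min i (h a))) = _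
  refine sum_congr rfl fun i hi => ?_
  rw [min_eq_left (mem_range.1 hi).le]

theorem PT.okN (M : ℕ) {h z : α → ℕ} (hh : PT A h) (hb : PBd fun a => 2 ^ h a) (hz : PT A z) :
    PT A fun a => okN K M (h a) (z a) := by
  classical
  have hb' : PBd h := of_pow hb
  have m1 : ∀ {β : Type _} [Enc β] {g : β → ℕ} (_ : PT A g),
      PT A (fun p : β × ℕ => min p.2 (g p.1)) := fun hg => PT.min PT.snd' (hg.comp PT.fst')
  refine PT.and ?_ ?_
  · refine PT.all (PT.range hh hb') ?_
    exact PTt.decEq (PTt.scv (hh.comp PT.fst') (PBd.comp hb' (PT.fst' (A := A)))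
      (hz.comp PT.fst') (m1 hh)) (PTt.ite (PT.eqNat (m1 hh) (PT.const 0)) (PTt.const 1)
        (PTt.const 0))
  · refine PT.all (PT.range (PT.pow (PT.const _) hh hb') (powT hb _)) ?_
    have hh1 : PT A (fun p : α × ℕ => h p.1) := hh.comp PT.fst'
    have hb1 : PBd (fun p : α × ℕ => h p.1) := PBd.comp hb' (PT.fst' (A := A))
    have hw1 : PT A (fun p : α × ℕ => Srch.wtN K (h p.1) p.2) := PT.wtN hh1 hb1 PT.snd'
    refine PT.or (PT.eqNat hw1 (PT.const 0)) (PT.or
      (PT.le (PT.mul (PT.const 2) hh1) (PT.mul (PT.const M) hw1)) ?_)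
    refine PT.any (PT.range hh1 hb1) ?_
    exact PTt.decEq (PTt.fnN (hh1.comp PT.fst')
      (PBd.comp (b := fun p : α × ℕ => h p.1) hb1 (PT.fst' (A := A)))
      ((hz.comp PT.fst').comp PT.fst') (PT.snd'.comp PT.fst') (m1 hh1)) (PTt.const 1)

/-- **The search is computable in time polynomial in `2 ^ h`.** -/
theorem PT.sch (M : ℕ) {h : α → ℕ} (hh : PT A h) (hb : PBd fun a => 2 ^ h a) :
    PT A fun a => sch K M (h a) := by
  have hb' : PBd h := of_pow hb
  refine PT.optGetD (PT.find? (PT.range (PT.pow (PT.const _) hh hb') (powT hb _)) ?_)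
    (PT.const 0)
  exact PT.okN M (hh.comp PT.fst')
    (PBd.comp (b := fun a => 2 ^ h a) hb (PT.fst' (A := A))) PT.snd'

theorem sch_lt (M : ℕ) {h : ℕ} : sch K M h < Fintype.card (T3 K) ^ h := by
  unfold sch
  cases hf : (List.range (Fintype.card (T3 K) ^ h)).find? (okN K M h) with
  | none => exact Nat.pow_pos Fintype.card_pos
  | some z => exact List.mem_range.1 (List.mem_of_find?_eq_some hf)

end pt

/-! ### Correctness -/

section spec

variable {K : Type*} [Field K] [Fintype K] {h : ℕ} [NeZero h]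

theorem scv_eq (z : ℕ) (j : ZMod h) :
    scv K h z j.val = cv (apZ K h z) (alZ K h z) j := by
  unfold cv scv
  rw [sum_ZMod]
  refine sum_congr rfl fun i hi => ?_
  have h1 : (i : ZMod h).val = i := ZMod.val_cast_of_lt (mem_range.1 hi)
  have h2 := ixN_eq j (i : ZMod h)
  rw [h1] at h2
  rw [h2, apZ, alZ, valZ, valZ, h1]

/-- the components of the functional with number `w` -/
noncomputable def fd (K : Type*) [Field K] [Fintype K] (h w : ℕ) (p : Bool × ZMod h) :
    K →+ ZMod 2 :=
  if p.1 then (dgT (FD K) w p.2.val).2 else (dgT (FD K) w p.2.val).1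

/-- the functional with given components -/
noncomputable def fsum (g : Bool × ZMod h → K →+ ZMod 2) : (Bool × ZMod h → K) →+ ZMod 2 :=
  ∑ p, (g p).comp (Pi.evalAddMonoidHom (fun _ => K) p)

omit [Fintype K] in
theorem fsum_apply (g : Bool × ZMod h → K →+ ZMod 2) (V : Bool × ZMod h → K) :
    fsum g V = ∑ p, g p (V p) := by
  rw [fsum, AddMonoidHom.finsetSum_apply]
  rfl

omit [Fintype K] in
theorem fsum_single (g : Bool × ZMod h → K →+ ZMod 2) (p : Bool × ZMod h) (x : K) :
    fsum g (Pi.single p x) = g p x := by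
  classical
  rw [fsum_apply, Finset.sum_eq_single p]
  · rw [Pi.single_eq_same]
  · intro q _ hq
    rw [Pi.single_eq_of_ne hq, map_zero]
  · simp

omit [Fintype K] in
theorem fsum_comp (f : (Bool × ZMod h → K) →+ ZMod 2) :
    fsum (fun p => f.comp (AddMonoidHom.single (fun _ => K) p)) = f := by
  classical
  refine AddMonoidHom.ext fun V => ?_
  rw [fsum_apply]
  conv_rhs => rw [← Finset.univ_sum_single V, map_sum]
  rfl

theorem sum_bool_prod {M : Type*} [AddCommMonoid M] (f : Bool × ZMod h → M) :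
    ∑ p, f p = ∑ n ∈ range h, (f (false, (n : ZMod h)) + f (true, (n : ZMod h))) := by
  rw [Fintype.sum_prod_type_right, sum_ZMod]
  refine sum_congr rfl fun n _ => ?_
  rw [Fintype.sum_bool, add_comm]

theorem fnN_eq (z w : ℕ) (k : ZMod h) :
    fnN K h z w k.val = fsum (fd K h w) (Bias.shp (alZ K h z) (beZ K h z) k) := by
  rw [fsum_apply, sum_bool_prod]
  unfold fnN
  refine sum_congr rfl fun j hj => ?_
  have h1 : (j : ZMod h).val = j := ZMod.val_cast_of_lt (mem_range.1 hj)
  have h2 := ixN_eq (j : ZMod h) k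
  rw [h1] at h2
  rw [h2]
  show _ = (dgT (FD K) w (j : ZMod h).val).1 (alZ K h z ((j : ZMod h) - k)) +
    (dgT (FD K) w (j : ZMod h).val).2 (beZ K h z ((j : ZMod h) - k))
  rw [h1]
  rfl

theorem wtN_eq (w : ℕ) :
    wtN K h w = Nat.card {p : Bool × ZMod h // ∃ x : K, fsum (fd K h w) (Pi.single p x) ≠ 0} := by
  classical
  have h1 : ∀ p : Bool × ZMod h, (∃ x : K, fsum (fd K h w) (Pi.single p x) ≠ 0) ↔
      fd K h w p ≠ 0 := by
    intro p
    simp only [fsum_single]
    constructor
    · rintro ⟨x, hx⟩ h0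
      rw [h0] at hx
      exact hx rfl
    · intro h0
      by_contra hc
      push Not at hc
      exact h0 (AddMonoidHom.ext hc)
  simp only [h1]
  rw [Nat.card_eq_fintype_card, Fintype.card_subtype, Finset.card_filter, sum_bool_prod]
  unfold wtN wt1
  refine sum_congr rfl fun j hj => ?_
  have h1 : (j : ZMod h).val = j := ZMod.val_cast_of_lt (mem_range.1 hj)
  simp only [fd, h1, Bool.false_eq_true, if_false, if_true, ne_eq]
  split_ifs <;> rfl

theorem okN_iff (M z : ℕ) : okN K M h z = true ↔
    cv (apZ K h z) (alZ K h z) = dl h K ∧ GoodPair M (alZ K h z) (beZ K h z) := by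
  classical
  unfold okN
  rw [Bool.and_eq_true, List.all_eq_true, List.all_eq_true]
  refine and_congr ?_ ?_
  · constructor
    · intro H
      funext j
      have h1 := H j.val (List.mem_range.2 (ZMod.val_lt j))
      rw [decide_eq_true_iff, min_eq_left (ZMod.val_lt j).le, scv_eq] at h1
      rw [h1, dl, Pi.single_apply]
      simp only [ZMod.val_eq_zero]
    · intro H j hj
      have hj' := List.mem_range.1 hj
      rw [decide_eq_true_iff, min_eq_left hj'.le]
      have h1 : (j : ZMod h).val = j := ZMod.val_cast_of_lt hj'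
      have h2 := scv_eq (K := K) z (j : ZMod h)
      rw [h1, H, dl, Pi.single_apply] at h2
      rw [h2]
      exact if_congr (by rw [← ZMod.val_eq_zero (j : ZMod h), h1]) rfl rfl
  · constructor
    · intro H f hf hk
      set y : ℕ → FD K := fun j => (f.comp (AddMonoidHom.single (fun _ => K) (false, (j : ZMod h))),
        f.comp (AddMonoidHom.single (fun _ => K) (true, (j : ZMod h)))) with hy
      have hfd : fsum (fd K h (fnum h y)) = f := by
        conv_rhs => rw [← fsum_comp f]
        congr 1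
        funext ⟨b, j⟩
        have h3 : dgT (FD K) (fnum h y) j.val = y j.val := dgT_fnum y (ZMod.val_lt j)
        cases b with
        | false =>
          show (dgT (FD K) (fnum h y) j.val).1 = _
          rw [h3, hy]
          show f.comp (AddMonoidHom.single (fun _ => K) (false, (j.val : ZMod h))) = _
          rw [ZMod.natCast_zmod_val]
        | true =>
          show (dgT (FD K) (fnum h y) j.val).2 = _
          rw [h3, hy]
          show f.comp (AddMonoidHom.single (fun _ => K) (true, (j.val : ZMod h))) = _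
          rw [ZMod.natCast_zmod_val]
      have h1 := H (fnum h y) (List.mem_range.2 (fnum_lt h y))
      rw [wtN_eq, hfd, Bool.or_eq_true, Bool.or_eq_true, decide_eq_true_iff,
        decide_eq_true_iff] at h1
      rcases h1 with h1 | h1 | h1
      · exfalso
        apply hf
        rw [Nat.card_eq_fintype_card, Fintype.card_eq_zero_iff] at h1
        rw [← fsum_comp f]
        refine AddMonoidHom.ext fun V => ?_
        rw [fsum_apply]
        refine Finset.sum_eq_zero fun p _ => ?_
        by_contra hc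
        exact h1.false ⟨p, V p, hc⟩
      · exact h1
      · exfalso
        rw [List.any_eq_true] at h1
        obtain ⟨k, hk1, hk2⟩ := h1
        have hk' := List.mem_range.1 hk1
        rw [decide_eq_true_iff, min_eq_left hk'.le] at hk2
        have h3 := fnN_eq (K := K) z (fnum h y) (k : ZMod h)
        rw [ZMod.val_cast_of_lt hk', hk2, hfd, hk] at h3
        exact one_ne_zero h3
    · intro H w _
      rw [Bool.or_eq_true, Bool.or_eq_true, decide_eq_true_iff, decide_eq_true_iff]
      by_cases h0 : wtN K h w = 0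
      · exact Or.inl h0
      right
      by_cases hc : ((List.range h).any fun k => decide (fnN K h z w (min k h) = 1)) = true
      · exact Or.inr hc
      left
      rw [wtN_eq]
      refine H (fsum (fd K h w)) ?_ ?_
      · intro hz
        apply h0
        rw [wtN_eq, hz, Nat.card_eq_zero]
        left
        exact ⟨fun ⟨_, x, hx⟩ => hx rfl⟩
      · intro k
        rw [← fnN_eq]
        rcases zmod2_or (fnN K h z w k.val) with h3 | h3
        · exact h3
        · exfalso
          apply hc
          rw [List.any_eq_true]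
          refine ⟨k.val, List.mem_range.2 (ZMod.val_lt k), ?_⟩
          rw [decide_eq_true_iff, min_eq_left (ZMod.val_lt k).le]
          exact h3

end spec

/-- **The search succeeds.** -/
theorem sch_spec (a s : ℕ) (K : Type*) [Field K] [CharP K 2] [Fintype K]
    (hK : Fintype.card K ≤ 2 ^ s) :
    cv (apZ K (2 ^ a) (sch K (16 * (s + 5)) (2 ^ a)))
      (alZ K (2 ^ a) (sch K (16 * (s + 5)) (2 ^ a))) = dl (2 ^ a) K ∧
    GoodPair (16 * (s + 5)) (alZ K (2 ^ a) (sch K (16 * (s + 5)) (2 ^ a)))
      (beZ K (2 ^ a) (sch K (16 * (s + 5)) (2 ^ a))) := by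
  rw [← okN_iff]
  set h := 2 ^ a with hh
  set M := 16 * (s + 5) with hM
  obtain ⟨al, be, h1, h2⟩ := exists_goodPair a s K CharTwo.add_self_eq_zero hK
  obtain ⟨ap, h3⟩ := exists_cv_inv a al h1
  set y : ℕ → T3 K := fun j => (al (j : ZMod h), be (j : ZMod h), ap (j : ZMod h)) with hy
  have hd : ∀ j : ZMod h, dgT (T3 K) (fnum h y) j.val = (al j, be j, ap j) := by
    intro j
    rw [dgT_fnum y (ZMod.val_lt j), hy]
    simp only [ZMod.natCast_zmod_val]
  have e1 : alZ K h (fnum h y) = al := by funext j; rw [alZ, valZ, hd]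
  have e2 : beZ K h (fnum h y) = be := by funext j; rw [beZ, valZ, hd]
  have e3 : apZ K h (fnum h y) = ap := by funext j; rw [apZ, valZ, hd]
  have h4 : okN K M h (fnum h y) = true := by
    rw [okN_iff, e1, e2, e3]
    exact ⟨h3, h2⟩
  have h5 : ((List.range (Fintype.card (T3 K) ^ h)).find? (okN K M h)).isSome := by
    rw [List.find?_isSome]
    exact ⟨_, List.mem_range.2 (fnum_lt h y), h4⟩
  obtain ⟨z, hz⟩ := Option.isSome_iff_exists.1 h5
  have h6 : sch K M h = z := by
    unfold sch
    rw [hz]
    rfl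
  rw [h6]
  exact List.find?_some hz

theorem sum_cv {R : Type*} [CommSemiring R] {h : ℕ} [NeZero h] (x y : ZMod h → R) :
    ∑ j, cv x y j = (∑ i, x i) * ∑ j, y j := by
  unfold cv
  rw [Finset.sum_comm, Finset.sum_mul]
  refine Finset.sum_congr rfl fun i _ => ?_
  rw [← Finset.mul_sum]
  congr 1
  exact (Equiv.subRight i).sum_comp y

theorem sum_ne_zero_of_cv {K : Type*} [Field K] {h : ℕ} [NeZero h] {ap al : ZMod h → K}
    (h1 : cv ap al = dl h K) : ∑ j, al j ≠ 0 := by
  intro h0
  have h2 := sum_cv ap al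
  rw [h0, mul_zero, h1, dl, Finset.sum_pi_single'] at h2
  simp at h2

theorem piY_shp {K : Type*} [Field K] [CharP K 2] {h : ℕ} [NeZero h] {ap al : ZMod h → K}
    (be : ZMod h → K) (h1 : cv ap al = dl h K) (k : ZMod h) :
    piY ap be (Bias.shp al be k) = 0 := by
  rw [piY_eq_zero be h1]
  refine ⟨Pi.single k 1, ?_⟩
  have h2 : (btv (Pi.single k 1 : Cube h) : ZMod h → K) = Pi.single k 1 := by
    funext j
    unfold btv
    by_cases hj : j = k
    · subst hj
      rw [Pi.single_eq_same, Pi.single_eq_same]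
      exact bt_one K
    · rw [Pi.single_eq_of_ne hj, Pi.single_eq_of_ne hj]
      exact bt_zero K
  rw [h2, cv_single, cv_single]
  funext ⟨b, j⟩
  cases b with
  | false =>
    show al (j - k) = 1 * al (j - k)
    rw [one_mul]
  | true =>
    show be (j - k) = 1 * be (j - k)
    rw [one_mul]

/-- **Everything about the result of the search.** -/
theorem sch_all (a s : ℕ) (K : Type*) [Field K] [CharP K 2] [Fintype K]
    (hK : Fintype.card K ≤ 2 ^ s) {h z : ℕ} (hh : h = 2 ^ a) [NeZero h]
    (hz : z = sch K (16 * (s + 5)) h) :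
    cv (apZ K h z) (alZ K h z) = dl h K ∧ ∑ j, alZ K h z j ≠ 0 ∧
      GoodPair (16 * (s + 5)) (alZ K h z) (beZ K h z) ∧
      Spread (1 / ((16 * (s + 5) : ℕ) : ℝ)) (qax (piY (apZ K h z) (beZ K h z))) := by
  subst hh hz
  obtain ⟨h1, h2⟩ := sch_spec a s K hK
  exact ⟨h1, sum_ne_zero_of_cv h1, h2,
    h2.spread _ (piY_surjective _ h1) fun k => piY_shp _ h1 k⟩

end Vale.Agent.P330.Q.Srch
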