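import Vale.Agent.P330.Q.Param
import Vale.Agent.P330.Q.Search
import Vale.Agent.P330.Q.Step

/-!
# The final parameters of project Q

`Pars c` collects all numerical choices: the field has `q = 2 ^ s` elements (`s` even), directions
are injective sums of `t` axes, `lam = 1 / (c q ^ 4)` is the bias and `N0` is the size from which on
the domain is large enough.  `hLen B a0 k` is the length `h = 2 ^ a` for `k` address bits.
-/

namespace Vale.Agent.P330.Q

open Vale.Agent.Lib.PolyTime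

/-- Numerical parameters; the constant `c` is at our disposal. -/
structure Pars (c : ℕ) where
  s : ℕ
  t : ℕ
  N0 : ℕ
  even_s : Even s
  four_le : 4 ≤ s
  one_le_t : 1 ≤ t
  /-- all degrees are at most `c t` -/
  deg : c * t ≤ 2 ^ s
  /-- the bias of the injective directions on domains of size at least `N0` -/
  zfr_lt : ∀ N ≥ N0, ((2 ^ s : ℕ) : ℝ) * ((1 - 1 / ((16 * (s + 5) : ℕ) : ℝ)) ^ t + 1 / (N : ℝ)) < 1
  bias : ∀ N ≥ N0, ((1 - 1 / ((16 * (s + 5) : ℕ) : ℝ)) ^ t +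
      ((2 ^ s : ℕ) : ℝ) * ((1 - 1 / ((16 * (s + 5) : ℕ) : ℝ)) ^ t + 1 / (N : ℝ))) /
    (1 - ((2 ^ s : ℕ) : ℝ) * ((1 - 1 / ((16 * (s + 5) : ℕ) : ℝ)) ^ t + 1 / (N : ℝ))) ≤
      1 / (c * ((2 ^ s : ℕ) : ℝ) ^ 4)

/-- The number of elements of the field. -/
def Pars.q {c : ℕ} (P : Pars c) : ℕ := 2 ^ P.s

/-- The bias. -/
noncomputable def Pars.lam {c : ℕ} (P : Pars c) : ℝ := 1 / (c * (P.q : ℝ) ^ 4)

/-- **Parameters exist.** -/
theorem exists_pars (c : ℕ) (hc : 1 ≤ c) : Nonempty (Pars c) := by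
  obtain ⟨s, t, h1, h2, h3, h4, h5⟩ := exists_params (8 * c) 5 16 (by norm_num)
  set q : ℝ := ((2 ^ s : ℕ) : ℝ) with hq
  have hq1 : (1 : ℝ) ≤ q := by
    rw [hq]
    exact_mod_cast Nat.one_le_two_pow
  have hc1 : (1 : ℝ) ≤ c := by exact_mod_cast hc
  set e : ℝ := 1 / (8 * c * q ^ 5) with he
  have hepos : 0 < e := by positivity
  have hx : (1 - 1 / ((16 * (s + 5) : ℕ) : ℝ)) ^ t ≤ e := by
    rw [he, le_div_iff₀ (by positivity)]
    refine le_trans (le_of_eq ?_) h5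
    rw [hq]
    push_cast
    ring
  have hx0 : 0 ≤ (1 - 1 / ((16 * (s + 5) : ℕ) : ℝ)) ^ t := by
    refine pow_nonneg ?_ t
    rw [sub_nonneg, div_le_one (by positivity)]
    have : 1 ≤ 16 * (s + 5) := by omega
    exact_mod_cast this
  obtain ⟨N0, hN0⟩ := exists_nat_gt (1 / e)
  have hN : ∀ N ≥ N0, 1 / (N : ℝ) ≤ e := by
    intro N hN
    have h6 : 1 / e < (N : ℝ) := lt_of_lt_of_le hN0 (by exact_mod_cast hN)
    have h7 : (0 : ℝ) < N := lt_trans (by positivity) h6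
    rw [div_le_iff₀ h7]
    rw [div_lt_iff₀ hepos] at h6
    linarith
  have hqe : q * (e + e) = 1 / (4 * c * q ^ 4) := by
    rw [he]
    field_simp
    norm_num
  have hq4 : (1 : ℝ) ≤ q ^ 4 := one_le_pow₀ hq1
  have hcq : (1 : ℝ) ≤ c * q ^ 4 := one_le_mul_of_one_le_of_one_le hc1 hq4
  have hqe1 : q * (e + e) ≤ 1 / 4 := by
    rw [hqe, div_le_div_iff₀ (by positivity) (by norm_num)]
    linarith
  have hee : e ≤ 1 / (8 * (c * q ^ 4)) := by
    rw [he, div_le_div_iff₀ (by positivity) (by positivity), one_mul, one_mul]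
    have : q ^ 4 ≤ q ^ 5 := pow_le_pow_right₀ hq1 (by norm_num)
    nlinarith
  have key : ∀ N ≥ N0, 0 ≤ q * ((1 - 1 / ((16 * (s + 5) : ℕ) : ℝ)) ^ t + 1 / (N : ℝ)) ∧
      q * ((1 - 1 / ((16 * (s + 5) : ℕ) : ℝ)) ^ t + 1 / (N : ℝ)) ≤ q * (e + e) := by
    intro N hN'
    have h6 := hN N hN'
    exact ⟨by positivity, mul_le_mul_of_nonneg_left (add_le_add hx h6) (by linarith)⟩
  refine ⟨⟨s, t, N0, h1, h2, h3, ?_, ?_, ?_⟩⟩
  · calc c * t ≤ 8 * c * t := Nat.mul_le_mul_right _ (by omega)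
      _ ≤ 2 ^ s := h4
  · intro N hN'
    have h6 := (key N hN').2
    linarith
  · intro N hN'
    obtain ⟨h6, h7⟩ := key N hN'
    rw [div_le_iff₀ (by linarith)]
    have h8 : 1 / (c * q ^ 4) * (1 / 2) ≤ 1 / (c * q ^ 4) *
        (1 - q * ((1 - 1 / ((16 * (s + 5) : ℕ) : ℝ)) ^ t + 1 / (N : ℝ))) :=
      mul_le_mul_of_nonneg_left (by linarith) (by positivity)
    refine le_trans ?_ h8
    have h9 : q * (e + e) = 1 / (c * q ^ 4) * (1 / 4) := by
      rw [hqe]
      field_simp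
    have h10 : e ≤ 1 / (c * q ^ 4) * (1 / 8) := by
      refine hee.trans (le_of_eq ?_)
      field_simp
    linarith

namespace Pars

variable {c : ℕ} (P : Pars c)

theorem two_le_q : 16 ≤ P.q := by
  unfold q
  calc 16 = 2 ^ 4 := by norm_num
    _ ≤ 2 ^ P.s := Nat.pow_le_pow_right (by norm_num) P.four_le

theorem q_pos : (0 : ℝ) < P.q := by
  have := P.two_le_q
  exact_mod_cast (by omega : 0 < P.q)

theorem q_ge : (16 : ℝ) ≤ P.q := by exact_mod_cast P.two_le_q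

theorem lam_pos (hc : 1 ≤ c) : 0 < P.lam := by
  have h1 := P.q_pos
  have h2 : (0 : ℝ) < c := by exact_mod_cast hc
  unfold lam
  positivity

theorem lam_eq (hc : 1 ≤ c) : (c : ℝ) * (P.q : ℝ) ^ 4 * P.lam = 1 := by
  have h1 := P.q_pos
  have h2 : (0 : ℝ) < c := by exact_mod_cast hc
  unfold lam
  field_simp

/-- Everything polynomial in `q`, of degree at most `4`, beats the bias. -/
theorem mul_lam_le (hc : 1 ≤ c) {x r : ℝ} (hr : 0 < r) {k : ℕ} (hk : k ≤ 4)
    (hx : r * x ≤ c * (P.q : ℝ) ^ k) : x * P.lam ≤ 1 / r := by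
  have h0 := P.lam_pos hc
  have h1 : (P.q : ℝ) ^ k ≤ (P.q : ℝ) ^ 4 := pow_le_pow_right₀ (by linarith [P.q_ge]) hk
  have h2 : (0 : ℝ) ≤ c := Nat.cast_nonneg c
  rw [le_div_iff₀ hr]
  calc x * P.lam * r = (r * x) * P.lam := by ring
    _ ≤ (c * (P.q : ℝ) ^ 4) * P.lam :=
      mul_le_mul_of_nonneg_right (hx.trans (mul_le_mul_of_nonneg_left h1 h2)) h0.le
    _ = 1 := P.lam_eq hc

theorem q_mul_lam_le (hc : 16 ≤ c) : (P.q : ℝ) * P.lam ≤ 1 / 16 := by
  have h1 := P.q_pos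
  refine P.mul_lam_le (by omega) (r := 16) (by norm_num) (k := 1) (by norm_num) ?_
  rw [pow_one]
  exact mul_le_mul_of_nonneg_right (by exact_mod_cast hc) h1.le

/-- The condition of the sampler: at most `c₀ q` names of corrected reads. -/
theorem sampler {c0 n : ℕ} (hc0 : 1 ≤ c0) (hc : 64 * c0 ≤ c) (hn : n ≤ c0 * P.q) :
    512 * (((n * (2 * (P.q - 1)) : ℕ) : ℝ) * P.lam) ^ 2 ≤ 1 := by
  have h1 := P.q_pos
  have h2 : ((n * (2 * (P.q - 1)) : ℕ) : ℝ) ≤ 2 * c0 * (P.q : ℝ) ^ 2 := by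
    have : n * (2 * (P.q - 1)) ≤ (c0 * P.q) * (2 * P.q) := Nat.mul_le_mul hn (by omega)
    calc ((n * (2 * (P.q - 1)) : ℕ) : ℝ) ≤ (((c0 * P.q) * (2 * P.q) : ℕ) : ℝ) := by
          exact_mod_cast this
      _ = 2 * c0 * (P.q : ℝ) ^ 2 := by push_cast; ring
  have h3 : ((n * (2 * (P.q - 1)) : ℕ) : ℝ) * P.lam ≤ 1 / 32 := by
    refine P.mul_lam_le (by omega) (r := 32) (by norm_num) (k := 2) (by norm_num) ?_
    calc (32 : ℝ) * ((n * (2 * (P.q - 1)) : ℕ) : ℝ) ≤ 32 * (2 * c0 * (P.q : ℝ) ^ 2) :=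
          mul_le_mul_of_nonneg_left h2 (by norm_num)
      _ = ((64 * c0 : ℕ) : ℝ) * (P.q : ℝ) ^ 2 := by push_cast; ring
      _ ≤ c * (P.q : ℝ) ^ 2 := mul_le_mul_of_nonneg_right (by exact_mod_cast hc) (by positivity)
  have h4 : 0 ≤ ((n * (2 * (P.q - 1)) : ℕ) : ℝ) * P.lam :=
    mul_nonneg (Nat.cast_nonneg _) (P.lam_pos (by omega)).le
  nlinarith

/-- The degree of the curves. -/
def D (d : ℕ) : ℕ := P.q - 2 - d

theorem D_facts {d : ℕ} (hd : 4 * d + 4 ≤ P.q) :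
    1 ≤ P.D d ∧ P.q ≤ 2 * P.D d + 1 ∧ P.D d + 2 ≤ P.q ∧ P.q - 2 - P.D d = d := by
  have := P.two_le_q
  unfold D
  omega

/-- A degree `d = c₀ t` is small compared with `q`. -/
theorem deg_le {c0 m : ℕ} (hc : m * c0 + m ≤ c) : m * (c0 * P.t) + m ≤ P.q := by
  have h1 := P.deg
  have h2 := P.one_le_t
  unfold q
  calc m * (c0 * P.t) + m ≤ m * (c0 * P.t) + m * P.t := by nlinarith
    _ = (m * c0 + m) * P.t := by ring
    _ ≤ c * P.t := Nat.mul_le_mul_right _ hc
    _ ≤ 2 ^ P.s := h1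

/-- A ratio of degrees. -/
theorem deg_div_le {d m : ℕ} (hm : 1 ≤ m) (hd : m * d + 1 ≤ P.q) :
    (d : ℝ) / ((P.q : ℝ) - 1) ≤ 1 / m := by
  have h1 := P.q_ge
  have h2 : (0 : ℝ) < m := by exact_mod_cast hm
  have h3 : ((m * d + 1 : ℕ) : ℝ) ≤ P.q := by exact_mod_cast hd
  push_cast at h3
  rw [div_le_div_iff₀ (by linarith) h2]
  linarith

/-- **The directions.** -/
theorem spr {K Y κ : Type*} [Field K] [Fintype K] [AddCommGroup Y] [Fintype Y] [Fintype κ]
    [Nonempty κ] (hK : Fintype.card K = P.q) (h2 : ∀ y : Y, y + y = 0)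
    {ax : κ → K →+ Y} (h : Spread (1 / ((16 * (P.s + 5) : ℕ) : ℝ)) ax)
    (hY : P.N0 ≤ Fintype.card Y) :
    Nonempty (DIx ax P.t) ∧ Spr (idir ax P.t) P.lam ∧
      Spr (pdir (idir ax P.t) (idir ax P.t)) P.lam := by
  have hδ : 1 / ((16 * (P.s + 5) : ℕ) : ℝ) ≤ 1 := by
    rw [div_le_one (by positivity)]
    have : 1 ≤ 16 * (P.s + 5) := by omega
    exact_mod_cast this
  have hz : zfr K Y (1 / ((16 * (P.s + 5) : ℕ) : ℝ)) P.t < 1 := by
    unfold zfr
    rw [hK]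
    exact P.zfr_lt _ hY
  have h1 := h.nonempty h2 hδ hz
  have h3 : Spr (idir ax P.t) P.lam := by
    refine (h.spr_idir h2 hδ hz).mono ?_
    unfold zfr
    rw [hK]
    exact P.bias _ hY
  exact ⟨h1, h3, h3.prod h3⟩

end Pars

/-! ### The constant -/

/-- The number of names of the corrected reads of a step. -/
theorem card_AK_le (F Cell : Type*) (B : ℕ) [Fintype F] [Fintype Cell] :
    Fintype.card (AK F Cell B) ≤ 32 + 2 * B * Fintype.card Cell * Fintype.card F := by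
  let f : AK F Cell B → (Fin 8 × Bool × Bool) ⊕ (Bool × Fin B × Cell × F)
    | .push s => .inl (0, s, false)
    | .pop s => .inl (1, s, false)
    | .flip s => .inl (2, s, false)
    | .top s b => .inl (3, s, b)
    | .swap s r => .inl (4, s, r)
    | .wv s t e l => .inr (s, t, e, l)
    | .full s => .inl (5, s, false)
    | .ne s => .inl (6, s, false)
    | .rel => .inl (7, false, false)
  have hf : Function.Injective f := by
    intro a b hab
    cases a <;> cases b <;> simp_all [f]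
  refine (Fintype.card_le_of_injective f hf).trans (le_of_eq ?_)
  simp only [Fintype.card_sum, Fintype.card_prod, Fintype.card_fin, Fintype.card_bool]
  ring

/-- The constant: `nC` cells, `B` slots. -/
def cQ (nC B : ℕ) : ℕ := 64 * (33 + 2 * B * nC) + 4 * ((B + 3) * (B + 4) + 2) + 4

/-- The parameters. -/
noncomputable def parsQ (nC B : ℕ) : Pars (cQ nC B) :=
  (exists_pars (cQ nC B) (by unfold cQ; omega)).some

namespace Pars

variable {nC B : ℕ} (P : Pars (cQ nC B))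

theorem one_le_cQ : 1 ≤ cQ nC B := by
  unfold cQ
  omega

theorem lamQ_pos : 0 < P.lam := P.lam_pos one_le_cQ

theorem q_mul_lam : (P.q : ℝ) * P.lam ≤ 1 / 16 := P.q_mul_lam_le (by unfold cQ; omega)

theorem lam_le : P.lam ≤ 1 / 16 := by
  have h1 := P.q_mul_lam
  have h2 := P.lamQ_pos
  have h3 := P.q_ge
  nlinarith

/-- The condition of the sampler for the names of the reads of a step. -/
theorem hlam {F Cell : Type*} [Fintype F] [Fintype Cell] (hF : Fintype.card F = P.q)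
    (hC : Fintype.card Cell = nC) :
    512 * (((Fintype.card (Option (AK F Cell B)) * (2 * (Fintype.card F - 1)) : ℕ) : ℝ) *
      P.lam) ^ 2 ≤ 1 := by
  rw [hF]
  refine P.sampler (c0 := 33 + 2 * B * nC) (by omega) (by unfold cQ; omega) ?_
  rw [Fintype.card_option]
  have h1 := card_AK_le F Cell B
  rw [hF, hC] at h1
  have h2 := P.two_le_q
  calc Fintype.card (AK F Cell B) + 1 ≤ 33 + 2 * B * nC * P.q := by omega
    _ ≤ 33 * P.q + 2 * B * nC * P.q := by omega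
    _ = (33 + 2 * B * nC) * P.q := by ring

/-- The degree of the words along the lines. -/
def d (P : Pars (cQ nC B)) : ℕ := (B + 2) * P.t

/-- A bound for the degree of the identities along the lines. -/
def d' (P : Pars (cQ nC B)) : ℕ := 2 * P.t + (B + 3) * (2 + P.d)

theorem d'_le : 4 * P.d' + 4 ≤ P.q := by
  have h1 : P.d' ≤ ((B + 3) * (B + 4) + 2) * P.t := by
    have h2 := P.one_le_t
    unfold d' d
    calc 2 * P.t + (B + 3) * (2 + (B + 2) * P.t)
        ≤ 2 * P.t + (B + 3) * (2 * P.t + (B + 2) * P.t) := by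
          gcongr
          omega
      _ = ((B + 3) * (B + 4) + 2) * P.t := by ring
  have h3 := P.deg_le (c0 := (B + 3) * (B + 4) + 2) (m := 4) (by unfold cQ; omega)
  omega

theorem d_le : 4 * P.d + 4 ≤ P.q := by
  have h1 : P.d ≤ P.d' := by
    unfold d'
    nlinarith
  have := P.d'_le
  omega

/-- The degree of the curves. -/
def Dc (P : Pars (cQ nC B)) : ℕ := P.q - 2 - P.d

theorem one_le_Dc : 1 ≤ P.Dc := (P.D_facts P.d_le).1

theorem Dc_1 : P.q ≤ 2 * P.Dc + 1 := (P.D_facts P.d_le).2.1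

theorem Dc_2 : P.Dc + 2 ≤ P.q := (P.D_facts P.d_le).2.2.1

theorem Dc_3 : P.q - 2 - P.Dc = P.d := (P.D_facts P.d_le).2.2.2

theorem Dc_1' {F : Type*} [Fintype F] (hF : Fintype.card F = P.q) :
    Fintype.card F ≤ 2 * P.Dc + 1 := hF ▸ P.Dc_1

theorem Dc_2' {F : Type*} [Fintype F] (hF : Fintype.card F = P.q) :
    P.Dc + 2 ≤ Fintype.card F := hF ▸ P.Dc_2

/-- The distance. -/
theorem htheta {F : Type*} [Fintype F] (hF : Fintype.card F = P.q) :
    2 * (1 / 4 : ℝ) ≤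
      1 - ((Fintype.card F - 2 - P.Dc : ℕ) : ℝ) / ((Fintype.card F : ℝ) - 1) - P.lam := by
  rw [hF, P.Dc_3]
  have h1 := P.deg_div_le (d := P.d) (m := 4) (by norm_num) (by have := P.d_le; omega)
  have h2 := P.lam_le
  push_cast at h1
  linarith

/-- The identities: `κ = 1 / (4 n)`, `τ = 1 / 4`. -/
theorem hids {n d1 : ℕ} (hd1 : d1 ≤ P.d') :
    (n : ℝ) * (1 / (4 * (n + 1))) < 1 ∧
    (1 / 4 : ℝ) < (1 - (d1 : ℝ) / ((P.q : ℝ) - 1)) * (1 - (n : ℝ) * (1 / (4 * (n + 1)))) -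
      P.lam := by
  have hn : (n : ℝ) * (1 / (4 * (n + 1))) ≤ 1 / 4 := by
    rw [mul_one_div, div_le_div_iff₀ (by positivity) (by norm_num)]
    linarith
  have h1 := P.deg_div_le (d := d1) (m := 4) (by norm_num) (by have := P.d'_le; omega)
  have h2 := P.lam_le
  push_cast at h1
  refine ⟨by linarith, ?_⟩
  have h3 : (3 / 4 : ℝ) * (3 / 4) ≤
      (1 - (d1 : ℝ) / ((P.q : ℝ) - 1)) * (1 - (n : ℝ) * (1 / (4 * (n + 1)))) :=
    mul_le_mul (by linarith) (by linarith) (by norm_num) (by linarith)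
  linarith

/-- A radius for the sampler. -/
theorem exists_rho (n : ℕ) : ∃ ρ₁ : ℝ, 0 < ρ₁ ∧ ρ₁ < 1 ∧ (n : ℝ) * ρ₁ ≤ 1 / 16 := by
  refine ⟨1 / (16 * (n + 1)), by positivity, ?_, ?_⟩
  · rw [div_lt_one (by positivity)]
    have : (0 : ℝ) ≤ n := Nat.cast_nonneg n
    linarith
  · rw [mul_one_div, div_le_div_iff₀ (by positivity) (by norm_num)]
    linarith

end Pars

/-! ### The length `h` -/

/-- The exponent of the length. -/
def aLen (B a0 k : ℕ) : ℕ := max a0 (Nat.size (2 * k * B))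

/-- The length `h = 2 ^ a`, at least `2 k B` and at least `2 ^ a0`. -/
def hLen (B a0 k : ℕ) : ℕ := 2 ^ aLen B a0 k

instance (B a0 k : ℕ) : NeZero (hLen B a0 k) := ⟨by unfold hLen; positivity⟩

theorem le_hLen (B a0 k : ℕ) : 2 * k * B ≤ hLen B a0 k := by
  unfold hLen aLen
  exact (Nat.lt_size_self _).le.trans (Nat.pow_le_pow_right (by norm_num) (le_max_right _ _))

theorem a0_le_hLen (B a0 k : ℕ) : a0 ≤ hLen B a0 k := by
  unfold hLen aLen
  exact Nat.lt_two_pow_self.le.trans (Nat.pow_le_pow_right (by norm_num) (le_max_left _ _))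

theorem hLen_le (B a0 k : ℕ) : hLen B a0 k ≤ 2 ^ a0 + (4 * k * B + 1) := by
  unfold hLen aLen
  have h1 : 2 ^ Nat.size (2 * k * B) ≤ 4 * k * B + 1 := by
    rcases Nat.eq_zero_or_pos (2 * k * B) with h0 | h0
    · rw [h0]
      simp
    · obtain ⟨m, hm⟩ : ∃ m, Nat.size (2 * k * B) = m + 1 :=
        ⟨Nat.size (2 * k * B) - 1, by have := Nat.size_pos.2 h0; omega⟩
      have h2 : 2 ^ m ≤ 2 * k * B := Nat.lt_size.1 (by omega)
      rw [hm, pow_succ]
      have h3 : 4 * k * B = 2 * (2 * k * B) := by ring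
      omega
  rcases le_total a0 (Nat.size (2 * k * B)) with h2 | h2
  · rw [max_eq_right h2]
    exact h1.trans (Nat.le_add_left _ _)
  · rw [max_eq_left h2]
    exact Nat.le_add_right _ _

section pt

variable {A : Set Word} {α : Type*} [Enc α]

theorem PT.aLen (B a0 : ℕ) {k : α → ℕ} (hk : PT A k) : PT A fun x => aLen B a0 (k x) :=
  PT.max (PT.const a0) (PT.natSize (PT.mul (PT.mul (PT.const 2) hk) (PT.const B)))

theorem PBd.hLen (B a0 : ℕ) {k : α → ℕ} (hb : PBd k) : PBd fun x => Q.hLen B a0 (k x) :=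
  ((PBd.const (2 ^ a0)).add (((PBd.const 4).mul hb).mul (PBd.const B) |>.add (PBd.const 1))).mono
    fun x => hLen_le B a0 (k x)

theorem PT.hLen (B a0 : ℕ) {k : α → ℕ} (hk : PT A k) (hb : PBd k) :
    PT A fun x => Q.hLen B a0 (k x) := by
  refine PT.pow (PT.const 2) (PT.aLen B a0 hk) ((PBd.hLen B a0 hb).mono fun x => ?_)
  exact Nat.lt_two_pow_self.le

theorem PBd.two_pow_hLen (B a0 : ℕ) {k : α → ℕ} (hb : PBd fun x => 2 ^ k x) :
    PBd fun x => 2 ^ Q.hLen B a0 (k x) := by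
  refine ((PBd.const (2 ^ (2 ^ a0 + 1))).mul (hb.pow (4 * B))).mono fun x => ?_
  rw [← pow_mul, ← pow_add]
  refine Nat.pow_le_pow_right (by norm_num) ((Q.hLen_le B a0 (k x)).trans (le_of_eq ?_))
  ring

end pt

/-- The domain is large. -/
theorem card_YY_ge (K : Type*) [Field K] [CharP K 2] [Fintype K] (h : ℕ) [NeZero h] :
    h ≤ Fintype.card (YY K h) := by
  classical
  have h1 : 2 ≤ Fintype.card (TY K) := by
    rw [Fintype.card_prod]
    have h2 : 1 ≤ Fintype.card (CK K) := Fintype.card_pos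
    have h3 : 2 ≤ Fintype.card K := Fintype.one_lt_card
    nlinarith
  have h2 : Fintype.card (YY K h) = Fintype.card (TY K) ^ h := by
    rw [Fintype.card_fun, ZMod.card]
  rw [h2]
  exact Nat.lt_two_pow_self.le.trans (Nat.pow_le_pow_left h1 h)

end Vale.Agent.P330.Q
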