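import Vale.Agent.P330.Q.LTC.Dist
import Vale.Agent.P330.Q.LTC.Struct
import Vale.Agent.P318.S.Deg

/-!
# Test soundness, part 1: identities of low degree

Families of lines given by additive homomorphisms: products of families.  An identity whose left
side is polynomial of small degree along the lines and which holds at most points holds at all
points (`Atoms.exact`).
-/

namespace Vale.Agent.P330.Q.TS

open Finset
open Vale.Agent.P318.S (crv Low sgn ind CharBd fdist word PolyLe expect_nn expect_mono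
  expect_shift sgn_add sum_sgn_char abs_sgn expect_prod')
open scoped BigOperators

/-! ### `Low` and `PolyLe` -/

section lowpoly

variable {F W : Type*} [Field F] [AddCommGroup W] [Module F W]

theorem low_iff {d : ℕ} {g : F → W} : Low d g ↔ PolyLe F g d := by
  constructor
  · rintro ⟨p, hp⟩
    refine ⟨fun i => if h : i < d + 1 then p ⟨i, h⟩ else 0, fun u => ?_⟩
    rw [hp u, crv, Finset.sum_range]
    exact sum_congr rfl fun j _ => by simp only [dif_pos j.2]
  · rintro ⟨c, hc⟩
    refine ⟨fun j => c j, fun u => ?_⟩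
    rw [hc u, crv, Finset.sum_range]

end lowpoly

/-! ### Families of lines -/

section families

variable {F Y Y' M ι ι' : Type*} [Field F] [AddCommGroup Y] [AddCommGroup Y']
  [AddCommGroup M] [Module F M]

/-- The product of two families. -/
def prodDir (r : ι → F →+ Y) (r' : ι' → F →+ Y') (i : ι × ι') : F →+ Y × Y' :=
  (r i.1).prod (r' i.2)

@[simp] theorem prodDir_apply (r : ι → F →+ Y) (r' : ι' → F →+ Y') (i : ι × ι') (u : F) :
    prodDir r r' i u = (r i.1 u, r' i.2 u) := rfl

/-- All lines of a module. -/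
def modDir (F M : Type*) [Field F] [AddCommGroup M] [Module F M] (w : M) : F →+ M where
  toFun u := u • w
  map_zero' := zero_smul F w
  map_add' u v := add_smul u v w

@[simp] theorem modDir_apply (w : M) (u : F) : modDir F M w u = u • w := rfl

theorem abs_expect_sgn_le {ι : Type*} [Fintype ι] [Nonempty ι] (g : ι → ZMod 2) :
    |𝔼 i, sgn (g i)| ≤ 1 := by
  refine (Finset.abs_expect_le _ _).trans ?_
  simp [abs_sgn, Fintype.expect_const]

theorem spr_prodDir [Fintype ι] [Fintype ι'] [Nonempty ι] [Nonempty ι'] {r : ι → F →+ Y}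
    {r' : ι' → F →+ Y'} {lam lam' : ℝ} (h : Spr r lam)
    (h' : Spr r' lam') : Spr (prodDir r r') (max lam lam') := by
  intro u hu f hf
  set f1 : Y →+ ZMod 2 := f.comp (AddMonoidHom.inl Y Y') with hf1
  set f2 : Y' →+ ZMod 2 := f.comp (AddMonoidHom.inr Y Y') with hf2
  have e : ∀ y y', f (y, y') = f1 y + f2 y' := by
    intro y y'
    rw [hf1, hf2, AddMonoidHom.comp_apply, AddMonoidHom.comp_apply, ← map_add]
    simp
  have e1 : 𝔼 i : ι × ι', sgn (f (prodDir r r' i u)) =
      (𝔼 i, sgn (f1 (r i u))) * 𝔼 j, sgn (f2 (r' j u)) := by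
    rw [expect_prod' (fun i : ι × ι' => sgn (f (prodDir r r' i u))), Finset.expect_mul]
    refine expect_congr rfl fun i _ => ?_
    rw [Finset.mul_expect]
    refine expect_congr rfl fun j _ => ?_
    rw [prodDir_apply, e, sgn_add]
  rw [e1, abs_mul]
  by_cases h1 : f1 = 0
  · have h2 : f2 ≠ 0 := by
      intro h2
      apply hf
      ext x
      obtain ⟨y, y'⟩ := x
      rw [e, h1, h2]
      simp
    have a := abs_expect_sgn_le fun i => f1 (r i u)
    have b := h' u hu f2 h2
    have c : 0 ≤ |𝔼 j, sgn (f2 (r' j u))| := abs_nonneg _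
    have d : lam' ≤ max lam lam' := le_max_right _ _
    calc _ ≤ 1 * |𝔼 j, sgn (f2 (r' j u))| := mul_le_mul_of_nonneg_right a c
      _ ≤ _ := by linarith
  · have a := abs_expect_sgn_le fun j => f2 (r' j u)
    have b := h u hu f1 h1
    have c : 0 ≤ |𝔼 i, sgn (f1 (r i u))| := abs_nonneg _
    have d : lam ≤ max lam lam' := le_max_left _ _
    calc _ ≤ |𝔼 i, sgn (f1 (r i u))| * 1 := mul_le_mul_of_nonneg_left a c
      _ ≤ _ := by linarith

theorem spr_modDir [Fintype M] : Spr (modDir F M) 0 := by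
  intro u hu f hf
  have h : 𝔼 w : M, sgn (f (modDir F M w u)) = 𝔼 w : M, sgn (f w) := by
    refine Fintype.expect_equiv (LinearEquiv.smulOfNeZero F M u hu).toEquiv _ _ fun w => ?_
    rfl
  rw [h, Fintype.expect_eq_sum_div_card, sum_sgn_char hf]
  simp

end families

/-! ### Identities -/

section atoms

variable {F Y ι X ι' κ : Type*} [Field F] [Fintype F] [DecidableEq F] [AddCommGroup Y] [Fintype Y]
  [Fintype ι] [AddCommGroup X] [Fintype X] [Fintype ι'] [Fintype κ]

/-- Values `⟨L a x, s (g a x)⟩` of a word at a test point `x : X`. -/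
structure Atoms (r : ι → F →+ Y) (r' : ι' → F →+ X) (κ A : Type*) where
  /-- where the word is read -/
  g : A → X → Y
  /-- the lines of `X` are mapped to lines -/
  γ : A → ι' → ι
  /-- the functional -/
  L : A → X → κ → F
  /-- degree of `L` along the lines -/
  dL : ℕ
  g_line : ∀ a x i u, g a (x + r' i u) = g a x + r (γ a i) u
  γ_unif : ∀ a (h : ι → ℝ), 𝔼 i, h (γ a i) = 𝔼 i, h i
  L_low : ∀ a i x, PolyLe F (fun u => L a (x + r' i u)) dL

variable {r : ι → F →+ Y} {r' : ι' → F →+ X} {A : Type*} [Fintype A]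

/-- The value of the atom `a` at `x`. -/
def Atoms.val (T : Atoms r r' κ A) (s : Y → κ → F) (x : X) (a : A) : F :=
  ∑ j, T.L a x j * s (T.g a x) j

omit [Fintype F] [DecidableEq F] [Fintype Y] [Fintype X] in
theorem Atoms.val_low (T : Atoms r r' κ A) {s : Y → κ → F} {I : Finset ι} {d : ℕ}
    (hs : ∀ i ∈ I, ∀ y, PolyLe F (fun u => s (y + r i u)) d) (a : A) {i : ι'}
    (hi : T.γ a i ∈ I) (x : X) : PolyLe F (fun u => T.val s (x + r' i u) a) (T.dL + d) := by
  unfold Atoms.val
  refine PolyLe.sum _ fun j _ => PolyLe.mul ?_ ?_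
  · exact (T.L_low a i x).map (LinearMap.proj j)
  · have h := (hs _ hi (T.g a x)).map (LinearMap.proj (R := F) (φ := fun _ : κ => F) j)
    exact h.congr fun u => by rw [T.g_line]; rfl

omit [Fintype F] [DecidableEq F] [Fintype Y] [Fintype X] [Fintype κ] in
/-- Most lines are mapped to good lines by all atoms. -/
theorem Atoms.card_good [Nonempty ι] [Nonempty ι'] (T : Atoms r r' κ A) [DecidableEq ι]
    (I : Finset ι) {η : ℝ} (hη : (1 - η) * Fintype.card ι ≤ #I) :
    (1 - Fintype.card A * η) * Fintype.card ι' ≤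
      #(univ.filter fun i : ι' => ∀ a, T.γ a i ∈ I) := by
  classical
  have hι : (0 : ℝ) < Fintype.card ι := by exact_mod_cast Fintype.card_pos
  have hι' : (0 : ℝ) < Fintype.card ι' := by exact_mod_cast Fintype.card_pos
  have h1 : 𝔼 i : ι, (if i ∈ I then (0 : ℝ) else 1) ≤ η := by
    rw [Fintype.expect_eq_sum_div_card, div_le_iff₀ hι]
    have e : ∀ i : ι, (if i ∈ I then (0 : ℝ) else 1) = 1 - if i ∈ I then 1 else 0 := by
      intro a; split_ifs <;> norm_num
    simp only [e, sum_sub_distrib, sum_const, card_univ, nsmul_eq_mul, mul_one]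
    rw [Finset.sum_ite_mem, univ_inter, sum_const, nsmul_eq_mul, mul_one]
    linarith
  have h2 : 𝔼 i : ι', (if ∀ a, T.γ a i ∈ I then (0 : ℝ) else 1) ≤ Fintype.card A * η := by
    have h3 : ∀ i : ι', (if ∀ a, T.γ a i ∈ I then (0 : ℝ) else 1) ≤
        ∑ a, if T.γ a i ∈ I then (0 : ℝ) else 1 := by
      intro i
      split_ifs with h
      · exact sum_nonneg fun a _ => by split_ifs <;> norm_num
      · push Not at h
        obtain ⟨a, ha⟩ := h
        refine le_trans ?_ (Finset.single_le_sum (f := fun a =>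
          if T.γ a i ∈ I then (0 : ℝ) else 1) (fun a _ => by split_ifs <;> norm_num) (mem_univ a))
        simp [ha]
    refine (expect_mono h3).trans ?_
    rw [Finset.expect_sum_comm]
    refine (Finset.sum_le_sum fun a _ => le_of_eq_of_le
      (T.γ_unif a fun i => if i ∈ I then (0 : ℝ) else 1) h1).trans ?_
    rw [sum_const, card_univ, nsmul_eq_mul]
  rw [Fintype.expect_eq_sum_div_card, div_le_iff₀ hι'] at h2
  have e : ∀ i : ι', (if ∀ a, T.γ a i ∈ I then (0 : ℝ) else 1) =
      1 - if ∀ a, T.γ a i ∈ I then 1 else 0 := by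
    intro a; split_ifs <;> norm_num
  simp only [e, sum_sub_distrib, sum_const, card_univ, nsmul_eq_mul, mul_one] at h2
  rw [Finset.sum_boole] at h2
  linarith

/-- **Exactness of identities.** -/
theorem Atoms.exact [Nonempty ι] [Nonempty ι'] {q : ℕ} (hq : Fintype.card F = q)
    (hX : ∀ x : X, x + x = 0) (T : Atoms r r' κ A) {lam η τ : ℝ} (h0 : 0 ≤ lam) (hb : Spr r' lam)
    {s : Y → κ → F} {I : Finset ι} {d d' : ℕ} (hη : (1 - η) * Fintype.card ι ≤ #I)
    (hs : ∀ i ∈ I, ∀ y, PolyLe F (fun u => s (y + r i u)) d)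
    (Φ : X → (A → F) → F)
    (hΦ : ∀ x i (v : F → A → F), (∀ a, PolyLe F (fun u => v u a) (T.dL + d)) →
      PolyLe F (fun u => Φ (x + r' i u) (v u)) d')
    (hτ : 𝔼 x : X, (if Φ x (T.val s x) = 0 then (0 : ℝ) else 1) ≤ τ)
    (hnum : τ < (1 - (d' : ℝ) / (q - 1)) * (1 - Fintype.card A * η) - lam)
    (hA : Fintype.card A * η < 1) (x : X) : Φ x (T.val s x) = 0 := by
  classical
  by_contra hne
  have hI := T.card_good I hη
  have hι' : (0 : ℝ) < Fintype.card ι' := by exact_mod_cast Fintype.card_pos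
  have hIne : (univ.filter fun i : ι' => ∀ a, T.γ a i ∈ I).Nonempty := by
    rw [← Finset.card_pos]
    have : (0 : ℝ) < #(univ.filter fun i : ι' => ∀ a, T.γ a i ∈ I) :=
      lt_of_lt_of_le (mul_pos (by linarith) hι') hI
    exact_mod_cast this
  have h := low_dist hq hX r' (univ.filter fun i : ι' => ∀ a, T.γ a i ∈ I) hIne h0 hb hI hA
    (fun x => Φ x (T.val s x)) (d := d') (by
      intro i hi x
      rw [low_iff]
      exact hΦ x i (fun u a => T.val s (x + r' i u) a) fun a =>
        T.val_low hs a ((mem_filter.1 hi).2 a) x) (fun h => hne (congrFun h x))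
  linarith

end atoms

end Vale.Agent.P330.Q.TS
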