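import Vale.Agent.P330.Q.Dom
import Vale.Agent.P330.Q.Dirs
import Vale.Agent.P330.Q.TSDist

/-!
# Project Q: the words of the states have low degree on the lines

`ρ : ι → F →+ Y` is a family of lines such that the extensions `E f` have degree at most `t` on
every line and such that the shift maps lines to lines.  Then the kernels have degree at most
`2 t`, the code words of a memory degree at most `t`, and the word of a state degree at most
`(B + 2) t` on the lines of `pdir ρ ρ`.
-/

namespace Vale.Agent.P330.Q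

open Finset Vale.Agent.P330.S
open Vale.Agent.P318.S (PolyLe Low)

section abstract

variable {F : Type*} [Field F] {h B : ℕ} {Y Cell V X ι : Type*} [AddCommGroup Y]
  [Fintype Cell] [DecidableEq Cell]

/-- Degree facts about the data of the state layer. -/
structure DegData (M : DomData F h B Y Cell V X) (ρ : ι → F →+ Y) (t : ℕ) where
  /-- the shift maps lines to lines -/
  mθ : Move ρ
  mθ_g : mθ.g = M.θ
  /-- reading a block maps lines to lines -/
  msh : Fin B → Move ρ
  msh_g : ∀ s, (msh s).g = M.sh s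
  K_low : ∀ c γ ρ₀ y i j, PolyLe F (fun u => M.K c γ (ρ₀ + ρ i u) (y + ρ j u)) (2 * t)
  cd_low : ∀ w e y j, PolyLe F (fun u => M.cd w e (y + ρ j u)) t

variable {M : DomData F h B Y Cell V X} {ρ : ι → F →+ Y} {t : ℕ}

theorem DegData.v0_low (H : DegData M ρ t) (c : Chn Cell V) (W : Cell → Y → F)
    (hW : ∀ e y j, PolyLe F (fun u => W e (y + ρ j u)) t) (ρ₀ y : Y) (i j : ι) :
    PolyLe F (fun u => M.v0 c W (ρ₀ + ρ i u) (y + ρ j u)) ((B + 2) * t) := by
  unfold DomData.v0
  refine PolyLe.sum _ fun γ _ => ?_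
  have h1 : PolyLe F (fun u => ∏ s : Fin B, optv (fun e => W e (M.sh s (y + ρ j u))) (γ s))
      (∑ _s : Fin B, t) := by
    refine PolyLe.prod _ fun s _ => ?_
    cases γ s with
    | none => exact PolyLe.const (1 : F) t
    | some e =>
      refine (hW e (M.sh s y) ((H.msh s).act j)).congr fun u => ?_
      have := (H.msh s).line y j u
      rw [H.msh_g] at this
      show W e (M.sh s (y + ρ j u)) = _
      rw [this]
  refine ((H.K_low c γ ρ₀ y i j).mul h1).mono ?_
  rw [sum_const, card_univ, Fintype.card_fin, smul_eq_mul]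
  ring_nf
  exact le_refl _

theorem DegData.vv_low (H : DegData M ρ t) (c : Chn Cell V) (W : Cell → Y → F)
    (hW : ∀ e y j, PolyLe F (fun u => W e (y + ρ j u)) t) (n : ℕ) (ρ₀ y : Y) (i j : ι) :
    PolyLe F (fun u => M.vv c W n (ρ₀ + ρ i u) (y + ρ j u)) ((B + 2) * t) := by
  induction n generalizing ρ₀ y i j with
  | zero => exact H.v0_low c W hW ρ₀ y i j
  | succ n ih =>
    have hline : ∀ u, M.θ (y + ρ j u) = M.θ y + ρ (H.mθ.act j) u := by
      intro u
      have := H.mθ.line y j u
      rwa [H.mθ_g] at this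
    refine ((ih ρ₀ (M.θ y) i (H.mθ.act j)).add (ih ρ₀ (M.θ y + M.e0) i (H.mθ.act j))).congr
      fun u => ?_
    show M.vv c W n (ρ₀ + ρ i u) (M.θ (y + ρ j u)) +
      M.vv c W n (ρ₀ + ρ i u) (M.θ (y + ρ j u) + M.e0) = _
    rw [hline]
    congr 2
    abel

/-- **The words of the states have low degree.** -/
theorem DegData.word_low (H : DegData M ρ t) (s : St X) (p : Y × Y) (i : ι × ι)
    (k : Comp Cell V h) :
    PolyLe F (fun u => M.word s (p + pdir ρ ρ i u) k) ((B + 2) * t) := by
  have ht : t ≤ (B + 2) * t := Nat.le_mul_of_pos_left t (by omega)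
  cases k with
  | W σ e => exact (H.cd_low (s.base σ) e p.2 i.2).mono ht
  | S σ c j =>
    show PolyLe F (fun u => if (j : ℕ) < s.ht σ then
      M.vv c (M.cd (s.base σ)) (s.ht σ - 1 - j) (p.1 + ρ i.1 u) (p.2 + ρ i.2 u) else 0) _
    split_ifs
    · exact H.vv_low c _ (H.cd_low (s.base σ)) _ p.1 p.2 i.1 i.2
    · exact PolyLe.zero _
  | T σ j => exact PolyLe.const _ _
  | rel => exact PolyLe.const _ _

theorem DegData.word_Low (H : DegData M ρ t) {d : ℕ} (hd : (B + 2) * t ≤ d) (s : St X)
    (p : Y × Y) (i : ι × ι) :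
    Low d (fun u => (M.word s (p + pdir ρ ρ i u) : Comp Cell V h → F)) :=
  TS.low_iff.2 (PolyLe.pi fun k => (H.word_low s p i k).mono hd)

end abstract

/-! ### The domain of the machine -/

section machine

variable {F : Type*} [Field F] {h : ℕ} [NeZero h] {Y : Type*} [AddCommGroup Y]
  (D : ESys F h Y) {S : Spec} {r k B : ℕ} (I : Inst S r) (hI : Facts I) (σ : PSlot S ≃ Fin B)
  (ε : I.J ≃ Addr k) {ι : Type*} {ρ : ι → F →+ Y} {t : ℕ}

omit [NeZero h] in
theorem code_low (hE : ∀ (f : Cube h → F) (y : Y) (i : ι), PolyLe F (fun u => D.E f (y + ρ i u)) t)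
    (x : Addr k → F) (y : Y) (j : ι) : PolyLe F (fun u => D.code x (y + ρ j u)) t := by
  refine PolyLe.congr (g := fun u => ∑ a, x a * D.E (mon F (muS h 0 a)) (y + ρ j u)) ?_
    fun u => D.code_apply x _
  exact PolyLe.sum _ fun a _ => (hE _ y j).const_smul (x a)

theorem ker_low (hE : ∀ (f : Cube h → F) (y : Y) (i : ι), PolyLe F (fun u => D.E f (y + ρ i u)) t)
    (L : Finset (Fin B)) (A : Addr k → (Fin B → Addr k) → F) (ρ₀ y : Y) (i j : ι) :
    PolyLe F (fun u => D.ker L A (ρ₀ + ρ i u) (y + ρ j u)) (2 * t) := by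
  unfold ESys.ker
  refine PolyLe.sum _ fun a _ => PolyLe.sum _ fun α _ => ?_
  have h1 := ((hE (mon F (muS h 0 a)) ρ₀ i).const_smul (A a α)).mul
    (hE (mon F (dualS h L α)) y j)
  exact (h1.congr fun u => by rw [smul_eq_mul]).mono (by omega)

/-- The degree facts of the domain of the machine. -/
noncomputable def degData
    (hE : ∀ (f : Cube h → F) (y : Y) (i : ι), PolyLe F (fun u => D.E f (y + ρ i u)) t)
    (mθ : Move ρ) (hθ : ∀ y, mθ.g y = D.θ y) :
    DegData (domData D I hI σ ε) ρ t where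
  mθ := mθ
  mθ_g := Equiv.ext hθ
  msh s := mθ.inv.pow (2 * k * s)
  msh_g s := by
    apply Equiv.ext
    intro y
    show (mθ.inv.pow (2 * k * s)).g y = shE D (2 * k * s) y
    rw [shE_apply, Move.pow_g]
    unfold ESys.θi
    congr 2
    apply Equiv.ext
    intro z
    show mθ.g.symm z = D.θ.symm z
    rw [Equiv.symm_apply_eq, hθ, AddEquiv.apply_symm_apply]
  K_low c γ ρ₀ y i j := ker_low D hE (liveG γ) (kerF F I σ ε (outOf c) γ) ρ₀ y i j
  cd_low w e y j := code_low D hE (arr I ε w e) y j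

end machine

end Vale.Agent.P330.Q
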