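import Vale.Agent.P330.Q.TSMain

/-!
# Test soundness, part 4: soundness of polynomial identities

`CInst.idSound_of`: `IdSound` from pointwise polynomial identities `Φ m p (T.val s p) = 0` of small
degree along the lines.  `bdec`: decoding of a field value from its bits.
-/

namespace Vale.Agent.P330.Q

open Finset PCP.AR TS
open Vale.Agent.P318.S (crv Low sgn ind CharBd fdist word PolyLe expect_nn expect_mono
  expect_prod' ind_add_le ind_nonneg ind_le_one crv_zero)
open S (b2)
open scoped BigOperators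

/-- The field element with the bits `b`. -/
noncomputable def bdec {F : Type*} [Field F] (φ : F →+ ZMod 2) (b : F → Bool) : F :=
  dec φ fun l => b2 (b l)

/-- Decoding the field value `x`. -/
theorem bdec_decide {F : Type*} [Field F] [Fintype F] [CharP F 2] (φ : F →+ ZMod 2) (hφ : φ ≠ 0)
    (x : F) : bdec φ (fun l => decide (φ (l * x) = 1)) = x :=
  dec_eq φ hφ fun l => by rw [b2_decide]

/-- Decoding the value `∑ c j * x j` from the bits with the functionals `l • c`. -/
theorem bdec_bit (N : Code) {R : Type*} [Fintype R] (c x : R → N.F) :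
    bdec N.φ (fun l => N.bit (l • c) x) = ∑ j, c j * x j := by
  refine dec_eq N.φ N.hφ fun l => ?_
  show _ = b2 (decide (N.φ (∑ j, (l • c) j * x j) = 1))
  rw [b2_decide]
  congr 1
  rw [Finset.mul_sum]
  exact sum_congr rfl fun j _ => by rw [Pi.smul_apply, smul_eq_mul, mul_assoc]

variable {N : Code}

/-- **Soundness of polynomial identities.** -/
theorem CInst.idSound_of (I : CInst N) {lam κ τ : ℝ} (h0 : 0 ≤ lam) (hb : Spr I.r lam)
    {A M : Type*} [Fintype A] (T : Atoms I.r (prodDir I.r (modDir N.F I.E)) I.R A)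
    (Φ : M → I.P → (A → N.F) → N.F) {d' : ℕ}
    (hΦ : ∀ m x i (v : N.F → A → N.F),
      (∀ a, PolyLe N.F (fun u => v u a) (T.dL + (Fintype.card N.F - 2 - N.D))) →
      PolyLe N.F (fun u => Φ m (x + prodDir I.r (modDir N.F I.E) i u) (v u)) d')
    (htest : ∀ (s : I.Y → I.E) (p : I.P), N.testF
      (fun k => N.bit (I.A (.inr k) p.1 p.2) (s (I.g (.inr k) p.1)))
      (fun v => I.v v p.1 p.2) = false → ∀ m, Φ m p (T.val s p) = 0)
    (hids : ∀ s : I.Y → I.E, (∀ m p, Φ m p (T.val s p) = 0) → I.WVal s)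
    (hκ : (Fintype.card A : ℝ) * κ < 1)
    (hτ : τ < (1 - (d' : ℝ) / ((Fintype.card N.F : ℝ) - 1)) * (1 - Fintype.card A * κ) - lam) :
    I.IdSound κ τ := by
  classical
  intro s J hJ hlow hpr
  refine hids s fun m p => ?_
  have hX : ∀ x : I.P, x + x = 0 := by
    rintro ⟨y, c⟩
    refine Prod.ext (I.exp2 y) ?_
    funext j
    exact CharTwo.add_self_eq_zero _
  have hbX : Spr (prodDir I.r (modDir N.F I.E)) (max lam 0) := spr_prodDir hb spr_modDir
  rw [max_eq_left h0] at hbX
  have hE : Nonempty I.E := ⟨fun _ => 0⟩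
  refine T.exact (q := Fintype.card N.F) rfl hX h0 hbX hJ
    (fun i hi y => low_iff.1 (hlow i hi y)) (Φ m) (hΦ m) ?_ hτ hκ p
  refine le_trans ?_ hpr
  rw [pr_eq_expect]
  refine expect_mono fun x => ?_
  by_cases ht : N.testF (fun k => N.bit (I.A (.inr k) x.1 x.2) (s (I.g (.inr k) x.1)))
      (fun v => I.v v x.1 x.2) = true
  · rw [if_pos ht]
    split_ifs <;> norm_num
  · rw [if_neg ht, if_pos (htest s x (Bool.eq_false_iff.2 ht) m)]

end Vale.Agent.P330.Q
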