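import Vale.Agent.P330.Q.TestF
import Vale.Agent.P330.Q.Inst
import Vale.Agent.P330.Q.TSIds
import Vale.Agent.P330.Q.LowDeg

/-!
# Project Q: the test half of the concrete code

`tHalf`, `tInst`: the test of the identities for `mkCode`, `mkInst`.  `test_iff`: the test accepts if
and only if all defects vanish.  `test_ok`: completeness.  `mkInst_idSound`: soundness (`IdSound`).
-/

namespace Vale.Agent.P330.Q

open Finset PCP.AR TS
open Vale.Agent.P318.S (PolyLe Low)
open S (b2)
open scoped BigOperators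

/-! ### Degrees -/

section deg

variable {F : Type*} [Field F] {h B : ℕ} {Cell V Dg : Type} [Fintype Cell] [DecidableEq Cell]
  [Fintype V] [DecidableEq V]

theorem pf_low {ι R : Type*} [Fintype ι] [DecidableEq R] (e : ι → R) {a : F → ι → F} {d : ℕ}
    (ha : ∀ i, PolyLe F (fun u => a u i) d) : PolyLe F (fun u => pf e (a u)) d := by
  refine PolyLe.pi fun r => ?_
  unfold pf
  refine PolyLe.sum _ fun i _ => ?_
  split_ifs
  · exact ha i
  · exact PolyLe.zero _

theorem res_low {R : Type*} (P : R → Bool) {c : F → R → F} {d : ℕ}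
    (hc : ∀ r, PolyLe F (fun u => c u r) d) : PolyLe F (fun u => res P (c u)) d := by
  refine PolyLe.pi fun r => ?_
  unfold res
  split_ifs
  · exact hc r
  · exact PolyLe.zero _

/-- The functionals have degree at most `2` in `c`. -/
theorem fn_low (f : Fn Cell V) (c w : Comp Cell V h → F) :
    PolyLe F (fun u : F => fn (c + u • w) f) 2 := by
  have h1 : ∀ r, PolyLe F (fun u : F => (c + u • w) r) 1 := fun r =>
    (PolyLe.affine (c r) (w r)).congr fun u => rfl
  have h2 : ∀ r, PolyLe F (fun u : F => (c + u • w) r) 2 := fun r => (h1 r).mono (by omega)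
  cases f with
  | all => exact PolyLe.pi h2
  | cst => exact res_low _ h2
  | w => exact res_low _ h2
  | s => exact pf_low _ fun i => h2 _
  | s1 =>
    refine pf_low _ fun i => ?_
    split_ifs
    · exact h2 _
    · exact PolyLe.zero _
  | ta σ => exact pf_low _ fun i => h2 _
  | tb σ => exact pf_low _ fun i => h2 _
  | tab σ => exact pf_low _ fun i => (h1 _).mul (h1 _)
  | tc σ ch => exact pf_low _ fun i => h2 _
  | uT σ => exact pf_low _ fun i => PolyLe.const (1 : F) _
  | uR => exact pf_low _ fun i => PolyLe.const (1 : F) _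
  | uW σ e => exact pf_low _ fun i => PolyLe.const (1 : F) _
  | uS σ ch => exact pf_low _ fun i => PolyLe.const (1 : F) _

omit [DecidableEq Cell] [Fintype V] [DecidableEq V] in
theorem rk_low {k : F → Chn Cell V → (Fin B → Option Cell) → F}
    {v : F → Fn Cell V × Mv B Dg → F} {dK e : ℕ} (hk : ∀ c γ, PolyLe F (fun u => k u c γ) dK)
    (hv : ∀ a, PolyLe F (fun u => v u a) e) (σ : Bool) (c : Chn Cell V) :
    PolyLe F (fun u => rk (k u) (v u) σ c) (dK + B * e) := by
  unfold rk
  refine PolyLe.sum _ fun γ _ => (hk c γ).mul ?_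
  have h1 : PolyLe F (fun u => ∏ t : Fin B, optv (fun e' => v u (.uW σ e', .sh t)) (γ t))
      (∑ _t : Fin B, e) := by
    refine PolyLe.prod _ fun t _ => ?_
    cases γ t with
    | none => exact PolyLe.const (1 : F) e
    | some e' => exact hv _
  refine h1.mono (le_of_eq ?_)
  rw [sum_const, card_univ, Fintype.card_fin, smul_eq_mul]

omit [DecidableEq Cell] [DecidableEq V] in
/-- The defects have small degree. -/
theorem defect_low {k : F → Chn Cell V → (Fin B → Option Cell) → F}
    {v : F → Fn Cell V × Mv B Dg → F} {dK e : ℕ} (hk : ∀ c γ, PolyLe F (fun u => k u c γ) dK)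
    (hv : ∀ a, PolyLe F (fun u => v u a) e) (m : Df Cell V Dg) :
    PolyLe F (fun u => defect (k u) (v u) m) (dK + (B + 3) * e) := by
  have e1 : e ≤ dK + (B + 3) * e := by nlinarith [Nat.zero_le (B * e)]
  have e2 : e + e ≤ dK + (B + 3) * e := by nlinarith [Nat.zero_le (B * e)]
  have e3 : e + (e + e) ≤ dK + (B + 3) * e := by nlinarith [Nat.zero_le (B * e)]
  have e4 : e + (dK + B * e) ≤ dK + (B + 3) * e := by nlinarith [Nat.zero_le (B * e)]
  have h1 : ∀ a, PolyLe F (fun u => 1 - v u a) e := fun a => (PolyLe.const (1 : F) e).sub (hv a)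
  cases m with
  | cst σ x => exact ((hv _).sub (hv _)).mono e1
  | wi x => exact ((hv _).sub (hv _)).mono e1
  | rsq => exact (((hv _).mul (hv _)).mono e2).sub ((hv _).mono e1)
  | tmul σ => exact (((hv _).mul (hv _)).mono e2).sub ((hv _).mono e1)
  | stk =>
    refine PolyLe.sub (((hv _).sub ((hv _).add (hv _))).mono e1) ?_
    exact PolyLe.sum _ fun σ _ => PolyLe.sum _ fun c _ =>
      ((hv _).mul (rk_low hk hv σ c)).mono e4
  | sf => exact ((h1 _).mul (h1 _)).mono e2
  | fv σ i => exact ((hv _).mul (hv _)).mono e2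
  | fi σ e' => exact ((hv _).mul ((hv _).sub (hv _))).mono e2
  | fo σ e' =>
    refine ((hv _).mul (PolyLe.sub ((hv _).mono (by omega : e ≤ e + e)) ?_)).mono e3
    exact ((hv _).mul (hv _)).add ((h1 _).mul (hv _))

end deg

/-! ### The moves -/

section moves

variable {F : Type*} [Field F] {h B : ℕ} {Y X : Type*} {Cell V Dg : Type} [AddCommGroup Y]
  [Fintype Cell] [DecidableEq Cell] {M : DomData F h B Y Cell V X} {ι : Type*} {ρ : ι → F →+ Y}
  {t : ℕ}

/-- The moves map lines to lines. -/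
def DegData.mvM (H : DegData M ρ t) (dg : Dg → Y) : Mv B Dg → Move (pdir ρ ρ)
  | .one => Move.one _
  | .th false => H.mθ.prod (Move.one ρ)
  | .th true => (Move.one ρ).prod H.mθ
  | .tr false x => (Move.tr ρ (dg x)).prod (Move.one ρ)
  | .tr true x => (Move.one ρ).prod (Move.tr ρ (dg x))
  | .the => (Move.one ρ).prod ((Move.tr ρ M.e0).comp H.mθ)
  | .sh t => (Move.one ρ).prod (H.msh t)
  | .sw => Move.swap ρ

theorem DegData.mvM_g (H : DegData M ρ t) (dg : Dg → Y) (m : Mv B Dg) (p : Y × Y) :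
    (H.mvM dg m).g p = M.mv dg m p := by
  have h1 : ∀ y, H.mθ.g y = M.θ y := fun y => by rw [H.mθ_g]
  have h2 : ∀ t y, (H.msh t).g y = M.sh t y := fun t y => by rw [H.msh_g]
  cases m with
  | one => rfl
  | th σ =>
    cases σ with
    | false => exact Prod.ext (h1 _) rfl
    | true => exact Prod.ext rfl (h1 _)
  | tr σ x => cases σ <;> rfl
  | the =>
    refine Prod.ext rfl ?_
    show H.mθ.g p.2 + M.e0 = M.θ p.2 + M.e0
    rw [h1]
  | sh t => exact Prod.ext rfl (h2 _ _)
  | sw => rfl

/-- The atoms of the test. -/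
noncomputable def DegData.atoms [Fintype V] [DecidableEq V] [Fintype F] [Fintype ι] [Fintype Y]
    (H : DegData M ρ t) (dg : Dg → Y) :
    Atoms (pdir ρ ρ) (prodDir (pdir ρ ρ) (modDir F (Comp Cell V h → F))) (Comp Cell V h)
      (Fn Cell V × Mv B Dg) where
  g a x := M.mv dg a.2 x.1
  γ a i := (H.mvM dg a.2).act i.1
  L a x := fn x.2 a.1
  dL := 2
  g_line a x i u := by
    rw [← H.mvM_g, ← H.mvM_g]
    exact (H.mvM dg a.2).line x.1 i.1 u
  γ_unif a f := by
    rw [Vale.Agent.P318.S.expect_prod' (fun i : (ι × ι) × (Comp Cell V h → F) =>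
      f ((H.mvM dg a.2).act i.1))]
    have h1 : ∀ i : ι × ι, (𝔼 _w : Comp Cell V h → F, f ((H.mvM dg a.2).act i)) =
        f ((H.mvM dg a.2).act i) := fun i => by
      rw [Fintype.expect_const]
    simp only [h1]
    exact Fintype.expect_equiv (H.mvM dg a.2).act _ _ fun i => rfl
  L_low a i x := fn_low a.1 x.2 i.2

end moves

/-! ### The test -/

section test

variable {F : Type} [Field F] [Fintype F] [DecidableEq F] {Cell V Dg : Type}
  [Fintype Cell] [DecidableEq Cell] [Fintype V] [DecidableEq V] [Fintype Dg] {h B : ℕ} {Y X : Type}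
  [AddCommGroup Y]

/-- The finite data of the test. -/
noncomputable def tHalf (Cell V Dg : Type) [Fintype Cell] [DecidableEq Cell] [Fintype V]
    [DecidableEq V] [Fintype Dg] (B : ℕ) (φ : F →+ ZMod 2) : THalf where
  KT := (Fn Cell V × Mv B Dg) × F
  fKT := inferInstance
  VT := Chn Cell V × (Fin B → Option Cell) × F
  fVT := inferInstance
  testF rd pub := by
    classical
    exact decide (∃ m : Df Cell V Dg, defect (fun c γ => bdec φ fun l => pub (c, γ, l))
      (fun a => bdec φ fun l => rd (a, l)) m ≠ 0)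

/-- The moves, functionals and public bits of the test. -/
def tInst (M : DomData F h B Y Cell V X) (dg : Dg → Y) (φ : F →+ ZMod 2) :
    TInst (tHalf Cell V Dg B φ) F Y Cell V h where
  g k := M.mv dg k.1.2
  A k _ c := k.2 • fn c k.1.1
  v k p _ := decide (φ (k.2.2 * M.K k.1 k.2.1 p.1 p.2) = 1)

/-- The test accepts if and only if all defects vanish. -/
theorem test_iff [CharP F 2] (M : DomData F h B Y Cell V X) (dg : Dg → Y) {φ : F →+ ZMod 2}
    (hφ : φ ≠ 0) (G : Y × Y → Comp Cell V h → F) (p : Y × Y) (c : Comp Cell V h → F) :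
    (tHalf Cell V Dg B φ).testF
        (fun k => wbit φ ((tInst M dg φ).A k p c) (G ((tInst M dg φ).g k p)))
        (fun v => (tInst M dg φ).v v p c) = false ↔
      ∀ m : Df Cell V Dg, defect (fun ch γ => M.K ch γ p.1 p.2) (M.atv dg G p c) m = 0 := by
  classical
  have h1 : ∀ a : Fn Cell V × Mv B Dg,
      (bdec φ fun l => wbit φ ((tInst M dg φ).A (a, l) p c) (G ((tInst M dg φ).g (a, l) p))) =
        M.atv dg G p c a := by
    intro a
    have h2 : ∀ l : F, wbit φ ((tInst M dg φ).A (a, l) p c) (G ((tInst M dg φ).g (a, l) p)) =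
        decide (φ (l * M.atv dg G p c a) = 1) := by
      intro l
      unfold wbit DomData.atv
      rw [Finset.mul_sum]
      have h3 : ∀ j, (tInst M dg φ).A (a, l) p c j * G ((tInst M dg φ).g (a, l) p) j =
          l * (fn c a.1 j * G (M.mv dg a.2 p) j) := fun j => by
        show (l • fn c a.1) j * G (M.mv dg a.2 p) j = _
        rw [Pi.smul_apply, smul_eq_mul, mul_assoc]
      simp only [h3]
    simp only [h2]
    exact bdec_decide φ hφ _
  have h4 : ∀ (ch : Chn Cell V) (γ : Fin B → Option Cell),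
      (bdec φ fun l => (tInst M dg φ).v (ch, γ, l) p c) = M.K ch γ p.1 p.2 := by
    intro ch γ
    show (bdec φ fun l => decide (φ (l * M.K ch γ p.1 p.2) = 1)) = _
    exact bdec_decide φ hφ _
  have h5 : (fun ch γ => bdec φ fun l => (tInst M dg φ).v (ch, γ, l) p c) =
      fun ch γ => M.K ch γ p.1 p.2 := by
    funext ch γ
    exact h4 ch γ
  have h6 : (fun a : Fn Cell V × Mv B Dg => bdec φ fun l =>
      wbit φ ((tInst M dg φ).A (a, l) p c) (G ((tInst M dg φ).g (a, l) p))) =
      M.atv dg G p c := funext h1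
  show decide (∃ m : Df Cell V Dg,
    defect (fun ch γ => bdec φ fun l => (tInst M dg φ).v (ch, γ, l) p c)
      (fun a : Fn Cell V × Mv B Dg => bdec φ fun l =>
      wbit φ ((tInst M dg φ).A (a, l) p c) (G ((tInst M dg φ).g (a, l) p))) m ≠ 0) = false ↔ _
  rw [h5, h6, decide_eq_false_iff_not]
  push Not
  rfl

/-- Completeness of the test. -/
theorem test_ok [CharP F 2] (M : Dom F h B Y Cell V X) (dg : Dg → Y) {φ : F →+ ZMod 2}
    (hφ : φ ≠ 0) (s : St X) (hs : M.D.VE (h + 1) s) (p : Y × Y) (c : Comp Cell V h → F) :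
    (tHalf Cell V Dg B φ).testF
        (fun k => wbit φ ((tInst M.toDomData dg φ).A k p c)
          (M.word s ((tInst M.toDomData dg φ).g k p)))
        (fun v => (tInst M.toDomData dg φ).v v p c) = false :=
  (test_iff M.toDomData dg hφ _ p c).2 fun m => (M.complete hs).defect_eq p c m

variable {φ : F →+ ZMod 2} {hφ : φ ≠ 0} {D : ℕ} {hD : Fintype.card F ≤ 2 * D + 1}
  {hD2 : D + 2 ≤ Fintype.card F} {ι : Type} [Fintype ι] [Nonempty ι] {ρ : ι → F →+ Y} {t : ℕ}

/-- **Soundness of the test.** -/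
theorem mkInst_idSound [CharP F 2] [Fintype Y] [DecidableEq Y] (M : Dom F h B Y Cell V X) (l₁ : F)
    (dg : Dg → Y) (H : DegData M.toDomData ρ t) (hgen : M.toDomData.Gen dg)
    (h2 : ∀ y : Y, y + y = 0) {lam κ τ : ℝ} (h0 : 0 ≤ lam) (hb : Spr (pdir ρ ρ) lam)
    (hκ : (Fintype.card (Fn Cell V × Mv B Dg) : ℝ) * κ < 1)
    (hτ : τ < (1 - ((2 * t + (B + 3) * (2 + (Fintype.card F - 2 - D)) : ℕ) : ℝ) /
      ((Fintype.card F : ℝ) - 1)) * (1 - Fintype.card (Fn Cell V × Mv B Dg) * κ) - lam) :
    (mkInst M l₁ (tInst M.toDomData dg φ) (pdir ρ ρ) h2 :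
      CInst (mkCode Cell V B φ hφ D hD hD2 (tHalf Cell V Dg B φ))).IdSound κ τ := by
  refine CInst.idSound_of (M := Df Cell V Dg) (mkInst M l₁ (tInst M.toDomData dg φ) (pdir ρ ρ) h2 :
      CInst (mkCode Cell V B φ hφ D hD hD2 (tHalf Cell V Dg B φ))) h0 hb (H.atoms dg)
    (fun m x v => defect (fun ch γ => M.K ch γ x.1.1 x.1.2) v m)
    (d' := 2 * t + (B + 3) * (2 + (Fintype.card F - 2 - D))) ?_ ?_ ?_ hκ hτ
  · intro m x i v hv
    exact defect_low (fun c γ => H.K_low c γ x.1.1 x.1.2 i.1.1 i.1.2) hv m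
  · intro s p hp m
    exact (test_iff M.toDomData dg hφ s p.1 p.2).1 hp m
  · intro s hs
    obtain ⟨st, h3, h4⟩ := M.sound (M.toDomData.ids_of_defect hgen fun p c m => hs m (p, c))
    exact ⟨st, h3, h4⟩

end test

end Vale.Agent.P330.Q
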