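import Vale.Agent.P330.Q.ExtMat

/-!
# Project Q, code layer: the concrete extension system

Coordinates `Bool × ZMod h`, `h = 2 ^ a`; `W` is the `F_2`-span of the shifts of `(al, be)` with
`∑ al ≠ 0`, and `Y` any group with a surjective homomorphism from `F ^ (Bool × ZMod h)` with
kernel `W`.
-/

namespace Vale.Agent.P330.Q

open Finset Matrix
open scoped BigOperators

section circ

variable {F : Type*} [Field F] [CharP F 2] {a : ℕ}

/-- The shift of sequences. -/
def shEnd (F : Type*) [Field F] (h : ℕ) : Module.End F (ZMod h → F) :=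
  LinearMap.funLeft F F fun i => i - 1

omit [CharP F 2] in
theorem shEnd_pow {h : ℕ} (n : ℕ) (c : ZMod h → F) (r : ZMod h) :
    ((shEnd F h) ^ n) c r = c (r - n) := by
  induction n generalizing c r with
  | zero => simp
  | succ n ih =>
      rw [pow_succ, Module.End.mul_apply, ih]
      simp only [shEnd, LinearMap.funLeft_apply]
      congr 1
      push_cast
      ring

/-- Convolution with a sequence of nonzero sum is injective. -/
theorem circ_inj (al : ZMod (2 ^ a) → F) (hal : ∑ j, al j ≠ 0) (c : ZMod (2 ^ a) → F)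
    (hc : ∀ r, ∑ i, al (r - i) * c i = 0) : c = 0 := by
  classical
  set p : Polynomial F := ∑ i : ZMod (2 ^ a), Polynomial.C (al i) * Polynomial.X ^ i.val with hp
  have h1 : Polynomial.aeval (shEnd F (2 ^ a)) p = ∑ i : ZMod (2 ^ a),
      al i • (shEnd F (2 ^ a)) ^ i.val := by
    rw [hp, map_sum]
    refine sum_congr rfl fun i _ => ?_
    rw [map_mul, map_pow, Polynomial.aeval_C, Polynomial.aeval_X, Algebra.smul_def]
  have h2 : Polynomial.aeval (shEnd F (2 ^ a)) p c = 0 := by
    rw [h1]
    funext r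
    rw [LinearMap.sum_apply, Finset.sum_apply]
    simp only [LinearMap.smul_apply, Pi.smul_apply, smul_eq_mul, shEnd_pow, ZMod.natCast_zmod_val,
      Pi.zero_apply]
    rw [← hc r]
    refine Fintype.sum_equiv (Equiv.subLeft r) _ _ fun i => ?_
    simp
  have h3 : p ^ 2 ^ a = ∑ i : ZMod (2 ^ a),
      Polynomial.C (al i ^ 2 ^ a) * Polynomial.X ^ (i.val * 2 ^ a) := by
    rw [hp, sum_pow_char_pow]
    refine sum_congr rfl fun i _ => ?_
    rw [mul_pow, ← Polynomial.C_pow, ← pow_mul]
  have hT : (shEnd F (2 ^ a)) ^ 2 ^ a = 1 := by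
    ext1
    refine LinearMap.ext fun x => ?_
    funext r
    simp only [LinearMap.comp_apply, shEnd_pow]
    simp
  have h4 : Polynomial.aeval (shEnd F (2 ^ a)) (p ^ 2 ^ a) =
      ((∑ i, al i) ^ 2 ^ a) • (1 : Module.End F (ZMod (2 ^ a) → F)) := by
    rw [h3, map_sum, sum_pow_char_pow, sum_smul]
    refine sum_congr rfl fun i _ => ?_
    rw [map_mul, Polynomial.aeval_C, map_pow (Polynomial.aeval (shEnd F (2 ^ a))) Polynomial.X,
      Polynomial.aeval_X, mul_comm i.val, pow_mul, hT, one_pow, mul_one,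
      Algebra.algebraMap_eq_smul_one]
  have h5 : ∀ n : ℕ, 1 ≤ n → ((Polynomial.aeval (shEnd F (2 ^ a)) p) ^ n) c = 0 := by
    intro n hn
    obtain ⟨m, rfl⟩ := Nat.exists_eq_add_of_le hn
    rw [add_comm, pow_add, pow_one, Module.End.mul_apply, h2, map_zero]
  have h6 := h5 (2 ^ a) Nat.one_le_two_pow
  rw [← map_pow, h4, LinearMap.smul_apply, Module.End.one_apply, smul_eq_zero] at h6
  exact h6.resolve_left (pow_ne_zero _ hal)

end circ

section con

variable {F : Type*} [Field F] {a : ℕ}

/-- The basis matrix: the columns `(false, i)` are the shifts of `(al, be)`, the columns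
`(true, i)` are the unit vectors of the second half. -/
def pmat (al be : ZMod (2 ^ a) → F) :
    Matrix (Bool × ZMod (2 ^ a)) (Bool × ZMod (2 ^ a)) F :=
  fun p q => if q.1 then (if p = q then 1 else 0) else (if p.1 then be else al) (p.2 - q.2)

theorem pmat_mulVec (al be : ZMod (2 ^ a) → F) (v : Bool × ZMod (2 ^ a) → F)
    (p : Bool × ZMod (2 ^ a)) :
    (pmat al be *ᵥ v) p = (∑ i, (if p.1 then be else al) (p.2 - i) * v (false, i)) +
      if p.1 then v p else 0 := by
  rw [mulVec, dotProduct, Fintype.sum_prod_type, Fintype.sum_bool, add_comm]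
  congr 1
  · obtain ⟨e, r⟩ := p
    cases e
    · simp [pmat]
    · simp only [pmat, if_true, Prod.mk.injEq, true_and]
      simp

theorem gp_pmat (al be : ZMod (2 ^ a) → F) (x : Bool × ZMod (2 ^ a) → ZMod 2)
    (p : Bool × ZMod (2 ^ a)) :
    gp (pmat al be) x p = (∑ i, (if p.1 then be else al) (p.2 - i) * bt F (x (false, i))) +
      if p.1 then bt F (x p) else 0 := pmat_mulVec _ _ _ _

variable [CharP F 2]

theorem pmat_det (al be : ZMod (2 ^ a) → F) (hal : ∑ j, al j ≠ 0) : (pmat al be).det ≠ 0 := by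
  rw [Ne, ← Matrix.exists_mulVec_eq_zero_iff]
  rintro ⟨v, hv, h0⟩
  apply hv
  have h1 : (fun i => v (false, i)) = 0 := by
    refine circ_inj al hal _ fun r => ?_
    have h2 := congrFun h0 (false, r)
    rw [pmat_mulVec] at h2
    simpa using h2
  have h3 : ∀ i, v (false, i) = 0 := fun i => congrFun h1 i
  funext p
  obtain ⟨e, r⟩ := p
  cases e
  · exact h3 r
  · have h2 := congrFun h0 (true, r)
    rw [pmat_mulVec] at h2
    simpa [h3] using h2

/-- The element of `W` with coefficients `x`. -/
def wpt (al be : ZMod (2 ^ a) → F) (x : Cube (2 ^ a)) (p : Bool × ZMod (2 ^ a)) : F :=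
  ∑ i, (if p.1 then be else al) (p.2 - i) * bt F (x i)

/-- The element of the cube `S`. -/
def spt (F : Type*) [Field F] {h : ℕ} (b : Cube h) (p : Bool × ZMod h) : F :=
  if p.1 then bt F (b p.2) else 0

/-- Combination of the two coordinate vectors. -/
def comb {h : ℕ} (x b : Cube h) (p : Bool × ZMod h) : ZMod 2 := if p.1 then b p.2 else x p.2

omit [CharP F 2] in
theorem gp_comb (al be : ZMod (2 ^ a) → F) (x b : Cube (2 ^ a)) :
    gp (pmat al be) (comb x b) = wpt al be x + spt F b := by
  funext p
  rw [gp_pmat, Pi.add_apply, wpt, spt]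
  congr 1
  obtain ⟨e, r⟩ := p
  cases e <;> simp [comb]

theorem spt_add {h : ℕ} (b c : Cube h) : spt F (b + c) = spt F b + spt F c := by
  funext p
  simp only [spt, Pi.add_apply]
  split_ifs
  · exact bt_add F _ _
  · simp

/-- The shift of points. -/
def shP (F : Type*) [Field F] (h : ℕ) : (Bool × ZMod h → F) → (Bool × ZMod h → F) :=
  fun v p => v (p.1, p.2 - 1)

omit [CharP F 2] in
theorem shP_spt {h : ℕ} (b : Cube h) : shP F h (spt F b) = spt F (shf h b) := by
  funext p; simp [shP, spt]

omit [CharP F 2] in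
theorem shP_wpt (al be : ZMod (2 ^ a) → F) (x : Cube (2 ^ a)) :
    shP F (2 ^ a) (wpt al be x) = wpt al be (shf (2 ^ a) x) := by
  funext p
  change ∑ i, (if p.1 then be else al) (p.2 - 1 - i) * bt F (x i) =
    ∑ i, (if p.1 then be else al) (p.2 - i) * bt F (x (i - 1))
  refine Fintype.sum_equiv (Equiv.addRight (1 : ZMod (2 ^ a)))
    (fun i => (if p.1 then be else al) (p.2 - 1 - i) * bt F (x i))
    (fun i => (if p.1 then be else al) (p.2 - i) * bt F (x (i - 1))) fun i => ?_
  simp only [Equiv.coe_addRight, add_sub_cancel_right]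
  rw [sub_sub, add_comm 1 i]

omit [CharP F 2] in
theorem shP_iter {h : ℕ} (n : ℕ) (v : Bool × ZMod h → F) (p : Bool × ZMod h) :
    (shP F h)^[n] v p = v (p.1, p.2 - n) := by
  induction n generalizing v p with
  | zero => simp
  | succ n ih =>
      rw [Function.iterate_succ_apply, ih]
      simp only [shP]
      congr 2
      push_cast
      ring

/-- The extension of a function on the cube to the space of points. -/
noncomputable def extP (al be : ZMod (2 ^ a) → F) (f : Cube (2 ^ a) → F) :
    (Bool × ZMod (2 ^ a) → F) → F :=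
  extG (pmat al be) fun x => f fun i => x (true, i)

omit [CharP F 2] in
theorem MA_extP (al be : ZMod (2 ^ a) → F) (f : Cube (2 ^ a) → F) : MA (extP al be f) :=
  MA_extG _

theorem extP_add_S (al be : ZMod (2 ^ a) → F) (f : Cube (2 ^ a) → F)
    (v : Bool × ZMod (2 ^ a) → F) (b : Cube (2 ^ a)) :
    extP al be f (v + spt F b) = extP al be (fun x => f (x + b)) v := by
  have h1 : spt F b = gp (pmat al be) (comb 0 b) := by
    rw [gp_comb]
    have : wpt al be (0 : Cube (2 ^ a)) = 0 := by funext p; simp [wpt]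
    rw [this, zero_add]
  rw [h1, extP, extG_tr]
  rfl

theorem extP_add_W (al be : ZMod (2 ^ a) → F) (f : Cube (2 ^ a) → F)
    (v : Bool × ZMod (2 ^ a) → F) (x : Cube (2 ^ a)) :
    extP al be f (v + wpt al be x) = extP al be f v := by
  have h1 : wpt al be x = gp (pmat al be) (comb x 0) := by
    rw [gp_comb]
    have : spt F (0 : Cube (2 ^ a)) = 0 := by funext p; simp [spt]
    rw [this, add_zero]
  rw [h1, extP, extG_tr]
  congr 1
  funext z
  congr 1
  funext i
  simp [comb]

omit [CharP F 2] in
theorem gp_eq (al be : ZMod (2 ^ a) → F) (x : Bool × ZMod (2 ^ a) → ZMod 2) :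
    gp (pmat al be) x = wpt al be (fun i => x (false, i)) + spt F (fun i => x (true, i)) := by
  rw [← gp_comb]
  congr 1
  funext p
  obtain ⟨e, r⟩ := p
  cases e <;> simp [comb]

theorem extP_gp (al be : ZMod (2 ^ a) → F) (hal : ∑ j, al j ≠ 0) (f : Cube (2 ^ a) → F)
    (x : Bool × ZMod (2 ^ a) → ZMod 2) :
    extP al be f (gp (pmat al be) x) = f fun i => x (true, i) :=
  extG_gp (pmat_det al be hal) _ _

theorem extP_S (al be : ZMod (2 ^ a) → F) (hal : ∑ j, al j ≠ 0) (f : Cube (2 ^ a) → F)
    (b : Cube (2 ^ a)) : extP al be f (spt F b) = f b := by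
  have h1 : spt F b = gp (pmat al be) (comb 0 b) := by
    rw [gp_comb]
    have : wpt al be (0 : Cube (2 ^ a)) = 0 := by funext p; simp [wpt]
    rw [this, zero_add]
  rw [h1, extP_gp al be hal]
  simp [comb]

theorem extP_const (al be : ZMod (2 ^ a) → F) (hal : ∑ j, al j ≠ 0) (c : F) :
    extP al be (fun _ => c) = fun _ => c :=
  MA.ext_gp (pmat_det al be hal) (MA_extP al be _) (MA.const c)
    fun x => extP_gp al be hal _ x

theorem extP_sh (al be : ZMod (2 ^ a) → F) (hal : ∑ j, al j ≠ 0) (f : Cube (2 ^ a) → F) :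
    (fun v => extP al be f (shP F (2 ^ a) v)) = extP al be (fun b => f (shf (2 ^ a) b)) := by
  refine MA.ext_gp (pmat_det al be hal) ?_ (MA_extP al be _) fun x => ?_
  · have h1 := (MA_extP al be f).reindex
      ((Equiv.refl Bool).prodCongr (Equiv.subRight (1 : ZMod (2 ^ a))))
    exact h1
  · change extP al be f (shP F (2 ^ a) (gp (pmat al be) x)) = _
    have h2 : shP F (2 ^ a) (gp (pmat al be) x) =
        gp (pmat al be) (fun p => x (p.1, p.2 - 1)) := by
      rw [gp_eq, gp_eq]
      have h3 : shP F (2 ^ a) (wpt al be (fun i => x (false, i)) +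
          spt F (fun i => x (true, i))) = shP F (2 ^ a) (wpt al be (fun i => x (false, i))) +
          shP F (2 ^ a) (spt F (fun i => x (true, i))) := rfl
      rw [h3, shP_wpt, shP_spt]
      rfl
    rw [h2, extP_gp al be hal, extP_gp al be hal]
    rfl

omit [CharP F 2] in
theorem extP_add (al be : ZMod (2 ^ a) → F) (f g : Cube (2 ^ a) → F)
    (v : Bool × ZMod (2 ^ a) → F) :
    extP al be (f + g) v = extP al be f v + extP al be g v := by
  simp only [extP, extG, Pi.add_apply, add_mul, sum_add_distrib]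

omit [CharP F 2] in
theorem extP_smul (al be : ZMod (2 ^ a) → F) (c : F) (f : Cube (2 ^ a) → F)
    (v : Bool × ZMod (2 ^ a) → F) :
    extP al be (c • f) v = c * extP al be f v := by
  simp only [extP, extG, Pi.smul_apply, smul_eq_mul, mul_assoc, mul_sum]

omit [CharP F 2] in
/-- Explicit formula with the kernel. -/
theorem extP_eq (al be : ZMod (2 ^ a) → F) (f : Cube (2 ^ a) → F)
    (v : Bool × ZMod (2 ^ a) → F) :
    extP al be f v = ∑ b : Cube (2 ^ a), f b * ∑ x : Cube (2 ^ a),
      kr (pmat al be) (v + spt F b + wpt al be x) := by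
  have h1 : extP al be f v = ∑ q : Cube (2 ^ a) × Cube (2 ^ a),
      f q.2 * kr (pmat al be) (v + gp (pmat al be) (comb q.1 q.2)) := by
    rw [extP, extG]
    refine (Fintype.sum_equiv ((Equiv.boolArrowEquivProd (ZMod (2 ^ a) → ZMod 2)).symm.trans
      (Equiv.curry Bool (ZMod (2 ^ a)) (ZMod 2)).symm) _ _ fun q => ?_).symm
    have h2 : ((Equiv.boolArrowEquivProd (ZMod (2 ^ a) → ZMod 2)).symm.trans
      (Equiv.curry Bool (ZMod (2 ^ a)) (ZMod 2)).symm) q = comb q.1 q.2 := by
      funext p
      obtain ⟨e, r⟩ := p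
      cases e <;> simp [comb]
    rw [h2]
    simp [comb]
  rw [h1, Fintype.sum_prod_type, sum_comm]
  refine sum_congr rfl fun b _ => ?_
  rw [mul_sum]
  refine sum_congr rfl fun x _ => ?_
  rw [gp_comb, add_assoc, add_comm (spt F b)]

/-! ### The extension system on a quotient -/

variable {Y : Type*} [AddCommGroup Y]

/-- The cube as a homomorphism. -/
def sptHom (F : Type*) [Field F] [CharP F 2] (h : ℕ) : Cube h →+ (Bool × ZMod h → F) where
  toFun := spt F
  map_zero' := by funext p; simp [spt]
  map_add' := spt_add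

/-- The extension system on a group `Y` which is the quotient of the space of points by `W`. -/
noncomputable def mkESys (al be : ZMod (2 ^ a) → F) (hal : ∑ j, al j ≠ 0)
    (π : (Bool × ZMod (2 ^ a) → F) →+ Y) (hπ : Function.Surjective π)
    (hker : ∀ v, π v = 0 ↔ ∃ x : Cube (2 ^ a), v = wpt al be x) (θ : Y ≃+ Y)
    (hθ : ∀ v, θ (π v) = π (shP F (2 ^ a) v)) : ESys F (2 ^ a) Y where
  ι := π.comp (sptHom F (2 ^ a))
  θ := θ
  E :=
    { toFun := fun f y => extP al be f (Function.surjInv hπ y)
      map_add' := fun f g => by funext y; exact extP_add _ _ _ _ _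
      map_smul' := fun c f => by funext y; exact extP_smul _ _ _ _ _ }
  E_ι := by
    intro f b
    have h1 := (hker (Function.surjInv hπ (π (spt F b)) - spt F b)).1 (by
      rw [map_sub, Function.surjInv_eq hπ, sub_self])
    obtain ⟨x, hx⟩ := h1
    change extP al be f (Function.surjInv hπ (π (spt F b))) = f b
    rw [eq_add_of_sub_eq hx, add_comm, extP_add_W, extP_S al be hal]
  E_one := by
    funext y
    exact congrFun (extP_const al be hal 1) _
  E_tr := by
    intro f b y
    have h1 := (hker (Function.surjInv hπ (y + π (spt F b)) -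
      (Function.surjInv hπ y + spt F b))).1 (by
      rw [map_sub, Function.surjInv_eq hπ, map_add, Function.surjInv_eq hπ, sub_self])
    obtain ⟨x, hx⟩ := h1
    change extP al be f (Function.surjInv hπ (y + π (spt F b))) = _
    rw [eq_add_of_sub_eq hx, add_comm, extP_add_W, extP_add_S]
    rfl
  E_θ := by
    intro f y
    have h1 := (hker (Function.surjInv hπ (θ y) -
      shP F (2 ^ a) (Function.surjInv hπ y))).1 (by
      rw [map_sub, Function.surjInv_eq hπ, ← hθ, Function.surjInv_eq hπ, sub_self])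
    obtain ⟨x, hx⟩ := h1
    change extP al be f (Function.surjInv hπ (θ y)) = _
    rw [eq_add_of_sub_eq hx, add_comm, extP_add_W]
    exact congrFun (extP_sh al be hal f) _
  θ_ι := by
    intro b
    change θ (π (spt F b)) = π (spt F (shf (2 ^ a) b))
    rw [hθ, shP_spt]
  θ_h := by
    intro y
    obtain ⟨v, rfl⟩ := hπ y
    have h1 : ∀ n : ℕ, ∀ v, (⇑θ)^[n] (π v) = π ((shP F (2 ^ a))^[n] v) := by
      intro n
      induction n with
      | zero => intro v; rfl
      | succ n ih =>
          intro v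
          rw [Function.iterate_succ_apply, Function.iterate_succ_apply, hθ, ih]
    rw [h1]
    congr 1
    funext p
    rw [shP_iter]
    congr 2
    simp

section sys

variable (al be : ZMod (2 ^ a) → F) (hal : ∑ j, al j ≠ 0)
    (π : (Bool × ZMod (2 ^ a) → F) →+ Y) (hπ : Function.Surjective π)
    (hker : ∀ v, π v = 0 ↔ ∃ x : Cube (2 ^ a), v = wpt al be x) (θ : Y ≃+ Y)
    (hθ : ∀ v, θ (π v) = π (shP F (2 ^ a) v))

theorem mkESys_ι (b : Cube (2 ^ a)) :
    (mkESys al be hal π hπ hker θ hθ).ι b = π (spt F b) := rfl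

theorem mkESys_θ : (mkESys al be hal π hπ hker θ hθ).θ = θ := rfl

/-- The extension in terms of the points. -/
theorem mkESys_E (f : Cube (2 ^ a) → F) (v : Bool × ZMod (2 ^ a) → F) :
    (mkESys al be hal π hπ hker θ hθ).E f (π v) = extP al be f v := by
  have h1 := (hker (Function.surjInv hπ (π v) - v)).1 (by
    rw [map_sub, Function.surjInv_eq hπ, sub_self])
  obtain ⟨x, hx⟩ := h1
  change extP al be f (Function.surjInv hπ (π v)) = _
  rw [eq_add_of_sub_eq hx, add_comm, extP_add_W]

/-- Degree along a line whose direction has at most `t` nonzero coordinates. -/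
theorem mkESys_line [DecidableEq F] (f : Cube (2 ^ a) → F) (y : Y)
    (r : Bool × ZMod (2 ^ a) → F) {t : ℕ} (hr : (univ.filter fun i => r i ≠ 0).card ≤ t) :
    ∃ p : Polynomial F, p.natDegree ≤ t ∧ ∀ u : F,
      (mkESys al be hal π hπ hker θ hθ).E f (y + π (u • r)) = p.eval u := by
  obtain ⟨v, rfl⟩ := hπ y
  obtain ⟨p, hp, hu⟩ := (MA_extP al be f).line v r hr
  refine ⟨p, hp, fun u => ?_⟩
  rw [← map_add, mkESys_E, hu]

end sys

end con

end Vale.Agent.P330.Q
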