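import Vale.Agent.P330.Q.YDef
import Vale.Agent.P330.Q.ExtCon

/-!
# Project Q: the extension system on the explicit domain
-/

namespace Vale.Agent.P330.Q

open Finset
open scoped BigOperators

variable {K : Type*} [Field K] {a : ℕ}

theorem wpt_eq (al be : ZMod (2 ^ a) → K) (x : Cube (2 ^ a)) :
    wpt al be x = pr2 (cv (btv x) al) (cv (btv x) be) := by
  funext ⟨e, r⟩
  cases e
  · change ∑ i, al (r - i) * bt K (x i) = ∑ i, bt K (x i) * al (r - i)
    exact sum_congr rfl fun i _ => mul_comm _ _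
  · change ∑ i, be (r - i) * bt K (x i) = ∑ i, bt K (x i) * be (r - i)
    exact sum_congr rfl fun i _ => mul_comm _ _

theorem spt_eq (b : Cube (2 ^ a)) : spt K b = pr2 0 (btv b) := by
  funext ⟨e, r⟩
  cases e <;> rfl

theorem shP_eq : shP K (2 ^ a) = shV := rfl

variable [CharP K 2]

theorem piY_ker {al al' : ZMod (2 ^ a) → K} (be : ZMod (2 ^ a) → K)
    (h1 : cv al' al = dl (2 ^ a) K) (v : Bool × ZMod (2 ^ a) → K) :
    piY al' be v = 0 ↔ ∃ x : Cube (2 ^ a), v = wpt al be x := by
  rw [piY_eq_zero be h1]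
  exact exists_congr fun x => by rw [wpt_eq]

/-- The extension system on the explicit domain. -/
noncomputable def ysys (al be al' : ZMod (2 ^ a) → K) (hal : ∑ j, al j ≠ 0)
    (h1 : cv al' al = dl (2 ^ a) K) : ESys K (2 ^ a) (YY K (2 ^ a)) :=
  mkESys al be hal (piY al' be) (piY_surjective be h1) (piY_ker be h1) (thetaY K (2 ^ a))
    (theta_piY al' be)

variable (al be al' : ZMod (2 ^ a) → K) (hal : ∑ j, al j ≠ 0) (h1 : cv al' al = dl (2 ^ a) K)

theorem ysys_θ : (ysys al be al' hal h1).θ = thetaY K (2 ^ a) := rfl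

theorem ysys_ι : (ysys al be al' hal h1).ι = iotaY K (2 ^ a) := by
  refine DFunLike.ext _ _ fun b => ?_
  change piY al' be (spt K b) = _
  rw [spt_eq, piY_iota]

theorem ysys_E (f : Cube (2 ^ a) → K) (v : Bool × ZMod (2 ^ a) → K) :
    (ysys al be al' hal h1).E f (piY al' be v) = extP al be f v :=
  mkESys_E al be hal _ _ _ _ _ f v

/-- The extension in terms of the section. -/
theorem ysys_E_sec (f : Cube (2 ^ a) → K) (y : YY K (2 ^ a)) :
    (ysys al be al' hal h1).E f y = extP al be f (secY al y) := by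
  conv_lhs => rw [← piY_secY be h1 y]
  exact ysys_E al be al' hal h1 f _

theorem ysys_line [DecidableEq K] (f : Cube (2 ^ a) → K) (y : YY K (2 ^ a))
    (r : Bool × ZMod (2 ^ a) → K) {t : ℕ} (hr : (univ.filter fun i => r i ≠ 0).card ≤ t) :
    ∃ p : Polynomial K, p.natDegree ≤ t ∧ ∀ u : K,
      (ysys al be al' hal h1).E f (y + piY al' be (u • r)) = p.eval u :=
  mkESys_line al be hal _ _ _ _ _ f y r hr

end Vale.Agent.P330.Q
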