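import Vale.Agent.P330.Q.CbPar
import Vale.Agent.P330.Q.TestF2
import Vale.Agent.P330.Q.Pars
import Vale.Agent.P330.Q.YSys
import Mathlib.FieldTheory.Finite.GaloisField

/-!
# Project Q: the concrete family

Constants: `BQ` slots, `parQ : Pars ..` the numerical parameters, `KQ` the field with
`2 ^ parQ.s` elements, `φQ` the functional, `codeQ : Code` the finite data.

For an instance `I` of End-of-Line: `hC I = 2 ^ aC I` the length, `zC I` the number of the pair,
`alC I`, `beC I`, `apC I` the pair and the inverse, `YC I` the domain, `sysC I` the extension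
system, `axC I`, `dirC I` the axes and the directions, `domC I : Dom ..` the domain of the machine,
`famC I : CInst codeQ` the instance.
-/

namespace Vale.Agent.P330.Q

open Finset Vale.Agent.P330.S
open S.Mach (spec)
open Srch

/-! ### Constants -/

/-- The number of slots. -/
noncomputable def BQ : ℕ := Fintype.card (PSlot spec)

/-- The slots. -/
noncomputable def σQ : PSlot spec ≃ Fin BQ := Fintype.equivFin _

/-- The number of contents of a cell. -/
noncomputable def nCQ : ℕ := Fintype.card spec.Cell

/-- The numerical parameters. -/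
noncomputable def parQ : Pars (cQ nCQ BQ) := parsQ nCQ BQ

/-- A field with `2 ^ s` elements. -/
structure FieldQ where
  K : Type
  fK : Field K
  tK : Fintype K
  dK : DecidableEq K
  cK : CharP K 2
  card : @Fintype.card K tK = parQ.q

theorem exists_fieldQ : Nonempty FieldQ := by
  classical
  have h1 : parQ.s ≠ 0 := by have := parQ.four_le; omega
  exact ⟨⟨GaloisField 2 parQ.s, inferInstance, Fintype.ofFinite _, inferInstance, inferInstance,
    by rw [Fintype.card_eq_nat_card]; exact GaloisField.card 2 parQ.s h1⟩⟩

/-- The field. -/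
noncomputable def fieldQ : FieldQ := exists_fieldQ.some

/-- The field. -/
def KQ : Type := fieldQ.K

noncomputable instance : Field KQ := fieldQ.fK
noncomputable instance : Fintype KQ := fieldQ.tK
noncomputable instance : DecidableEq KQ := fieldQ.dK
instance : CharP KQ 2 := fieldQ.cK

theorem card_KQ : Fintype.card KQ = parQ.q := fieldQ.card

/-- The functional. -/
noncomputable def φQ : KQ →+ ZMod 2 := pK KQ

theorem φQ_one : φQ 1 = 1 := pK_one KQ

theorem φQ_ne : φQ ≠ 0 := by
  intro h
  have h1 := φQ_one
  rw [h] at h1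
  exact absurd h1 (by decide)

noncomputable instance : DecidableEq (VOut spec) := Classical.decEq _
noncomputable instance : DecidableEq (CK KQ) := Classical.decEq _

/-- The finite data of the test. -/
noncomputable abbrev testQ : THalf := tHalf spec.Cell (VOut spec) (TY KQ) BQ φQ

/-- **The finite data of the network.** -/
noncomputable def codeQ : Code :=
  mkCode spec.Cell (VOut spec) BQ φQ φQ_ne parQ.Dc (parQ.Dc_1' card_KQ) (parQ.Dc_2' card_KQ) testQ

/-! ### The instance -/

/-- The exponent of the length. -/
noncomputable abbrev aC (I : EndOfLine) : ℕ := aQ parQ.N0 BQ I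

/-- The length. -/
noncomputable abbrev hC (I : EndOfLine) : ℕ := 2 ^ aC I

/-- The number of the pair. -/
noncomputable def zC (I : EndOfLine) : ℕ := sch KQ (16 * (parQ.s + 5)) (hC I)

/-- The first element of the pair. -/
noncomputable def alC (I : EndOfLine) : ZMod (hC I) → KQ := alZ KQ (hC I) (zC I)

/-- The second element of the pair. -/
noncomputable def beC (I : EndOfLine) : ZMod (hC I) → KQ := beZ KQ (hC I) (zC I)

/-- The inverse of the first element of the pair. -/
noncomputable def apC (I : EndOfLine) : ZMod (hC I) → KQ := apZ KQ (hC I) (zC I)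

/-- The domain. -/
abbrev YC (I : EndOfLine) : Type := YY KQ (hC I)

/-- The axes. -/
noncomputable def axC (I : EndOfLine) : Bool × ZMod (hC I) → KQ →+ YC I :=
  qax (piY (apC I) (beC I))

theorem searchC (I : EndOfLine) :
    cv (apC I) (alC I) = dl (hC I) KQ ∧ ∑ j, alC I j ≠ 0 ∧
      GoodPair (16 * (parQ.s + 5)) (alC I) (beC I) ∧
      Spread (1 / ((16 * (parQ.s + 5) : ℕ) : ℝ)) (axC I) :=
  sch_all (aC I) parQ.s KQ (card_KQ.le) rfl rfl

theorem cvC (I : EndOfLine) : cv (apC I) (alC I) = dl (2 ^ aC I) KQ := (searchC I).1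

theorem alC_sum (I : EndOfLine) : ∑ j, alC I j ≠ 0 := (searchC I).2.1

theorem spreadC (I : EndOfLine) : Spread (1 / ((16 * (parQ.s + 5) : ℕ) : ℝ)) (axC I) :=
  (searchC I).2.2.2

/-- The extension system. -/
noncomputable def sysC (I : EndOfLine) : ESys KQ (hC I) (YC I) :=
  ysys (alC I) (beC I) (apC I) (alC_sum I) (cvC I)

theorem YC_add_self (I : EndOfLine) (y : YC I) : y + y = 0 := YY_add_self y

/-- The indices of the directions. -/
abbrev ιC (I : EndOfLine) : Type := DIx (axC I) parQ.t

/-- The directions. -/
noncomputable def dirC (I : EndOfLine) : ιC I → KQ →+ YC I := idir (axC I) parQ.t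

theorem N0_le (I : EndOfLine) : parQ.N0 ≤ Fintype.card (YC I) :=
  (a0_le_aQ _ _ _).trans (Nat.lt_two_pow_self.le.trans (card_YY_ge KQ (hC I)))

theorem sprC (I : EndOfLine) : Nonempty (ιC I) ∧ Spr (dirC I) parQ.lam ∧
    Spr (pdir (dirC I) (dirC I)) parQ.lam :=
  parQ.spr card_KQ (YC_add_self I) (spreadC I) (N0_le I)

instance (I : EndOfLine) : Nonempty (ιC I) := (sprC I).1

theorem BQ_pos : 1 ≤ BQ := Fintype.card_pos (α := PSlot spec)

theorem hC_le (I : EndOfLine) : 2 * kQ I * BQ ≤ hC I := le_hQ _ _ _

theorem hC_le' (I : EndOfLine) : 2 * kQ I ≤ hC I :=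
  (Nat.le_mul_of_pos_right _ BQ_pos).trans (hC_le I)

/-- The domain of the machine. -/
noncomputable def domC (I : EndOfLine) :
    Dom KQ (hC I) BQ (YC I) spec.Cell (VOut spec) ((famQ I).J → spec.Cell) :=
  dom (sysC I) (famQ I) (famQ_facts I) σQ (epsQ I) (hC_le I) (hC_le' I)

/-- The directions of the translations: digit `0`. -/
noncomputable def dgC (I : EndOfLine) (x : TY KQ) : YC I := Pi.single 0 x

/-- The moves, functionals and public bits of the test. -/
noncomputable def tinC (I : EndOfLine) :
    TInst testQ KQ (YC I) spec.Cell (VOut spec) (hC I) :=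
  tInst (domC I).toDomData (dgC I) φQ

/-- **The instance.** -/
noncomputable def famC (I : EndOfLine) : CInst codeQ :=
  mkInst (domC I) 1 (tinC I) (pdir (dirC I) (dirC I)) (YC_add_self I)

end Vale.Agent.P330.Q
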