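import Vale.Agent.P330.S.H174.StepAPI

/-!
# The machine as public polynomial maps

`x : Cell → J → F` is an array (one function on the positions for every possible content of a
cell), `onehot w` the array of a configuration.  The outputs `Out` are polynomial maps in `x`,
`evO x o a = ∑ over (γ, α) in the kernel of ∏ over the slots t of x (γ t) (α t)`, where the kernel
`kerO o γ a α` is public.  The violation outputs vanish exactly at the arrays of the valid
configurations, the output `next z` is the array of the next configuration.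
-/

namespace Vale.Agent.P330.Q

open Finset Vale.Agent.P330.S

/-- slots of the monomials -/
abbrev PSlot (S : Spec) : Type := Option S.Off ⊕ Fin (S.d + 2)

/-- The outputs. `two`, `sum`, `stat`, `win`: violations; `proj`: the array itself; `next`: the
array of the next (`z = false`) or previous (`z = true`) configuration. -/
inductive Out (S : Spec)
  | two (e e' : S.Cell)
  | sum
  | stat (e : S.Cell)
  | win (c : Fin (S.d + 2) → S.Cell)
  | proj (e : S.Cell)
  | next (z : Bool) (e : S.Cell)
  deriving Fintype

/-- the outputs that have to vanish -/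
def Out.viol {S : Spec} : Out S → Bool
  | .two _ _ => true
  | .sum => true
  | .stat _ => true
  | .win _ => true
  | .proj _ => false
  | .next _ _ => false

variable {S : Spec} {r : ℕ}

/-- the components of the slots: only the slots `0` and `1` of the window are used -/
def gam2 (u v : Option S.Cell) : PSlot S → Option S.Cell :=
  Sum.elim (fun _ => none) (fun i => if i = 0 then u else if i = 1 then v else none)

/-- the components of the slots: a whole window -/
def gamW (c : Fin (S.d + 2) → S.Cell) : PSlot S → Option S.Cell :=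
  Sum.elim (fun _ => none) (fun i => some (c i))

/-- the components of the slots: content `e'` of the cell, contents `g` around the head -/
def gamN (e' : S.Cell) (g : S.Off → S.Cell) : PSlot S → Option S.Cell :=
  Sum.elim (fun o => some (o.elim e' g)) (fun _ => none)

/-- the positions of the slots: a whole window -/
def alW (I : Inst S r) (a : I.J) : PSlot S → I.J :=
  Sum.elim (fun _ => a) (fun i => a + I.off (S.win i))

/-- the positions of the slots: the cell `a` and the cells around the head `h` -/
def alN (I : Inst S r) (a h : I.J) : PSlot S → I.J :=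
  Sum.elim (fun o => o.elim a (fun o => h + I.off o)) (fun _ => a)

/-- content of the cell `a` after the step: `h` position of the head, `g` contents around it,
`e'` content of the cell -/
def IsRes (I : Inst S r) (z : Bool) (g : S.Off → S.Cell) (e' : S.Cell) (h a : I.J)
    (e : S.Cell) : Prop :=
  (∃ o, S.upd o = true ∧ a = h + I.off o ∧ (S.rule z g).2 o = e) ∨
    ((∀ o, S.upd o = true → a ≠ h + I.off o) ∧ (S.rule z g).1 e' = e)

/-- The kernel of an output. -/
def kerO (I : Inst S r) : Out S → (PSlot S → Option S.Cell) → I.J → (PSlot S → I.J) → Prop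
  | .two e e', γ, a, α => e ≠ e' ∧ γ = gam2 (some e) (some e') ∧ α = fun _ => a
  | .sum, γ, a, α => (∃ e, γ = gam2 e none) ∧ α = fun _ => a
  | .stat e, γ, a, α => S.statOf e ≠ I.stat a ∧ γ = gam2 (some e) none ∧ α = fun _ => a
  | .win c, γ, a, α => S.allowed c = false ∧ γ = gamW c ∧ α = alW I a
  | .proj e, γ, a, α => γ = gam2 (some e) none ∧ α = fun _ => a
  | .next z e, γ, a, α => ∃ g e' h, S.hd (g S.zero) = true ∧ IsRes I z g e' h a e ∧
      γ = gamN e' g ∧ α = alN I a h

theorem kerO_none (I : Inst S r) {o : Out S} {γ : PSlot S → Option S.Cell} {a : I.J}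
    {α : PSlot S → I.J} (h : kerO I o γ a α) {t : PSlot S} (ht : γ t = none) : α t = a := by
  cases o with
  | two e e' => rw [h.2.2]
  | sum => rw [h.2]
  | stat e => rw [h.2.2]
  | win c =>
    obtain ⟨-, hγ, hα⟩ := h
    subst hγ hα
    rcases t with t | t
    · rfl
    · simp [gamW] at ht
  | proj e => rw [h.2]
  | next z e =>
    obtain ⟨g, e', h', -, -, hγ, hα⟩ := h
    subst hγ hα
    rcases t with t | t
    · simp [gamN] at ht
    · rfl

section evO

variable {F : Type*} [Field F]

/-- the factor of a slot -/
def valO {C A : Type} (x : C → A → F) : Option C → A → F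
  | none, _ => 1
  | some e, a => x e a

open Classical in
/-- The output `o` at the address `a`. -/
noncomputable def evO (I : Inst S r) (x : S.Cell → I.J → F) (o : Out S) (a : I.J) : F :=
  ∑ γ : PSlot S → Option S.Cell, ∑ α : PSlot S → I.J,
    if kerO I o γ a α then ∏ t, valO x (γ t) (α t) else 0

open Classical in
/-- the array of a configuration -/
noncomputable def onehot {C A : Type} (w : A → C) (e : C) (a : A) : F := if w a = e then 1 else 0

theorem prod_val_gam2 (I : Inst S r) (x : S.Cell → I.J → F) (u v : Option S.Cell) (a : I.J) :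
    ∏ t, valO x (gam2 u v t) ((fun _ => a : PSlot S → I.J) t) = valO x u a * valO x v a := by
  rw [Fintype.prod_sum_type]
  have h1 : ∏ i : Option S.Off, valO x (gam2 u v (Sum.inl i)) a = 1 :=
    Finset.prod_eq_one fun i _ => rfl
  have h2 : ∏ i : Fin (S.d + 2), valO x (gam2 u v (Sum.inr i)) a = valO x u a * valO x v a := by
    have h01 : (0 : Fin (S.d + 2)) ≠ 1 := by
      intro h
      have := congrArg Fin.val h
      simp at this
    rw [← Finset.prod_subset (Finset.subset_univ ({0, 1} : Finset (Fin (S.d + 2)))),
      Finset.prod_pair h01]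
    · simp [gam2]
    · intro i _ hi
      simp only [Finset.mem_insert, Finset.mem_singleton, not_or] at hi
      simp [gam2, hi.1, hi.2, valO]
  rw [h1, h2, one_mul]

theorem evO_of_single (I : Inst S r) (x : S.Cell → I.J → F) (o : Out S) (a : I.J) (C : Prop)
    [Decidable C] (γ₀ : PSlot S → Option S.Cell) (α₀ : PSlot S → I.J)
    (h : ∀ γ α, kerO I o γ a α ↔ C ∧ γ = γ₀ ∧ α = α₀) :
    evO I x o a = if C then ∏ t, valO x (γ₀ t) (α₀ t) else 0 := by
  classical
  unfold evO
  rw [Finset.sum_eq_single γ₀, Finset.sum_eq_single α₀]
  · by_cases hC : C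
    · rw [if_pos hC, if_pos ((h _ _).2 ⟨hC, rfl, rfl⟩)]
    · rw [if_neg hC, if_neg fun hk => hC ((h _ _).1 hk).1]
  · intro α _ hα
    rw [if_neg fun hk => hα ((h _ _).1 hk).2.2]
  · intro hh
    exact absurd (Finset.mem_univ _) hh
  · intro γ _ hγ
    apply Finset.sum_eq_zero
    intro α _
    rw [if_neg fun hk => hγ ((h _ _).1 hk).2.1]
  · intro hh
    exact absurd (Finset.mem_univ _) hh

theorem evO_two (I : Inst S r) (x : S.Cell → I.J → F) (e e' : S.Cell) (a : I.J) :
    evO I x (.two e e') a = if e ≠ e' then x e a * x e' a else 0 := by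
  rw [evO_of_single I x _ a (e ≠ e') (gam2 (some e) (some e')) (fun _ => a) (fun γ α => Iff.rfl),
    prod_val_gam2]
  rfl

open Classical in
theorem evO_stat (I : Inst S r) (x : S.Cell → I.J → F) (e : S.Cell) (a : I.J) :
    evO I x (.stat e) a = if S.statOf e ≠ I.stat a then x e a else 0 := by
  rw [evO_of_single I x _ a (S.statOf e ≠ I.stat a) (gam2 (some e) none) (fun _ => a)
    (fun γ α => Iff.rfl), prod_val_gam2]
  simp [valO]

theorem evO_proj (I : Inst S r) (x : S.Cell → I.J → F) (e : S.Cell) (a : I.J) :
    evO I x (.proj e) a = x e a := by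
  rw [evO_of_single I x _ a True (gam2 (some e) none) (fun _ => a)
    (fun γ α => by simp [kerO]), prod_val_gam2]
  simp [valO]

theorem evO_win (I : Inst S r) (x : S.Cell → I.J → F) (c : Fin (S.d + 2) → S.Cell) (a : I.J) :
    evO I x (.win c) a =
      if S.allowed c = false then ∏ i, x (c i) (a + I.off (S.win i)) else 0 := by
  rw [evO_of_single I x _ a (S.allowed c = false) (gamW c) (alW I a) (fun γ α => Iff.rfl),
    Fintype.prod_sum_type]
  have h1 : ∏ i : Option S.Off, valO x (gamW c (Sum.inl i)) (alW I a (Sum.inl i)) = 1 :=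
    Finset.prod_eq_one fun i _ => rfl
  rw [h1, one_mul]
  rfl

theorem gam2_inj {u v : Option S.Cell} (h : gam2 u none = gam2 (S := S) v none) : u = v := by
  have := congrFun h (Sum.inr 0)
  simpa [gam2] using this

theorem evO_sum (I : Inst S r) (x : S.Cell → I.J → F) (a : I.J) :
    evO I x .sum a = 1 + ∑ e, x e a := by
  classical
  unfold evO
  have h1 : ∀ γ : PSlot S → Option S.Cell, (∑ α : PSlot S → I.J,
      if kerO I .sum γ a α then ∏ t, valO x (γ t) (α t) else 0) =
      if ∃ e, γ = gam2 e none then ∏ t, valO x (γ t) a else 0 := by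
    intro γ
    rw [Finset.sum_eq_single fun _ => a]
    · apply if_congr _ rfl rfl
      simp [kerO]
    · intro α _ hα
      rw [if_neg fun hk => hα hk.2]
    · intro hh
      exact absurd (Finset.mem_univ _) hh
  rw [Finset.sum_congr rfl fun γ _ => h1 γ, ← Finset.sum_filter]
  have h2 : (univ.filter fun γ : PSlot S → Option S.Cell => ∃ e, γ = gam2 e none) =
      univ.image (fun e : Option S.Cell => gam2 e none) := by
    ext γ
    simp [eq_comm]
  rw [h2, Finset.sum_image fun e _ e' _ h => gam2_inj h, Fintype.sum_option]
  congr 1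
  · have := prod_val_gam2 I x none none a
    rw [this]
    simp [valO]
  · apply Finset.sum_congr rfl
    intro e _
    have := prod_val_gam2 I x (some e) none a
    rw [this]
    simp [valO]

/-! ### Violations -/

theorem onehot_self {C A : Type} (w : A → C) (a : A) : onehot (F := F) w (w a) a = 1 := by
  simp [onehot]

theorem onehot_ne {C A : Type} (w : A → C) {e : C} {a : A} (h : w a ≠ e) :
    onehot (F := F) w e a = 0 := by
  simp [onehot, h]

theorem onehot_inj {C A : Type} {w w' : A → C}
    (h : (onehot w : C → A → F) = onehot w') : w = w' := by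
  funext a
  have h1 := congrFun (congrFun h (w a)) a
  rw [onehot_self] at h1
  by_contra hne
  rw [onehot_ne w' (Ne.symm hne)] at h1
  exact one_ne_zero h1

/-- The violation outputs vanish at the arrays of the valid configurations. -/
theorem evO_viol_of_valid (I : Inst S r) (h2 : (1 : F) + 1 = 0) {w : I.J → S.Cell}
    (hw : I.Valid w) (o : Out S) (ho : o.viol = true) (a : I.J) :
    evO I (onehot w) o a = (0 : F) := by
  classical
  cases o with
  | two e e' =>
    rw [evO_two]
    split_ifs with h
    · by_cases h1 : w a = e
      · rw [onehot_ne w (e := e') fun h3 => h (h1.symm.trans h3), mul_zero]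
      · rw [onehot_ne w h1, zero_mul]
    · rfl
  | sum =>
    rw [evO_sum]
    have : ∑ e, onehot w e a = (1 : F) := by
      rw [Finset.sum_eq_single (w a) (fun e _ he => onehot_ne w (Ne.symm he))
        (fun hh => absurd (Finset.mem_univ _) hh), onehot_self]
    rw [this, h2]
  | stat e =>
    rw [evO_stat]
    split_ifs with h
    · rw [onehot_ne]
      intro h1
      apply h
      rw [← h1]
      exact hw.1 a
    · rfl
  | win c =>
    rw [evO_win]
    split_ifs with h
    · by_contra hne
      have h1 : ∀ i, w (a + I.off (S.win i)) = c i := by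
        intro i
        by_contra hi
        exact hne (Finset.prod_eq_zero (Finset.mem_univ i) (onehot_ne w hi))
      have h3 := hw.2 a
      rw [show (fun t => w (a + I.off (S.win t))) = c from funext h1] at h3
      rw [h3] at h
      exact absurd h (by simp)
    · rfl
  | proj e => simp [Out.viol] at ho
  | next z e => simp [Out.viol] at ho

/-- If all violation outputs vanish at `x` then `x` is the array of a valid configuration. -/
theorem exists_valid_of_viol (I : Inst S r) (h2 : (1 : F) + 1 = 0) (x : S.Cell → I.J → F)
    (hx : ∀ o : Out S, o.viol = true → ∀ a, evO I x o a = 0) :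
    ∃ w, I.Valid w ∧ x = onehot w := by
  classical
  have h1 : ∀ a, ∃ e, x e a ≠ 0 := by
    intro a
    by_contra hc
    push Not at hc
    have := hx .sum rfl a
    rw [evO_sum, Finset.sum_eq_zero fun e _ => hc e, add_zero] at this
    exact one_ne_zero this
  choose w hw using h1
  have h3 : ∀ a e, w a ≠ e → x e a = 0 := by
    intro a e he
    have := hx (.two (w a) e) rfl a
    rw [evO_two, if_pos he] at this
    exact (mul_eq_zero.1 this).resolve_left (hw a)
  have h4 : ∀ a, x (w a) a = 1 := by
    intro a
    have := hx .sum rfl a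
    rw [evO_sum, Finset.sum_eq_single (w a) (fun e _ he => h3 a e (Ne.symm he))
      (fun hh => absurd (Finset.mem_univ _) hh)] at this
    linear_combination this - h2
  have hxw : x = onehot w := by
    funext e a
    by_cases he : w a = e
    · rw [← he, h4, onehot_self]
    · rw [h3 a e he, onehot_ne w he]
  refine ⟨w, ⟨?_, ?_⟩, hxw⟩
  · intro a
    by_contra hc
    have := hx (.stat (w a)) rfl a
    rw [evO_stat, if_pos hc, h4] at this
    exact one_ne_zero this
  · intro a
    by_contra hc
    have hc' : S.allowed (fun t => w (a + I.off (S.win t))) = false := by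
      simpa using hc
    have := hx (.win fun t => w (a + I.off (S.win t))) rfl a
    rw [evO_win, if_pos hc', Finset.prod_eq_one fun i _ => h4 _] at this
    exact one_ne_zero this

theorem viol_iff (I : Inst S r) (h2 : (1 : F) + 1 = 0) (x : S.Cell → I.J → F) :
    (∀ o : Out S, o.viol = true → ∀ a, evO I x o a = 0) ↔ ∃ w, I.Valid w ∧ x = onehot w := by
  constructor
  · exact exists_valid_of_viol I h2 x
  · rintro ⟨w, hw, rfl⟩ o ho a
    exact evO_viol_of_valid I h2 hw o ho a

/-! ### The next configuration -/

theorem isRes_apply (I : Inst S r) (z : Bool) (w : I.J → S.Cell) (h a : I.J) (e : S.Cell) :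
    IsRes I z (Inst.around w h) (w a) h a e ↔ I.apply z w h a = e := by
  by_cases ha : ∃ o, S.upd o = true ∧ a = h + I.off o
  · obtain ⟨o, ho, rfl⟩ := ha
    rw [Inst.apply_upd z w h ho]
    constructor
    · rintro (⟨o', ho', h1, h2⟩ | ⟨h1, -⟩)
      · have : o' = o := I.off_inj _ _ ho' ho (add_left_cancel h1).symm
        rw [← this]; exact h2
      · exact absurd rfl (h1 o ho)
    · intro h1
      exact Or.inl ⟨o, ho, rfl, h1⟩
  · push Not at ha
    rw [Inst.apply_off z w h ha]
    constructor
    · rintro (⟨o', ho', h1, h2⟩ | ⟨-, h1⟩)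
      · exact absurd h1 (ha o' ho')
      · exact h1
    · intro h1
      exact Or.inr ⟨ha, h1⟩

theorem prod_val_onehot (I : Inst S r) (w : I.J → S.Cell) (γ : PSlot S → Option S.Cell)
    (α : PSlot S → I.J) :
    ∏ t, valO (F := F) (onehot w) (γ t) (α t) =
      if (∀ t e, γ t = some e → w (α t) = e) then 1 else 0 := by
  classical
  split_ifs with h
  · apply Finset.prod_eq_one
    intro t _
    cases ht : γ t with
    | none => rfl
    | some e =>
      have := h t e ht
      simp [valO, onehot, this]
  · push Not at h
    obtain ⟨t, e, ht, hne⟩ := h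
    apply Finset.prod_eq_zero (Finset.mem_univ t)
    rw [ht]
    exact onehot_ne w hne

theorem evO_next (I : Inst S r) {w : I.J → S.Cell} {h : I.J} (H : I.IsHead w h) (z : Bool)
    (e : S.Cell) (a : I.J) : evO I (onehot w) (.next z e) a = (onehot (I.step z w) e a : F) := by
  classical
  unfold evO
  simp only [prod_val_onehot]
  -- the only term that counts
  have key : ∀ γ α, (kerO I (.next z e) γ a α ∧ ∀ t e, γ t = some e → w (α t) = e) ↔
      (I.step z w a = e ∧ γ = gamN (w a) (Inst.around w h) ∧ α = alN I a h) := by
    intro γ α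
    constructor
    · rintro ⟨⟨g, e', h', hg, hres, hγ, hα⟩, hm⟩
      subst hγ hα
      have e1 : w a = e' := hm (Sum.inl none) e' rfl
      have e2 : ∀ o, w (h' + I.off o) = g o := fun o => hm (Sum.inl (some o)) (g o) rfl
      have e3 : g = Inst.around w h' := funext fun o => (e2 o).symm
      have e4 : h' = h := by
        apply H.2
        have := e2 S.zero
        rw [I.off_zero, add_zero] at this
        rw [this]
        exact hg
      subst e4
      subst e1
      subst e3
      refine ⟨?_, rfl, rfl⟩
      rw [Inst.step_of_head H]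
      exact (isRes_apply I z w _ a e).1 hres
    · rintro ⟨h1, hγ, hα⟩
      subst hγ hα
      refine ⟨⟨Inst.around w h, w a, h, ?_, ?_, rfl, rfl⟩, ?_⟩
      · have : Inst.around w h S.zero = w h := by
          unfold Inst.around
          rw [I.off_zero, add_zero]
        rw [this]
        exact H.1
      · rw [isRes_apply]
        rw [Inst.step_of_head H] at h1
        exact h1
      · intro t e' ht
        rcases t with t | t
        · cases t with
          | none =>
            have : some (w a) = some e' := ht
            exact Option.some.inj this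
          | some o =>
            have : some (Inst.around w h o) = some e' := ht
            exact Option.some.inj this
        · exact absurd ht (by simp [gamN])
  have h1 : ∀ γ α, (if kerO I (.next z e) γ a α then
      (if (∀ t e, γ t = some e → w (α t) = e) then (1 : F) else 0) else 0) =
      if (I.step z w a = e ∧ γ = gamN (w a) (Inst.around w h) ∧ α = alN I a h) then 1 else 0 := by
    intro γ α
    rw [← ite_and]
    exact if_congr (key γ α) rfl rfl
  rw [Finset.sum_congr rfl fun γ _ => Finset.sum_congr rfl fun α _ => h1 γ α]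
  by_cases hs : I.step z w a = e
  · rw [Finset.sum_eq_single (gamN (w a) (Inst.around w h)), Finset.sum_eq_single (alN I a h)]
    · simp [hs, onehot]
    · intro α _ hα
      rw [if_neg fun hk => hα hk.2.2]
    · intro hh
      exact absurd (Finset.mem_univ _) hh
    · intro γ _ hγ
      apply Finset.sum_eq_zero
      intro α _
      rw [if_neg fun hk => hγ hk.2.1]
    · intro hh
      exact absurd (Finset.mem_univ _) hh
  · rw [onehot_ne _ hs]
    apply Finset.sum_eq_zero
    intro γ _
    apply Finset.sum_eq_zero
    intro α _
    rw [if_neg fun hk => hs hk.1]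

end evO

/-! ### The same with slots `Fin B` and addresses in any type -/

section transport

variable {F : Type*} [Field F] {A : Type} [Fintype A] {B : ℕ}

/-- the output of a kernel -/
noncomputable def evK {C A : Type} [Fintype C] [Fintype A] {B : ℕ} {F : Type*} [Field F]
    (K : (Fin B → Option C) → A → (Fin B → A) → F) (x : C → A → F) (a : A) : F :=
  ∑ γ : Fin B → Option C, ∑ α : Fin B → A, K γ a α * ∏ t, valO x (γ t) (α t)

open Classical in
/-- the kernels with slots `Fin B` and addresses in `A` -/
noncomputable def kerF (F : Type*) [Field F] (I : Inst S r) (σ : PSlot S ≃ Fin B) (ε : I.J ≃ A)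
    (o : Out S) (γ : Fin B → Option S.Cell) (a : A) (α : Fin B → A) : F :=
  if kerO I o (fun t => γ (σ t)) (ε.symm a) (fun t => ε.symm (α (σ t))) then 1 else 0

omit [Fintype A] in
theorem kerF_none (I : Inst S r) (σ : PSlot S ≃ Fin B) (ε : I.J ≃ A) {o : Out S}
    {γ : Fin B → Option S.Cell} {a : A} {α : Fin B → A} (h : kerF F I σ ε o γ a α ≠ 0)
    {t : Fin B} (ht : γ t = none) : α t = a := by
  classical
  have h1 : kerO I o (fun t => γ (σ t)) (ε.symm a) (fun t => ε.symm (α (σ t))) := by
    by_contra hc
    exact h (if_neg hc)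
  have h2 := kerO_none I h1 (t := σ.symm t) (by simpa using ht)
  simpa using h2

theorem evK_kerF (I : Inst S r) (σ : PSlot S ≃ Fin B) (ε : I.J ≃ A) (o : Out S)
    (x : S.Cell → A → F) (a : A) :
    evK (kerF F I σ ε o) x a = evO I (fun e j => x e (ε j)) o (ε.symm a) := by
  classical
  unfold evK evO
  rw [← (Equiv.arrowCongr σ (Equiv.refl (Option S.Cell))).sum_comp]
  apply Finset.sum_congr rfl
  intro γ _
  rw [← (Equiv.arrowCongr σ ε).sum_comp]
  apply Finset.sum_congr rfl
  intro α _
  have e1 : ∀ t, (Equiv.arrowCongr σ (Equiv.refl (Option S.Cell))) γ (σ t) = γ t := by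
    intro t
    simp [Equiv.arrowCongr]
  have e2 : ∀ t, ε.symm ((Equiv.arrowCongr σ ε) α (σ t)) = α t := by
    intro t
    simp [Equiv.arrowCongr]
  unfold kerF
  simp only [e1, e2]
  have e3 : ∏ t : Fin B, valO x ((Equiv.arrowCongr σ (Equiv.refl (Option S.Cell))) γ t)
      ((Equiv.arrowCongr σ ε) α t) = ∏ t, valO (fun e j => x e (ε j)) (γ t) (α t) := by
    rw [← σ.prod_comp]
    apply Finset.prod_congr rfl
    intro t _
    rw [e1]
    have e4 : (Equiv.arrowCongr σ ε) α (σ t) = ε (α t) := by
      simp [Equiv.arrowCongr]
    rw [e4]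
    cases γ t <;> rfl
  rw [e3]
  split_ifs <;> simp

/-- the array of a configuration on the addresses `A` -/
noncomputable def arr (I : Inst S r) (ε : I.J ≃ A) (w : I.J → S.Cell) : S.Cell → A → F :=
  onehot fun a => w (ε.symm a)

omit [Fintype A] in
theorem arr_comp (I : Inst S r) (ε : I.J ≃ A) (w : I.J → S.Cell) :
    (fun e j => arr (F := F) I ε w e (ε j)) = onehot w := by
  funext e j
  simp [arr, onehot]

omit [Fintype A] in
theorem arr_inj (I : Inst S r) (ε : I.J ≃ A) {w w' : I.J → S.Cell}
    (h : arr (F := F) I ε w = arr I ε w') : w = w' := by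
  have h1 := congrArg (fun x : S.Cell → A → F => fun e j => x e (ε j)) h
  simp only [arr_comp] at h1
  exact onehot_inj h1

/-- **Violations.** -/
theorem evK_viol_iff (I : Inst S r) (σ : PSlot S ≃ Fin B) (ε : I.J ≃ A) (h2 : (1 : F) + 1 = 0)
    (x : S.Cell → A → F) :
    (∀ o : Out S, o.viol = true → ∀ a, evK (kerF F I σ ε o) x a = 0) ↔
      ∃ w, I.Valid w ∧ x = arr I ε w := by
  simp only [evK_kerF]
  have h3 : (∀ o : Out S, o.viol = true → ∀ a : A,
      evO I (fun e j => x e (ε j)) o (ε.symm a) = 0) ↔
      ∀ o : Out S, o.viol = true → ∀ j : I.J, evO I (fun e j => x e (ε j)) o j = 0 := by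
    constructor
    · intro h o ho j
      have := h o ho (ε j)
      rwa [Equiv.symm_apply_apply] at this
    · intro h o ho a
      exact h o ho _
  rw [h3, viol_iff I h2]
  constructor
  · rintro ⟨w, hw, hx⟩
    refine ⟨w, hw, ?_⟩
    funext e a
    have := congrFun (congrFun hx e) (ε.symm a)
    simpa [arr, onehot] using this
  · rintro ⟨w, hw, rfl⟩
    exact ⟨w, hw, arr_comp I ε w⟩

/-- **Projection.** -/
theorem evK_proj (I : Inst S r) (σ : PSlot S ≃ Fin B) (ε : I.J ≃ A) (x : S.Cell → A → F)
    (e : S.Cell) (a : A) : evK (kerF F I σ ε (.proj e)) x a = x e a := by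
  rw [evK_kerF, evO_proj, Equiv.apply_symm_apply]

/-- **Next and previous configuration.** -/
theorem evK_next (I : Inst S r) (σ : PSlot S ≃ Fin B) (ε : I.J ≃ A) {w : I.J → S.Cell}
    (hw : ∃ h, I.IsHead w h) (z : Bool) (e : S.Cell) (a : A) :
    evK (kerF F I σ ε (.next z e)) (arr I ε w) a = arr I ε (I.step z w) e a := by
  obtain ⟨h, H⟩ := hw
  rw [evK_kerF, arr_comp, evO_next I H]
  simp [arr, onehot]

end transport

end Vale.Agent.P330.Q
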