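import Vale.Agent.P330.Q.Path

/-!
# Project Q: the state layer

`Dom` collects what is needed from the memory (`EXT`, `MEM`) and from the polynomial maps (`PUB`).
`Dom.word` is the word of an extended state: at every point `(ρ, y)` it has one entry (in the field
`F`) for every component.  `Dom.Ids` are the local identities.  `Dom.sound`: a word that satisfies
all identities (at all points) is the word of a good state.  `Dom.complete`: the word of a good
state satisfies the identities.
-/

namespace Vale.Agent.P330.Q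

open Finset

/-- Names of the chains of partial sums. -/
inductive Chn (Cell V : Type*)
  /-- validity polynomials (the sum has to be zero) -/
  | val (i : V)
  /-- projection to the component `e` -/
  | id (e : Cell)
  /-- component `e` of the successor (`z = false`) or predecessor (`z = true`) -/
  | st (z : Bool) (e : Cell)
  deriving DecidableEq, Fintype

/-- Names of the components of a word. -/
inductive Comp (Cell V : Type*) (h : ℕ)
  /-- the base of the side `σ` -/
  | W (σ : Bool) (e : Cell)
  /-- the `j`-th entry (from the top) of the stack of the chain `c` of the side `σ` -/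
  | S (σ : Bool) (c : Chn Cell V) (j : Fin (h + 1))
  /-- marker of the bottom of the stacks of the side `σ` -/
  | T (σ : Bool) (j : Fin (h + 1))
  /-- the relation between the sides -/
  | rel
  deriving DecidableEq, Fintype

/-- Value of an optional component. -/
def optv {Cell F : Type*} [One F] (W : Cell → F) : Option Cell → F
  | none => 1
  | some e => W e

/-- The data of the memory and of the public polynomial maps (no properties). -/
structure DomData (F : Type*) [Field F] (h B : ℕ) (Y Cell V X : Type*) [AddCommGroup Y]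
    [Fintype Cell] [DecidableEq Cell] where
  /-- the dynamics of the configurations -/
  D : Dyn X
  /-- the shift -/
  θ : Y ≃ Y
  e0 : Y
  /-- reading the block `t` -/
  sh : Fin B → (Y ≃ Y)
  /-- the public kernels -/
  K : Chn Cell V → (Fin B → Option Cell) → Y → Y → F
  /-- the code of a configuration -/
  cd : X → Cell → Y → F

namespace DomData

variable {F : Type*} [Field F] {h B : ℕ} {Y Cell V X : Type*} [AddCommGroup Y]
  [Fintype Cell] [DecidableEq Cell] (M : DomData F h B Y Cell V X)

/-- The bottom entry of the stack of the chain `c` over the base `W`. -/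
def v0 (c : Chn Cell V) (W : Cell → Y → F) (ρ y : Y) : F :=
  ∑ γ : Fin B → Option Cell, M.K c γ ρ y * ∏ t, optv (fun e => W e (M.sh t y)) (γ t)

/-- The entries of the stack of the chain `c` over the base `W`. -/
def vv (c : Chn Cell V) (W : Cell → Y → F) : ℕ → Y → Y → F
  | 0 => M.v0 c W
  | j + 1 => fun ρ y => vv c W j ρ (M.θ y) + vv c W j ρ (M.θ y + M.e0)

/-- The word of a state. -/
def word (s : St X) (p : Y × Y) : Comp Cell V h → F
  | .W σ e => M.cd (s.base σ) e p.2
  | .S σ c j => if (j : ℕ) < s.ht σ then M.vv c (M.cd (s.base σ)) (s.ht σ - 1 - j) p.1 p.2 else 0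
  | .T σ j => if (j : ℕ) + 1 = s.ht σ then 1 else 0
  | .rel => if s.rel then 1 else 0

/-- The bottom entry, read from a word. -/
def rv0 (G : Y × Y → Comp Cell V h → F) (σ : Bool) (c : Chn Cell V) (p : Y × Y) : F :=
  ∑ γ : Fin B → Option Cell, M.K c γ p.1 p.2 *
    ∏ t, optv (fun e => G (p.1, M.sh t p.2) (.W σ e)) (γ t)

/-- The local identities. -/
structure Ids (G : Y × Y → Comp Cell V h → F) : Prop where
  rel_const : ∀ p p', G p .rel = G p' .rel
  rel_sq : ∀ p, G p .rel * G p .rel = G p .rel
  T_const : ∀ p p' σ j, G p (.T σ j) = G p' (.T σ j)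
  T_mul : ∀ p σ j j', G p (.T σ j) * G p (.T σ j') = if j = j' then G p (.T σ j) else 0
  W_ind : ∀ ρ ρ' y σ e, G (ρ, y) (.W σ e) = G (ρ', y) (.W σ e)
  stack : ∀ ρ y σ c (j : Fin (h + 1)), G (ρ, y) (.S σ c j) =
    (if hj : (j : ℕ) + 1 < h + 1 then
      G (ρ, M.θ y) (.S σ c ⟨j + 1, hj⟩) + G (ρ, M.θ y + M.e0) (.S σ c ⟨j + 1, hj⟩) else 0) +
    G (ρ, y) (.T σ j) * M.rv0 G σ c (ρ, y)
  some_full : ∀ p, (1 - G p (.T false (Fin.last h))) * (1 - G p (.T true (Fin.last h))) = 0
  full_val : ∀ p σ i, G p (.T σ (Fin.last h)) * G p (.S σ (.val i) 0) = 0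
  full_id : ∀ ρ y σ e, G (ρ, y) (.T σ (Fin.last h)) *
    (G (ρ, y) (.S σ (.id e) 0) - G (y, ρ) (.W σ e)) = 0
  full_other : ∀ ρ y σ e, G (ρ, y) (.T σ (Fin.last h)) *
    (G (ρ, y) (.W (!σ) e) - (G (ρ, y) .rel * G (y, ρ) (.S σ (.st σ e) 0) +
      (1 - G (ρ, y) .rel) * G (y, ρ) (.S σ (.id e) 0))) = 0

end DomData

/-- The data of the memory and of the public polynomial maps, with their properties. -/
structure Dom (F : Type*) [Field F] (h B : ℕ) (Y Cell V X : Type*) [AddCommGroup Y]
    [Fintype Cell] [DecidableEq Cell] extends DomData F h B Y Cell V X where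
  top_val : ∀ w, D.Valid w → ∀ i ρ y, toDomData.vv (.val i) (cd w) h ρ y = 0
  top_id : ∀ w, D.Valid w → ∀ e ρ y, toDomData.vv (.id e) (cd w) h ρ y = cd w e ρ
  top_st : ∀ z w, D.Valid w → ∀ e ρ y, toDomData.vv (.st z e) (cd w) h ρ y = cd (D.step z w) e ρ
  sound_cd : ∀ W : Cell → Y → F, (∀ e ρ y, toDomData.vv (.id e) W h ρ y = W e ρ) →
    (∀ i ρ y, toDomData.vv (.val i) W h ρ y = 0) → ∃ w, D.Valid w ∧ cd w = W
  cd_inj : Function.Injective cd

end Vale.Agent.P330.Q
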