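import Vale.Agent.P330.Q.ExtSys
import Vale.Agent.P330.Q.Pub
import Vale.Agent.P330.Q.State

/-!
# Project Q: the domain of the machine

From an extension system (`ESys`), an instance of the machine with its `Facts` and a numbering of
the positions by addresses we get the data (`Dom`) of the state layer.
-/

namespace Vale.Agent.P330.Q

open Finset Vale.Agent.P330.S

/-- The dynamics of an instance. -/
noncomputable def dynOf {S : Spec} {r : ℕ} (I : Inst S r) (hI : Facts I) : Dyn (I.J → S.Cell) where
  Valid := I.Valid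
  step := I.step
  w0 := I.w0
  valid0 := hI.valid0
  inv := hI.inv
  start := hI.start

/-- names of the violation outputs -/
abbrev VOut (S : Spec) : Type := {o : Out S // o.viol = true}

noncomputable instance (S : Spec) : Fintype (VOut S) := Fintype.ofFinite _

/-- the output of a chain -/
def outOf {S : Spec} : Chn S.Cell (VOut S) → Out S
  | .val i => i.1
  | .id e => .proj e
  | .st z e => .next z e

/-- the live slots -/
def liveG {C : Type} {B : ℕ} (γ : Fin B → Option C) : Finset (Fin B) :=
  univ.filter fun t => (γ t).isSome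

section

variable {F : Type*} [Field F] {h : ℕ} [NeZero h] {Y : Type*} [AddCommGroup Y]
  (D : ESys F h Y) {S : Spec} {r k B : ℕ} (I : Inst S r) (hI : Facts I) (σ : PSlot S ≃ Fin B)
  (ε : I.J ≃ Addr k)

/-- the shift by `n` positions, as a permutation -/
def shE (n : ℕ) : Y ≃ Y := (D.θ.symm.toEquiv : Equiv.Perm Y) ^ n

omit [NeZero h] in
theorem shE_apply (n : ℕ) (y : Y) : shE D n y = D.θi n y := by
  unfold shE ESys.θi
  rw [← Equiv.Perm.iterate_eq_pow]
  rfl

/-- The data of the state layer. -/
noncomputable def domData : DomData F h B Y S.Cell (VOut S) (I.J → S.Cell) where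
  D := dynOf I hI
  θ := D.θ.toEquiv
  e0 := D.ι (ev 0)
  sh t := shE D (2 * k * t)
  K c γ ρ y := D.ker (liveG γ) (kerF F I σ ε (outOf c) γ) ρ y
  cd w e := D.code (arr I ε w e)

theorem v0_code (c : Chn S.Cell (VOut S)) (x : S.Cell → Addr k → F) (ρ y : Y) :
    (domData D I hI σ ε).v0 c (fun e => D.code (x e)) ρ y =
      ∑ γ : Fin B → Option S.Cell, D.ker (ESys.live fun t => (γ t).map x)
        (kerF F I σ ε (outOf c) γ) ρ y * ∏ t : Fin B, D.slotF ((γ t).map x) t y := by
  unfold DomData.v0
  apply Finset.sum_congr rfl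
  intro γ _
  have h1 : (ESys.live fun t => (γ t).map x) = liveG γ := by
    ext t
    simp [ESys.live, liveG]
  rw [h1]
  congr 1
  apply Finset.prod_congr rfl
  intro t _
  show optv (fun e => D.code (x e) (shE D (2 * k * t) y)) (γ t) = _
  rw [shE_apply]
  cases γ t <;> rfl

theorem vv_top (c : Chn S.Cell (VOut S)) (W : S.Cell → Y → F) (ρ y : Y) :
    (domData D I hI σ ε).vv c W h ρ y = csum D.ι (fun y => (domData D I hI σ ε).v0 c W ρ y) y :=
  D.chain_top (fun j y => (domData D I hI σ ε).vv c W j ρ y) (fun _ _ _ => rfl) y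

theorem vv_code [CharP F 2] (hB : 2 * k * B ≤ h) (c : Chn S.Cell (VOut S)) (x : S.Cell → Addr k → F)
    (ρ y : Y) : (domData D I hI σ ε).vv c (fun e => D.code (x e)) h ρ y =
      D.code (evK (kerF F I σ ε (outOf c)) x) ρ := by
  rw [vv_top]
  simp only [v0_code]
  have h1 : csum D.ι (fun y => ∑ γ : Fin B → Option S.Cell,
      D.ker (ESys.live fun t => (γ t).map x) (kerF F I σ ε (outOf c) γ) ρ y *
        ∏ t : Fin B, D.slotF ((γ t).map x) t y) y =
      ∑ γ : Fin B → Option S.Cell, csum D.ι (fun y =>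
        D.ker (ESys.live fun t => (γ t).map x) (kerF F I σ ε (outOf c) γ) ρ y *
        ∏ t : Fin B, D.slotF ((γ t).map x) t y) y := by
    unfold csum
    rw [Finset.sum_comm]
  rw [h1]
  simp only [D.csum_ker hB]
  rw [← Finset.sum_apply, ← map_sum]
  have h2 : (∑ γ : Fin B → Option S.Cell, fun a => ∑ α : Fin B → Addr k,
      kerF F I σ ε (outOf c) γ a α * ∏ t, ESys.slotV (Option.map x (γ t)) (α t)) =
      evK (kerF F I σ ε (outOf c)) x := by
    funext a
    rw [Finset.sum_apply]
    unfold evK
    apply Finset.sum_congr rfl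
    intro γ _
    apply Finset.sum_congr rfl
    intro α _
    congr 1
    apply Finset.prod_congr rfl
    intro t _
    cases γ t <;> rfl
  rw [h2]

/-- If the projection chains reproduce `W` then `W` is a family of memory code words. -/
theorem exists_code (W : S.Cell → Y → F)
    (hW : ∀ e ρ y, (domData D I hI σ ε).vv (.id e) W h ρ y = W e ρ) :
    ∃ x : S.Cell → Addr k → F, W = fun e => D.code (x e) := by
  have h1 : ∀ e, ∃ x : Addr k → F, W e = D.code x := by
    intro e
    refine ⟨fun a => ∑ γ : Fin B → Option S.Cell, ∑ α,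
      kerF F I σ ε (outOf (.id e)) γ a α * ∑ b, mon F (dualS h (liveG γ) α) b *
        ∏ t, optv (fun e => W e ((domData D I hI σ ε).sh t (D.ι b))) (γ t), ?_⟩
    funext ρ
    rw [← hW e ρ 0, vv_top, ESys.csum_ι]
    unfold DomData.v0
    rw [Finset.sum_comm]
    have h2 : ∀ γ : Fin B → Option S.Cell, ∑ b, (domData D I hI σ ε).K (.id e) γ ρ (D.ι b) *
        ∏ t, optv (fun e => W e ((domData D I hI σ ε).sh t (D.ι b))) (γ t) =
        D.code (fun a => ∑ α, kerF F I σ ε (outOf (.id e)) γ a α *
          ∑ b, mon F (dualS h (liveG γ) α) b *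
            ∏ t, optv (fun e => W e ((domData D I hI σ ε).sh t (D.ι b))) (γ t)) ρ := fun γ =>
      D.sum_ker_span (liveG γ) (kerF F I σ ε (outOf (.id e)) γ)
        (fun b => ∏ t, optv (fun e => W e ((domData D I hI σ ε).sh t (D.ι b))) (γ t)) ρ
    rw [Finset.sum_congr rfl fun γ _ => h2 γ, ← Finset.sum_apply, ← map_sum]
    have h3 : (∑ γ : Fin B → Option S.Cell, fun a : Addr k => ∑ α : Fin B → Addr k,
        kerF F I σ ε (outOf (.id e)) γ a α * ∑ b, mon F (dualS h (liveG γ) α) b *
          ∏ t, optv (fun e => W e ((domData D I hI σ ε).sh t (D.ι b))) (γ t)) =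
        fun a : Addr k => ∑ γ : Fin B → Option S.Cell, ∑ α : Fin B → Addr k,
        kerF F I σ ε (outOf (.id e)) γ a α * ∑ b, mon F (dualS h (liveG γ) α) b *
          ∏ t, optv (fun e => W e ((domData D I hI σ ε).sh t (D.ι b))) (γ t) := by
      funext a
      rw [Finset.sum_apply]
    rw [h3]
  choose x hx using h1
  exact ⟨x, funext hx⟩

/-- **The domain of the machine.** -/
noncomputable def dom [CharP F 2] (hB : 2 * k * B ≤ h) (hk : 2 * k ≤ h) :
    Dom F h B Y S.Cell (VOut S) (I.J → S.Cell) where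
  toDomData := domData D I hI σ ε
  top_val w hw i ρ y := by
    have h2 : (1 : F) + 1 = 0 := CharTwo.add_self_eq_zero 1
    have h1 := vv_code D I hI σ ε hB (.val i) (arr I ε w) ρ y
    refine h1.trans ?_
    have h3 : evK (kerF F I σ ε (outOf (.val i))) (arr I ε w) = 0 :=
      funext fun a => (evK_viol_iff I σ ε h2 (arr I ε w)).2 ⟨w, hw, rfl⟩ i.1 i.2 a
    rw [h3, map_zero]
    rfl
  top_id w hw e ρ y := by
    refine (vv_code D I hI σ ε hB (.id e) (arr I ε w) ρ y).trans ?_
    have h3 : evK (kerF F I σ ε (outOf (.id e))) (arr I ε w) = arr I ε w e :=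
      funext fun a => evK_proj I σ ε (arr I ε w) e a
    rw [h3]
    rfl
  top_st z w hw e ρ y := by
    refine (vv_code D I hI σ ε hB (.st z e) (arr I ε w) ρ y).trans ?_
    have h3 : evK (kerF F I σ ε (outOf (.st z e))) (arr I ε w) = arr I ε (I.step z w) e :=
      funext fun a => evK_next I σ ε (hI.head w hw) z e a
    rw [h3]
    rfl
  sound_cd W hid hval := by
    obtain ⟨x, rfl⟩ := exists_code D I hI σ ε W hid
    have h2 : (1 : F) + 1 = 0 := CharTwo.add_self_eq_zero 1
    obtain ⟨w, hw, hx⟩ := (evK_viol_iff I σ ε h2 x).1 (by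
      intro o ho a
      have h3 : D.code (evK (kerF F I σ ε o) x) = D.code (0 : Addr k → F) := by
        funext ρ
        rw [map_zero]
        exact (vv_code D I hI σ ε hB (.val ⟨o, ho⟩) x ρ 0).symm.trans (hval ⟨o, ho⟩ ρ 0)
      exact congrFun (D.code_inj hk h3) a)
    refine ⟨w, hw, ?_⟩
    subst hx
    rfl
  cd_inj w w' hww := by
    apply arr_inj (F := F) I ε
    funext e
    exact D.code_inj hk (congrFun hww e)

end

end Vale.Agent.P330.Q
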