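import Vale.Agent.P330.Q.NumY

/-!
# Project Q: the operations of the code domain on numbers

Number versions, in polynomial time, of addition, shift, inverse shift, the embedding of the cube
and the projection `piY` (in particular of the unit directions `piY (Pi.single p u)`).
-/

namespace Vale.Agent.P330.Q

open Vale.Agent.Lib.PolyTime

variable {A : Set Word} {α : Type*} [Enc α]

section defs

variable (K : Type*) [Field K] [CharP K 2] [Fintype K]

/-- Addition. -/
noncomputable def addN (h x y : ℕ) : ℕ :=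
  fnum h fun j => dgP (TY K) h x j + dgP (TY K) h y j

/-- The shift. -/
noncomputable def thN (h x : ℕ) : ℕ := fnum h (shR h (dgP (TY K) h x))

/-- The inverse shift. -/
noncomputable def thiN (h x : ℕ) : ℕ := fnum h (shL (dgP (TY K) h x))

/-- The embedding of the cube. -/
noncomputable def iotaN (h b : ℕ) : ℕ := fnum h fun j => ((0, bitP K h b j) : TY K)

/-- The projection of a pair of periodic functions. -/
noncomputable def piN (h z : ℕ) (U V : ℕ → K) : ℕ :=
  fnum h fun j => ((prC K (cvN h (apP K h z) U j),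
    V j + cvN h (fun i => bt K (pK K (cvN h (apP K h z) U i))) (beP K h z) j) : TY K)

variable {K}

theorem numZ_add {h : ℕ} [NeZero h] (y y' : YY K h) :
    (numZ (TY K) h (y + y') : ℕ) = addN K h (numZ (TY K) h y) (numZ (TY K) h y') := by
  rw [numZ_val, addN, dgP_numZ, dgP_numZ]
  rfl

theorem numZ_theta {h : ℕ} [NeZero h] (y : YY K h) :
    (numZ (TY K) h (thetaY K h y) : ℕ) = thN K h (numZ (TY K) h y) := by
  rw [numZ_val, thN, dgP_numZ, pz_theta]

theorem numZ_theta_symm {h : ℕ} [NeZero h] (y : YY K h) :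
    (numZ (TY K) h ((thetaY K h).symm y) : ℕ) = thiN K h (numZ (TY K) h y) := by
  rw [numZ_val, thiN, dgP_numZ, pz_theta_symm]

omit [Fintype K] in
theorem pz_iotaY {h : ℕ} [NeZero h] (x : ℕ) :
    pz (iotaY K h (cub h x)) = fun j => ((0, bitP K h x j) : TY K) := by
  funext j
  refine Prod.ext rfl ?_
  exact congrFun (pz_btv_cub (K := K) (h := h) x) j

theorem numZ_iota {h : ℕ} [NeZero h] (x : ℕ) :
    (numZ (TY K) h (iotaY K h (cub h x)) : ℕ) = iotaN K h x := by
  rw [numZ_val, pz_iotaY]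
  rfl

theorem numZ_piY {h : ℕ} [NeZero h] (z : ℕ) (W : Bool × ZMod h → K) :
    (numZ (TY K) h (piY (apZ K h z) (beZ K h z) W) : ℕ) =
      piN K h z (pz fun i => W (false, i)) (pz fun i => W (true, i)) := by
  rw [numZ_val, piN]
  congr 1
  funext j
  have h1 : cvN h (apP K h z) (pz fun i => W (false, i)) =
      pz (cv (apZ K h z) fun i => W (false, i)) := by rw [← pz_apZ, cvN_pz]
  have h2 : cvN h (fun i => bt K (pK K (pz (cv (apZ K h z) fun i => W (false, i)) i)))
      (beP K h z) = pz (cv (btv (pv (cv (apZ K h z) fun i => W (false, i)))) (beZ K h z)) := by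
    rw [← pz_beZ]
    exact cvN_pz (btv (pv (cv (apZ K h z) fun i => W (false, i)))) (beZ K h z)
  rw [h1, h2]
  rfl

/-- The number of the point `0`. -/
theorem numZ_zero {h : ℕ} [NeZero h] : (numZ (TY K) h 0 : ℕ) = iotaN K h 0 := by
  rw [← numZ_iota]
  congr 2
  have h1 : cub h 0 = 0 := by
    funext i
    simp [cub]
  rw [h1, map_zero]

omit [CharP K 2] [Fintype K] in
/-- The unit vector of the cube. -/
theorem cub_one {h : ℕ} [NeZero h] : cub h 1 = ev 0 := by
  funext i
  unfold cub ev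
  by_cases hi : i = 0
  · subst hi
    rw [Pi.single_eq_same, ZMod.val_zero]
    simp
  · rw [Pi.single_eq_of_ne hi]
    have h1 : i.val ≠ 0 := fun e => hi ((ZMod.val_eq_zero i).1 e)
    rw [if_neg]
    rw [Nat.testBit_one_eq_true_iff_self_eq_zero]
    exact h1

/-- A unit vector as a periodic function. -/
def sgP (h i : ℕ) (u : K) (j : ℕ) : K := if j % max h 1 = i % max h 1 then u else 0

omit [CharP K 2] [Fintype K] in
theorem pz_single {h : ℕ} [NeZero h] (i : ℕ) (u : K) :
    pz (Pi.single (i : ZMod h) u : ZMod h → K) = sgP h i u := by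
  funext j
  unfold pz sgP
  rw [Pi.single_apply, max_eq_left (Nat.one_le_iff_ne_zero.2 (NeZero.ne h))]
  refine if_congr ?_ rfl rfl
  rw [ZMod.natCast_eq_natCast_iff']

end defs

section pt

variable (K : Type*) [Field K] [CharP K 2] [Fintype K]

theorem PT.addN {h x y : α → ℕ} (hh : PT A h) (hhb : PBd h) (hx : PT A x) (hy : PT A y) :
    PT A (fun a => addN K (h a) (x a) (y a)) :=
  PT.fnum' hh hhb (PTt.add
    (PTt.dgP (hh.comp PT.fst') (PBd.comp hhb (PT.fst' (A := A))) (hx.comp PT.fst') PT.snd')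
    (PTt.dgP (hh.comp PT.fst') (PBd.comp hhb (PT.fst' (A := A))) (hy.comp PT.fst') PT.snd'))

theorem PT.thN {h x : α → ℕ} (hh : PT A h) (hhb : PBd h) (hx : PT A x) :
    PT A (fun a => thN K (h a) (x a)) :=
  PT.fnum' hh hhb (PTt.dgP (hh.comp PT.fst') (PBd.comp hhb (PT.fst' (A := A)))
    (hx.comp PT.fst') (PT.add PT.snd' (PT.sub (hh.comp PT.fst') (PT.const 1))))

theorem PT.thiN {h x : α → ℕ} (hh : PT A h) (hhb : PBd h) (hx : PT A x) :
    PT A (fun a => thiN K (h a) (x a)) :=
  PT.fnum' hh hhb (PTt.dgP (hh.comp PT.fst') (PBd.comp hhb (PT.fst' (A := A)))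
    (hx.comp PT.fst') (PT.add PT.snd' (PT.const 1)))

theorem PT.iotaN {h b : α → ℕ} (hh : PT A h) (hhb : PBd h) (hb : PT A b) :
    PT A (fun a => iotaN K (h a) (b a)) :=
  PT.fnum' hh hhb ((PTt.const (0 : CK K)).pair
    (PTt.bitP (hh.comp PT.fst') (hb.comp PT.fst') PT.snd'))

theorem PT.piN {h z : α → ℕ} (hh : PT A h) (hhb : PBd h) (hz : PT A z) {U V : α → ℕ → K}
    (hU : PTt A (fun p : α × ℕ => U p.1 p.2)) (hV : PTt A (fun p : α × ℕ => V p.1 p.2)) :
    PT A (fun a => piN K (h a) (z a) (U a) (V a)) := by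
  have g1 : PT A (fun p : α × ℕ => p.1) := PT.fst'
  have r1 : PT A (fun p : (α × ℕ) × ℕ => p.1.1) := PT.fst'.fst
  have s1 : PT A (fun p : ((α × ℕ) × ℕ) × ℕ => p.1.1.1) := PT.fst'.fst.fst
  have c1 : PTt A (fun p : α × ℕ => cvN (h p.1) (apP K (h p.1) (z p.1)) (U p.1) p.2) :=
    PTt.cvN (hh.comp g1) (PBd.comp hhb g1)
      (PTt.apP K (hh.comp r1) (PBd.comp hhb r1) (hz.comp r1) PT.snd')
      (hU.comp (r1.pair PT.snd')) PT.snd'
  refine PT.fnum' hh hhb ((c1.map fun x => prC K x).pair (hV.add ?_))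
  refine PTt.cvN (hh.comp g1) (PBd.comp hhb g1) ?_
    (PTt.beP K (hh.comp r1) (PBd.comp hhb r1) (hz.comp r1) PT.snd') PT.snd'
  exact (c1.comp (r1.pair PT.snd')).map fun x => bt K (pK K x)

omit [CharP K 2] in
theorem PTt.sgP {h i j : α → ℕ} (hh : PT A h) (hi : PT A i) (hj : PT A j) {u : α → K}
    (hu : PTt A u) : PTt A (fun a => sgP (h a) (i a) (u a) (j a)) :=
  PTt.ite (PT.eqNat (PT.mod hj (PT.max hh (PT.const 1))) (PT.mod hi (PT.max hh (PT.const 1))))
    hu (PTt.const 0)

end pt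

end Vale.Agent.P330.Q
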