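import Vale.Agent.P330.Q.NumDir
import Vale.Agent.P330.Q.NumOp

/-!
# Project Q: pairs of points and pairs of directions as numbers
-/

namespace Vale.Agent.P330.Q

open Finset
open scoped BigOperators
open Vale.Agent.Lib.PolyTime

section defs

variable (K : Type*) [Field K] [CharP K 2] [Fintype K]

/-- The number of the points of the domain. -/
noncomputable def cY (h : ℕ) : ℕ := Fintype.card (TY K) ^ h

/-- Pairs of points as numbers. -/
noncomputable def eYY (h : ℕ) [NeZero h] : YY K h × YY K h ≃ Fin (cY K h * cY K h) :=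
  ((numZ (TY K) h).prodCongr (numZ (TY K) h)).trans finProdFinEquiv

theorem eYY_val {h : ℕ} [NeZero h] (p : YY K h × YY K h) :
    (eYY K h p : ℕ) = (numZ (TY K) h p.1 : ℕ) * cY K h + numZ (TY K) h p.2 := by
  show ((finProdFinEquiv (numZ (TY K) h p.1, numZ (TY K) h p.2) :
    Fin (Fintype.card (TY K) ^ h * Fintype.card (TY K) ^ h)) : ℕ) = _
  rw [finProdFinEquiv_apply_val]
  unfold cY
  ring

variable {K} {h : ℕ} [NeZero h] {ap be : ℕ → K} {al' bet : ZMod h → K}

/-- Pairs of directions as numbers. -/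
noncomputable def eDD (hap : IsNatOf ap al') (hbe : IsNatOf be bet) (t : ℕ) :
    DIx (qax (piY al' bet)) t × DIx (qax (piY al' bet)) t ≃ Fin (nD h ap be t * nD h ap be t) :=
  ((eD hap hbe t).prodCongr (eD hap hbe t)).trans finProdFinEquiv

omit [NeZero h] in
/-- The pair number `i` of directions at `u`, as a number. -/
noncomputable def dirN2 (h : ℕ) (ap be : ℕ → K) (t i : ℕ) (u : K) : ℕ :=
  dirN h ap be t (i / nD h ap be t) u * cY K h + dirN h ap be t (i % nD h ap be t) u

theorem dirN_eD (hap : IsNatOf ap al') (hbe : IsNatOf be bet) (t : ℕ)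
    (i : DIx (qax (piY al' bet)) t) (u : K) :
    dirN h ap be t (eD hap hbe t i) u = numZ (TY K) h (idir (qax (piY al' bet)) t i u) := by
  rw [dirN_eq hap hbe, Equiv.symm_apply_apply]
  rfl

theorem dirN2_eDD (hap : IsNatOf ap al') (hbe : IsNatOf be bet) (t : ℕ)
    (i : DIx (qax (piY al' bet)) t × DIx (qax (piY al' bet)) t) (u : K) :
    dirN2 h ap be t (eDD hap hbe t i) u =
      eYY K h (pdir (idir (qax (piY al' bet)) t) (idir (qax (piY al' bet)) t) i u) := by
  have h0 : ((eDD hap hbe t i : Fin _) : ℕ) =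
      (eD hap hbe t i.2 : ℕ) + nD h ap be t * (eD hap hbe t i.1 : ℕ) := rfl
  have h1 := (eD hap hbe t i.2).2
  have h2 : 0 < nD h ap be t := lt_of_le_of_lt (Nat.zero_le _) h1
  unfold dirN2
  rw [h0, Nat.add_mul_div_left _ _ h2, Nat.div_eq_of_lt h1, zero_add, Nat.add_mul_mod_self_left,
    Nat.mod_eq_of_lt h1, dirN_eD, dirN_eD, eYY_val]
  rfl

end defs

section pt

variable {K : Type*} [Field K] [CharP K 2] [Fintype K] {A : Set Word} {α : Type*} [Enc α]
  {h : α → ℕ} {ap be : α → ℕ → K}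

omit [Field K] [CharP K 2] in
theorem PT.cY (K : Type*) [Field K] [CharP K 2] [Fintype K] (hh : PT A h) (hhb : PBd h) :
    PT A (fun x => cY K (h x)) := PT.pow (PT.const _) hh hhb

omit [Field K] [CharP K 2] [Fintype K] in
theorem PBd.cY (K : Type*) [Field K] [CharP K 2] [Fintype K] (hhb : PBd (fun x => 2 ^ h x)) :
    PBd (fun x => cY K (h x)) := by
  obtain ⟨m, hm⟩ : ∃ m, Fintype.card (TY K) ≤ 2 ^ m := ⟨_, Nat.lt_two_pow_self.le⟩
  refine (PBd.pow hhb m).mono fun x => ?_
  unfold Q.cY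
  calc Fintype.card (TY K) ^ h x ≤ (2 ^ m) ^ h x := Nat.pow_le_pow_left hm _
    _ = (2 ^ h x) ^ m := by rw [← pow_mul, ← pow_mul, mul_comm]

theorem PT.dirN2 {β : Type*} [Enc β] (hh : PT A h) (hhb : PBd h) (hap : PTz A h ap)
    (hbe : PTz A h be) (t : ℕ) {x : β → α} {i : β → ℕ} {u : β → K}
    (hx : PT A x) (hi : PT A i) (hu : PTt A u) :
    PT A (fun b => dirN2 (h (x b)) (ap (x b)) (be (x b)) t (i b) (u b)) := by
  have hn : PT A (fun b => Q.nD (h (x b)) (ap (x b)) (be (x b)) t) :=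
    (PT.nD hh hhb hap hbe t).comp hx
  exact PT.add (PT.mul (PT.dirN hh hhb hap hbe t hx (PT.div hi hn) hu)
    (PT.cY K (hh.comp hx) (hhb.comp hx))) (PT.dirN hh hhb hap hbe t hx (PT.mod hi hn) hu)

end pt

end Vale.Agent.P330.Q
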