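import Vale.Agent.P330.Q.State2
import Vale.Agent.P318.S.Deg

/-!
# Project Q: the local test as polynomial defects

The identities `Ids` of the state layer, written as finitely many defects: polynomial expressions in
the values `⟨fn f c, G (mv m p)⟩` (a functional made of `c` at a moved point) and in the kernels.
`ids_iff`: all defects vanish for all points `p` and functionals `c` if and only if `Ids G`.
-/

namespace Vale.Agent.P330.Q

open Finset
open Vale.Agent.P318.S (PolyLe)
open scoped BigOperators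

/-! ### Moves, functionals, defects: names -/

/-- Moves of the points `(ρ, y)`. -/
inductive Mv (B : ℕ) (Dg : Type)
  | one
  /-- the shift of one coordinate -/
  | th (σ : Bool)
  /-- translation of one coordinate -/
  | tr (σ : Bool) (x : Dg)
  /-- the shift and `e0` -/
  | the
  /-- read the block `t` -/
  | sh (t : Fin B)
  /-- swap -/
  | sw
  deriving DecidableEq, Fintype

/-- Functionals. -/
inductive Fn (Cell V : Type)
  | all
  | cst
  | w
  | s
  | s1
  | ta (σ : Bool)
  | tb (σ : Bool)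
  | tab (σ : Bool)
  | tc (σ : Bool) (c : Chn Cell V)
  | uT (σ : Bool)
  | uR
  | uW (σ : Bool) (e : Cell)
  | uS (σ : Bool) (c : Chn Cell V)
  deriving DecidableEq, Fintype

/-- Defects. -/
inductive Df (Cell V Dg : Type)
  | cst (σ : Bool) (x : Option Dg)
  | wi (x : Option Dg)
  | rsq
  | tmul (σ : Bool)
  | stk
  | sf
  | fv (σ : Bool) (i : V)
  | fi (σ : Bool) (e : Cell)
  | fo (σ : Bool) (e : Cell)
  deriving DecidableEq, Fintype

/-- The generators of the translations. -/
def gen {B : ℕ} {Dg : Type} (σ : Bool) : Option Dg → Mv B Dg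
  | none => .th σ
  | some x => .tr σ x

section defs

variable {F : Type*} [Field F] {h B : ℕ} {Y X : Type*} {Cell V Dg : Type} [AddCommGroup Y]
  [Fintype Cell] [DecidableEq Cell] [Fintype V] [DecidableEq V]

/-- The kernel part of the stack defect. -/
def rk (k : Chn Cell V → (Fin B → Option Cell) → F) (v : Fn Cell V × Mv B Dg → F) (σ : Bool)
    (c : Chn Cell V) : F :=
  ∑ γ : Fin B → Option Cell, k c γ * ∏ t, optv (fun e => v (.uW σ e, .sh t)) (γ t)

/-- The defects. -/
def defect (k : Chn Cell V → (Fin B → Option Cell) → F) (v : Fn Cell V × Mv B Dg → F) :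
    Df Cell V Dg → F
  | .cst σ x => v (.cst, .one) - v (.cst, gen σ x)
  | .wi x => v (.w, .one) - v (.w, gen false x)
  | .rsq => v (.uR, .one) * v (.uR, .one) - v (.uR, .one)
  | .tmul σ => v (.ta σ, .one) * v (.tb σ, .one) - v (.tab σ, .one)
  | .stk => v (.s, .one) - (v (.s1, .th true) + v (.s1, .the)) -
      ∑ σ : Bool, ∑ c : Chn Cell V, v (.tc σ c, .one) * rk k v σ c
  | .sf => (1 - v (.uT false, .one)) * (1 - v (.uT true, .one))
  | .fv σ i => v (.uT σ, .one) * v (.uS σ (.val i), .one)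
  | .fi σ e => v (.uT σ, .one) * (v (.uS σ (.id e), .one) - v (.uW σ e, .sw))
  | .fo σ e => v (.uT σ, .one) * (v (.uW (!σ) e, .one) -
      (v (.uR, .one) * v (.uS σ (.st σ e), .sw) +
        (1 - v (.uR, .one)) * v (.uS σ (.id e), .sw)))

/-- A functional pushed forward. -/
def pf {ι R : Type*} [Fintype ι] [DecidableEq R] (e : ι → R) (a : ι → F) (r : R) : F :=
  ∑ i, if e i = r then a i else 0

/-- A restricted functional. -/
def res {R : Type*} (P : R → Bool) (c : R → F) (r : R) : F := if P r then c r else 0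

/-- The components which are constant. -/
def isC : Comp Cell V h → Bool
  | .T _ _ => true
  | .rel => true
  | _ => false

/-- The components of the bases. -/
def isW : Comp Cell V h → Bool
  | .W _ _ => true
  | _ => false

/-- The next entry. -/
def nx (j : Fin (h + 1)) : Fin (h + 1) := if hj : (j : ℕ) + 1 < h + 1 then ⟨j + 1, hj⟩ else 0

/-- The functionals. -/
def fn (c : Comp Cell V h → F) : Fn Cell V → Comp Cell V h → F
  | .all => c
  | .cst => res isC c
  | .w => res isW c
  | .s => pf (fun i : Bool × Chn Cell V × Fin (h + 1) => .S i.1 i.2.1 i.2.2)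
      fun i => c (.S i.1 i.2.1 i.2.2)
  | .s1 => pf (fun i : Bool × Chn Cell V × Fin (h + 1) => .S i.1 i.2.1 (nx i.2.2))
      fun i => if (i.2.2 : ℕ) + 1 < h + 1 then c (.S i.1 i.2.1 i.2.2) else 0
  | .ta σ => pf (fun j : Fin (h + 1) => .T σ j) fun j => c (.T σ j)
  | .tb σ => pf (fun j : Fin (h + 1) => .T σ j) fun j => c (.T (!σ) j)
  | .tab σ => pf (fun j : Fin (h + 1) => .T σ j) fun j => c (.T σ j) * c (.T (!σ) j)
  | .tc σ ch => pf (fun j : Fin (h + 1) => .T σ j) fun j => c (.S σ ch j)
  | .uT σ => pf (fun _ : Unit => .T σ (Fin.last h)) fun _ => 1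
  | .uR => pf (fun _ : Unit => .rel) fun _ => 1
  | .uW σ e => pf (fun _ : Unit => .W σ e) fun _ => 1
  | .uS σ ch => pf (fun _ : Unit => .S σ ch 0) fun _ => 1

/-- The moves. -/
def DomData.mv (M : DomData F h B Y Cell V X) (dg : Dg → Y) : Mv B Dg → (Y × Y ≃ Y × Y)
  | .one => Equiv.refl _
  | .th false => M.θ.prodCongr (Equiv.refl _)
  | .th true => (Equiv.refl _).prodCongr M.θ
  | .tr false x => (Equiv.addRight (dg x)).prodCongr (Equiv.refl _)
  | .tr true x => (Equiv.refl _).prodCongr (Equiv.addRight (dg x))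
  | .the => (Equiv.refl _).prodCongr (M.θ.trans (Equiv.addRight M.e0))
  | .sh t => (Equiv.refl _).prodCongr (M.sh t)
  | .sw => Equiv.prodComm Y Y

/-- The values. -/
def DomData.atv (M : DomData F h B Y Cell V X) (dg : Dg → Y) (G : Y × Y → Comp Cell V h → F)
    (p : Y × Y) (c : Comp Cell V h → F) (a : Fn Cell V × Mv B Dg) : F :=
  ∑ r, fn c a.1 r * G (M.mv dg a.2 p) r

/-! ### Lemmas on functionals -/

omit [AddCommGroup Y] [Fintype Cell] [DecidableEq Cell] [Fintype V] [DecidableEq V] in
theorem sum_pf {ι R : Type*} [Fintype ι] [Fintype R] [DecidableEq R] (e : ι → R) (a : ι → F)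
    (g : R → F) : ∑ r, pf e a r * g r = ∑ i, a i * g (e i) := by
  unfold pf
  simp_rw [Finset.sum_mul]
  rw [Finset.sum_comm]
  refine Finset.sum_congr rfl fun i _ => ?_
  rw [Finset.sum_eq_single (e i)]
  · rw [if_pos rfl]
  · intro r _ hr
    rw [if_neg (Ne.symm hr), zero_mul]
  · intro hh
    exact absurd (mem_univ _) hh

theorem sum_unit {R : Type*} [Fintype R] [DecidableEq R] (r : R) (g : R → F) :
    ∑ r', pf (fun _ : Unit => r) (fun _ => (1 : F)) r' * g r' = g r := by
  rw [sum_pf]
  simp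

theorem sum_res_single {R : Type*} [Fintype R] [DecidableEq R] (P : R → Bool) {r : R}
    (hr : P r = true) (g : R → F) : ∑ r', res P (Pi.single r 1) r' * g r' = g r := by
  unfold res
  rw [Finset.sum_eq_single r]
  · rw [if_pos hr, Pi.single_eq_same, one_mul]
  · intro r' _ hr'
    rw [Pi.single_eq_of_ne hr']
    simp
  · intro hh
    exact absurd (mem_univ _) hh

theorem sum_res_congr {R : Type*} [Fintype R] (P : R → Bool) (c : R → F) {g g' : R → F}
    (hg : ∀ r, P r = true → g r = g' r) :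
    ∑ r', res P c r' * g r' = ∑ r', res P c r' * g' r' := by
  refine Finset.sum_congr rfl fun r _ => ?_
  unfold res
  split_ifs with hP
  · rw [hg r hP]
  · rw [zero_mul, zero_mul]

end defs

/-! ### The identities -/

section ids

variable {F : Type*} [Field F] {h B : ℕ} {Y X : Type*} {Cell V Dg : Type} [AddCommGroup Y]
  [Fintype Cell] [DecidableEq Cell] [Fintype V] [DecidableEq V]
  {M : DomData F h B Y Cell V X} {dg : Dg → Y} {G : Y × Y → Comp Cell V h → F}

theorem DomData.atv_uT (p : Y × Y) (c : Comp Cell V h → F) (σ : Bool) (m : Mv B Dg) :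
    M.atv dg G p c (.uT σ, m) = G (M.mv dg m p) (.T σ (Fin.last h)) := sum_unit _ _

theorem DomData.atv_uR (p : Y × Y) (c : Comp Cell V h → F) (m : Mv B Dg) :
    M.atv dg G p c (.uR, m) = G (M.mv dg m p) .rel := sum_unit _ _

theorem DomData.atv_uW (p : Y × Y) (c : Comp Cell V h → F) (σ : Bool) (e : Cell) (m : Mv B Dg) :
    M.atv dg G p c (.uW σ e, m) = G (M.mv dg m p) (.W σ e) := sum_unit _ _

theorem DomData.atv_uS (p : Y × Y) (c : Comp Cell V h → F) (σ : Bool) (ch : Chn Cell V)
    (m : Mv B Dg) :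
    M.atv dg G p c (.uS σ ch, m) = G (M.mv dg m p) (.S σ ch 0) := sum_unit _ _

theorem DomData.rk_eq (p : Y × Y) (c : Comp Cell V h → F) (σ : Bool) (ch : Chn Cell V) :
    rk (fun ch γ => M.K ch γ p.1 p.2) (M.atv dg G p c) σ ch = M.rv0 G σ ch p := by
  unfold rk DomData.rv0
  refine Finset.sum_congr rfl fun γ _ => ?_
  simp only [DomData.atv_uW]
  rfl

/-- The stack defect. -/
theorem DomData.defect_stk (p : Y × Y) (c : Comp Cell V h → F) :
    defect (fun ch γ => M.K ch γ p.1 p.2) (M.atv dg G p c) (.stk : Df Cell V Dg) =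
      ∑ i : Bool × Chn Cell V × Fin (h + 1), c (.S i.1 i.2.1 i.2.2) *
        (G p (.S i.1 i.2.1 i.2.2) - ((if hj : (i.2.2 : ℕ) + 1 < h + 1 then
          G (p.1, M.θ p.2) (.S i.1 i.2.1 ⟨i.2.2 + 1, hj⟩) +
            G (p.1, M.θ p.2 + M.e0) (.S i.1 i.2.1 ⟨i.2.2 + 1, hj⟩) else 0) +
          G p (.T i.1 i.2.2) * M.rv0 G i.1 i.2.1 p)) := by
  have h1 : M.atv dg G p c (.s, .one) =
      ∑ i : Bool × Chn Cell V × Fin (h + 1), c (.S i.1 i.2.1 i.2.2) * G p (.S i.1 i.2.1 i.2.2) :=
    sum_pf _ _ _
  have h2 : ∀ m : Mv B Dg, M.atv dg G p c (.s1, m) =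
      ∑ i : Bool × Chn Cell V × Fin (h + 1), c (.S i.1 i.2.1 i.2.2) *
        (if hj : (i.2.2 : ℕ) + 1 < h + 1 then
          G (M.mv dg m p) (.S i.1 i.2.1 ⟨i.2.2 + 1, hj⟩) else 0) := by
    intro m
    refine (sum_pf _ _ _).trans ?_
    refine Finset.sum_congr rfl fun i _ => ?_
    by_cases hj : (i.2.2 : ℕ) + 1 < h + 1
    · rw [if_pos hj, dif_pos hj]
      simp only [nx, dif_pos hj]
    · rw [if_neg hj, dif_neg hj, zero_mul, mul_zero]
  have h3 : ∀ σ ch, M.atv dg G p c (.tc σ ch, .one) =
      ∑ j : Fin (h + 1), c (.S σ ch j) * G p (.T σ j) := fun σ ch => sum_pf _ _ _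
  simp only [defect, h1, h2, h3, DomData.rk_eq, Finset.sum_mul]
  rw [← Finset.sum_add_distrib, ← Finset.sum_sub_distrib]
  have h4 : ∀ f : Bool → Chn Cell V → Fin (h + 1) → F, ∑ σ, ∑ ch, ∑ j, f σ ch j =
      ∑ i : Bool × Chn Cell V × Fin (h + 1), f i.1 i.2.1 i.2.2 := by
    intro f
    rw [Fintype.sum_prod_type]
    refine Finset.sum_congr rfl fun σ _ => ?_
    rw [Fintype.sum_prod_type]
  rw [h4, ← Finset.sum_sub_distrib]
  refine Finset.sum_congr rfl fun i _ => ?_
  simp only [DomData.mv, Equiv.prodCongr_apply, Equiv.refl_apply, Prod.map, Equiv.trans_apply,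
    Equiv.coe_addRight]
  by_cases hj : (i.2.2 : ℕ) + 1 < h + 1
  · simp only [dif_pos hj]
    ring
  · simp only [dif_neg hj]
    ring

/-- The identities imply that the defects vanish. -/
theorem DomData.Ids.defect_eq (hG : M.Ids G) (p : Y × Y) (c : Comp Cell V h → F)
    (m : Df Cell V Dg) : defect (fun ch γ => M.K ch γ p.1 p.2) (M.atv dg G p c) m = 0 := by
  obtain ⟨ρ, y⟩ := p
  cases m with
  | cst σ x =>
    refine sub_eq_zero.2 (sum_res_congr _ _ fun r hr => ?_)
    cases r with
    | W τ e => exact absurd hr (by simp [isC])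
    | S τ c j => exact absurd hr (by simp [isC])
    | T τ j => exact hG.T_const _ _ _ _
    | rel => exact hG.rel_const _ _
  | wi x =>
    refine sub_eq_zero.2 (sum_res_congr _ _ fun r hr => ?_)
    cases r with
    | W τ e =>
      cases x with
      | none => exact hG.W_ind _ _ _ _ _
      | some x => exact hG.W_ind _ _ _ _ _
    | S τ c j => exact absurd hr (by simp [isW])
    | T τ j => exact absurd hr (by simp [isW])
    | rel => exact absurd hr (by simp [isW])
  | rsq =>
    simp only [defect, DomData.atv_uR]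
    exact sub_eq_zero.2 (hG.rel_sq _)
  | tmul σ =>
    have h1 : M.atv dg G (ρ, y) c (.ta σ, .one) =
      ∑ j : Fin (h + 1), c (.T σ j) * G (ρ, y) (.T σ j) := sum_pf _ _ _
    have h2 : M.atv dg G (ρ, y) c (.tb σ, .one) =
      ∑ j : Fin (h + 1), c (.T (!σ) j) * G (ρ, y) (.T σ j) := sum_pf _ _ _
    have h3 : M.atv dg G (ρ, y) c (.tab σ, .one) =
      ∑ j : Fin (h + 1), c (.T σ j) * c (.T (!σ) j) * G (ρ, y) (.T σ j) := sum_pf _ _ _
    simp only [defect]
    rw [h1, h2, h3, Finset.sum_mul_sum, sub_eq_zero]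
    refine Finset.sum_congr rfl fun j _ => ?_
    rw [Finset.sum_eq_single j]
    · have := hG.T_mul (ρ, y) σ j j
      rw [if_pos rfl] at this
      linear_combination (c (.T σ j) * c (.T (!σ) j)) * this
    · intro j' _ hj'
      have := hG.T_mul (ρ, y) σ j j'
      rw [if_neg (Ne.symm hj')] at this
      linear_combination (c (.T σ j) * c (.T (!σ) j')) * this
    · intro hh
      exact absurd (mem_univ _) hh
  | stk =>
    rw [DomData.defect_stk]
    refine Finset.sum_eq_zero fun i _ => ?_
    rw [sub_eq_zero.2 (hG.stack ρ y i.1 i.2.1 i.2.2), mul_zero]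
  | sf =>
    simp only [defect, DomData.atv_uT]
    exact hG.some_full _
  | fv σ i =>
    simp only [defect, DomData.atv_uT, DomData.atv_uS]
    exact hG.full_val _ _ _
  | fi σ e =>
    simp only [defect, DomData.atv_uT, DomData.atv_uS, DomData.atv_uW]
    exact hG.full_id _ _ _ _
  | fo σ e =>
    simp only [defect, DomData.atv_uT, DomData.atv_uS, DomData.atv_uW, DomData.atv_uR]
    exact hG.full_other _ _ _ _

/-- The translations generate: a function which is invariant under the generators is constant. -/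
def DomData.Gen (M : DomData F h B Y Cell V X) (dg : Dg → Y) : Prop :=
  ∀ f : Y → F, (∀ y, f (M.θ y) = f y) → (∀ x y, f (y + dg x) = f y) → ∀ y y', f y = f y'

/-- If the defects vanish then the identities hold. -/
theorem DomData.ids_of_defect (hgen : M.Gen dg)
    (hd : ∀ (p : Y × Y) (c : Comp Cell V h → F) (m : Df Cell V Dg),
      defect (fun ch γ => M.K ch γ p.1 p.2) (M.atv dg G p c) m = 0) : M.Ids G := by
  have hc : ∀ r, isC r = true → ∀ p p', G p r = G p' r := by
    intro r hr
    have h1 : ∀ σ x p, G p r = G (M.mv dg (gen σ x) p) r := by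
      intro σ x p
      have h2 := hd p (Pi.single r 1) (.cst σ x)
      simp only [defect, sub_eq_zero] at h2
      have h3 : ∀ m : Mv B Dg, M.atv dg G p (Pi.single r 1) (.cst, m) = G (M.mv dg m p) r :=
        fun m => sum_res_single _ hr _
      rw [h3, h3] at h2
      exact h2
    have ha : ∀ ρ ρ' y, G (ρ, y) r = G (ρ', y) r := by
      intro ρ ρ' y
      refine hgen (fun ρ => G (ρ, y) r) (fun ρ => ?_) (fun x ρ => ?_) ρ ρ'
      · exact (h1 false none (ρ, y)).symm
      · exact (h1 false (some x) (ρ, y)).symm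
    have hb : ∀ ρ y y', G (ρ, y) r = G (ρ, y') r := by
      intro ρ y y'
      refine hgen (fun y => G (ρ, y) r) (fun y => ?_) (fun x y => ?_) y y'
      · exact (h1 true none (ρ, y)).symm
      · exact (h1 true (some x) (ρ, y)).symm
    rintro ⟨ρ, y⟩ ⟨ρ', y'⟩
    rw [ha ρ ρ' y, hb ρ' y y']
  refine ⟨fun p p' => hc _ rfl p p', fun p => ?_, fun p p' σ j => hc _ rfl p p', fun p σ j j' => ?_,
    fun ρ ρ' y σ e => ?_, fun ρ y σ ch j => ?_, fun p => ?_, fun p σ i => ?_, fun ρ y σ e => ?_,
    fun ρ y σ e => ?_⟩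
  · have h1 := hd p 0 .rsq
    simp only [defect, DomData.atv_uR] at h1
    exact sub_eq_zero.1 h1
  · have h1 := hd p (fun r => match r with
      | .T τ i => if τ = σ then (if i = j then 1 else 0) else (if i = j' then 1 else 0)
      | _ => 0) (.tmul σ)
    simp only [defect] at h1
    have h2 : ∀ c : Comp Cell V h → F, M.atv dg G p c (.ta σ, .one) =
      ∑ j : Fin (h + 1), c (.T σ j) * G p (.T σ j) := fun c => sum_pf _ _ _
    have h3 : ∀ c : Comp Cell V h → F, M.atv dg G p c (.tb σ, .one) =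
      ∑ j : Fin (h + 1), c (.T (!σ) j) * G p (.T σ j) := fun c => sum_pf _ _ _
    have h4 : ∀ c : Comp Cell V h → F, M.atv dg G p c (.tab σ, .one) =
      ∑ j : Fin (h + 1), c (.T σ j) * c (.T (!σ) j) * G p (.T σ j) := fun c => sum_pf _ _ _
    rw [h2, h3, h4, sub_eq_zero] at h1
    have hσ : ¬ ((!σ) = σ) := by cases σ <;> decide
    simp only [if_neg hσ, if_true, ite_mul, one_mul, zero_mul, Finset.sum_ite_eq',
      mem_univ] at h1
    rw [h1]
  · refine hgen (fun ρ => G (ρ, y) (.W σ e)) (fun ρ => ?_) (fun x ρ => ?_) ρ ρ'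
    · have h1 := hd (ρ, y) (Pi.single (.W σ e) 1) (.wi none)
      simp only [defect, sub_eq_zero] at h1
      have h3 : ∀ m : Mv B Dg, M.atv dg G (ρ, y) (Pi.single (.W σ e) 1) (.w, m) =
        G (M.mv dg m (ρ, y)) (.W σ e) := fun m => sum_res_single _ rfl _
      rw [h3, h3] at h1
      exact h1.symm
    · have h1 := hd (ρ, y) (Pi.single (.W σ e) 1) (.wi (some x))
      simp only [defect, sub_eq_zero] at h1
      have h3 : ∀ m : Mv B Dg, M.atv dg G (ρ, y) (Pi.single (.W σ e) 1) (.w, m) =
        G (M.mv dg m (ρ, y)) (.W σ e) := fun m => sum_res_single _ rfl _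
      rw [h3, h3] at h1
      exact h1.symm
  · have h1 := hd (ρ, y) (Pi.single (.S σ ch j) 1) .stk
    rw [DomData.defect_stk, Finset.sum_eq_single (σ, ch, j)] at h1
    · simp only [Pi.single_eq_same, one_mul] at h1
      exact sub_eq_zero.1 h1
    · rintro ⟨σ', ch', j'⟩ _ hne
      rw [Pi.single_eq_of_ne, zero_mul]
      intro e
      apply hne
      injection e with e1 e2 e3
      subst e1 e2 e3
      rfl
    · intro hh
      exact absurd (mem_univ _) hh
  · have h1 := hd p 0 .sf
    simp only [defect, DomData.atv_uT] at h1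
    exact h1
  · have h1 := hd p 0 (.fv σ i)
    simp only [defect, DomData.atv_uT, DomData.atv_uS] at h1
    exact h1
  · have h1 := hd (ρ, y) 0 (.fi σ e)
    simp only [defect, DomData.atv_uT, DomData.atv_uS, DomData.atv_uW] at h1
    exact h1
  · have h1 := hd (ρ, y) 0 (.fo σ e)
    simp only [defect, DomData.atv_uT, DomData.atv_uS, DomData.atv_uW, DomData.atv_uR] at h1
    exact h1

end ids

end Vale.Agent.P330.Q
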