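import Vale.Agent.P330.Q.NumComp
import Vale.Agent.P330.Q.SitesDir
import Vale.Agent.P330.Q.TestF
import Vale.Agent.P330.Q.Dom

/-!
# Project Q: points `(ρ, y)` as numbers, moves and the functional maps of the test on numbers
-/

namespace Vale.Agent.P330.Q

open Vale.Agent.Lib.PolyTime

/-! ### Points -/

section points

variable (K : Type*) [Field K] [CharP K 2] [Fintype K]

/-- The number of a pair. -/
noncomputable def mkP (h ρ y : ℕ) : ℕ := ρ * cY K h + y

variable {K} {h : ℕ}

theorem cY_pos : 0 < cY K h := pow_pos Fintype.card_pos h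

theorem mkP_fst {ρ y : ℕ} (hy : y < cY K h) : mkP K h ρ y / cY K h = ρ := by
  unfold mkP
  rw [add_comm, Nat.add_mul_div_right _ _ cY_pos, Nat.div_eq_of_lt hy, zero_add]

theorem mkP_snd {ρ y : ℕ} (hy : y < cY K h) : mkP K h ρ y % cY K h = y := by
  unfold mkP
  rw [add_comm, Nat.add_mul_mod_self_right, Nat.mod_eq_of_lt hy]

variable [NeZero h]

theorem eYY_eq (p : YY K h × YY K h) :
    (eYY K h p : ℕ) = mkP K h (numZ (TY K) h p.1) (numZ (TY K) h p.2) := eYY_val K p

theorem eYY_fst (p : YY K h × YY K h) :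
    (eYY K h p : ℕ) / cY K h = numZ (TY K) h p.1 := by
  rw [eYY_eq]
  exact mkP_fst (Fin.is_lt _)

theorem eYY_snd (p : YY K h × YY K h) :
    (eYY K h p : ℕ) % cY K h = numZ (TY K) h p.2 := by
  rw [eYY_eq]
  exact mkP_snd (Fin.is_lt _)

end points

section moves

variable (K : Type*) [Field K] [CharP K 2] [Fintype K]

/-- Addition of pairs. -/
noncomputable def addP (h x y : ℕ) : ℕ :=
  mkP K h (addN K h (x / cY K h) (y / cY K h)) (addN K h (x % cY K h) (y % cY K h))

/-- Translation by an element of the digit `0`. -/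
noncomputable def trN (h : ℕ) (t : TY K) (x : ℕ) : ℕ :=
  fnum h fun j => dgP (TY K) h x j + if j % max h 1 = 0 then t else 0

/-- The inverse shift by `n` positions. -/
noncomputable def shiN (h n x : ℕ) : ℕ := fnum h fun j => dgP (TY K) h x (j + n)

/-- The shift, and `e0`. -/
noncomputable def theN (h x : ℕ) : ℕ := addN K h (thN K h x) (iotaN K h 1)

variable {K} {h : ℕ} [NeZero h]

theorem eYY_add (p p' : YY K h × YY K h) :
    (eYY K h (p + p') : ℕ) = addP K h (eYY K h p) (eYY K h p') := by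
  rw [eYY_eq, addP, eYY_fst, eYY_snd, eYY_fst, eYY_snd, Prod.fst_add, Prod.snd_add,
    numZ_add, numZ_add]

theorem numZ_tr (t : TY K) (y : YY K h) :
    (numZ (TY K) h (y + Pi.single 0 t) : ℕ) = trN K h t (numZ (TY K) h y) := by
  rw [numZ_val, trN, dgP_numZ]
  congr 1
  funext j
  show y (j : ZMod h) + (Pi.single 0 t : YY K h) (j : ZMod h) = _
  congr 1
  rw [Pi.single_apply, max_eq_left (Nat.one_le_iff_ne_zero.2 (NeZero.ne h))]
  refine if_congr ?_ rfl rfl
  rw [ZMod.natCast_eq_zero_iff, Nat.dvd_iff_mod_eq_zero]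

theorem numZ_shi (n : ℕ) (y y' : YY K h) (hy : ∀ j, y' j = y (j + n)) :
    (numZ (TY K) h y' : ℕ) = shiN K h n (numZ (TY K) h y) := by
  rw [numZ_val, shiN, dgP_numZ]
  congr 1
  funext j
  show y' (j : ZMod h) = y ((j + n : ℕ) : ZMod h)
  rw [hy, Nat.cast_add]

theorem numZ_the (y : YY K h) :
    (numZ (TY K) h (thetaY K h y + iotaY K h (ev 0)) : ℕ) = theN K h (numZ (TY K) h y) := by
  rw [numZ_add, numZ_theta, ← cub_one, numZ_iota]
  rfl

/-- Moves of the first coordinate. -/
theorem eYY_map_fst {f : YY K h → YY K h} {fN : ℕ → ℕ}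
    (hf : ∀ y, (numZ (TY K) h (f y) : ℕ) = fN (numZ (TY K) h y)) (p : YY K h × YY K h) :
    (eYY K h (f p.1, p.2) : ℕ) =
      mkP K h (fN ((eYY K h p : ℕ) / cY K h)) ((eYY K h p : ℕ) % cY K h) := by
  rw [eYY_eq, eYY_fst, eYY_snd, hf]

/-- Moves of the second coordinate. -/
theorem eYY_map_snd {f : YY K h → YY K h} {fN : ℕ → ℕ}
    (hf : ∀ y, (numZ (TY K) h (f y) : ℕ) = fN (numZ (TY K) h y)) (p : YY K h × YY K h) :
    (eYY K h (p.1, f p.2) : ℕ) =
      mkP K h ((eYY K h p : ℕ) / cY K h) (fN ((eYY K h p : ℕ) % cY K h)) := by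
  rw [eYY_eq, eYY_fst, eYY_snd, hf]

theorem eYY_swap (p : YY K h × YY K h) :
    (eYY K h (p.2, p.1) : ℕ) =
      mkP K h ((eYY K h p : ℕ) % cY K h) ((eYY K h p : ℕ) / cY K h) := by
  rw [eYY_eq, eYY_fst, eYY_snd]

end moves

section mvs

variable {K : Type*} [Field K] [CharP K 2] [Fintype K] {h B : ℕ} {X : Type*}

/-- The moves of the test on numbers (`k`: number of address bits). -/
noncomputable def mvN (K : Type) [Field K] [CharP K 2] [Fintype K] (h k : ℕ) {B : ℕ} :
    Mv B (TY K) → ℕ → ℕ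
  | .one, x => x
  | .th false, x => mkP K h (thN K h (x / cY K h)) (x % cY K h)
  | .th true, x => mkP K h (x / cY K h) (thN K h (x % cY K h))
  | .tr false t, x => mkP K h (trN K h t (x / cY K h)) (x % cY K h)
  | .tr true t, x => mkP K h (x / cY K h) (trN K h t (x % cY K h))
  | .the, x => mkP K h (x / cY K h) (theN K h (x % cY K h))
  | .sh t, x => mkP K h (x / cY K h) (shiN K h (2 * k * t) (x % cY K h))
  | .sw, x => mkP K h (x % cY K h) (x / cY K h)

/-- The moves of the step on numbers. -/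
noncomputable def akN (K : Type*) [Field K] [CharP K 2] [Fintype K] (h k : ℕ) {F Cell : Type*}
    {B : ℕ} : AK F Cell B → ℕ → ℕ
  | .top _ b, x => if b then mkP K h (x / cY K h) (theN K h (x % cY K h))
      else mkP K h (x / cY K h) (thN K h (x % cY K h))
  | .swap _ _, x => mkP K h (x % cY K h) (x / cY K h)
  | .wv _ t _ _, x => mkP K h (x / cY K h) (shiN K h (2 * k * t) (x % cY K h))
  | _, x => x

/-- The shift, `e0` and the reads of a domain over `YY K h` are the standard ones. -/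
structure StdDom [NeZero h] {Cell V : Type*} [Fintype Cell] [DecidableEq Cell]
    (M : DomData K h B (YY K h) Cell V X) (k : ℕ) : Prop where
  θ : ∀ y, M.θ y = thetaY K h y
  e0 : M.e0 = iotaY K h (ev 0)
  sh : ∀ t y j, M.sh t y j = y (j + ((2 * k * (t : ℕ) : ℕ) : ZMod h))

theorem StdDom.akN [NeZero h] {Cell V : Type*} [Fintype Cell] [DecidableEq Cell]
    {M : DomData K h B (YY K h) Cell V X} {k : ℕ} (hM : StdDom M k) (κ : AK K Cell B)
    (p : YY K h × YY K h) : (eYY K h (κ.mv M p) : ℕ) = akN K h k κ (eYY K h p) := by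
  have h1 := eYY_map_snd (f := fun y => M.θ y) (fN := thN K h)
    (fun y => by rw [hM.θ, numZ_theta]) p
  have h2 := eYY_map_snd (f := fun y => M.θ y + M.e0) (fN := theN K h)
    (fun y => by rw [hM.θ, hM.e0, numZ_the]) p
  have h3 := fun t : Fin B => eYY_map_snd (f := fun y => M.sh t y)
    (fN := shiN K h (2 * k * t)) (fun y => numZ_shi _ _ _ (hM.sh t y)) p
  cases κ with
  | top s b =>
    cases b
    · exact h1
    · exact h2
  | swap s r => exact eYY_swap p
  | wv s t e l => exact h3 t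
  | push s => rfl
  | pop s => rfl
  | flip s => rfl
  | full s => rfl
  | ne s => rfl
  | rel => rfl

theorem StdDom.mvN {K : Type} [Field K] [CharP K 2] [Fintype K] [NeZero h] {Cell V : Type}
    [Fintype Cell] [DecidableEq Cell]
    {M : DomData K h B (YY K h) Cell V X} {k : ℕ} (hM : StdDom M k) (m : Mv B (TY K))
    (p : YY K h × YY K h) :
    (eYY K h (M.mv (fun x => Pi.single 0 x) m p) : ℕ) = mvN K h k m (eYY K h p) := by
  have h0 := eYY_map_fst (f := fun y => M.θ y) (fN := thN K h)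
    (fun y => by rw [hM.θ, numZ_theta]) p
  have h1 := eYY_map_snd (f := fun y => M.θ y) (fN := thN K h)
    (fun y => by rw [hM.θ, numZ_theta]) p
  have h2 := eYY_map_snd (f := fun y => M.θ y + M.e0) (fN := theN K h)
    (fun y => by rw [hM.θ, hM.e0, numZ_the]) p
  have h3 := fun t : Fin B => eYY_map_snd (f := fun y => M.sh t y)
    (fN := shiN K h (2 * k * t)) (fun y => numZ_shi _ _ _ (hM.sh t y)) p
  have h4 := fun t : TY K => eYY_map_fst (fN := trN K h t) (fun y => numZ_tr t y) p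
  have h5 := fun t : TY K => eYY_map_snd (fN := trN K h t) (fun y => numZ_tr t y) p
  cases m with
  | one => rfl
  | th σ =>
    cases σ
    · exact h0
    · exact h1
  | tr σ t =>
    cases σ
    · exact h4 t
    · exact h5 t
  | the =>
    have e1 : M.mv (fun x : TY K => (Pi.single 0 x : YY K h)) .the p = (p.1, M.θ p.2 + M.e0) := rfl
    rw [e1]
    exact h2
  | sh t => exact h3 t
  | sw => exact eYY_swap p

omit [Fintype K] in
/-- The inverse shift by `n` positions. -/
theorem iterate_theta_symm [NeZero h] (n : ℕ) (y : YY K h) (j : ZMod h) :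
    (⇑(thetaY K h).symm)^[n] y j = y (j + (n : ZMod h)) := by
  induction n generalizing y with
  | zero => simp
  | succ n ih =>
    rw [Function.iterate_succ_apply, ih]
    show y (j + (n : ZMod h) + 1) = _
    rw [Nat.cast_succ, add_assoc]

open Vale.Agent.P330.S in
omit [Fintype K] in
theorem stdDom_domData [NeZero h] (D : ESys K h (YY K h)) (hθ : D.θ = thetaY K h)
    (hι : D.ι = iotaY K h) {S : Spec} {r k : ℕ} (I : Inst S r) (hI : Facts I)
    (σ : PSlot S ≃ Fin B) (ε : I.J ≃ Addr k) : StdDom (domData D I hI σ ε) k where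
  θ y := by
    show D.θ y = _
    rw [hθ]
  e0 := by
    show D.ι (ev 0) = _
    rw [hι]
  sh t y j := by
    show shE D (2 * k * t) y j = _
    rw [shE_apply]
    unfold ESys.θi
    rw [hθ]
    exact iterate_theta_symm _ y j

end mvs

/-! ### Polynomial time -/

section pt

variable {A : Set Word} {α : Type*} [Enc α] (K : Type*) [Field K] [CharP K 2] [Fintype K]
variable {h k x y : α → ℕ}

theorem PT.mkP (hh : PT A h) (hhb : PBd h) (hx : PT A x) (hy : PT A y) :
    PT A (fun a => mkP K (h a) (x a) (y a)) :=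
  PT.add (PT.mul hx (PT.cY K hh hhb)) hy

theorem PT.fstP (hh : PT A h) (hhb : PBd h) (hx : PT A x) : PT A (fun a => x a / Q.cY K (h a)) :=
  PT.div hx (PT.cY K hh hhb)

theorem PT.sndP (hh : PT A h) (hhb : PBd h) (hx : PT A x) : PT A (fun a => x a % Q.cY K (h a)) :=
  PT.mod hx (PT.cY K hh hhb)

theorem PT.addP (hh : PT A h) (hhb : PBd h) (hx : PT A x) (hy : PT A y) :
    PT A (fun a => addP K (h a) (x a) (y a)) :=
  PT.mkP K hh hhb (PT.addN K hh hhb (PT.fstP K hh hhb hx) (PT.fstP K hh hhb hy))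
    (PT.addN K hh hhb (PT.sndP K hh hhb hx) (PT.sndP K hh hhb hy))

theorem PT.trN (hh : PT A h) (hhb : PBd h) (t : TY K) (hx : PT A x) :
    PT A (fun a => trN K (h a) t (x a)) :=
  PT.fnum' hh hhb (PTt.add
    (PTt.dgP (hh.comp PT.fst') (PBd.comp hhb (PT.fst' (A := A))) (hx.comp PT.fst') PT.snd')
    (PTt.ite (PT.eqNat (PT.mod PT.snd' (PT.max (hh.comp PT.fst') (PT.const 1))) (PT.const 0))
      (PTt.const t) (PTt.const 0)))

theorem PT.shiN (hh : PT A h) (hhb : PBd h) {n : α → ℕ} (hn : PT A n) (hx : PT A x) :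
    PT A (fun a => shiN K (h a) (n a) (x a)) :=
  PT.fnum' hh hhb
    (PTt.dgP (hh.comp PT.fst') (PBd.comp hhb (PT.fst' (A := A))) (hx.comp PT.fst')
      (PT.add PT.snd' (hn.comp PT.fst')))

theorem PT.theN (hh : PT A h) (hhb : PBd h) (hx : PT A x) : PT A (fun a => theN K (h a) (x a)) :=
  PT.addN K hh hhb (PT.thN K hh hhb hx) (PT.iotaN K hh hhb (PT.const 1))

theorem PT.akN (hh : PT A h) (hhb : PBd h) (hk : PT A k) (hx : PT A x) {F Cell : Type*} {B : ℕ}
    (κ : AK F Cell B) : PT A (fun a => akN K (h a) (k a) κ (x a)) := by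
  have e1 := PT.fstP K hh hhb hx
  have e2 := PT.sndP K hh hhb hx
  cases κ with
  | top s b =>
    cases b
    · exact PT.mkP K hh hhb e1 (PT.thN K hh hhb e2)
    · exact PT.mkP K hh hhb e1 (PT.theN K hh hhb e2)
  | swap s r => exact PT.mkP K hh hhb e2 e1
  | wv s t e l =>
    exact PT.mkP K hh hhb e1 (PT.shiN K hh hhb (PT.mul (PT.mul (PT.const 2) hk) (PT.const _)) e2)
  | _ => exact hx

theorem PT.mvN {K : Type} [Field K] [CharP K 2] [Fintype K] (hh : PT A h) (hhb : PBd h)
    (hk : PT A k) (hx : PT A x) {B : ℕ} (m : Mv B (TY K)) :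
    PT A (fun a => mvN K (h a) (k a) m (x a)) := by
  have e1 := PT.fstP K hh hhb hx
  have e2 := PT.sndP K hh hhb hx
  cases m with
  | one => exact hx
  | th σ =>
    cases σ
    · exact PT.mkP K hh hhb (PT.thN K hh hhb e1) e2
    · exact PT.mkP K hh hhb e1 (PT.thN K hh hhb e2)
  | tr σ t =>
    cases σ
    · exact PT.mkP K hh hhb (PT.trN K hh hhb t e1) e2
    · exact PT.mkP K hh hhb e1 (PT.trN K hh hhb t e2)
  | the => exact PT.mkP K hh hhb e1 (PT.theN K hh hhb e2)
  | sh t =>
    exact PT.mkP K hh hhb e1 (PT.shiN K hh hhb (PT.mul (PT.mul (PT.const 2) hk) (PT.const _)) e2)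
  | sw => exact PT.mkP K hh hhb e2 e1

end pt

end Vale.Agent.P330.Q
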