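import Vale.Agent.P330.Q.CbENum
import Vale.Agent.P330.Q.CbStart
import Vale.Agent.P330.Q.Conc
import Vale.Agent.P330.Q.NumMv

/-!
# The public bits of the concrete family on numbers
-/

namespace Vale.Agent.P330.Q

open Finset Vale.Agent.Lib.PolyTime
open S (Inst Spec)
open S.Mach (spec)
open Srch

theorem PT_hC : PT ∅ (fun I : EndOfLine => hC I) := PT_hQ _ _ PT.id

theorem PBd_two_pow_hC : PBd (fun I : EndOfLine => 2 ^ hC I) :=
  PBd_two_pow_hQ (A := ∅) _ _ PT.id

theorem PBd_hC : PBd (fun I : EndOfLine => hC I) := PBd_hQ (A := ∅) _ _ PT.id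

theorem PT_zC : PT ∅ (fun I : EndOfLine => zC I) := PT.sch _ PT_hC PBd_two_pow_hC

/-- **The code domain of the family, on numbers.** -/
noncomputable def enC : ENum ∅ hC (Y := YC) sysC :=
  enumY (a := aC) (z := zC) PT_hC PBd_two_pow_hC PT_zC alC_sum cvC

/-- **Public bits on numbers**: number `p` of the point, number `c` of the functional. -/
noncomputable def vNC (I : EndOfLine) : codeQ.V → ℕ → ℕ → Bool
  | .inl (), p, c =>
    decide (φQ (enC.startN σQ I c (p / cY KQ (hC I)) (p % cY KQ (hC I))) = 1)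
  | .inr (.inl (.cT s)), _, c =>
    decide (φQ (decC (hC I) c (hiC (.inl s) (Fin.ofNat (hC I + 1) 0) :
      Comp spec.Cell (VOut spec) (hC I))) = 1)
  | .inr (.inl .cR), _, c =>
    decide (φQ (decC (hC I) c (loC none : Comp spec.Cell (VOut spec) (hC I))) = 1)
  | .inr (.inl (.cS s i l)), _, c =>
    decide (φQ (l * decC (hC I) c (hiC (.inr (s, i)) (Fin.ofNat (hC I + 1) 0) :
      Comp spec.Cell (VOut spec) (hC I))) = 1)
  | .inr (.inl (.K i γ l)), p, _ =>
    decide (φQ (l * enC.KN σQ i γ I (p / cY KQ (hC I)) (p % cY KQ (hC I))) = 1)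
  | .inr (.inr (c', γ, l)), p, _ =>
    decide (φQ (l * enC.KN σQ c' γ I (p / cY KQ (hC I)) (p % cY KQ (hC I))) = 1)

theorem vNC_ok (I : EndOfLine) (v : codeQ.V) (p : YC I × YC I) (c : ℕ) :
    vNC I v (eYY KQ (hC I) p) c = (famC I).v v p (decC (hC I) c) := by
  have h1 : ((eYY KQ (hC I) p : Fin _) : ℕ) / cY KQ (hC I) = enC.num I p.1 := eYY_fst p
  have h2 : ((eYY KQ (hC I) p : Fin _) : ℕ) % cY KQ (hC I) = enC.num I p.2 := eYY_snd p
  rcases v with _ | v | ⟨c', γ, l⟩
  · show decide (φQ (enC.startN σQ I c _ _) = 1) = _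
    rw [h1, h2, enC.startN_num]
    rfl
  · cases v with
    | cT s => rfl
    | cR => rfl
    | cS s i l => rfl
    | K i γ l =>
      show decide (φQ (l * enC.KN σQ i γ I _ _) = 1) = _
      rw [h1, h2, enC.KN_num]
      rfl
  · show decide (φQ (l * enC.KN σQ c' γ I _ _) = 1) = _
    rw [h1, h2, enC.KN_num]
    rfl

section

variable {β : Type} [Enc β] {g : β → EndOfLine} {p c : β → ℕ}

theorem PTt.phiBit {x : β → KQ} (hx : PTt ∅ x) : PT ∅ (fun b => decide (φQ (x b) = 1)) :=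
  PTt.mapP hx fun u => decide (φQ u = 1)

/-- **The public bits are computable in polynomial time.** -/
theorem PT_vNC (hg : PT ∅ g) (hp : PT ∅ p) (hc : PT ∅ c) (v : codeQ.V) :
    PT ∅ (fun b => vNC (g b) v (p b) (c b)) := by
  have hh : PT ∅ (fun b => hC (g b)) := PT_hC.comp hg
  have hhb : PBd (fun b => hC (g b)) := PBd_hC.comp hg
  have h1 : PT ∅ (fun b => p b / cY KQ (hC (g b))) := PT.fstP KQ hh hhb hp
  have h2 : PT ∅ (fun b => p b % cY KQ (hC (g b))) := PT.sndP KQ hh hhb hp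
  rcases v with _ | v | ⟨c', γ, l⟩
  · exact PTt.phiBit (enC.PT_startN σQ hg hc h1 h2)
  · cases v with
    | cT s =>
      exact PTt.phiBit (PTt.decC_hi (h := fun b => hC (g b)) hh hhb hc (PT.const 0) (.inl s))
    | cR => exact PTt.phiBit (PTt.decC_lo (h := fun b => hC (g b)) hc none)
    | cS s i l =>
      exact PTt.phiBit (PTt.mul (PTt.const l)
        (PTt.decC_hi (h := fun b => hC (g b)) hh hhb hc (PT.const 0) (.inr (s, i))))
    | K i γ l => exact PTt.phiBit (PTt.mul (PTt.const l) (enC.PT_KN σQ i γ hg h1 h2))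
  · exact PTt.phiBit (PTt.mul (PTt.const l) (enC.PT_KN σQ c' γ hg h1 h2))

end

end Vale.Agent.P330.Q
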