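import Vale.Agent.P318.H340.Ryser
import Vale.Agent.P330.Q.NumOp
import Vale.Agent.P330.Q.YSys

/-!
# Project Q: the extension on numbers is the extension of the concrete system
-/

namespace Vale.Agent.P330.Q

open Finset Matrix
open scoped BigOperators

section matrix

variable {K : Type*} [Field K] {a : ℕ}

/-- The entries of the matrix `N`. -/
def nmat {h : ℕ} (n11 n21 : ZMod h → K) (p q : Bool × ZMod h) : K :=
  if q.1 then (if p = q then 1 else 0) else (if p.1 then n21 else n11) (p.2 - q.2)

theorem sum_sub_sub {h : ℕ} [NeZero h] (x y : ZMod h → K) (i k : ZMod h) :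
    ∑ j, x (i - j) * y (j - k) = cv x y (i - k) := by
  unfold cv
  refine Fintype.sum_equiv (Equiv.subLeft i) _ _ fun j => ?_
  simp only [Equiv.subLeft_apply]
  congr 2
  ring

variable [CharP K 2]

theorem cv_sq {h : ℕ} [NeZero h] (x y : ZMod h → K) :
    cv (fun i => x i ^ 2) (fun i => y i ^ 2) = fun j => cv x y j ^ 2 := by
  funext j
  unfold cv
  rw [CharTwo.sum_sq]
  exact Finset.sum_congr rfl fun i _ => (mul_pow _ _ _).symm

theorem cv_dl_sq {h : ℕ} [NeZero h] {al al' : ZMod h → K} (h1 : cv al' al = dl h K) :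
    cv (fun i => al' i ^ 2) (fun i => al i ^ 2) = dl h K := by
  rw [cv_sq, h1]
  funext j
  by_cases hj : j = 0
  · subst hj
    simp [dl]
  · simp [dl, Pi.single_eq_of_ne hj]

theorem krN_eq (al be al' : ZMod (2 ^ a) → K) (hal : ∑ j, al j ≠ 0)
    (h1 : cv al' al = dl (2 ^ a) K) :
    krN (pmat al be) = nmat (cv al fun i => al' i ^ 2)
      (cv (fun i => be i + be i ^ 2) fun i => al' i ^ 2) := by
  set n11 := cv al fun i => al' i ^ 2 with h11
  set n21 := cv (fun i => be i + be i ^ 2) fun i => al' i ^ 2 with h21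
  set Q : Matrix (Bool × ZMod (2 ^ a)) (Bool × ZMod (2 ^ a)) K :=
    (pmat al be).map fun x => x ^ 2 with hQ
  have e11 : cv n11 (fun i => al i ^ 2) = al := by
    rw [h11, cv_assoc, cv_dl_sq h1, cv_dl]
  have e21 : cv n21 (fun i => al i ^ 2) = fun i => be i + be i ^ 2 := by
    rw [h21, cv_assoc, cv_dl_sq h1, cv_dl]
  have hmul : (Matrix.of (nmat n11 n21)) * Q = pmat al be := by
    ext p r
    rw [Matrix.mul_apply, Fintype.sum_prod_type, Fintype.sum_bool]
    obtain ⟨e, i⟩ := p
    obtain ⟨e', k⟩ := r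
    cases e' with
    | false =>
      have s1 : ∑ j, (Matrix.of (nmat n11 n21)) (e, i) (false, j) * Q (false, j) (false, k) =
          (if e then fun j => be j + be j ^ 2 else al) (i - k) := by
        have s2 : ∀ j, (Matrix.of (nmat n11 n21)) (e, i) (false, j) * Q (false, j) (false, k) =
            (if e then n21 else n11) (i - j) * (fun i => al i ^ 2) (j - k) := by
          intro j
          simp [nmat, hQ, pmat]
        refine (Finset.sum_congr rfl fun j _ => s2 j).trans
          ((sum_sub_sub (if e then n21 else n11) (fun i => al i ^ 2) i k).trans ?_)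
        cases e
        · exact congrFun e11 _
        · exact congrFun e21 _
      rw [s1]
      cases e
      · simp [nmat, pmat]
      · simp only [if_true]
        have s3 : ∑ j, (Matrix.of (nmat n11 n21)) (true, i) (true, j) * Q (true, j) (false, k) =
            be (i - k) ^ 2 := by
          rw [Finset.sum_eq_single i]
          · simp [nmat, hQ, pmat]
          · intro j _ hj
            simp [nmat, Ne.symm hj]
          · simp
        rw [s3]
        simp only [pmat, if_true, Bool.false_eq_true, if_false]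
        rw [add_comm, add_assoc, CharTwo.add_self_eq_zero, add_zero]
    | true =>
      have s1 : ∀ j, Q (false, j) (true, k) = 0 := by
        intro j
        simp [hQ, pmat]
      have s2 : ∑ j, (Matrix.of (nmat n11 n21)) (e, i) (false, j) * Q (false, j) (true, k) = 0 :=
        Finset.sum_eq_zero fun j _ => by rw [s1, mul_zero]
      rw [s2, add_zero, Finset.sum_eq_single k]
      · simp [nmat, hQ, pmat]
      · intro j _ hj
        simp [hQ, pmat, hj]
      · simp
  have hdet : IsUnit Q.det := by
    rw [hQ, det_map_sq]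
    exact (pow_ne_zero 2 (pmat_det al be hal)).isUnit
  unfold krN
  have h2 := Matrix.mul_nonsing_inv_cancel_right Q (Matrix.of (nmat n11 n21)) hdet
  rw [hmul] at h2
  exact h2

end matrix

section det

variable {K : Type*} [Field K] [CharP K 2] {h : ℕ} [NeZero h]

omit [CharP K 2] [NeZero h] in
theorem cub_eq_one (h s : ℕ) (i : ZMod h) : cub h s i = 1 ↔ s.testBit i.val = true := by
  unfold cub
  split_ifs with h1
  · simp [h1]
  · simp [h1]

/-- Sums over the subsets of two copies of the cyclic group. -/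
theorem sum_finset_pair {M : Type*} [AddCommMonoid M] (g : Finset (Bool × ZMod h) → M) :
    ∑ S, g S = ∑ s0 ∈ range (2 ^ h), ∑ s1 ∈ range (2 ^ h),
      g (univ.filter fun p => (if p.1 then s1.testBit p.2.val else s0.testBit p.2.val) = true) := by
  have h1 : Function.Bijective (fun c : Cube h × Cube h => (univ.filter fun p : Bool × ZMod h =>
      (if p.1 then c.2 p.2 else c.1 p.2) = 1)) := by
    rw [Fintype.bijective_iff_injective_and_card]
    constructor
    · rintro ⟨c0, c1⟩ ⟨d0, d1⟩ e
      have e1 : ∀ p : Bool × ZMod h, (if p.1 then c1 p.2 else c0 p.2) = 1 ↔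
          (if p.1 then d1 p.2 else d0 p.2) = 1 := by
        intro p
        have := Finset.ext_iff.1 e p
        simpa using this
      have key : ∀ x y : ZMod 2, (x = 1 ↔ y = 1) → x = y := by decide
      refine Prod.ext ?_ ?_
      · funext i
        exact key _ _ (by simpa using e1 (false, i))
      · funext i
        exact key _ _ (by simpa using e1 (true, i))
    · rw [Fintype.card_finset, Fintype.card_prod, Fintype.card_prod, Fintype.card_bool,
        Fintype.card_fun, ZMod.card, ZMod.card, two_mul, pow_add]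
  rw [← h1.sum_comp, Fintype.sum_prod_type, sum_cub]
  refine Finset.sum_congr rfl fun s0 _ => ?_
  rw [sum_cub]
  refine Finset.sum_congr rfl fun s1 _ => ?_
  congr 1
  refine Finset.filter_congr fun p _ => ?_
  cases p.1
  · simp [cub_eq_one]
  · simp [cub_eq_one]

/-- The determinant on numbers. -/
theorem detN_eq (n11 n21 : ZMod h → K) (v : Bool × ZMod h → K) :
    (1 + Matrix.of (nmat n11 n21) * diagonal v).det =
      detN h (pz n11) (pz n21) (pz fun i => v (false, i)) (pz fun i => v (true, i)) := by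
  rw [Vale.Agent.P318.Cert.det_ryser, sum_finset_pair]
  unfold detN
  refine Finset.sum_congr rfl fun s0 _ => Finset.sum_congr rfl fun s1 _ => ?_
  rw [Fintype.prod_prod_type, Fintype.prod_bool, mul_comm]
  have hM : ∀ p q : Bool × ZMod h, (1 + Matrix.of (nmat n11 n21) * diagonal v) p q =
      (if p = q then 1 else 0) + nmat n11 n21 p q * v q := by
    intro p q
    rw [Matrix.add_apply, Matrix.one_apply, Matrix.mul_diagonal]
    rfl
  have hsum : ∀ p : Bool × ZMod h, ∑ q ∈ univ.filter (fun q : Bool × ZMod h =>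
      (if q.1 then s1.testBit q.2.val else s0.testBit q.2.val) = true),
      (1 + Matrix.of (nmat n11 n21) * diagonal v) p q =
      (∑ j, if s0.testBit j.val then
        (1 + Matrix.of (nmat n11 n21) * diagonal v) p (false, j) else 0) +
      ∑ j, if s1.testBit j.val then
        (1 + Matrix.of (nmat n11 n21) * diagonal v) p (true, j) else 0 := by
    intro p
    rw [Finset.sum_filter, Fintype.sum_prod_type, Fintype.sum_bool, add_comm]
    simp
  have hcast : ∀ i ∈ range h, ∀ j ∈ range h, ((i : ZMod h) = (j : ZMod h) ↔ i = j) := by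
    intro i hi j hj
    constructor
    · intro e
      have := congrArg ZMod.val e
      rwa [ZMod.val_natCast_of_lt (mem_range.1 hi), ZMod.val_natCast_of_lt (mem_range.1 hj)] at this
    · rintro rfl
      rfl
  have hsub : ∀ i j : ℕ, j ∈ range h → (i : ZMod h) - (j : ZMod h) =
      ((i + (h - j) : ℕ) : ZMod h) := by
    intro i j hj
    rw [Nat.cast_add, Nat.cast_sub (mem_range.1 hj).le, ZMod.natCast_self, zero_sub,
      sub_eq_add_neg]
  congr 1
  · rw [prod_ZMod]
    refine Finset.prod_congr rfl fun i hi => ?_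
    rw [hsum]
    have z0 : ∑ j, (if s1.testBit j.val then
        (1 + Matrix.of (nmat n11 n21) * diagonal v) (false, (i : ZMod h)) (true, j) else 0) =
        (0 : K) := by
      refine Finset.sum_eq_zero fun j _ => ?_
      rw [hM]
      simp [nmat]
    rw [z0, add_zero, sum_ZMod]
    refine Finset.sum_congr rfl fun j hj => ?_
    rw [ZMod.val_natCast_of_lt (mem_range.1 hj)]
    refine if_congr Iff.rfl ?_ rfl
    rw [hM]
    congr 1
    · refine if_congr ?_ rfl rfl
      rw [← hcast i hi j hj]
      simp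
    · unfold nmat pz
      simp only [Bool.false_eq_true, if_false]
      rw [hsub i j hj]
  · rw [prod_ZMod]
    refine Finset.prod_congr rfl fun i hi => ?_
    rw [hsum]
    congr 1
    · rw [sum_ZMod]
      refine Finset.sum_congr rfl fun j hj => ?_
      rw [ZMod.val_natCast_of_lt (mem_range.1 hj)]
      refine if_congr Iff.rfl ?_ rfl
      rw [hM]
      unfold nmat pz
      simp only [Bool.false_eq_true, if_false, if_true]
      rw [hsub i j hj]
      simp
    · rw [Finset.sum_eq_single (i : ZMod h)]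
      · rw [ZMod.val_natCast_of_lt (mem_range.1 hi)]
        refine if_congr Iff.rfl ?_ rfl
        rw [hM]
        simp [nmat, pz]
      · intro j _ hj
        rw [hM]
        simp [nmat, Ne.symm hj]
      · simp

end det

section ext

variable {K : Type*} [Field K] [CharP K 2] [Fintype K] {a : ℕ}

omit [CharP K 2] in
theorem pz_add {T : Type*} [Add T] {h : ℕ} (x y : ZMod h → T) :
    pz (fun i => x i + y i) = fun j => pz x j + pz y j := rfl

omit [CharP K 2] in
theorem pz_n11 (z : ℕ) : pz (cv (alZ K (2 ^ a) z) fun i => apZ K (2 ^ a) z i ^ 2) =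
    n11P K (2 ^ a) z := by
  rw [← cvN_pz, n11P, ← pz_alZ, ← pz_apZ]
  rfl

omit [CharP K 2] in
theorem pz_n21 (z : ℕ) : pz (cv (fun i => beZ K (2 ^ a) z i + beZ K (2 ^ a) z i ^ 2)
    fun i => apZ K (2 ^ a) z i ^ 2) = n21P K (2 ^ a) z := by
  rw [← cvN_pz, n21P, ← pz_beZ, ← pz_apZ]
  rfl

/-- **The extension on numbers.** -/
theorem extN_eq (z : ℕ) (hal : ∑ j, alZ K (2 ^ a) z j ≠ 0)
    (h1 : cv (apZ K (2 ^ a) z) (alZ K (2 ^ a) z) = dl (2 ^ a) K) (g : Cube (2 ^ a) → K)
    (f : ℕ → K) (hf : ∀ b < 2 ^ 2 ^ a, f b = g (cub (2 ^ a) b)) (y : YY K (2 ^ a)) :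
    (ysys (alZ K (2 ^ a) z) (beZ K (2 ^ a) z) (apZ K (2 ^ a) z) hal h1).E g y =
      extN K (2 ^ a) z f (numZ (TY K) (2 ^ a) y) := by
  rw [ysys_E_sec, extP_eq, sum_cub]
  unfold extN
  refine Finset.sum_congr rfl fun b hb => ?_
  rw [hf b (mem_range.1 hb)]
  congr 1
  rw [sum_cub]
  unfold kerN
  refine Finset.sum_congr rfl fun x _ => ?_
  unfold kr
  rw [krN_eq _ _ _ hal h1]
  refine (detN_eq _ _ _).trans ?_
  rw [pz_n11, pz_n21]
  have hs1 : (pz fun i => secY (alZ K (2 ^ a) z) y (false, i)) =
      sec1 K (2 ^ a) z (numZ (TY K) (2 ^ a) y) := by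
    show pz (cv (alZ K (2 ^ a) z) fun j => CK.val K (y j).1) = _
    rw [← cvN_pz, pz_alZ, sec1, dgP_numZ]
    rfl
  have hw1 : (pz fun i => wpt (alZ K (2 ^ a) z) (beZ K (2 ^ a) z) (cub (2 ^ a) x) (false, i)) =
      cvN (2 ^ a) (bitP K (2 ^ a) x) (alP K (2 ^ a) z) := by
    rw [wpt_eq, ← pz_btv_cub, ← pz_alZ, cvN_pz]
    rfl
  have hw2 : (pz fun i => wpt (alZ K (2 ^ a) z) (beZ K (2 ^ a) z) (cub (2 ^ a) x) (true, i)) =
      cvN (2 ^ a) (bitP K (2 ^ a) x) (beP K (2 ^ a) z) := by
    rw [wpt_eq, ← pz_btv_cub, ← pz_beZ, cvN_pz]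
    rfl
  have hs2 : (pz fun i => secY (alZ K (2 ^ a) z) y (true, i)) =
      sec2 K (2 ^ a) (numZ (TY K) (2 ^ a) y) := by
    funext j
    unfold sec2
    rw [dgP_numZ]
    rfl
  have hb1 : (pz fun i => spt K (cub (2 ^ a) b) (true, i)) = bitP K (2 ^ a) b := by
    rw [← pz_btv_cub]
    rfl
  congr 1
  · funext j
    show (_ + (0 : K)) + _ = _
    rw [← hs1, ← hw1, add_zero]
    rfl
  · funext j
    rw [← hs2, ← hb1, ← hw2]
    rfl

end ext

end Vale.Agent.P330.Q
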