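import Vale.Agent.P330.Q.CbKer
import Vale.Agent.P330.Q.NumE
import Vale.Agent.P330.Q.NumOp

/-!
# The explicit code domain on numbers
-/

namespace Vale.Agent.P330.Q

open Finset Vale.Agent.Lib.PolyTime

section ops

variable (K : Type*) [Field K] [CharP K 2] [Fintype K]

/-- powers of the shift on numbers -/
noncomputable def thpN (h n x : ℕ) : ℕ := fnum h fun j => dgP (TY K) h x (j + (h - 1) * n)

/-- powers of the inverse shift on numbers -/
noncomputable def shpN (h n x : ℕ) : ℕ := fnum h fun j => dgP (TY K) h x (j + n)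

variable {K}

omit [Fintype K] in
theorem pz_theta_iter {h : ℕ} [NeZero h] (n : ℕ) (y : YY K h) :
    pz ((⇑(thetaY K h))^[n] y) = fun j => pz y (j + (h - 1) * n) := by
  induction n with
  | zero => rfl
  | succ n ih =>
    rw [Function.iterate_succ_apply', pz_theta, ih]
    funext j
    show pz y (j + (h - 1) + (h - 1) * n) = _
    exact congrArg (pz y) (by ring)

omit [Fintype K] in
theorem pz_theta_symm_iter {h : ℕ} [NeZero h] (n : ℕ) (y : YY K h) :
    pz ((⇑(thetaY K h).symm)^[n] y) = fun j => pz y (j + n) := by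
  induction n with
  | zero => rfl
  | succ n ih =>
    rw [Function.iterate_succ_apply', pz_theta_symm, ih]
    funext j
    show pz y (j + 1 + n) = _
    exact congrArg (pz y) (by ring)

theorem numZ_theta_iter {h : ℕ} [NeZero h] (n : ℕ) (y : YY K h) :
    (numZ (TY K) h ((⇑(thetaY K h))^[n] y) : ℕ) = thpN K h n (numZ (TY K) h y) := by
  rw [numZ_val, thpN, dgP_numZ, pz_theta_iter]

theorem numZ_theta_symm_iter {h : ℕ} [NeZero h] (n : ℕ) (y : YY K h) :
    (numZ (TY K) h ((⇑(thetaY K h).symm)^[n] y) : ℕ) = shpN K h n (numZ (TY K) h y) := by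
  rw [numZ_val, shpN, dgP_numZ, pz_theta_symm_iter]

variable (K) {A : Set Word} {β : Type*} [Enc β] {h n x : β → ℕ}

theorem PT_thpN (hh : PT A h) (hhb : PBd h) (hn : PT A n) (hx : PT A x) :
    PT A (fun b => thpN K (h b) (n b) (x b)) :=
  PT.fnum' hh hhb (PTt.dgP (hh.comp PT.fst') (pbFst hhb) (hx.comp PT.fst')
    (PT.add PT.snd' (PT.mul (PT.sub (hh.comp PT.fst') (PT.const 1)) (hn.comp PT.fst'))))

theorem PT_shpN (hh : PT A h) (hhb : PBd h) (hn : PT A n) (hx : PT A x) :
    PT A (fun b => shpN K (h b) (n b) (x b)) :=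
  PT.fnum' hh hhb (PTt.dgP (hh.comp PT.fst') (pbFst hhb) (hx.comp PT.fst')
    (PT.add PT.snd' (hn.comp PT.fst')))

end ops

/-- **The explicit code domain on numbers.** -/
noncomputable def enumY {A : Set Word} {α : Type} [Enc α] {K : Type} [Field K] [CharP K 2]
    [Fintype K] {a z : α → ℕ} (hh : PT A (fun x => 2 ^ a x)) (hb : PBd (fun x => 2 ^ 2 ^ a x))
    (hz : PT A z) (hal : ∀ x, ∑ j, alZ K (2 ^ a x) (z x) j ≠ 0)
    (h1 : ∀ x, cv (apZ K (2 ^ a x) (z x)) (alZ K (2 ^ a x) (z x)) = dl (2 ^ a x) K) :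
    ENum A (fun x => 2 ^ a x) (Y := fun x => YY K (2 ^ a x)) (fun x =>
      ysys (alZ K (2 ^ a x) (z x)) (beZ K (2 ^ a x) (z x)) (apZ K (2 ^ a x) (z x)) (hal x)
        (h1 x)) where
  num x y := numZ (TY K) (2 ^ a x) y
  PT_h := hh
  PB_h := hb
  E x f y := extN K (2 ^ a x) (z x) f y
  E_num x f y := (extN_eq (z x) (hal x) (h1 x) f _ (fun _ _ => rfl) y).symm
  PT_E hg hy hf := PTt.extN K (hh.comp hg) (hb.comp hg) (hz.comp hg) hy hf
  sh x n y := shpN K (2 ^ a x) n y
  sh_num x n y := (numZ_theta_symm_iter n y).symm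
  PT_sh hg hn _ hy := PT_shpN K (hh.comp hg)
    ((hb.mono fun _ => Nat.lt_two_pow_self.le).comp hg) hn hy
  th x n y := thpN K (2 ^ a x) n y
  th_num x n y := (numZ_theta_iter n y).symm
  PT_th hg hn _ hy := PT_thpN K (hh.comp hg)
    ((hb.mono fun _ => Nat.lt_two_pow_self.le).comp hg) hn hy
  tr x n y := addN K (2 ^ a x) y (iotaN K (2 ^ a x) n)
  tr_num x n y := by
    rw [ysys_ι, numZ_add, numZ_iota]
  PT_tr hg hn hy := PT.addN K (hh.comp hg) ((hb.mono fun _ => Nat.lt_two_pow_self.le).comp hg) hy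
    (PT.iotaN K (hh.comp hg) ((hb.mono fun _ => Nat.lt_two_pow_self.le).comp hg) hn)

end Vale.Agent.P330.Q
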