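import Vale.Agent.P330.Q.CbNum
import Vale.Agent.P330.S.NumPT

/-!
# The public functions on numbers

`ENum` is a family of extension systems with numbers for the points, such that extensions can be
evaluated in polynomial time.  On top of it: monomials, the memory code, the kernels.
-/

namespace Vale.Agent.P330.Q

open Finset Vale.Agent.Lib.PolyTime
open S (PT_allFin)

/-! ### Monomials -/

/-- The monomial of the address `a` in block `t`, at the point `b` of the cube. -/
def muB (h k t a b : ℕ) : Bool :=
  (List.range k).all fun i => b.testBit ((2 * k * t + 2 * i + (a.testBit i).toNat) % h)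

/-- The monomial of the full block `t`. -/
def blkB (h k t b : ℕ) : Bool :=
  (List.range k).all fun i => b.testBit ((2 * k * t + 2 * i + 0) % h) &&
    b.testBit ((2 * k * t + 2 * i + 1) % h)

/-- The monomial of the coordinates outside of the blocks. -/
def restB (h k B b : ℕ) : Bool := (List.range h).all fun i => !decide (2 * k * B ≤ i) || b.testBit i

/-- The factor of the dual monomial for the address `a` in block `t`. -/
def cmuB (h k t a b : ℕ) : Bool :=
  (List.range k).all fun i => b.testBit ((2 * k * t + 2 * i + (!a.testBit i).toNat) % h)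

/-- The dual monomial. -/
def dualB (h k : ℕ) {B : ℕ} (L : Finset (Fin B)) (α : Fin B → ℕ) (b : ℕ) : Bool :=
  decide (∀ t : Fin B, (bif decide (t ∈ L) then cmuB h k t (α t) b else blkB h k t b) = true) &&
    restB h k B b

section mon

variable {F : Type*} [Field F] {h k : ℕ}

theorem mon_of_iff {S : Finset (ZMod h)} {b : Cube h} {P : Bool}
    (hP : (∀ i ∈ S, b i = 1) ↔ P = true) : mon F S b = if P then 1 else 0 := by
  rw [mon_eq]
  cases P
  · rw [if_neg (fun H => by simpa using hP.1 H)]; simp
  · rw [if_pos (hP.2 rfl)]; simp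

theorem forall_muS {t : ℕ} {a : Addr k} {b : ℕ} :
    (∀ c ∈ muS h t a, cub h b c = 1) ↔
      ∀ i : Fin k, b.testBit (posN k t i (a i) % h) = true := by
  unfold muS
  simp only [mem_image, mem_univ, true_and, forall_exists_index, forall_apply_eq_imp_iff]
  refine forall_congr' fun i => ?_
  rw [cub_eq_one, ZMod.val_natCast]

theorem forall_blkS {t : ℕ} {b : ℕ} :
    (∀ c ∈ blkS h k t, cub h b c = 1) ↔
      ∀ (i : Fin k) (e : Bool), b.testBit (posN k t i e % h) = true := by
  unfold blkS
  constructor
  · intro H i e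
    have h1 := H _ (mem_image.2 ⟨(i, e), mem_univ _, rfl⟩)
    rwa [cub_eq_one, ZMod.val_natCast] at h1
  · intro H c hc
    obtain ⟨⟨i, e⟩, -, rfl⟩ := mem_image.1 hc
    rw [cub_eq_one, ZMod.val_natCast]
    exact H i e

theorem mon_muS (t a b : ℕ) :
    mon F (muS h t (adr k a)) (cub h b) = if muB h k t a b then 1 else 0 := by
  refine mon_of_iff ?_
  rw [forall_muS]
  simp only [muB, List.all_eq_true, List.mem_range, posN, adr]
  constructor
  · intro H i hi
    exact H ⟨i, hi⟩
  · intro H i
    exact H i i.2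

theorem blkB_iff (t b : ℕ) :
    blkB h k t b = true ↔ ∀ (i : Fin k) (e : Bool), b.testBit (posN k t i e % h) = true := by
  simp only [blkB, List.all_eq_true, List.mem_range, posN, Bool.and_eq_true]
  constructor
  · intro H i e
    have h1 := H i i.2
    cases e
    · exact h1.1
    · exact h1.2
  · intro H i hi
    exact ⟨H ⟨i, hi⟩ false, H ⟨i, hi⟩ true⟩

theorem restB_iff [NeZero h] (B b : ℕ) : restB h k B b = true ↔ ∀ c ∈ restS h k B, cub h b c = 1 := by
  simp only [restB, List.all_eq_true, List.mem_range, restS, mem_filter, mem_univ, true_and,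
    cub_eq_one, Bool.or_eq_true, Bool.not_eq_true', decide_eq_false_iff_not, not_le]
  constructor
  · intro H c hc
    exact (H c.val (ZMod.val_lt c)).resolve_left (not_lt.2 hc)
  · intro H i hi
    by_cases hi2 : i < 2 * k * B
    · exact Or.inl hi2
    · right
      have h2 : ((i : ℕ) : ZMod h).val = i := by rw [ZMod.val_natCast, Nat.mod_eq_of_lt hi]
      have h3 := H (i : ZMod h) (by rw [h2]; omega)
      rwa [h2] at h3

theorem mon_dualS [NeZero h] {B : ℕ} (L : Finset (Fin B)) (α : Fin B → ℕ) (b : ℕ) :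
    mon F (dualS h L (fun t => adr k (α t))) (cub h b) = if dualB h k L α b then 1 else 0 := by
  refine mon_of_iff ?_
  unfold dualS dualB
  rw [Bool.and_eq_true, decide_eq_true_eq, restB_iff]
  simp only [mem_union, mem_biUnion, mem_univ, true_and]
  constructor
  · intro H
    refine ⟨fun t => ?_, fun c hc => H c (Or.inr hc)⟩
    by_cases ht : t ∈ L
    · have h1 : ∀ c ∈ muS h (t : ℕ) (fun i : Fin k => !adr k (α t) i), cub h b c = 1 :=
        fun c hc => H c (Or.inl ⟨t, by rw [if_pos ht]; exact hc⟩)
      rw [forall_muS] at h1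
      simp only [ht, decide_true, cond_true, cmuB, List.all_eq_true, List.mem_range]
      exact fun i hi => h1 ⟨i, hi⟩
    · simp only [ht, decide_false, cond_false]
      rw [blkB_iff, ← forall_blkS]
      exact fun c hc => H c (Or.inl ⟨t, by rw [if_neg ht]; exact hc⟩)
  · rintro ⟨H1, H2⟩ c (⟨t, ht⟩ | hc)
    · have h1 := H1 t
      by_cases htL : t ∈ L
      · rw [if_pos htL] at ht
        simp only [htL, decide_true, cond_true, cmuB, List.all_eq_true, List.mem_range] at h1
        exact forall_muS.2 (fun i => h1 i i.2) c ht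
      · rw [if_neg htL] at ht
        simp only [htL, decide_false, cond_false] at h1
        rw [blkB_iff, ← forall_blkS] at h1
        exact h1 c ht
    · exact H2 c hc

end mon

section PTmon

variable {A : Set Word} {α β : Type*} [Enc α] [Enc β]

theorem PT_toNat {f : α → Bool} (hf : PT A f) : PT A (fun a => (f a).toNat) :=
  (PT.cond hf (PT.const 1) (PT.const 0)).congr fun a => by cases f a <;> rfl

theorem PT_muB {h k t a b : α → ℕ} (hh : PT A h) (hk : PT A k) (hkb : PBd k) (ht : PT A t)
    (ha : PT A a) (hb : PT A b) : PT A (fun x => muB (h x) (k x) (t x) (a x) (b x)) := by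
  refine PT.all (f := fun x i => (b x).testBit
    ((2 * k x * t x + 2 * i + ((a x).testBit i).toNat) % h x)) (PT.range hk hkb) ?_
  refine PT.testBit (hb.comp PT.fst') (PT.mod (PT.add (PT.add (PT.mul (PT.mul (PT.const 2)
    (hk.comp PT.fst')) (ht.comp PT.fst')) (PT.mul (PT.const 2) PT.snd'))
    (PT_toNat (PT.testBit (ha.comp PT.fst') PT.snd'))) (hh.comp PT.fst'))

theorem PT_cmuB {h k t a b : α → ℕ} (hh : PT A h) (hk : PT A k) (hkb : PBd k) (ht : PT A t)
    (ha : PT A a) (hb : PT A b) : PT A (fun x => cmuB (h x) (k x) (t x) (a x) (b x)) := by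
  refine PT.all (f := fun x i => (b x).testBit
    ((2 * k x * t x + 2 * i + (!(a x).testBit i).toNat) % h x)) (PT.range hk hkb) ?_
  refine PT.testBit (hb.comp PT.fst') (PT.mod (PT.add (PT.add (PT.mul (PT.mul (PT.const 2)
    (hk.comp PT.fst')) (ht.comp PT.fst')) (PT.mul (PT.const 2) PT.snd'))
    (PT_toNat (PT.not (PT.testBit (ha.comp PT.fst') PT.snd')))) (hh.comp PT.fst'))

theorem PT_blkB {h k t b : α → ℕ} (hh : PT A h) (hk : PT A k) (hkb : PBd k) (ht : PT A t)
    (hb : PT A b) : PT A (fun x => blkB (h x) (k x) (t x) (b x)) := by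
  refine PT.all (f := fun x i => (b x).testBit ((2 * k x * t x + 2 * i + 0) % h x) &&
    (b x).testBit ((2 * k x * t x + 2 * i + 1) % h x)) (PT.range hk hkb) ?_
  have hp : PT A (fun p : α × ℕ => 2 * k p.1 * t p.1 + 2 * p.2) :=
    PT.add (PT.mul (PT.mul (PT.const 2) (hk.comp PT.fst')) (ht.comp PT.fst'))
      (PT.mul (PT.const 2) PT.snd')
  exact (PT.testBit (hb.comp PT.fst') (PT.mod (PT.add hp (PT.const 0)) (hh.comp PT.fst'))).and
    (PT.testBit (hb.comp PT.fst') (PT.mod (PT.add hp (PT.const 1)) (hh.comp PT.fst')))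

theorem PT_restB {h k b : α → ℕ} (B : ℕ) (hh : PT A h) (hhb : PBd h) (hk : PT A k) (hb : PT A b) :
    PT A (fun x => restB (h x) (k x) B (b x)) := by
  refine PT.all (f := fun x i => !decide (2 * k x * B ≤ i) || (b x).testBit i)
    (PT.range hh hhb) ?_
  exact (PT.not (PT.le (PT.mul (PT.mul (PT.const 2) (hk.comp PT.fst')) (PT.const B))
    PT.snd')).or (PT.testBit (hb.comp PT.fst') PT.snd')

theorem PT_dualB {h k b : α → ℕ} {B : ℕ} (L : Finset (Fin B)) {al : α → Fin B → ℕ} (hh : PT A h)
    (hhb : PBd h) (hk : PT A k) (hkb : PBd k) (hal : ∀ t, PT A (fun x => al x t)) (hb : PT A b) :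
    PT A (fun x => dualB (h x) (k x) L (al x) (b x)) := by
  refine PT.and (PT_allFin (p := fun (t : Fin B) x => (bif decide (t ∈ L) then
    cmuB (h x) (k x) t (al x t) (b x) else blkB (h x) (k x) t (b x)) = true) fun t => ?_)
    (PT_restB B hh hhb hk hb)
  by_cases ht : t ∈ L
  · refine PT.congr (PT_cmuB hh hk hkb (PT.const (t : ℕ)) (hal t) hb) fun x => ?_
    simp [ht]
  · refine PT.congr (PT_blkB hh hk hkb (PT.const (t : ℕ)) hb) fun x => ?_
    simp [ht]

end PTmon

end Vale.Agent.P330.Q
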