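import Vale.Agent.P330.S.ProgPT
import Vale.Agent.P330.S.ProgOk
import Vale.Agent.P330.S.MachMain

/-!
# The family of instances of the dynamics with one block

`famQ I : Inst spec 1` is the instance for the instance `I` of End-of-Line; its positions are
`ZMod (2 ^ kQ I)`, with `2 ^ kQ I` polynomially large.
-/

namespace Vale.Agent.P330.Q

open Finset Vale.Agent.Lib.PolyTime
open S (Inst Spec)
open S.Mach (spec prm Prm Good mkInst pt posn wid rows)

/-- the number of bits of an address -/
def kQ (I : EndOfLine) : ℕ := Nat.size (2 * ((prm I).R * (prm I).W) + 3)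

/-- the number of positions -/
def LQ (I : EndOfLine) : ℕ := 2 ^ kQ I

theorem lt_LQ (I : EndOfLine) : 2 * ((prm I).R * (prm I).W) + 3 < LQ I := Nat.lt_size_self _

theorem LQ_le (I : EndOfLine) : LQ I ≤ 2 * (2 * ((prm I).R * (prm I).W) + 3) := by
  unfold LQ kQ
  have h1 : Nat.size (2 * ((prm I).R * (prm I).W) + 3) - 1 < Nat.size (2 * ((prm I).R * (prm I).W) + 3) := by
    have : 0 < Nat.size (2 * ((prm I).R * (prm I).W) + 3) := Nat.size_pos.2 (by omega)
    omega
  have h2 := Nat.lt_size.1 h1
  calc 2 ^ Nat.size (2 * ((prm I).R * (prm I).W) + 3)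
      = 2 * 2 ^ (Nat.size (2 * ((prm I).R * (prm I).W) + 3) - 1) := by
        rw [← pow_succ']
        congr 1
        omega
    _ ≤ _ := Nat.mul_le_mul_left _ h2

/-- the side lengths (one block) -/
def lensQ (I : EndOfLine) : Fin 1 → ℕ := fun _ => LQ I

theorem goodQ (I : EndOfLine) : Good (prm I) (lensQ I) := by
  have hn := I.one_le
  have h3 := lt_LQ I
  have hW : I.n ≤ wid I := by unfold wid; omega
  have hW2 : 2 ≤ wid I := by unfold wid; omega
  have hR2 : 2 ≤ rows I := by unfold rows; omega
  refine ⟨hn, hW, hW2, hR2, fun i => ?_, fun i j hij => (hij (Subsingleton.elim _ _)).elim, ?_⟩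
  · have : 2 * 2 ≤ (prm I).R * (prm I).W := Nat.mul_le_mul hR2 hW2
    show 5 ≤ LQ I
    omega
  · rw [Fin.prod_univ_one]
    exact h3.le

/-- **The instance of the dynamics.** -/
noncomputable def famQ (I : EndOfLine) : Inst spec 1 := mkInst (prm I) (lensQ I) (goodQ I)

theorem famQ_facts (I : EndOfLine) : S.Facts (famQ I) := (S.Mach.machStmt 1 _ _ (goodQ I)).1

end Vale.Agent.P330.Q
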