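import Vale.Agent.P330.Q.CbKer
import Vale.Agent.P330.Q.Fam
import Vale.Agent.P330.Q.Dom
import Vale.Agent.P330.S.Fam

/-!
# The coefficients of the public polynomial maps of the machine, in polynomial time
-/

namespace Vale.Agent.P330.Q

open Finset Vale.Agent.Lib.PolyTime
open S (Inst Spec)
open S.Mach (spec prm Prm Good mkInst pt posn wid rows posEquiv offZN)

/-! ### Predicates in polynomial time -/

section DP

variable {A : Set Word} {α β : Type*} [Enc α] [Enc β]

/-- The predicate can be decided in polynomial time. -/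
def DP (A : Set Word) {α : Type*} [Enc α] (p : α → Prop) : Prop :=
  PT A (fun a => @decide (p a) (Classical.propDecidable _))

theorem DP.of {p : α → Prop} [DecidablePred p] (h : PT A (fun a => decide (p a))) : DP A p :=
  h.congr fun a => by
    rw [Bool.eq_iff_iff]
    simp

theorem DP.pt {p : α → Prop} (h : DP A p) [DecidablePred p] : PT A (fun a => decide (p a)) :=
  PT.congr h fun a => by
    rw [Bool.eq_iff_iff]
    simp

theorem DP.congr {p q : α → Prop} (h : DP A p) (e : ∀ a, p a ↔ q a) : DP A q := by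
  have : p = q := funext fun a => propext (e a)
  rwa [← this]

theorem DP.const (p : Prop) : DP A (fun _ : α => p) := PT.const _

theorem DP.and {p q : α → Prop} (hp : DP A p) (hq : DP A q) : DP A (fun a => p a ∧ q a) := by
  classical
  exact DP.of (PT.decide_and hp.pt hq.pt)

theorem DP.or {p q : α → Prop} (hp : DP A p) (hq : DP A q) : DP A (fun a => p a ∨ q a) := by
  classical
  exact DP.of (PT.decide_or hp.pt hq.pt)

theorem DP.not {p : α → Prop} (hp : DP A p) : DP A (fun a => ¬ p a) := by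
  classical
  exact DP.of (PT.decide_not hp.pt)

theorem DP.imp {p q : α → Prop} (hp : DP A p) (hq : DP A q) : DP A (fun a => p a → q a) := by
  classical
  exact (hp.not.or hq).congr fun a => by tauto

theorem DP.forall {κ : Type*} [Finite κ] {p : κ → α → Prop} (h : ∀ k, DP A (p k)) :
    DP A (fun a => ∀ k, p k a) := by
  classical
  cases nonempty_fintype κ
  exact (DP.of (p := fun a => ∀ k, decide (p k a) = true)
    (S.H175.PT_forall (f := fun k a => decide (p k a)) fun k => (h k).pt)).congr fun a => by simp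

theorem DP.exists {κ : Type*} [Finite κ] {p : κ → α → Prop} (h : ∀ k, DP A (p k)) :
    DP A (fun a => ∃ k, p k a) := by
  classical
  cases nonempty_fintype κ
  exact (DP.of (p := fun a => ∃ k, decide (p k a) = true)
    (S.H175.PT_exists (f := fun k a => decide (p k a)) fun k => (h k).pt)).congr fun a => by simp

theorem DP.comp {p : β → Prop} {f : α → β} (hp : DP A p) (hf : PT A f) :
    DP A (fun a => p (f a)) := PT.comp (g := fun b => @decide (p b) (Classical.propDecidable _)) hp hf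

theorem DP.eqNat {f g : α → ℕ} (hf : PT A f) (hg : PT A g) : DP A (fun a => f a = g a) :=
  DP.of (PT.eqNat hf hg)

theorem DP.bool {f : α → Bool} (hf : PT A f) : DP A (fun a => f a = true) :=
  DP.of (S.PT_decideBool hf)

end DP

/-! ### Positions and addresses -/

theorem LQ_pos (I : EndOfLine) : 0 < LQ I := Nat.two_pow_pos _

theorem prod_lensQ (I : EndOfLine) : ∏ i, lensQ I i = 2 ^ kQ I := by
  rw [Fin.prod_univ_one]; rfl

/-- The position with number `n`. -/
noncomputable def ptQ (I : EndOfLine) (n : ℕ) : (famQ I).J := pt (famQ I).L n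

/-- The positions as addresses. -/
noncomputable def epsQ (I : EndOfLine) : (famQ I).J ≃ Addr (kQ I) :=
  show (∀ i, ZMod (lensQ I i)) ≃ Addr (kQ I) from
  ((posEquiv (lensQ I) (fun i => ((goodQ I).ne_zero i)) (goodQ I).cop).symm.trans
    (finCongr (prod_lensQ I))).trans (adrE (kQ I))

theorem adr_mod (k n : ℕ) : adr k (n % 2 ^ k) = adr k n := by
  funext i
  unfold adr
  rw [Nat.testBit_mod_two_pow]
  simp

theorem ptQ_eq_iff (I : EndOfLine) (a b : ℕ) : ptQ I a = ptQ I b ↔ a % LQ I = b % LQ I := by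
  constructor
  · intro h
    have h1 := congrFun h 0
    have h2 : ((a : ℕ) : ZMod (LQ I)) = ((b : ℕ) : ZMod (LQ I)) := h1
    exact (ZMod.natCast_eq_natCast_iff _ _ _).1 h2
  · intro h
    funext i
    exact (ZMod.natCast_eq_natCast_iff _ _ _).2 h

theorem ptQ_mod (I : EndOfLine) (a : ℕ) : ptQ I (a % LQ I) = ptQ I a :=
  (ptQ_eq_iff I _ _).2 (Nat.mod_mod _ _)

theorem epsQ_ptQ (I : EndOfLine) {n : ℕ} (hn : n < 2 ^ kQ I) :
    epsQ I (ptQ I n) = adr (kQ I) n := by
  have hn' : n < ∏ i, lensQ I i := by rwa [prod_lensQ]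
  have h1 : ptQ I n = posEquiv (lensQ I) (fun i => ((goodQ I).ne_zero i)) (goodQ I).cop ⟨n, hn'⟩ :=
    rfl
  show adrE (kQ I) (finCongr (prod_lensQ I)
    ((posEquiv (lensQ I) (fun i => ((goodQ I).ne_zero i)) (goodQ I).cop).symm (ptQ I n))) = _
  rw [h1, Equiv.symm_apply_apply]
  rfl

theorem epsQ_symm_adr (I : EndOfLine) (n : ℕ) : (epsQ I).symm (adr (kQ I) n) = ptQ I n := by
  rw [Equiv.symm_apply_eq, ← adr_mod, ← ptQ_mod]
  exact (epsQ_ptQ I (Nat.mod_lt _ (Nat.two_pow_pos _))).symm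

theorem ptQ_add_off (I : EndOfLine) (a : ℕ) (o : S.Mach.Off) :
    ptQ I a + (famQ I).off o = ptQ I (a + offZN (prm I).R (prm I).W (LQ I) o) := by
  funext i
  have hne : NeZero (LQ I) := ⟨(LQ_pos I).ne'⟩
  show ((a : ℕ) : ZMod (LQ I)) + (((prm I).offZ o : ℤ) : ZMod (LQ I)) =
    ((a + offZN (prm I).R (prm I).W (LQ I) o : ℕ) : ZMod (LQ I))
  rw [← S.Mach.val_off (prm I) (LQ I) o, Nat.cast_add, ZMod.natCast_zmod_val]

theorem stat_ptQ (I : EndOfLine) (a : ℕ) :
    (famQ I).stat (ptQ I a) = (prm I).st (a % LQ I) := by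
  rw [← ptQ_mod]
  refine S.Mach.mkInst_stat (goodQ I) ?_
  rw [prod_lensQ]
  exact Nat.mod_lt _ (LQ_pos I)

theorem w0_ptQ (I : EndOfLine) (a : ℕ) :
    (famQ I).w0 (ptQ I a) = (prm I).w0 (a % LQ I) := by
  rw [← ptQ_mod]
  refine S.Mach.mkInst_w0 (goodQ I) ?_
  rw [prod_lensQ]
  exact Nat.mod_lt _ (LQ_pos I)

/-! ### Polynomial time -/

section PTfam

variable {A : Set Word} {β : Type*} [Enc β] {f : β → EndOfLine}

theorem PT_RW (hf : PT A f) : PT A (fun b => (prm (f b)).R * (prm (f b)).W) :=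
  PT.mul (S.Mach.prmPT hf).R (S.Mach.prmPT hf).W

theorem PT_kQ (hf : PT A f) : PT A (fun b => kQ (f b)) :=
  PT.natSize (PT.add (PT.mul (PT.const 2) (PT_RW hf)) (PT.const 3))

theorem PBd_LQ (hf : PT A f) : PBd (fun b => LQ (f b)) := by
  have h1 : PBd (fun b => (prm (f b)).R * (prm (f b)).W) :=
    (S.Mach.PBd_rows hf).mul (S.Mach.PBd_wid hf)
  exact ((PBd.const 2).mul (((PBd.const 2).mul h1).add (PBd.const 3))).mono fun b => LQ_le (f b)

theorem PBd_kQ (hf : PT A f) : PBd (fun b => kQ (f b)) :=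
  (PBd_LQ hf).mono fun _ => Nat.lt_two_pow_self.le

theorem PT_LQ (hf : PT A f) : PT A (fun b => LQ (f b)) :=
  PT.pow (PT.const 2) (PT_kQ hf) (PBd_kQ hf)

theorem PT_offQ (hf : PT A f) (o : S.Mach.Off) :
    PT A (fun b => offZN (prm (f b)).R (prm (f b)).W (LQ (f b)) o) := by
  have hL := PT_LQ hf
  have hW := (S.Mach.prmPT hf).W
  have hR := (S.Mach.prmPT hf).R
  have hRW := PT_RW hf
  have hneg : ∀ {g : β → ℕ}, PT A g →
      PT A (fun b => (LQ (f b) - g b % LQ (f b)) % LQ (f b)) := fun hg =>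
    PT.mod (PT.sub hL (PT.mod hg hL)) hL
  cases o with
  | o0 => exact PT.const 0
  | p1 => exact PT.mod (PT.const 1) hL
  | m1 => exact hneg (PT.const 1)
  | mW => exact hneg hW
  | far => exact PT.mod (PT.mul (PT.sub hR (PT.const 1)) hW) hL
  | pR => exact PT.mod hRW hL
  | mR => exact hneg hRW

theorem DP_ptQ (hf : PT A f) {a b : β → ℕ} (ha : PT A a) (hb : PT A b) :
    DP A (fun x => ptQ (f x) (a x) = ptQ (f x) (b x)) :=
  (DP.eqNat (PT.mod ha (PT_LQ hf)) (PT.mod hb (PT_LQ hf))).congr fun _ => (ptQ_eq_iff _ _ _).symm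

theorem DP_ptQ_off (hf : PT A f) {a b : β → ℕ} (ha : PT A a) (hb : PT A b) (o : S.Mach.Off) :
    DP A (fun x => ptQ (f x) (a x) = ptQ (f x) (b x) + (famQ (f x)).off o) :=
  (DP_ptQ hf ha (PT.add hb (PT_offQ hf o))).congr fun x => by rw [ptQ_add_off]

theorem DP_stat' (hf : PT A f) {a : β → ℕ} (ha : PT A a) (s : S.Mach.St) :
    DP A (fun x => (prm (f x)).st (a x % LQ (f x)) = s) :=
  DP.of ((S.Mach.prmPT hf).st PT.id (PT.mod ha (PT_LQ hf)) s)

theorem DP_w0' (hf : PT A f) {a : β → ℕ} (ha : PT A a) (s : S.Mach.Cell) :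
    DP A (fun x => (prm (f x)).w0 (a x % LQ (f x)) = s) :=
  DP.of ((S.Mach.prmPT hf).w0 PT.id (PT.mod ha (PT_LQ hf)) s)

theorem DP_stat (hf : PT A f) {a : β → ℕ} (ha : PT A a) (s : spec.Stat) :
    DP A (fun x => (famQ (f x)).stat (ptQ (f x) (a x)) = s) := by
  refine (DP_stat' hf ha s).congr fun x => ?_
  rw [stat_ptQ]
  exact Iff.rfl

theorem DP_w0 (hf : PT A f) {a : β → ℕ} (ha : PT A a) (s : spec.Cell) :
    DP A (fun x => (famQ (f x)).w0 (ptQ (f x) (a x)) = s) := by
  refine (DP_w0' hf ha s).congr fun x => ?_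
  rw [w0_ptQ]
  exact Iff.rfl

end PTfam

end Vale.Agent.P330.Q
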