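import Vale.Agent.P330.Q.CbEn

/-!
# The memory code and the kernels on numbers

`ENum` is a family of extension systems with numbers for the points, such that extensions can be
evaluated in polynomial time.
-/

namespace Vale.Agent.P330.Q

open Finset Vale.Agent.Lib.PolyTime

/-- A family of extension systems, evaluated on numbers in polynomial time. -/
structure ENum (A : Set Word) {α : Type} [Enc α] {K : Type} [Field K] [Fintype K] (h : α → ℕ)
    {Y : α → Type} [∀ a, AddCommGroup (Y a)] (D : ∀ a, ESys K (h a) (Y a)) where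
  /-- numbers of the points -/
  num : ∀ a, Y a → ℕ
  PT_h : PT A h
  PB_h : PBd (fun a => 2 ^ h a)
  /-- the extension on numbers -/
  E : α → (ℕ → K) → ℕ → K
  E_num : ∀ a (f : Cube (h a) → K) y, E a (fun b => f (cub (h a) b)) (num a y) = (D a).E f y
  PT_E : ∀ {β : Type} [Enc β] {g : β → α} {y : β → ℕ} {f : β → ℕ → K}, PT A g → PT A y →
    PTt A (fun p : β × ℕ => f p.1 p.2) → PTt A (fun b => E (g b) (f b) (y b))
  /-- powers of the inverse shift -/
  sh : α → ℕ → ℕ → ℕ
  sh_num : ∀ a n y, sh a n (num a y) = num a ((D a).θi n y)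
  PT_sh : ∀ {β : Type} [Enc β] {g : β → α} {n y : β → ℕ}, PT A g → PT A n → PBd n → PT A y →
    PT A (fun b => sh (g b) (n b) (y b))
  /-- powers of the shift -/
  th : α → ℕ → ℕ → ℕ
  th_num : ∀ a n y, th a n (num a y) = num a ((D a).θ^[n] y)
  PT_th : ∀ {β : Type} [Enc β] {g : β → α} {n y : β → ℕ}, PT A g → PT A n → PBd n → PT A y →
    PT A (fun b => th (g b) (n b) (y b))
  /-- translations -/
  tr : α → ℕ → ℕ → ℕ
  tr_num : ∀ a n y, tr a n (num a y) = num a (y + (D a).ι (cub (h a) n))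
  PT_tr : ∀ {β : Type} [Enc β] {g : β → α} {n y : β → ℕ}, PT A g → PT A n → PT A y →
    PT A (fun b => tr (g b) (n b) (y b))

theorem pbFst {β γ : Type*} [Enc β] [Enc γ] {b : β → ℕ} (hb : PBd b) :
    PBd (fun p : β × γ => b p.1) := hb.comp (PT.fst' (A := ∅))

namespace ENum

variable {A : Set Word} {α : Type} [Enc α] {K : Type} [Field K] [Fintype K] {h : α → ℕ}
  {Y : α → Type} [∀ a, AddCommGroup (Y a)] {D : ∀ a, ESys K (h a) (Y a)} (N : ENum A h D)

include N in
theorem PB_h' : PBd h := N.PB_h.mono fun _ => Nat.lt_two_pow_self.le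

/-! ### The memory code -/

/-- The extension of the monomial of the address `m`. -/
noncomputable def mu (a : α) (k m y : ℕ) : K :=
  N.E a (fun b => if muB (h a) k 0 m b then 1 else 0) y

theorem mu_num (a : α) (k m : ℕ) (y : Y a) :
    N.mu a k m (N.num a y) = (D a).E (mon K (muS (h a) 0 (adr k m))) y := by
  rw [← N.E_num]
  unfold mu
  congr 1
  funext b
  rw [mon_muS]

/-- The extension of the dual monomial. -/
noncomputable def du (a : α) (k : ℕ) {B : ℕ} (L : Finset (Fin B)) (m : Fin B → ℕ) (y : ℕ) : K :=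
  N.E a (fun b => if dualB (h a) k L m b then 1 else 0) y

theorem du_num (a : α) [NeZero (h a)] (k : ℕ) {B : ℕ} (L : Finset (Fin B)) (m : Fin B → ℕ)
    (y : Y a) :
    N.du a k L m (N.num a y) = (D a).E (mon K (dualS (h a) L (fun t => adr k (m t)))) y := by
  rw [← N.E_num]
  unfold du
  congr 1
  funext b
  rw [mon_dualS]

/-- The memory code. -/
noncomputable def code (a : α) (k : ℕ) (x : ℕ → K) (y : ℕ) : K :=
  ∑ m ∈ range (2 ^ k), x m * N.mu a k m y

theorem code_num (a : α) (k : ℕ) (x : Addr k → K) (y : Y a) :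
    N.code a k (fun m => x (adr k m)) (N.num a y) = (D a).code x y := by
  rw [ESys.code_apply, sum_adr]
  unfold code
  exact Finset.sum_congr rfl fun m _ => by rw [N.mu_num]

/-- The tuple with number `n`. -/
def tupN (k n : ℕ) (t : ℕ) : ℕ := n / (2 ^ k) ^ t % 2 ^ k

/-- The kernel. -/
noncomputable def ker (a : α) (k : ℕ) {B : ℕ} (L : Finset (Fin B))
    (X : ℕ → (Fin B → ℕ) → K) (ρ y : ℕ) : K :=
  ∑ m ∈ range (2 ^ k), ∑ n ∈ range ((2 ^ k) ^ B), X m (fun t => tupN k n t) * N.mu a k m ρ *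
    N.du a k L (fun t => tupN k n t) y

theorem ker_num (a : α) [NeZero (h a)] (k : ℕ) {B : ℕ} (L : Finset (Fin B))
    (X : Addr k → (Fin B → Addr k) → K) (ρ y : Y a) :
    N.ker a k L (fun m n => X (adr k m) (fun t => adr k (n t))) (N.num a ρ) (N.num a y) =
      (D a).ker L X ρ y := by
  unfold ESys.ker ker
  rw [sum_adr]
  refine Finset.sum_congr rfl fun m _ => ?_
  rw [sum_tup]
  refine Finset.sum_congr rfl fun n _ => ?_
  rw [N.mu_num, N.du_num]
  rfl

end ENum

/-! ### Polynomial time -/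

section

variable {A : Set Word} {α : Type} [Enc α] {K : Type} [Field K] [Fintype K] {h : α → ℕ}
  {Y : α → Type} [∀ a, AddCommGroup (Y a)] {D : ∀ a, ESys K (h a) (Y a)} (N : ENum A h D)
  {β : Type} [Enc β]

theorem PTt.boolK {f : β → Bool} (hf : PT A f) : PTt A (fun b => if f b then (1 : K) else 0) :=
  (PTt.ofBool hf (fun b : Bool => if b then (1 : K) else 0)).congr fun _ => rfl

theorem PTt.mul' {f g : β → K} (hf : PTt A f) (hg : PTt A g) : PTt A (fun b => f b * g b) :=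
  hf.map₂ hg fun x y => x * y

theorem PTt.add' {f g : β → K} (hf : PTt A f) (hg : PTt A g) : PTt A (fun b => f b + g b) :=
  hf.map₂ hg fun x y => x + y

namespace ENum

theorem PT_mu {g : β → α} {k m y : β → ℕ} (hg : PT A g) (hk : PT A k) (hkb : PBd k)
    (hm : PT A m) (hy : PT A y) : PTt A (fun b => N.mu (g b) (k b) (m b) (y b)) := by
  have hh := N.PT_h.comp hg
  refine N.PT_E hg hy (f := fun b x => if muB (h (g b)) (k b) 0 (m b) x then 1 else 0) ?_
  refine PTt.boolK (f := fun p : β × ℕ => muB (h (g p.1)) (k p.1) 0 (m p.1) p.2) ?_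
  exact PT_muB (hh.comp PT.fst') (hk.comp PT.fst') (pbFst hkb) (PT.const 0)
    (hm.comp PT.fst') PT.snd'

theorem PT_du {g : β → α} {k y : β → ℕ} {B : ℕ} (L : Finset (Fin B)) {m : β → Fin B → ℕ}
    (hg : PT A g) (hk : PT A k) (hkb : PBd k) (hm : ∀ t, PT A (fun b => m b t)) (hy : PT A y) :
    PTt A (fun b => N.du (g b) (k b) L (m b) (y b)) := by
  have hh := N.PT_h.comp hg
  have hhb := N.PB_h'.comp hg
  refine N.PT_E hg hy (f := fun b x => if dualB (h (g b)) (k b) L (m b) x then 1 else 0) ?_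
  refine PTt.boolK (f := fun p : β × ℕ => dualB (h (g p.1)) (k p.1) L (m p.1) p.2) ?_
  exact PT_dualB L (hh.comp PT.fst') (pbFst hhb) (hk.comp PT.fst') (pbFst hkb)
    (fun t => (hm t).comp PT.fst') PT.snd'

/-- The memory code in polynomial time. -/
theorem PT_code {g : β → α} {k y : β → ℕ} {x : β → ℕ → K} (hg : PT A g) (hk : PT A k)
    (hkb : PBd (fun b => 2 ^ k b)) (hx : PTt A (fun p : β × ℕ => x p.1 (min p.2 (2 ^ k p.1))))
    (hy : PT A y) : PTt A (fun b => N.code (g b) (k b) (x b) (y b)) := by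
  have hkb' : PBd k := hkb.mono fun a => Nat.lt_two_pow_self.le
  have h2k : PT A (fun b => 2 ^ k b) := PT.pow (PT.const 2) hk hkb'
  refine PTt.sum h2k hkb (f := fun b m => x b m * N.mu (g b) (k b) m (y b)) ?_
  exact PTt.mul' hx (N.PT_mu (hg.comp PT.fst') (hk.comp PT.fst') (pbFst hkb')
    (PT.min PT.snd' (h2k.comp PT.fst')) (hy.comp PT.fst'))

/-- The kernel in polynomial time. -/
theorem PT_ker {g : β → α} {k ρ y : β → ℕ} {B : ℕ} (L : Finset (Fin B))
    {X : β → ℕ → (Fin B → ℕ) → K} (hg : PT A g) (hk : PT A k) (hkb : PBd (fun b => 2 ^ k b))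
    (hX : ∀ {γ : Type} [Enc γ] {f : γ → β} {m : γ → ℕ} {n : γ → Fin B → ℕ}, PT A f → PT A m →
      (∀ t, PT A (fun c => n c t)) → PTt A (fun c => X (f c) (m c) (n c)))
    (hρ : PT A ρ) (hy : PT A y) :
    PTt A (fun b => N.ker (g b) (k b) L (X b) (ρ b) (y b)) := by
  have hkb' : PBd k := hkb.mono fun a => Nat.lt_two_pow_self.le
  have h2k : PT A (fun b => 2 ^ k b) := PT.pow (PT.const 2) hk hkb'
  have h2kB : PT A (fun b => (2 ^ k b) ^ B) := PT.powConst h2k B
  refine PTt.sum h2k hkb (f := fun b m => ∑ n ∈ range ((2 ^ k b) ^ B),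
    X b m (fun t => tupN (k b) n t) * N.mu (g b) (k b) m (ρ b) *
    N.du (g b) (k b) L (fun t => tupN (k b) n t) (y b)) ?_
  refine PTt.sum (α := β × ℕ) (h2kB.comp PT.fst') (pbFst (hkb.pow B))
    (f := fun (p : β × ℕ) n => X p.1 (min p.2 (2 ^ k p.1)) (fun t => tupN (k p.1) n t) *
      N.mu (g p.1) (k p.1) (min p.2 (2 ^ k p.1)) (ρ p.1) *
      N.du (g p.1) (k p.1) L (fun t => tupN (k p.1) n t) (y p.1)) ?_
  have hf : PT A (fun c : (β × ℕ) × ℕ => c.1.1) := PT.fst'.fst
  have hm : PT A (fun c : (β × ℕ) × ℕ => min c.1.2 (2 ^ k c.1.1)) :=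
    PT.min PT.fst'.snd (h2k.comp hf)
  have hn : PT A (fun c : (β × ℕ) × ℕ => min c.2 ((2 ^ k c.1.1) ^ B)) :=
    PT.min PT.snd' (h2kB.comp hf)
  have ht : ∀ t : Fin B, PT A (fun c : (β × ℕ) × ℕ =>
      tupN (k c.1.1) (min c.2 ((2 ^ k c.1.1) ^ B)) t) := fun t =>
    PT.mod (PT.div hn (PT.powConst (h2k.comp hf) t)) (h2k.comp hf)
  exact PTt.mul' (PTt.mul' (hX hf hm ht)
    (N.PT_mu (hg.comp hf) (hk.comp hf) (hkb'.comp hf) hm (hρ.comp hf)))
    (N.PT_du L (hg.comp hf) (hk.comp hf) (hkb'.comp hf) ht (hy.comp hf))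

end ENum

end

end Vale.Agent.P330.Q
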