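import Vale.Agent.P330.Q.ExtSys
import Vale.Agent.P330.Q.NumE

/-!
# Addresses and tuples of addresses as numbers
-/

namespace Vale.Agent.P330.Q

open Finset Vale.Agent.Lib.PolyTime

/-- The address with number `n`. -/
def adr (k n : ℕ) : Addr k := fun i => n.testBit i

theorem adr_inj {k n m : ℕ} (hn : n < 2 ^ k) (hm : m < 2 ^ k) (h : adr k n = adr k m) : n = m := by
  apply Nat.eq_of_testBit_eq
  intro i
  by_cases hi : i < k
  · exact congrFun h ⟨i, hi⟩
  · rw [Nat.testBit_eq_false_of_lt (hn.trans_le (Nat.pow_le_pow_right (by norm_num) (not_lt.1 hi))),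
      Nat.testBit_eq_false_of_lt (hm.trans_le (Nat.pow_le_pow_right (by norm_num) (not_lt.1 hi)))]

/-- Addresses as numbers. -/
noncomputable def adrE (k : ℕ) : Fin (2 ^ k) ≃ Addr k :=
  Equiv.ofBijective (fun n => adr k n) (by
    rw [Fintype.bijective_iff_injective_and_card]
    exact ⟨fun n m h => Fin.ext (adr_inj n.2 m.2 h), by simp⟩)

theorem adrE_apply {k : ℕ} (n : Fin (2 ^ k)) : adrE k n = adr k n := rfl

theorem adrE_symm {k n : ℕ} (hn : n < 2 ^ k) : (adrE k).symm (adr k n) = ⟨n, hn⟩ := by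
  rw [Equiv.symm_apply_eq, adrE_apply]

theorem sum_adr {M : Type*} [AddCommMonoid M] {k : ℕ} (f : Addr k → M) :
    ∑ a, f a = ∑ n ∈ range (2 ^ k), f (adr k n) := by
  rw [← (adrE k).sum_comp, ← Fin.sum_univ_eq_sum_range (fun n => f (adr k n))]
  rfl

/-- Tuples of numbers. -/
theorem sum_tup {M : Type*} [AddCommMonoid M] {k B : ℕ} (f : (Fin B → Addr k) → M) :
    ∑ α, f α = ∑ n ∈ range ((2 ^ k) ^ B), f (fun t => adr k (n / (2 ^ k) ^ (t : ℕ) % 2 ^ k)) := by
  rw [← (Equiv.arrowCongr (Equiv.refl (Fin B)) (adrE k)).sum_comp,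
    ← finFunctionFinEquiv.symm.sum_comp,
    ← Fin.sum_univ_eq_sum_range (fun n => f (fun t => adr k (n / (2 ^ k) ^ (t : ℕ) % 2 ^ k)))]
  refine Finset.sum_congr rfl fun n _ => congrArg f ?_
  funext t
  rfl

end Vale.Agent.P330.Q
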