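import Vale.Agent.P330.Q.CbCoef

/-!
# The entries of the stacks on numbers
-/

namespace Vale.Agent.P330.Q

open Finset Vale.Agent.Lib.PolyTime
open S (Inst Spec)
open S.Mach (spec prm)

/-! ### Sums and products over finite types -/

section

variable {A : Set Word} {β : Type*} [Enc β] {T : Type*} [Fintype T]

theorem PTt.sumF [AddCommMonoid T] {κ : Type*} {f : κ → β → T} (s : Finset κ)
    (hf : ∀ k, PTt A (f k)) : PTt A (fun b => ∑ k ∈ s, f k b) := by
  classical
  induction s using Finset.induction_on with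
  | empty => exact (PTt.const 0).congr fun b => by simp
  | insert k s hk ih => exact (PTt.add (hf k) ih).congr fun b => by rw [Finset.sum_insert hk]

theorem PTt.prodF [CommMonoid T] {κ : Type*} {f : κ → β → T} (s : Finset κ)
    (hf : ∀ k, PTt A (f k)) : PTt A (fun b => ∏ k ∈ s, f k b) := by
  classical
  induction s using Finset.induction_on with
  | empty => exact (PTt.const 1).congr fun b => by simp
  | insert k s hk ih => exact (PTt.mul (hf k) ih).congr fun b => by rw [Finset.prod_insert hk]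

end

/-! ### Partial sums -/

theorem cub_add_two_pow {h n j : ℕ} (hn : n < 2 ^ j) :
    cub h (2 ^ j + n) = cub h n + fun i => if i.val = j then 1 else 0 := by
  funext i
  simp only [cub, Pi.add_apply]
  rcases lt_trichotomy i.val j with h1 | h1 | h1
  · rw [Nat.testBit_two_pow_add_gt h1, if_neg h1.ne, add_zero]
  · rw [h1, Nat.testBit_two_pow_add_eq, Nat.testBit_eq_false_of_lt hn]
    simp
  · have h2 : 2 ^ j + n < 2 ^ i.val := by
      have : 2 ^ (j + 1) ≤ 2 ^ i.val := Nat.pow_le_pow_right (by norm_num) h1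
      rw [pow_succ] at this
      omega
    rw [Nat.testBit_eq_false_of_lt h2, Nat.testBit_eq_false_of_lt (by omega), if_neg h1.ne']
    simp

theorem ev_eq {h j : ℕ} [NeZero h] (hj : j < h) :
    (ev (j : ZMod h) : Cube h) = fun i => if i.val = j then 1 else 0 := by
  have hv : ((j : ℕ) : ZMod h).val = j := by rw [ZMod.val_natCast, Nat.mod_eq_of_lt hj]
  funext i
  unfold ev
  rw [Pi.single_apply]
  refine if_congr ⟨fun e => by rw [e, hv], fun e => ?_⟩ rfl rfl
  apply ZMod.val_injective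
  rw [hv, e]

section

variable {F : Type*} [Field F] {h : ℕ} [NeZero h] {Y : Type*} [AddCommGroup Y]
  (D : ESys F h Y)

omit [NeZero h] in
theorem th_iter_ev (j : ℕ) (y : Y) :
    (⇑D.θ)^[j] (y + D.ι (ev 0)) = (⇑D.θ)^[j] y + D.ι (ev (j : ZMod h)) := by
  induction j with
  | zero => simp
  | succ j ih =>
    rw [Function.iterate_succ_apply', ih, D.θ_tr, Function.iterate_succ_apply']
    congr 2
    rw [shf_ev]
    push_cast
    rfl

/-- A chain of partial sums, in closed form. -/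
theorem chain_closed (v : ℕ → Y → F)
    (hv : ∀ j < h, ∀ y, v (j + 1) y = v j (D.θ y) + v j (D.θ y + D.ι (ev 0))) {j : ℕ}
    (hj : j ≤ h) (y : Y) :
    v j y = ∑ n ∈ range (2 ^ j), v 0 ((⇑D.θ)^[j] y + D.ι (cub h n)) := by
  induction j generalizing y with
  | zero =>
    have : cub h 0 = 0 := by funext i; simp [cub]
    simp [this]
  | succ j ih =>
    rw [hv j hj, ih (by omega), ih (by omega), th_iter_ev, pow_succ, mul_two, sum_range_add]
    congr 1
    refine Finset.sum_congr rfl fun n hn => ?_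
    rw [cub_add_two_pow (mem_range.1 hn), ev_eq hj, map_add, ← Function.iterate_succ_apply]
    congr 1
    abel

end

/-! ### The machine -/

namespace ENum

variable {A : Set Word} {K : Type} [Field K] [Fintype K] {h : EndOfLine → ℕ}
  [∀ I, NeZero (h I)] {Y : EndOfLine → Type} [∀ I, AddCommGroup (Y I)]
  {D : ∀ I, ESys K (h I) (Y I)} (N : ENum A h D) {B : ℕ} (σ : PSlot spec ≃ Fin B)

/-- names of the chains -/
abbrev ChQ : Type := Chn spec.Cell (VOut spec)

/-- The public kernel on numbers. -/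
noncomputable def KN (c : ChQ) (γ : Fin B → Option spec.Cell) (I : EndOfLine) (ρ y : ℕ) : K :=
  N.ker I (kQ I) (liveG γ) (cofN K σ (outOf c) γ I) ρ y

theorem KN_num (c : ChQ) (γ : Fin B → Option spec.Cell) (I : EndOfLine) (ρ y : Y I) :
    N.KN σ c γ I (N.num I ρ) (N.num I y) =
      (domData (D I) (famQ I) (famQ_facts I) σ (epsQ I)).K c γ ρ y :=
  N.ker_num I (kQ I) (liveG γ) (kerF K (famQ I) σ (epsQ I) (outOf c) γ) ρ y

/-- The bottom entry of a stack on numbers. -/
noncomputable def v0N (c : ChQ) (I : EndOfLine) (W : spec.Cell → ℕ → K) (ρ y : ℕ) : K :=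
  ∑ γ : Fin B → Option spec.Cell, N.KN σ c γ I ρ y *
    ∏ t : Fin B, optv (fun e => W e (N.sh I (2 * kQ I * t) y)) (γ t)

theorem v0N_num (c : ChQ) (I : EndOfLine) {W : spec.Cell → ℕ → K} {W' : spec.Cell → Y I → K}
    (hW : ∀ e y, W e (N.num I y) = W' e y) (ρ y : Y I) :
    N.v0N σ c I W (N.num I ρ) (N.num I y) =
      (domData (D I) (famQ I) (famQ_facts I) σ (epsQ I)).v0 c W' ρ y := by
  unfold v0N DomData.v0
  refine Finset.sum_congr rfl fun γ _ => ?_
  rw [N.KN_num]
  congr 1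
  refine Finset.prod_congr rfl fun t _ => ?_
  congr 1
  funext e
  rw [N.sh_num, hW]
  congr 1

/-- An entry of a stack on numbers. -/
noncomputable def vvN (c : ChQ) (I : EndOfLine) (W : spec.Cell → ℕ → K) (j ρ y : ℕ) : K :=
  ∑ n ∈ range (2 ^ j), N.v0N σ c I W ρ (N.tr I n (N.th I j y))

theorem vvN_num (c : ChQ) (I : EndOfLine) {W : spec.Cell → ℕ → K} {W' : spec.Cell → Y I → K}
    (hW : ∀ e y, W e (N.num I y) = W' e y) {j : ℕ} (hj : j ≤ h I) (ρ y : Y I) :
    N.vvN σ c I W j (N.num I ρ) (N.num I y) =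
      (domData (D I) (famQ I) (famQ_facts I) σ (epsQ I)).vv c W' j ρ y := by
  rw [chain_closed (D I) (fun j y =>
    (domData (D I) (famQ I) (famQ_facts I) σ (epsQ I)).vv c W' j ρ y) (fun _ _ _ => rfl) hj y]
  refine Finset.sum_congr rfl fun n _ => ?_
  rw [N.th_num, N.tr_num, N.v0N_num σ c I hW]
  rfl

/-! ### Polynomial time -/

variable {β : Type} [Enc β] {g : β → EndOfLine}

omit [∀ I, NeZero (h I)] in
theorem PT_KN (c : ChQ) (γ : Fin B → Option spec.Cell) {ρ y : β → ℕ} (hg : PT A g)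
    (hρ : PT A ρ) (hy : PT A y) : PTt A (fun b => N.KN σ c γ (g b) (ρ b) (y b)) :=
  N.PT_ker (liveG γ) hg (PT_kQ hg) (PBd_LQ hg)
    (X := fun b => cofN K σ (outOf c) γ (g b))
    (fun hf hm hn => PTt_cofN σ (hg.comp hf) hm hn (outOf c) γ) hρ hy

omit [∀ I, NeZero (h I)] in
theorem PT_v0N (c : ChQ) {W : β → spec.Cell → ℕ → K} {ρ y : β → ℕ} (hg : PT A g)
    (hW : ∀ e, PTt A (fun p : β × ℕ => W p.1 e p.2)) (hρ : PT A ρ) (hy : PT A y) :
    PTt A (fun b => N.v0N σ c (g b) (W b) (ρ b) (y b)) := by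
  refine PTt.sumF (κ := Fin B → Option spec.Cell) (f := fun γ b => N.KN σ c γ (g b) (ρ b) (y b) *
    ∏ t : Fin B, optv (fun e => W b e (N.sh (g b) (2 * kQ (g b) * t) (y b))) (γ t)) univ
    fun γ => PTt.mul (N.PT_KN σ c γ hg hρ hy) (PTt.prodF (κ := Fin B) (f := fun t b =>
      optv (fun e => W b e (N.sh (g b) (2 * kQ (g b) * t) (y b))) (γ t)) univ fun t => ?_)
  cases γ t with
  | none => exact PTt.const 1
  | some e =>
    refine (hW e).comp (PT.id.pair (N.PT_sh hg ?_ ?_ hy))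
    · exact PT.mul (PT.mul (PT.const 2) (PT_kQ hg)) (PT.const _)
    · exact (((PBd.const 2).mul (PBd_kQ hg)).mul (PBd.const _))

omit [∀ I, NeZero (h I)] in
theorem PT_vvN (c : ChQ) {W : β → spec.Cell → ℕ → K} {j ρ y : β → ℕ} (hg : PT A g)
    (hW : ∀ e, PTt A (fun p : β × ℕ => W p.1 e p.2)) (hj : PT A j) (hjb : PBd (fun b => 2 ^ j b))
    (hρ : PT A ρ) (hy : PT A y) :
    PTt A (fun b => N.vvN σ c (g b) (W b) (j b) (ρ b) (y b)) := by
  have hjb' : PBd j := hjb.mono fun _ => Nat.lt_two_pow_self.le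
  have hg1 : PT A (fun p : β × ℕ => g p.1) := hg.comp PT.fst'
  refine PTt.sum' (PT.pow (PT.const 2) hj hjb') hjb
    (f := fun b n => N.v0N σ c (g b) (W b) (ρ b) (N.tr (g b) n (N.th (g b) (j b) (y b)))) ?_
  refine N.PT_v0N σ c (W := fun p : β × ℕ => W p.1) hg1
    (fun e => (hW e).comp (PT.fst'.fst.pair PT.snd')) (hρ.comp PT.fst') ?_
  exact N.PT_tr hg1 PT.snd' (N.PT_th hg1 (hj.comp PT.fst') (pbFst hjb') (hy.comp PT.fst'))

end ENum

end Vale.Agent.P330.Q
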