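import Vale.Agent.P330.Q.Pars
import Vale.Agent.P330.Q.YSys
import Vale.Agent.P330.Q.LowDeg

/-!
# Project Q: the directions of the concrete domain

For `z = sch K (16 (s + 5)) (2 ^ a)` and `ax = qax (piY al' be)`: the injective sums of `t` axes are
a nonempty family with bias `lam`, the extensions have degree at most `t` on the lines, and the
cyclic shift maps lines to lines.
-/

namespace Vale.Agent.P330.Q

open Finset
open Vale.Agent.P318.S (PolyLe Low)
open scoped BigOperators

/-! ### Degree -/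

section degree

variable {K : Type*} [Field K]

/-- A polynomial of degree at most `t` is `PolyLe`. -/
theorem polyLe_eval {g : K → K} {t : ℕ} (p : Polynomial K) (hp : p.natDegree ≤ t)
    (hg : ∀ u, g u = p.eval u) : PolyLe K g t := by
  refine ⟨fun i => p.coeff i, fun u => ?_⟩
  rw [hg, Polynomial.eval_eq_sum_range' (Nat.lt_succ_of_le hp)]
  exact sum_congr rfl fun i _ => by rw [smul_eq_mul, mul_comm]

variable {κ : Type*} [DecidableEq κ] [Fintype κ]

/-- The vector of a direction. -/
def dvec {t : ℕ} (i : Fin t → K × κ) : κ → K := ∑ k, Pi.single (i k).2 (i k).1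

theorem dvec_card [DecidableEq K] {t : ℕ} (i : Fin t → K × κ) :
    (univ.filter fun j => dvec i j ≠ 0).card ≤ t := by
  have h1 : (univ.filter fun j => dvec i j ≠ 0) ⊆ univ.image fun k => (i k).2 := by
    intro j hj
    rw [mem_filter] at hj
    by_contra hc
    apply hj.2
    unfold dvec
    rw [Finset.sum_apply]
    refine Finset.sum_eq_zero fun k _ => ?_
    refine Pi.single_eq_of_ne ?_ _
    rintro rfl
    exact hc (mem_image_of_mem _ (mem_univ k))
  calc (univ.filter fun j => dvec i j ≠ 0).card ≤ (univ.image fun k => (i k).2).card :=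
        card_le_card h1
    _ ≤ (univ : Finset (Fin t)).card := card_image_le
    _ = t := by rw [card_univ, Fintype.card_fin]

omit [Fintype κ] in
theorem tdir_dvec {Y : Type*} [AddCommGroup Y] {t : ℕ} (π : (κ → K) →+ Y) (i : Fin t → K × κ)
    (u : K) : tdir (qax π) i u = π (u • dvec i) := by
  rw [tdir_qax]
  congr 1
  unfold dvec
  rw [Finset.smul_sum]
  refine Finset.sum_congr rfl fun k _ => ?_
  rw [← Pi.single_smul]
  rfl

end degree

section

variable {K : Type*} [Field K] [CharP K 2] {a : ℕ}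
  {al be al' : ZMod (2 ^ a) → K} (hal : ∑ j, al j ≠ 0) (h1 : cv al' al = dl (2 ^ a) K)

/-- The extensions have degree at most `t` on the lines of sums of `t` axes. -/
theorem ysys_tdir (t : ℕ) (f : Cube (2 ^ a) → K) (y : YY K (2 ^ a))
    (i : Fin t → K × (Bool × ZMod (2 ^ a))) :
    PolyLe K (fun u => (ysys al be al' hal h1).E f (y + tdir (qax (piY al' be)) i u)) t := by
  classical
  obtain ⟨p, hp, hu⟩ := ysys_line al be al' hal h1 f y (dvec i) (dvec_card i)
  refine polyLe_eval p hp fun u => ?_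
  rw [tdir_dvec, hu]

/-- The same for the injective directions. -/
theorem ysys_idir (t : ℕ) (f : Cube (2 ^ a) → K) (y : YY K (2 ^ a))
    (i : DIx (qax (piY al' be)) t) :
    PolyLe K (fun u => (ysys al be al' hal h1).E f (y + idir (qax (piY al' be)) t i u)) t :=
  ysys_tdir hal h1 t f y i.1

/-! ### The shift -/

/-- The permutation of the axes. -/
def shAx (h : ℕ) : (Bool × ZMod h) ≃ (Bool × ZMod h) :=
  Equiv.prodCongr (Equiv.refl Bool) (Equiv.addRight (1 : ZMod h))

omit [CharP K 2] in
theorem shV_single {h : ℕ} [NeZero h] (j : Bool × ZMod h) (u : K) :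
    shV (Pi.single j u : Bool × ZMod h → K) = Pi.single (shAx h j) u := by
  funext p
  unfold shV
  by_cases hp : (p.1, p.2 - 1) = j
  · subst hp
    have h2 : shAx h (p.1, p.2 - 1) = p := by
      refine Prod.ext rfl ?_
      show p.2 - 1 + 1 = p.2
      rw [sub_add_cancel]
    rw [h2, Pi.single_eq_same, Pi.single_eq_same]
  · have h2 : p ≠ shAx h j := by
      rintro rfl
      apply hp
      refine Prod.ext rfl ?_
      show j.2 + 1 - 1 = j.2
      rw [add_sub_cancel_right]
    rw [Pi.single_eq_of_ne hp, Pi.single_eq_of_ne h2]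

theorem theta_qax {h : ℕ} [NeZero h] (al' be : ZMod h → K) (j : Bool × ZMod h) (u : K) :
    thetaY K h (qax (piY al' be) j u) = qax (piY al' be) (shAx h j) u := by
  rw [qax_apply, theta_piY, shV_single]
  rfl

/-- **The shift maps lines to lines.** -/
noncomputable def mvTheta {h : ℕ} [NeZero h] (al' be : ZMod h → K) (t : ℕ) :
    Move (idir (qax (piY al' be)) t) :=
  mvD (thetaY K h) (shAx h) (theta_qax al' be) t

theorem mvTheta_g {h : ℕ} [NeZero h] (al' be : ZMod h → K) (t : ℕ) (y : YY K h) :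
    (mvTheta al' be t).g y = thetaY K h y := rfl

theorem mvTheta_ysys (t : ℕ) (y : YY K (2 ^ a)) :
    (mvTheta al' be t).g y = (ysys al be al' hal h1).θ y := rfl

end

/-! ### The parameters -/

section pars

variable {c : ℕ} (P : Pars c) {K : Type*} [Field K] [CharP K 2] [Fintype K]

/-- **Everything about the directions.** -/
theorem Pars.directions (hK : Fintype.card K = P.q) {a z : ℕ} (ha : P.N0 ≤ 2 ^ a)
    (hz : z = Srch.sch K (16 * (P.s + 5)) (2 ^ a)) :
    Nonempty (DIx (qax (piY (apZ K (2 ^ a) z) (beZ K (2 ^ a) z))) P.t) ∧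
    Spr (idir (qax (piY (apZ K (2 ^ a) z) (beZ K (2 ^ a) z))) P.t) P.lam ∧
    Spr (pdir (idir (qax (piY (apZ K (2 ^ a) z) (beZ K (2 ^ a) z))) P.t)
      (idir (qax (piY (apZ K (2 ^ a) z) (beZ K (2 ^ a) z))) P.t)) P.lam := by
  have h0 := Srch.sch_all a P.s K hK.le rfl hz
  exact P.spr hK YY_add_self h0.2.2.2 (ha.trans (card_YY_ge K (2 ^ a)))

theorem Pars.cv_eq (hK : Fintype.card K = P.q) {a z : ℕ}
    (hz : z = Srch.sch K (16 * (P.s + 5)) (2 ^ a)) :
    cv (apZ K (2 ^ a) z) (alZ K (2 ^ a) z) = dl (2 ^ a) K :=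
  (Srch.sch_all a P.s K hK.le rfl hz).1

theorem Pars.sum_al (hK : Fintype.card K = P.q) {a z : ℕ}
    (hz : z = Srch.sch K (16 * (P.s + 5)) (2 ^ a)) :
    ∑ j, alZ K (2 ^ a) z j ≠ 0 :=
  (Srch.sch_all a P.s K hK.le rfl hz).2.1

/-- The injective pairs of directions. -/
theorem pdir_injective {F Y Y' ι ι' : Type*} [Field F] [AddCommGroup Y] [AddCommGroup Y']
    (ρ : ι → F →+ Y) (ρ' : ι' → F →+ Y') (i : ι × ι') (h : Function.Injective (ρ i.1)) :
    Function.Injective (pdir ρ ρ' i) := fun _ _ e => h (congrArg Prod.fst e)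

end pars

/-! ### The field -/

/-- The field with `2 ^ s` elements. -/
theorem card_galoisField (s : ℕ) (hs : s ≠ 0) [Fintype (GaloisField 2 s)] :
    Fintype.card (GaloisField 2 s) = 2 ^ s := by
  rw [← Nat.card_eq_fintype_card, GaloisField.card 2 s hs]

end Vale.Agent.P330.Q
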