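import Vale.Agent.P330.Q.YDef

/-!
# The translations of the digit `0` and the shift generate all translations
-/

namespace Vale.Agent.P330.Q

open Finset

/-- A function which is invariant under the shift and under all translations of the digit `0` is
constant. -/
theorem gen_YY (K : Type*) [Field K] [CharP K 2] {h : ℕ} [NeZero h] {α : Sort*}
    (f : YY K h → α) (h1 : ∀ y, f (thetaY K h y) = f y)
    (h2 : ∀ (x : TY K) (y : YY K h), f (y + Pi.single 0 x) = f y) (y y' : YY K h) :
    f y = f y' := by
  -- shifts
  have s1 : ∀ (k : ℕ) (y : YY K h), f (fun j => y (j - (k : ZMod h))) = f y := by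
    intro k
    induction k with
    | zero => intro y; simp
    | succ k ih =>
      intro y
      have e : (fun j => y (j - ((k + 1 : ℕ) : ZMod h))) =
          thetaY K h (fun j => y (j - (k : ZMod h))) := by
        funext j
        show y (j - ((k + 1 : ℕ) : ZMod h)) = y (j - 1 - (k : ZMod h))
        congr 1
        push_cast
        ring
      rw [e, h1, ih]
  have s2 : ∀ (k : ZMod h) (y : YY K h), f (fun j => y (j - k)) = f y := by
    intro k y
    have := s1 k.val y
    rwa [ZMod.natCast_zmod_val] at this
  -- translations of one digit
  have s3 : ∀ (k : ZMod h) (x : TY K) (y : YY K h), f (y + Pi.single k x) = f y := by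
    intro k x y
    have e1 : y + Pi.single k x =
        fun j => ((fun j => y (j + k)) + (Pi.single 0 x : YY K h)) (j - k) := by
      funext j
      show y j + (Pi.single k x : YY K h) j = y (j - k + k) + (Pi.single 0 x : YY K h) (j - k)
      rw [sub_add_cancel]
      congr 1
      by_cases hj : j = k
      · subst hj
        rw [sub_self, Pi.single_eq_same, Pi.single_eq_same]
      · rw [Pi.single_eq_of_ne hj, Pi.single_eq_of_ne (sub_ne_zero.2 hj)]
    have e2 : y = fun j => (fun j => y (j + k)) (j - k) := by
      funext j
      show y j = y (j - k + k)
      rw [sub_add_cancel]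
    rw [e1, s2, h2]
    exact (s2 k (fun j => y (j + k))).symm.trans (congrArg f e2.symm)
  -- all translations
  have s4 : ∀ (s : Finset (ZMod h)) (z : YY K h), f (∑ k ∈ s, Pi.single k (z k)) = f 0 := by
    classical
    intro s z
    induction s using Finset.induction_on with
    | empty => simp
    | insert k s hk ih => rw [sum_insert hk, add_comm, s3, ih]
  have s5 : ∀ z : YY K h, f z = f 0 := by
    intro z
    have := s4 univ z
    rwa [Finset.univ_sum_single] at this
  rw [s5 y, s5 y']

end Vale.Agent.P330.Q
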