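import Vale.Agent.P330.Q.E
import Vale.Agent.P330.Q.LTC.Read

/-!
# Raw reads and clean reads

Points are pairs `(y, c)` with `y : Y` and a functional `c : κ → F`.  Pads are
`(c₂, C, i) : QPad` and an auxiliary component `x : X`.  The raw read with name `(g, A, p)`,
`p = (k, u)`, `u ≠ 0`, reads the point `rdPos r (g x y) (A x y c) i C c₂ p`, i.e. the position at
`u` of the curve through `A x y c + c₂` (`k = 0`) or `c₂` (`k = 1`) in direction `i k` through
`g x y`, and the pad with `c₂` replaced by `c`.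

* `rawRd_bijective`: it is a permutation of the sites (any `A`, every `g x` a permutation);
* `rawRd_mix`: the point read mixes (`MixRead`);
* `clean_word`: the sum of the raw reads of a word is the value `φ ⟨A c, s (g y)⟩`.
-/

namespace Vale.Agent.P330.Q

open Finset PCP.AR
open Vale.Agent.P318.S (crv Low sgn ind CharBd fdist word expect_eval2 crv_cons expect_prod')
open scoped BigOperators

section mixread

variable {P Z Z' X : Type*} [Fintype P] [Fintype Z] [Fintype Z'] [Fintype X]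

theorem MixRead.of_equiv {rd : P × Z → P} {lam : ℝ} (h : MixRead rd lam) (e : Z' ≃ Z) :
    MixRead (fun ω : P × Z' => rd (ω.1, e ω.2)) lam := by
  intro B' B s hs
  have := pr_equiv (Equiv.prodCongr (Equiv.refl P) e) (fun ω : P × Z => B' ω.1 ∧ B (rd ω))
  refine le_trans (le_of_eq ?_) (h B' B s hs)
  rw [← this]
  rfl

/-- Mixing can be averaged over an auxiliary component of the pad. -/
theorem MixRead.avg [Nonempty X] {rd : P × (Z × X) → P} {lam : ℝ}
    (h : ∀ x : X, MixRead (fun ω : P × Z => rd (ω.1, (ω.2, x))) lam) : MixRead rd lam := by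
  intro B' B s hs
  let e : (X × (P × Z)) ≃ (P × (Z × X)) :=
    { toFun := fun t => (t.2.1, (t.2.2, t.1))
      invFun := fun t => (t.2.2, (t.1, t.2.1))
      left_inv := fun _ => rfl
      right_inv := fun _ => rfl }
  have h1 := pr_equiv e (fun ω : P × (Z × X) => B' ω.1 ∧ B (rd ω))
  rw [← h1]
  exact pr_prod_le _ _ fun x => h x B' B s hs

end mixread

section

variable {F Y κ ι X : Type*} [Field F] [AddCommGroup Y] {D : ℕ}

/-- The pads. -/
abbrev QPad (F κ ι : Type*) (D : ℕ) : Type _ :=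
  (κ → F) × ((Fin 2 → Fin D → κ → F) × (Fin 2 → ι))

/-- The raw read. -/
def rawRd (r : ι → F →+ Y) (g : X → Y → Y) (A : X → Y → (κ → F) → κ → F)
    (p : Fin 2 × {u : F // u ≠ 0}) (ω : (Y × (κ → F)) × (QPad F κ ι D × X)) :
    (Y × (κ → F)) × (QPad F κ ι D × X) :=
  (rdPos r (g ω.2.2 ω.1.1) (A ω.2.2 ω.1.1 ω.1.2) ω.2.1.2.2 ω.2.1.2.1 ω.2.1.1 p,
    ((ω.1.2, ω.2.1.2), ω.2.2))

theorem rawRd_injective (r : ι → F →+ Y) {g : X → Y → Y} (hg : ∀ x, Function.Injective (g x))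
    (A : X → Y → (κ → F) → κ → F) (p : Fin 2 × {u : F // u ≠ 0}) :
    Function.Injective (rawRd (D := D) r g A p) := by
  rintro ⟨⟨y, c⟩, ⟨⟨c2, ⟨C, i⟩⟩, x⟩⟩ ⟨⟨y', c'⟩, ⟨⟨c2', ⟨C', i'⟩⟩, x'⟩⟩ h
  simp only [rawRd, rdPos, Prod.mk.injEq] at h
  obtain ⟨⟨h1, h2⟩, ⟨h3, h4, h5⟩, h6⟩ := h
  subst h3 h4 h5 h6
  have h7 : y = y' := hg x (add_right_cancel h1)
  subst h7
  rw [crv_cons, crv_cons] at h2
  have h8 := add_right_cancel h2
  have h9 : c2 = c2' := by
    split_ifs at h8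
    · exact add_left_cancel h8
    · exact h8
  rw [h9]

/-- The raw reads are permutations of the sites. -/
theorem rawRd_bijective [Finite F] [Finite Y] [Finite κ] [Finite ι] [Finite X] (r : ι → F →+ Y)
    {g : X → Y → Y} (hg : ∀ x, Function.Injective (g x))
    (A : X → Y → (κ → F) → κ → F) (p : Fin 2 × {u : F // u ≠ 0}) :
    Function.Bijective (rawRd (D := D) r g A p) := by
  classical
  have : Fintype F := Fintype.ofFinite F
  have : Fintype κ := Fintype.ofFinite κ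
  exact Finite.injective_iff_bijective.1 (rawRd_injective r hg A p)

theorem spr_eval [Fintype ι] [Nonempty ι] {T : Type*} [Fintype T] [Nonempty T]
    (r : ι → F →+ Y) {lam : ℝ}
    (hr : Spr r lam) (p : Fin 2 × {u : F // u ≠ 0}) :
    CharBd (fun z : T × (Fin 2 → ι) => r (z.2 p.1) (p.2 : F)) lam := by
  intro f hf
  have h := hr (p.2 : F) p.2.2 f hf
  have e : 𝔼 z : T × (Fin 2 → ι), sgn (f (r (z.2 p.1) (p.2 : F))) =
      𝔼 i : ι, sgn (f (r i (p.2 : F))) := by
    rw [expect_prod' (fun z : T × (Fin 2 → ι) => sgn (f (r (z.2 p.1) (p.2 : F)))),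
      ← expect_eval2 (fun i : ι => sgn (f (r i (p.2 : F)))) p.1]
    dsimp only
    rw [Fintype.expect_const]
  rw [e]
  exact h

/-- **The raw reads mix.** -/
theorem rawRd_mix [Fintype F] [DecidableEq F] [Fintype Y] [Fintype κ] [DecidableEq κ] [Fintype ι]
    [Nonempty ι] [Fintype X] [Nonempty X] (h2 : ∀ y : Y, y + y = 0) (r : ι → F →+ Y) {lam : ℝ}
    (h0 : 0 ≤ lam) (hr : Spr r lam) {g : X → Y → Y} (hg : ∀ x, Function.Bijective (g x))
    (A : X → Y → (κ → F) → κ → F) (p : Fin 2 × {u : F // u ≠ 0}) :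
    MixRead (fun ω : (Y × (κ → F)) × (QPad F κ ι D × X) => (rawRd r g A p ω).1) lam := by
  refine MixRead.avg (rd := fun ω : (Y × (κ → F)) × (QPad F κ ι D × X) => (rawRd r g A p ω).1)
    fun x => ?_
  have h := mixRead_of (E := κ → F) (T := κ → F)
    (ι := (Fin 2 → Fin D → κ → F) × (Fin 2 → ι)) h2 h0 (spr_eval r hr p)
    (Equiv.ofBijective (g x) (hg x))
    (fun y c z c2 => crv (Fin.cons (if p.1 = 0 then A x y c + c2 else c2) (z.1 p.1) :
      Fin (D + 1) → κ → F) (p.2 : F)) (by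
      intro y c z B
      have e : ∀ c2 : κ → F, crv (Fin.cons (if p.1 = 0 then A x y c + c2 else c2) (z.1 p.1) :
          Fin (D + 1) → κ → F) (p.2 : F) =
          ((if p.1 = 0 then A x y c else 0) +
            ∑ j : Fin D, (p.2 : F) ^ ((j : ℕ) + 1) • z.1 p.1 j) + c2 := by
        intro c2
        rw [crv_cons]
        split_ifs <;> abel
      simp only [e]
      exact pr_translate _ B)
  exact h.of_equiv (Equiv.prodComm _ _)

/-- The raw reads of a word sum up to the value of the word. -/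
theorem clean_word [Fintype F] [DecidableEq F] [Fintype Y] [Fintype κ] [DecidableEq κ]
    [Fintype ι] [Nonempty ι]
    (φ : F →+ ZMod 2) {q : ℕ} (hq : Fintype.card F = q) (hD : D + 2 ≤ q)
    (r : ι → F →+ Y) (g : X → Y → Y) (A : X → Y → (κ → F) → κ → F)
    (b : Y → ZMod 2) (s : Y → κ → F) (ω : (Y × (κ → F)) × (QPad F κ ι D × X))
    (hI : ∀ k, Low (q - 2 - D) fun u : F => s (g ω.2.2 ω.1.1 + r (ω.2.1.2.2 k) u))
    (hbI : ∀ k, ∑ u : F, b (g ω.2.2 ω.1.1 + r (ω.2.1.2.2 k) u) = 0) :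
    ∑ p : Fin 2 × {u : F // u ≠ 0},
      word φ b s (rawRd r g A p ω).1.1 (rawRd r g A p ω).1.2 =
      φ (∑ j, A ω.2.2 ω.1.1 ω.1.2 j * s (g ω.2.2 ω.1.1) j) :=
  rdSum_word φ hq hD r b s _ _ _ hI hbI _ _

end

/-- **Sampler** for a finite family of raw reads. -/
theorem rawRd_sampler {F Y κ ι X : Type*} [Field F] [AddCommGroup Y] {D : ℕ}
    [Fintype F] [DecidableEq F] [Fintype Y] [Fintype κ] [DecidableEq κ]
    [Fintype ι] [Nonempty ι] [Fintype X] [Nonempty X] (h2 : ∀ y : Y, y + y = 0)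
    (r : ι → F →+ Y) {lam ρ₁ : ℝ} (h0 : 0 ≤ lam) (hr : Spr r lam)
    {K : Type*} [Fintype K] (g : K → X → Y → Y) (hg : ∀ k x, Function.Bijective (g k x))
    (A : K → X → Y → (κ → F) → κ → F) (p : K → Fin 2 × {u : F // u ≠ 0})
    (hlam : 512 * (Fintype.card K * lam) ^ 2 ≤ 1) (hρ : (Fintype.card K : ℝ) * ρ₁ ≤ 1 / 16)
    (B : Y × (κ → F) → Prop) (hB : pr B ≤ ρ₁) :
    pr (fun pt : Y × (κ → F) => 1 / 8 ≤ pr (fun z : QPad F κ ι D × X =>
      ∃ k, B (rawRd r (g k) (A k) (p k) (pt, z)).1)) ≤ 1 / 2 * pr B :=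
  sampler_half (fun k ω => (rawRd r (g k) (A k) (p k) ω).1) h0
    (fun k => rawRd_mix h2 r h0 hr (hg k) (A k) (p k)) hlam hρ B hB

end Vale.Agent.P330.Q
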