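import Vale.Agent.P330.Q.Low
import Vale.Agent.P330.Q.Reads
import Vale.Agent.P330.Q.LTC.Dist

/-!
# The facts about the local code of an instance of a code of low degree words
-/

namespace Vale.Agent.P330.Q

open Finset PCP.AR
open Vale.Agent.P318.S (crv Low sgn ind CharBd fdist word crv_cons crv_add crv_zero)
open S (b2)
open scoped BigOperators

variable {N : Code} (I : CInst N)

theorem b2_dec' (a : ZMod 2) : b2 (decide (a = 1)) = a := by
  revert a
  decide

theorem Code.b2_bit {R : Type*} [Fintype R] (c x : R → N.F) :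
    b2 (N.bit c x) = N.φ (∑ j, c j * x j) := b2_dec' _

/-! ### Reads -/

theorem CInst.rd_inl (k : N.K ⊕ N.KT) (p : N.U) (ω : I.P × I.Z) :
    I.rd (.inl (k, p)) ω =
      ((rawRd I.r (fun _ : Unit => I.g k) (fun _ => I.A k) p (ω.1, (ω.2, ()))).1,
        (rawRd I.r (fun _ : Unit => I.g k) (fun _ => I.A k) p (ω.1, (ω.2, ()))).2.1) := rfl

theorem CInst.rd_inl_injective (k : N.K ⊕ N.KT) (p : N.U) :
    Function.Injective (I.rd (.inl (k, p))) := by
  intro ω ω' h
  rw [I.rd_inl, I.rd_inl] at h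
  have h1 := rawRd_injective (D := N.D) I.r (g := fun _ : Unit => I.g k)
    (fun _ => (I.g k).injective) (fun _ => I.A k) p
  have h2 : (ω.1, (ω.2, ())) = (ω'.1, (ω'.2, ())) := by
    apply h1
    have e1 := (Prod.mk.inj h).1
    have e2 := (Prod.mk.inj h).2
    exact Prod.ext e1 (Prod.ext e2 rfl)
  have e3 := (Prod.mk.inj h2).1
  have e4 := (Prod.mk.inj (Prod.mk.inj h2).2).1
  exact Prod.ext e3 e4

theorem CInst.rd_inr_injective (u : N.F) : Function.Injective (I.rd (.inr u)) := by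
  rintro ⟨⟨y, c⟩, ⟨c2, C, i⟩⟩ ⟨⟨y', c'⟩, ⟨c2', C', i'⟩⟩ h
  simp only [CInst.rd, Prod.mk.injEq] at h
  obtain ⟨⟨h1, h2⟩, h3, h4, h5⟩ := h
  subst h3 h4 h5
  have h6 : y = y' := add_right_cancel h1
  subst h6
  rw [crv_cons, crv_cons] at h2
  have h7 : c = c' := add_right_cancel h2
  rw [h7]

theorem CInst.rd_bijective (R : N.Raw) : Function.Bijective (I.rd R) := by
  classical
  refine Finite.injective_iff_bijective.1 ?_
  rcases R with ⟨k, p⟩ | u
  · exact I.rd_inl_injective k p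
  · exact I.rd_inr_injective u

theorem CInst.rd_self (ω : I.P × I.Z) : I.rd (.inr 0) ω = ω := by
  obtain ⟨⟨y, c⟩, ⟨c2, C, i⟩⟩ := ω
  simp only [CInst.rd, map_zero, add_zero, crv_zero, Fin.cons_zero]

theorem CInst.rd_mix {lam : ℝ} (h0 : 0 ≤ lam) (hr : Spr I.r lam) (k : N.K ⊕ N.KT) (p : N.U) :
    MixRead (fun ω : I.P × I.Z => (I.rd (.inl (k, p)) ω).1) lam := by
  classical
  have h := rawRd_mix (D := N.D) (X := Unit) I.exp2 I.r h0 hr (g := fun _ : Unit => I.g k)
    (fun _ => (I.g k).bijective) (fun _ => I.A k) p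
  exact h.of_equiv (Equiv.prodPUnit I.Z).symm

/-- **Corrected reads of words.** -/
theorem CInst.cval_read {s : I.Y → I.E} (hs : I.IsWord s) (k : N.K ⊕ N.KT) (ω : I.P × I.Z) :
    decide (∑ p : N.U, b2 (N.bit (I.rd (.inl (k, p)) ω).1.2 (s (I.rd (.inl (k, p)) ω).1.1)) = 1) =
      N.bit (I.A k ω.1.1 ω.1.2) (s (I.g k ω.1.1)) := by
  classical
  simp only [Code.b2_bit]
  have h := clean_word (X := Unit) N.φ rfl N.hD2 I.r (fun _ => I.g k) (fun _ => I.A k)
    (fun _ => 0) s (ω.1, (ω.2, ())) (fun j => hs _ _) (fun _ => by simp)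
  simp only [word, zero_add] at h
  unfold Code.bit
  rw [← h]
  rfl

theorem CInst.self_read (s : I.Y → I.E) (ω : I.P × I.Z) :
    N.bit (I.rd (.inr 0) ω).1.2 (s (I.rd (.inr 0) ω).1.1) =
      N.bit (I.A (.inr N.kt0) ω.1.1 ω.1.2) (s (I.g (.inr N.kt0) ω.1.1)) := by
  rw [I.rd_self, I.g_kt0, I.A_kt0]

/-- The line test of a word. -/
theorem CInst.line_read {s : I.Y → I.E} (hs : I.IsWord s) (ω : I.P × I.Z) :
    ∑ u : N.F, b2 (N.bit (I.rd (.inr u) ω).1.2 (s (I.rd (.inr u) ω).1.1)) = 0 := by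
  classical
  simp only [Code.b2_bit]
  have h2 := word_tsum N.φ rfl N.hD2 (fun _ => 0) s (I.r (ω.2.2.2 0)) ω.1.1
    (hs _ _) (by simp) (Fin.cons ω.1.2 (ω.2.2.1 0))
  simp only [tsum, word, zero_add] at h2
  exact h2

/-! ### Distance -/

theorem CInst.word_dist {lam : ℝ} (h0 : 0 ≤ lam) (hr : Spr I.r lam) {s s' : I.Y → I.E}
    (hs : I.IsWord s) (hs' : I.IsWord s') (hne : s ≠ s') :
    (1 - ((Fintype.card N.F - 2 - N.D : ℕ) : ℝ) / (Fintype.card N.F - 1) - lam) / 2 ≤
      pr (fun p : I.P => N.bit p.2 (s p.1) ≠ N.bit p.2 (s' p.1)) := by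
  classical
  obtain ⟨y0, hy0⟩ := Function.ne_iff.1 hne
  obtain ⟨j0, hj0⟩ := Function.ne_iff.1 hy0
  have hd := low_dist (q := Fintype.card N.F) (d := Fintype.card N.F - 2 - N.D) rfl I.exp2 I.r
    univ univ_nonempty h0 hr (κ := 0) (by simp) one_pos
    (fun y => s y j0 + s' y j0) (by
      intro i _ y
      obtain ⟨p, hp⟩ := hs i y
      obtain ⟨p', hp'⟩ := hs' i y
      refine ⟨fun l => p l j0 + p' l j0, fun u => ?_⟩
      have e1 := congrFun (hp u) j0
      have e2 := congrFun (hp' u) j0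
      simp only [crv, Finset.sum_apply, Pi.smul_apply, smul_eq_mul] at e1 e2
      simp only [crv, smul_eq_mul, mul_add, Finset.sum_add_distrib]
      rw [e1, e2]) (by
      intro h
      apply hj0
      have h1 := congrFun h y0
      simp only [Pi.zero_apply] at h1
      have h2 := CharTwo.add_self_eq_zero (s' y0 j0)
      exact add_right_cancel (h1.trans h2.symm))
  have h1 : (𝔼 y : I.Y, if s y j0 + s' y j0 = 0 then (0 : ℝ) else 1) ≤
      pr (fun y : I.Y => s y ≠ s' y) := by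
    rw [pr_eq_expect]
    refine Finset.expect_le_expect fun y _ => ?_
    by_cases h : s y = s' y
    · rw [h, CharTwo.add_self_eq_zero]
      simp
    · have hne' : s y ≠ s' y := h
      simp only [ne_eq, h, not_false_eq_true, if_true]
      split_ifs <;> norm_num
  have h2 : pr (fun y : I.Y => s y ≠ s' y) * (1 / 2) ≤
      pr (fun p : I.P => N.bit p.2 (s p.1) ≠ N.bit p.2 (s' p.1)) := by
    apply mul_le_pr_prod
    intro y hy
    obtain ⟨j, hj⟩ := Function.ne_iff.1 hy
    let ψ : I.E →+ ZMod 2 :=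
      { toFun := fun c => N.φ (∑ j, c j * (s y j + s' y j))
        map_zero' := by simp
        map_add' := by
          intro a b
          rw [← map_add, ← Finset.sum_add_distrib]
          congr 1
          exact Finset.sum_congr rfl fun j _ => by rw [Pi.add_apply]; ring }
    have hv : s y j + s' y j ≠ 0 := by
      intro h
      apply hj
      have h2 := CharTwo.add_self_eq_zero (s' y j)
      exact add_right_cancel (h.trans h2.symm)
    have hψ : ψ ≠ 0 := by
      intro h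
      apply N.hφ
      ext a
      have h3 : ψ (Pi.single j (a * (s y j + s' y j)⁻¹)) = 0 := by rw [h]; rfl
      have h4 : ψ (Pi.single j (a * (s y j + s' y j)⁻¹)) = N.φ a := by
        show N.φ (∑ l, (Pi.single j (a * (s y j + s' y j)⁻¹) : I.E) l * (s y l + s' y l)) = _
        rw [Finset.sum_eq_single j]
        · rw [Pi.single_eq_same, mul_assoc, inv_mul_cancel₀ hv, mul_one]
        · intro l _ hl
          rw [Pi.single_eq_of_ne hl, zero_mul]
        · intro h; exact absurd (mem_univ j) h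
      rw [← h4, h3]
      rfl
    refine (half_le_pr ψ hψ).trans (pr_mono ?_)
    intro c hc h
    apply hc
    have e1 : b2 (N.bit c (s y)) = b2 (N.bit c (s' y)) := by
      have : N.bit c (s y) = N.bit c (s' y) := h
      rw [this]
    rw [Code.b2_bit, Code.b2_bit] at e1
    show N.φ (∑ j, c j * (s y j + s' y j)) = 0
    simp only [mul_add, Finset.sum_add_distrib, map_add]
    rw [e1]
    exact zmod2_add_self _
  simp only [sub_zero, mul_one] at hd
  linarith

/-! ### The facts -/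

theorem CInst.wstep_eq {lam : ℝ} (h : I.CFacts lam) (z : Bool) {st : I.St} (hv : I.Val st) :
    I.wstep z (I.sec st) = I.sec (I.step z st) := by
  classical
  have hw : I.WVal (I.sec st) := ⟨st, hv, rfl⟩
  unfold CInst.wstep
  rw [dif_pos hw]
  have h1 := h.sec_inj _ _ hv hw.choose_spec.1 hw.choose_spec.2
  rw [← h1]

/-- **The facts.** -/
theorem CInst.facts {lam θ ρ₁ g : ℝ} (h : I.CFacts lam) (h0 : 0 ≤ lam)
    (sP : Fin 4 → I.P ≃ I.P) (sZ : Fin 4 → I.Z ≃ I.Z)
    (gapP : H855.Gap sP g) (gapZ : H855.Gap sZ g)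
    (hlam : 512 * ((Fintype.card N.K * (2 * (Fintype.card N.F - 1)) : ℕ) * lam) ^ 2 ≤ 1)
    (hρ : ((Fintype.card N.K * (2 * (Fintype.card N.F - 1)) : ℕ) : ℝ) * ρ₁ ≤ 1 / 16)
    (hθ : 2 * θ ≤ 1 - ((Fintype.card N.F - 2 - N.D : ℕ) : ℝ) / (Fintype.card N.F - 1) - lam) :
    (I.toLInst sP sZ h.low).Facts θ ρ₁ g where
  rd_bij R := I.rd_bijective R
  rd_self ω := I.rd_self ω
  gapP := gapP
  gapZ := gapZ
  valid0 := ⟨I.st0, h.val0, rfl⟩
  inv := by
    rintro z ⟨s, hs⟩ hv hv'
    obtain ⟨st, hst, rfl⟩ : I.WVal s := hv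
    apply Subtype.ext
    show I.wstep (!z) (I.wstep z (I.sec st)) = I.sec st
    have hv'' : I.WVal (I.wstep z (I.sec st)) := hv'
    rw [I.wstep_eq h z hst] at hv'' ⊢
    obtain ⟨st', hst', he⟩ := hv''
    have h1 := h.sec_inj' z st st' hst hst' he
    rw [← h1] at hst'
    rw [I.wstep_eq h (!z) hst', h.inv z st hst hst']
  start := by
    intro hv
    have hv' : I.WVal (I.wstep true (I.sec I.st0)) := hv
    rw [I.wstep_eq h true h.val0] at hv'
    obtain ⟨st', hst', he⟩ := hv'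
    have h1 := h.sec_inj' true I.st0 st' h.val0 hst' he
    rw [← h1] at hst'
    exact h.start hst'
  start_cb c ω := h.start_v ω.1.1 ω.1.2
  dist := by
    rintro ⟨s, hs⟩ ⟨s', hs'⟩ hne
    refine ⟨(), ?_⟩
    have h1 : s ≠ s' := fun e => hne (Subtype.ext e)
    have h2 := I.word_dist h0 h.spr hs hs' h1
    have h3 : θ ≤ (1 - ((Fintype.card N.F - 2 - N.D : ℕ) : ℝ) / (Fintype.card N.F - 1) - lam) / 2 := by
      linarith
    exact h3.trans h2
  samp := by
    intro B hB
    classical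
    have hc : Fintype.card (N.K × N.U) = Fintype.card N.K * (2 * (Fintype.card N.F - 1)) := by
      rw [Fintype.card_prod, Fintype.card_prod, Fintype.card_fin, Fintype.card_subtype_compl,
        Fintype.card_subtype_eq]
    have h1 := sampler_half (κ := N.K × N.U)
      (fun k ω => (I.rd (.inl (.inl k.1, k.2)) ω).1) h0
      (fun k => I.rd_mix h0 h.spr _ _) (by rw [hc]; exact hlam) (by rw [hc]; exact hρ) B hB
    exact h1
  h_ok := by
    rintro ⟨s, hs⟩ c ω
    have h1 := I.cval_read hs (.inl N.k0) ω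
    rw [I.g_k0, I.A_k0] at h1
    exact h1
  a_ok := by
    rintro z ⟨s, hs⟩ hv c ω
    obtain ⟨st, hst, rfl⟩ : I.WVal s := hv
    have h1 := h.step_ok z st hst ω.1.1 ω.1.2
    show N.stepF z (N.cval fun kp => N.bit (I.rd (.inl (.inl kp.1, kp.2)) ω).1.2
      (I.sec st (I.rd (.inl (.inl kp.1, kp.2)) ω).1.1)) (fun v => I.v v ω.1.1 ω.1.2) =
      N.bit ω.1.2 (I.wstep z (I.sec st) ω.1.1)
    rw [I.wstep_eq h z hst, ← h1]
    congr 1
    funext k
    exact I.cval_read hs (.inl k) ω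
  t_ok := by
    rintro ⟨s, hs⟩ hv ω
    obtain ⟨st, hst, rfl⟩ : I.WVal s := hv
    have h1 := h.test_ok st hst ω.1.1 ω.1.2
    have e1 : (N.cval fun kp : N.KT × N.U => N.bit (I.rd (.inl (.inr kp.1, kp.2)) ω).1.2
        (I.sec st (I.rd (.inl (.inr kp.1, kp.2)) ω).1.1)) =
        fun k => N.bit (I.A (.inr k) ω.1.1 ω.1.2) (I.sec st (I.g (.inr k) ω.1.1)) := by
      funext k
      exact I.cval_read hs (.inr k) ω
    have e2 := I.line_read hs ω
    have e3 := I.self_read (I.sec st) ω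
    show (decide (∑ u : N.F, b2 (N.bit (I.rd (.inr u) ω).1.2
          (I.sec st (I.rd (.inr u) ω).1.1)) ≠ 0) ||
      decide (N.bit (I.rd (.inr 0) ω).1.2 (I.sec st (I.rd (.inr 0) ω).1.1) ≠
        N.cval (fun kp : N.KT × N.U => N.bit (I.rd (.inl (.inr kp.1, kp.2)) ω).1.2
        (I.sec st (I.rd (.inl (.inr kp.1, kp.2)) ω).1.1)) N.kt0) ||
      N.testF (N.cval fun kp : N.KT × N.U => N.bit (I.rd (.inl (.inr kp.1, kp.2)) ω).1.2
        (I.sec st (I.rd (.inl (.inr kp.1, kp.2)) ω).1.1)) (fun v => I.v v ω.1.1 ω.1.2)) = false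
    rw [e1, e2, e3]
    simp only [ne_eq, not_true_eq_false, decide_false, Bool.false_or]
    exact h1

end Vale.Agent.P330.Q
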