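import Vale.Agent.P330.Q.SoundAE
import Vale.Agent.P330.S.Loop
import Vale.Agent.P330.S.SoundSeq

/-!
# Soundness of the network over a local code
-/

namespace Vale.Agent.P330.Q

open Filter PCP.AR
open H855 (mean)
open S (IsB Tst Ctl target ThOK TfOK HoldAt FollowAt aef ae_iff ae_of_le ae_of_small ae_pr_lt
  ae_fst base_of_ae exists_of_ae ae_map_bij ae_fiber ae_prod_fst pr_fiber SeqCore)

variable {N : LSpec}

namespace GLim

variable {A : GLim N}

/-! ### The test in the limit -/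

open Classical in
/-- the table read off the pad means -/
noncomputable def tab (A : GLim N) (z : Bool) (n : ℕ) (c : N.C) (p : (A.I n).P) : Bool :=
  decide (1 / 2 < mean fun y => A.x n (.m z c) (p, y))

/-- the register `z` holds the table at the site -/
def Good (A : GLim N) (z : Bool) (ω : A.Pt) : Prop :=
  ∀ c, IsB (A.ε ω.1) (A.tab z ω.1 c ω.2.1) (A.v (.x z c) ω)

/-- almost all sites: either the register holds the table or the test fails -/
theorem good_or (A : GLim N) (z : Bool) :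
    ∀ᶠ ω in A.F, A.Good z ω ∨ IsB (A.ε ω.1) true (A.v (.t (.T z)) ω) := by
  have hx : ∀ᶠ ω in A.F, ∀ c : N.C, (1 / 2 + 1 / 10 < A.pm (.m z c) ω →
      IsB (A.ε ω.1) true (A.v (.x z c) ω)) ∧
      (A.pm (.m z c) ω < 1 / 2 - 1 / 10 → IsB (A.ε ω.1) false (A.v (.x z c) ω)) :=
    eventually_all.2 fun c => A.x_pm z c (by norm_num)
  have hlo : ∀ᶠ ω in A.F, ∀ c : N.C, (1 / 4 + 1 / 10 < A.pm (.m z c) ω →
      IsB (A.ε ω.1) true (A.v (.lo z c) ω)) ∧
      (A.pm (.m z c) ω < 1 / 4 - 1 / 10 → IsB (A.ε ω.1) false (A.v (.lo z c) ω)) :=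
    eventually_all.2 fun c => A.lo_pm z c (by norm_num)
  have hhi : ∀ᶠ ω in A.F, ∀ c : N.C, (3 / 4 + 1 / 10 < A.pm (.m z c) ω →
      IsB (A.ε ω.1) true (A.v (.hi z c) ω)) ∧
      (A.pm (.m z c) ω < 3 / 4 - 1 / 10 → IsB (A.ε ω.1) false (A.v (.hi z c) ω)) :=
    eventually_all.2 fun c => A.hi_pm z c (by norm_num)
  filter_upwards [hx, hlo, hhi, A.rel (.t (.T z))] with ω g1 g2 g3 g4
  by_cases hf : ∃ c : N.C, 1 / 4 + 1 / 10 < A.pm (.m z c) ω ∧ A.pm (.m z c) ω < 3 / 4 - 1 / 10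
  · right
    obtain ⟨c, h1, h2⟩ := hf
    exact t_flag g4 ((A.facts ω.1).rd_self _) ((g2 c).1 h1) ((g3 c).2 h2)
  · left
    push Not at hf
    intro c
    by_cases h1 : 1 / 2 < A.pm (.m z c) ω
    · have h2 : A.tab z ω.1 c ω.2.1 = true := decide_eq_true h1
      rw [h2]
      have h3 := hf c (by linarith)
      exact (g1 c).1 (by linarith)
    · have h2 : A.tab z ω.1 c ω.2.1 = false := decide_eq_false h1
      rw [h2]
      refine (g1 c).2 ?_
      by_contra h4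
      push Not at h4
      have h3 := hf c (by linarith)
      linarith

/-- **Soundness of the test in the limit.** -/
theorem T_sound {Q : LInst N → Prop} (hQ : ∀ n, Q (A.I n)) (hτ : 0 < A.τ) {ρ' κ : ℝ}
    (HT : ∀ I : LInst N, Q I → ∀ f : N.C → I.P → Bool, pr (I.TFail f) ≤ κ →
      ∃ w, I.Valid w ∧ pr (fun p : I.P => ∃ c, f c p ≠ I.cod w c p) ≤ ρ' / 2)
    (hκ : (4 + 3 * Fintype.card N.TK) * (A.τ : ℝ) ≤ κ) (hρ : 3 * (A.τ : ℝ) ≤ ρ' / 2) (z : Bool)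
    (h : A.av (.t (.T z)) ≤ A.τ) :
    ∀ᶠ n in (A.U : Filter ℕ), ∃ w, (A.I n).Valid w ∧ (A.I n).Near (A.ε n) ρ' (A.x n) z w := by
  have hτ' : (0 : ℝ) < A.τ := by exact_mod_cast hτ
  have h1 := ae_pr_lt (good_or A z) hτ'
  have h2 := A.pr_true_le (.t (.T z)) hτ'
  have h3 : ∀ᶠ n in (A.U : Filter ℕ), A.β n < A.τ := A.β_lim.eventually (gt_mem_nhds hτ')
  filter_upwards [h1, h2, h3] with n g1 g2 g3
  have hrel := ((A.obeys n).2 (.t (.T z))).trans g3.le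
  have htt : pr (fun ω => IsB (A.ε n) true (A.x n (.t (.T z)) ω)) ≤ 2 * (A.τ : ℝ) := by
    linarith
  have hG : pr (fun ω : (A.I n).Site => ¬ A.Good z (⟨n, ω⟩ : A.Pt)) ≤ 3 * (A.τ : ℝ) := by
    have e1 := pr_or (fun ω : (A.I n).Site =>
      ¬ (A.Good z (⟨n, ω⟩ : A.Pt) ∨ IsB (A.ε n) true (A.x n (.t (.T z)) ω)))
      (fun ω => IsB (A.ε n) true (A.x n (.t (.T z)) ω))
    have e2 : pr (fun ω : (A.I n).Site => ¬ A.Good z (⟨n, ω⟩ : A.Pt)) ≤
        pr (fun ω : (A.I n).Site => ¬ (A.Good z (⟨n, ω⟩ : A.Pt) ∨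
          IsB (A.ε n) true (A.x n (.t (.T z)) ω)) ∨ IsB (A.ε n) true (A.x n (.t (.T z)) ω)) := by
      apply pr_mono
      intro ω hω
      by_cases ht : IsB (A.ε n) true (A.x n (.t (.T z)) ω)
      · exact Or.inr ht
      · exact Or.inl fun hc => hc.elim hω ht
    have e3 : pr (fun ω : (A.I n).Site =>
      ¬ (A.Good z (⟨n, ω⟩ : A.Pt) ∨ IsB (A.ε n) true (A.x n (.t (.T z)) ω))) < A.τ := g1
    linarith
  -- the test of the code
  have hF : pr ((A.I n).TFail (A.tab z n)) ≤ κ := by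
    have e1 := A.pr_reads n (fun k : N.TK => (N.tRd k).1)
      (fun σ => ¬ A.Good z (⟨n, σ⟩ : A.Pt))
    have e2 : pr ((A.I n).TFail (A.tab z n)) ≤
        pr (fun ω : (A.I n).Site => (¬ (net N A.τ (.t (.T z))).Rel (A.I n).sem (A.ε n) (A.lam n)
          (A.x n) (.t (.T z)) ω) ∨ (IsB (A.ε n) true (A.x n (.t (.T z)) ω) ∨
          ∃ k : N.TK, ¬ A.Good z (⟨n, (A.I n).rd (N.tRd k).1 ω⟩ : A.Pt))) := by
      apply pr_mono
      intro ω hω
      by_contra hc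
      push Not at hc
      obtain ⟨c1, c2, c3⟩ := hc
      exact c2 (t_fail c1 (fun k c => c3 k c) hω)
    have e3 := pr_or (fun ω : (A.I n).Site => ¬ (net N A.τ (.t (.T z))).Rel (A.I n).sem (A.ε n)
      (A.lam n) (A.x n) (.t (.T z)) ω) (fun ω => IsB (A.ε n) true (A.x n (.t (.T z)) ω) ∨
          ∃ k : N.TK, ¬ A.Good z (⟨n, (A.I n).rd (N.tRd k).1 ω⟩ : A.Pt))
    have e4 := pr_or (fun ω : (A.I n).Site => IsB (A.ε n) true (A.x n (.t (.T z)) ω))
      (fun ω => ∃ k : N.TK, ¬ A.Good z (⟨n, (A.I n).rd (N.tRd k).1 ω⟩ : A.Pt))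
    have e5 : (Fintype.card N.TK : ℝ) * pr (fun σ : (A.I n).Site => ¬ A.Good z (⟨n, σ⟩ : A.Pt)) ≤
        Fintype.card N.TK * (3 * A.τ) := mul_le_mul_of_nonneg_left hG (Nat.cast_nonneg _)
    nlinarith
  obtain ⟨w, hw, hN⟩ := HT (A.I n) (hQ n) (A.tab z n) hF
  refine ⟨w, hw, ?_⟩
  unfold LInst.Near
  have e1 : pr (fun ω : (A.I n).Site => ∃ c, A.tab z n c ω.1 ≠ (A.I n).cod w c ω.1) ≤ ρ' / 2 :=
    (pr_fst (Ω' := (A.I n).Z) fun p : (A.I n).P => ∃ c, A.tab z n c p ≠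
      (A.I n).cod w c p).le.trans hN
  have e2 : pr (fun ω : (A.I n).Site => ∃ c : N.C, ¬ IsB (A.ε n) ((A.I n).cod w c ω.1)
      (A.x n (.x z c) ω)) ≤ pr (fun ω : (A.I n).Site => ¬ A.Good z (⟨n, ω⟩ : A.Pt) ∨
        ∃ c, A.tab z n c ω.1 ≠ (A.I n).cod w c ω.1) := by
    refine pr_mono fun ω hω => ?_
    obtain ⟨c, hc⟩ := hω
    by_cases hg : A.Good z (⟨n, ω⟩ : A.Pt)
    · refine Or.inr ⟨c, fun he => hc ?_⟩
      rw [← he]
      exact hg c
    · exact Or.inl hg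
  have e3 := pr_or (fun ω : (A.I n).Site => ¬ A.Good z (⟨n, ω⟩ : A.Pt))
    (fun ω => ∃ c, A.tab z n c ω.1 ≠ (A.I n).cod w c ω.1)
  linarith

/-- **Completeness of the test.** -/
theorem T_complete (z : Bool) (w : A.Cfg)
    (hv : ∀ᶠ n in (A.U : Filter ℕ), (A.I n).Valid (w n)) (hc : A.SCodes z w) :
    A.Ts (.T z) = 0 := by
  apply av_of_is_false
  have h1 := srt_of_codes hc
  have h2 : ∀ᶠ ω in A.F, ∀ k : N.TK, A.SRt z w (A.rd (N.tRd k).1 ω) :=
    eventually_all.2 fun k => A.ae_rd h1 _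
  have h3 : ∀ᶠ ω in A.F, ∀ c : N.C, IsB (A.ε ω.1) (A.cod w c ω) (A.v (.lo z c) ω) :=
    eventually_all.2 fun c => (hc c).2.1
  have h4 : ∀ᶠ ω in A.F, ∀ c : N.C, IsB (A.ε ω.1) (A.cod w c ω) (A.v (.hi z c) ω) :=
    eventually_all.2 fun c => (hc c).2.2
  have h5 := ae_fst (Ω := fun n => (A.I n).P × (A.I n).Z)
    (Q := fun n => (A.I n).Valid (w n)) hv
  filter_upwards [h2, h3, h4, h5, A.rel (.t (.T z))] with ω g2 g3 g4 g5 g6
  exact t_pass (f := (A.I ω.1).cod (w ω.1)) g6 ((A.facts ω.1).rd_self _) g2 g3 g4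
    ((A.facts ω.1).t_ok (w ω.1) g5 ω.2)

/-! ### The record -/

/-- No solution is revealed. -/
def NoSol (I : LInst N) (ε ρ₀ : ℝ) (x : LReg N.C → I.Site → ℝ) : Prop :=
  (∀ w, I.Valid w → I.Near ε ρ₀ x false w → I.Valid (I.step false w)) ∧
    ∀ w, I.Valid w → w ≠ I.w0 → I.Near ε ρ₀ x true w → I.Valid (I.step true w)

theorem near_mono {I : LInst N} {ε ρ₁ ρ₂ : ℝ} {x : LReg N.C → I.Site → ℝ} {z : Bool}
    {w : I.Cf} (h : ρ₁ ≤ ρ₂) (hn : I.Near ε ρ₁ x z w) : I.Near ε ρ₂ x z w :=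
  le_trans hn h

/-- The record for the loop. -/
noncomputable def toSeq (A : GLim N) {Q : LInst N → Prop} (hQ : ∀ n, Q (A.I n)) (ρ' ρ₀ κ : ℝ)
    (hρ : 0 < ρ') (hρ₀ : ρ' ≤ ρ₀) (P : A.Small ρ')
    (HT : ∀ I : LInst N, Q I → ∀ f : N.C → I.P → Bool, pr (I.TFail f) ≤ κ →
      ∃ w, I.Valid w ∧ pr (fun p : I.P => ∃ c, f c p ≠ I.cod w c p) ≤ ρ' / 2)
    (hτ : 0 < A.τ) (h1 : (4 + 3 * Fintype.card N.TK) * (A.τ : ℝ) ≤ κ)
    (h2 : 3 * (A.τ : ℝ) ≤ ρ' / 2)
    (h3 : (A.τ : ℝ) < A.θ - 3 * ρ') (h4 : (A.τ : ℝ) < A.θ - (2 + (Fintype.card N.K + 1)) * ρ')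
    (hN : ∀ n, NoSol (A.I n) (A.ε n) ρ₀ (A.x n)) : SeqCore where
  U := A.U
  Cf n := (A.I n).Cf
  Val n := (A.I n).Valid
  w0 n := (A.I n).w0
  step n z := (A.I n).step z
  τ := A.τ
  τ_pos := by exact_mod_cast hτ
  q := A.qs
  q_mem i := A.av_mem _
  T := A.Ts
  Codes := A.SCodes
  Nr := A.SNr ρ'
  codes_congr _ _ _ h hc := scodes_congr h hc
  nr_congr _ _ _ h hc := snr_congr h hc
  valid0 n := (A.facts n).valid0
  inv n := (A.facts n).inv
  start n := (A.facts n).start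
  codes_near _ _ h := snr_of_codes hρ h
  T_sound z h := by
    classical
    have h5 := T_sound (A := A) hQ hτ HT h1 h2 z h
    refine ⟨fun n => if hn : ∃ w, (A.I n).Valid w ∧
      (A.I n).Near (A.ε n) ρ' (A.x n) z w then hn.choose else (A.I n).w0, ?_, ?_⟩
    · filter_upwards [h5] with n hn
      rw [dif_pos hn]
      exact hn.choose_spec.1
    · unfold SNr
      filter_upwards [h5] with n hn
      rw [dif_pos hn]
      exact hn.choose_spec.2
  T_complete z w hv hc := T_complete z w hv hc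
  E0_sound w w' h hn hn' := s_E0_sound hρ h3 h hn hn'
  E0_complete w hc hc' := s_E0_complete hc hc'
  E1_sound w w' h hv hn hn' :=
    s_E1_sound hρ h4 (w := A.stp false w) h (a_near hρ hn hv) hn'
  E1_complete w hv hc hc' := s_E1_complete (w := A.stp false w)
    (fun c => a_is' hv hc c) hc'
  D_sound z w h hn := s_D_sound hρ h3 h hn
  D_complete z hc := s_D_complete hc
  mux_start h z := m_start h z
  mux_hold0 z h hn := m_hold0 P h hn
  mux_hold hs z w h hn := m_hold P hs h hn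
  mux_copy hs ha z w h hc := m_copy hs ha h hc
  mux_step hs ha z w h hv hc := m_step hs ha h hv hc
  mux_both hs ha w hn hn' := m_both P hs ha hn hn'
  mux_link hs ha w w' hv hv' e1 e2 hn hn' := m_link P hs ha hv hv' e1 e2 hn hn'
  nosol_false w hv hn := by
    filter_upwards [hv, hn] with n g1 g2
    exact (hN n).1 _ g1 (near_mono hρ₀ g2)
  nosol_true w hv hne hn := by
    filter_upwards [hv, hne, hn] with n g1 g2 g3
    exact (hN n).2 _ g1 g2 (near_mono hρ₀ g3)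
  ctl i b h := s_ctl i b h

end GLim

theorem Facts.mono_g {I : LInst N} {θ ρ₁ g g' : ℝ} (h : g ≤ g') (F : I.Facts θ ρ₁ g) :
    I.Facts θ ρ₁ g' :=
  { F with gapP := gap_mono h F.gapP, gapZ := gap_mono h F.gapZ }

/-- **Soundness of the network.** -/
theorem lsound {Q : LInst N → Prop} {θ ρ₁ g : ℝ} (hθ : 0 < θ) (hρ₁ : 0 < ρ₁) (hg : g < 1)
    (HF : ∀ I, Q I → I.Facts θ ρ₁ g) (HT : TestSound N Q) : LSound N Q := by
  intro ρ₀ hρ₀
  set K : ℝ := ((Fintype.card N.K : ℕ) : ℝ) with hK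
  have hK0 : 0 ≤ K := Nat.cast_nonneg _
  set ρ' : ℝ := min ρ₀ (min (ρ₁ / (16 * (K + 1))) (θ / (2 * (3 + K)))) with hρ'
  have hp : 0 < ρ' := lt_min hρ₀ (lt_min (by positivity) (by positivity))
  have hp1 : ρ' ≤ ρ₀ := min_le_left _ _
  have hp2 : 16 * (K * ρ') ≤ ρ₁ := by
    have h1 : ρ' ≤ ρ₁ / (16 * (K + 1)) := (min_le_right _ _).trans (min_le_left _ _)
    rw [le_div_iff₀ (by positivity)] at h1
    nlinarith
  have hp3 : ρ' * (2 * (3 + K)) ≤ θ := by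
    have h1 : ρ' ≤ θ / (2 * (3 + K)) := (min_le_right _ _).trans (min_le_right _ _)
    rwa [le_div_iff₀ (by positivity)] at h1
  obtain ⟨κ, hκ, HT'⟩ := HT (ρ' / 2) (half_pos hp)
  have hT0 : (0 : ℝ) ≤ Fintype.card N.TK := Nat.cast_nonneg _
  have hm : (0 : ℝ) < min (min 1 (θ / 2)) (min (κ / (4 + 3 * Fintype.card N.TK)) (ρ' / 6)) :=
    lt_min (lt_min one_pos (by positivity)) (lt_min (by positivity) (by positivity))
  obtain ⟨τ, h0, h1⟩ := exists_rat_btwn hm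
  have a1 : (τ : ℝ) < 1 := h1.trans_le ((min_le_left _ _).trans (min_le_left _ _))
  have a2 : (τ : ℝ) < θ / 2 := h1.trans_le ((min_le_left _ _).trans (min_le_right _ _))
  have a3 : (τ : ℝ) < κ / (4 + 3 * Fintype.card N.TK) :=
    h1.trans_le ((min_le_right _ _).trans (min_le_left _ _))
  have a4 : (τ : ℝ) < ρ' / 6 := h1.trans_le ((min_le_right _ _).trans (min_le_right _ _))
  have h0' : 0 < τ := by exact_mod_cast h0
  have a3' : (4 + 3 * Fintype.card N.TK) * (τ : ℝ) ≤ κ := by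
    rw [lt_div_iff₀ (by positivity)] at a3
    linarith
  refine ⟨τ, h0', by exact_mod_cast a1, ?_⟩
  by_contra hcon
  have key : ∀ n : ℕ, ∃ (I : LInst N) (x : LReg N.C → I.Site → ℝ), Q I ∧
      I.Obeys τ ((S.seqEps n : ℚ) : ℝ) ((S.seqLam n : ℚ) : ℝ) ((S.seqEps n : ℚ) : ℝ) x ∧
      GLim.NoSol I ((S.seqEps n : ℚ) : ℝ) ρ₀ x := by
    intro n
    by_contra hn
    apply hcon
    refine ⟨S.seqLam n, S.seqLam_pos n, S.seqLam_lt n, S.seqEps n, S.seqEps_pos n, S.seqEps_lt n,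
      ((S.seqEps n : ℚ) : ℝ), by exact_mod_cast S.seqEps_pos n, fun I hI x hO => ?_⟩
    by_contra hs
    push Not at hs
    exact hn ⟨I, x, hI, hO, fun w a b => hs.1 w a b, fun w a b c => hs.2 w a b c⟩
  choose I x hI hO hN using key
  have hF : ∀ n, (I n).Facts θ ρ₁ (max g 0) := fun n =>
    Facts.mono_g (le_max_left _ _) (HF (I n) (hI n))
  let A : GLim N :=
    { U := hyperfilter ℕ
      I := I
      τ := τ
      θ := θ
      ρ₁ := ρ₁
      g := max g 0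
      ε := fun n => ((S.seqEps n : ℚ) : ℝ)
      lam := fun n => ((S.seqLam n : ℚ) : ℝ)
      β := fun n => ((S.seqEps n : ℚ) : ℝ)
      x := x
      facts := hF
      obeys := hO
      g_nonneg := le_max_right _ _
      g_lt := max_lt hg one_pos
      ε_pos := fun n => by exact_mod_cast S.seqEps_pos n
      ε_lt := fun n => by
        have := S.seqEps_lt n
        have h : ((S.seqEps n : ℚ) : ℝ) < ((1 / 100 : ℚ) : ℝ) := by exact_mod_cast this
        push_cast at h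
        exact h
      ε_lim := S.seqEps_lim.mono_left Nat.hyperfilter_le_atTop
      β_lim := S.seqEps_lim.mono_left Nat.hyperfilter_le_atTop
      lam_pos := fun n => by exact_mod_cast S.seqLam_pos n
      lam_lt := fun n => by exact_mod_cast S.seqLam_lt n
      lam_lim := S.seqLam_lim.mono_left Nat.hyperfilter_le_atTop
      ε_lam := S.seqEps_lam.mono_left Nat.hyperfilter_le_atTop
      β_lam := S.seqEps_lam.mono_left Nat.hyperfilter_le_atTop }
  refine (GLim.toSeq A hI ρ' ρ₀ κ hp hp1 ⟨hp.le, hρ₁, hp2⟩ HT' h0' a3' ?_ ?_ ?_ hN).toCore.no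
  · show 3 * (τ : ℝ) ≤ ρ' / 2
    linarith
  · show (τ : ℝ) < θ - 3 * ρ'
    nlinarith
  · show (τ : ℝ) < θ - (2 + (K + 1)) * ρ'
    nlinarith

end Vale.Agent.P330.Q
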