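import Vale.Agent.P330.Q.Net
import Vale.Agent.P330.Q.LTC.Defs

/-!
# Networks over a code of low degree words: definitions

The table of a word `s : Y → R → F` has the bit `φ (∑ r, c r * s y r)` at the point `(y, c)`.
A corrected read of the bit with the functional `c'` at the point `y'` is the sum of the table over
two random curves through `(y', c' + c₂)` and `(y', c₂)`.

* `Code`: the finite data.  `stepF`, `testF` are Boolean functions of corrected reads and public
  bits.
* `CInst`: an instance: points `Y`, directions `r`, components `R`, moves `g`, functional maps `A`,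
  public bits, states and their words.
* `Code.spec`, `CInst.toLInst`: the corresponding `LSpec`, `LInst`.
* `CInst.CFacts`: what has to be known of a class of instances.
-/

namespace Vale.Agent.P330.Q

open Finset PCP.AR
open Vale.Agent.P318.S (crv Low sgn ind CharBd fdist word)
open S (b2)
open scoped BigOperators

/-- Finite data of a network over a code of low degree words. -/
structure Code where
  F : Type
  fF : Field F
  tF : Fintype F
  dF : DecidableEq F
  cF : CharP F 2
  φ : F →+ ZMod 2
  hφ : φ ≠ 0
  /-- degree of the curves in the space of functionals: `D = q - 2 - d`, where `d` is the degree of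
  the words along the lines -/
  D : ℕ
  hD : Fintype.card F ≤ 2 * D + 1
  hD2 : D + 2 ≤ Fintype.card F
  /-- names of the corrected reads of a step -/
  K : Type
  fK : Fintype K
  /-- names of the corrected reads of the test -/
  KT : Type
  fKT : Fintype KT
  /-- names of public bits -/
  V : Type
  fV : Fintype V
  /-- the name of the identity, in a step and in the test -/
  k0 : K
  kt0 : KT
  /-- the public bit: start word -/
  v0 : V
  /-- the bit of the successor (`false`), predecessor (`true`) -/
  stepF : Bool → (K → Bool) → (V → Bool) → Bool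
  /-- some identity fails -/
  testF : (KT → Bool) → (V → Bool) → Bool

attribute [instance] Code.fF Code.tF Code.dF Code.cF Code.fK Code.fKT Code.fV

variable (N : Code)

/-- One of the two lines, and a point of the line. -/
abbrev Code.U : Type := Fin 2 × {u : N.F // u ≠ 0}

/-- The value of a corrected read. -/
def Code.cval {X : Type*} (y : X × N.U → Bool) (k : X) : Bool :=
  decide (∑ p : N.U, b2 (y (k, p)) = 1)

/-- Names of the raw reads: reads of corrected reads, reads of the line test. -/
abbrev Code.Raw : Type := ((N.K ⊕ N.KT) × N.U) ⊕ N.F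

/-- The local code. -/
def Code.spec : LSpec where
  C := Unit
  fC := inferInstance
  dC := inferInstance
  Rd := N.Raw
  CB := N.V
  K := N.K × N.U
  fK := inferInstance
  KB := N.V
  fKB := inferInstance
  TK := (N.KT × N.U) ⊕ N.F
  fTK := inferInstance
  TB := N.V
  fTB := inferInstance
  self := .inr 0
  start _ := N.v0
  rd p := (.inl (.inl p.1, p.2), ())
  cb := id
  tRd
    | .inl p => (.inl (.inr p.1, p.2), ())
    | .inr u => (.inr u, ())
  tCB := id
  hF _ y _ := N.cval y N.k0
  aF z _ y v := N.stepF z (N.cval y) v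
  tF y v :=
    decide (∑ u : N.F, b2 (y (.inr u)) ≠ 0) ||
    decide (y (.inr 0) ≠ N.cval (fun p => y (.inl p)) N.kt0) ||
    N.testF (N.cval fun p => y (.inl p)) v

/-- An instance. -/
structure CInst where
  /-- points -/
  Y : Type
  gY : AddCommGroup Y
  fY : Fintype Y
  dY : DecidableEq Y
  exp2 : ∀ y : Y, y + y = 0
  /-- directions -/
  ι : Type
  fι : Fintype ι
  nι : Nonempty ι
  r : ι → N.F →+ Y
  /-- components -/
  R : Type
  fR : Fintype R
  dR : DecidableEq R
  /-- moves -/
  g : N.K ⊕ N.KT → Y ≃ Y
  /-- functional maps -/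
  A : N.K ⊕ N.KT → Y → (R → N.F) → R → N.F
  g_k0 : ∀ y, g (.inl N.k0) y = y
  g_kt0 : ∀ y, g (.inr N.kt0) y = y
  A_k0 : ∀ y c, A (.inl N.k0) y c = c
  A_kt0 : ∀ y c, A (.inr N.kt0) y c = c
  /-- public bits -/
  v : N.V → Y → (R → N.F) → Bool
  /-- states -/
  St : Type
  Val : St → Prop
  st0 : St
  step : Bool → St → St
  /-- the word of a state -/
  sec : St → Y → R → N.F

attribute [instance] CInst.gY CInst.fY CInst.dY CInst.fι CInst.nι CInst.fR CInst.dR

variable {N}

/-- functionals -/
abbrev CInst.E (I : CInst N) : Type := I.R → N.F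

/-- points of the table -/
abbrev CInst.P (I : CInst N) : Type := I.Y × I.E

/-- pads: a functional, the coefficients of two curves, two directions -/
abbrev CInst.Z (I : CInst N) : Type :=
  I.E × (Fin 2 → Fin N.D → I.E) × (Fin 2 → I.ι)

/-- The raw reads. -/
def CInst.rd (I : CInst N) : N.Raw → I.P × I.Z → I.P × I.Z
  | .inl (k, p), ((y, c), (c₂, C, i)) => (rdPos I.r (I.g k y) (I.A k y c) i C c₂ p, (c, C, i))
  | .inr u, ((y, c), (c₂, C, i)) =>
    ((y + I.r (i 0) u, crv (Fin.cons c (C 0) : Fin (N.D + 1) → I.E) u), (c₂, C, i))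

/-- The bit with the functional `c` of the value `x`. -/
def Code.bit (N : Code) {R : Type*} [Fintype R] (c : R → N.F) (x : R → N.F) : Bool :=
  decide (N.φ (∑ j, c j * x j) = 1)

/-- `s` is a word: a polynomial of degree at most `q - 2 - D = d` on every line. -/
def CInst.IsWord (I : CInst N) (s : I.Y → I.E) : Prop :=
  ∀ i y, Low (Fintype.card N.F - 2 - N.D) fun u : N.F => s (y + I.r i u)

/-- The word is the word of a valid state. -/
def CInst.WVal (I : CInst N) (s : I.Y → I.E) : Prop := ∃ st, I.Val st ∧ s = I.sec st

open Classical in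
/-- Step of a word. -/
noncomputable def CInst.wstep (I : CInst N) (z : Bool) (s : I.Y → I.E) : I.Y → I.E :=
  if h : I.WVal s then I.sec (I.step z h.choose) else s

/-- What has to be known of an instance: `lam` is the bias of the directions. -/
structure CInst.CFacts (I : CInst N) (lam : ℝ) : Prop where
  inj : ∀ i, Function.Injective (I.r i)
  spr : Spr I.r lam
  /-- words of states have low degree -/
  low : ∀ st, I.IsWord (I.sec st)
  /-- a word is the word of at most one valid state -/
  sec_inj : ∀ st st', I.Val st → I.Val st' → I.sec st = I.sec st' → st = st'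
  sec_inj' : ∀ z st st', I.Val st → I.Val st' → I.sec (I.step z st) = I.sec st' →
    I.step z st = st'
  val0 : I.Val I.st0
  inv : ∀ z st, I.Val st → I.Val (I.step z st) → I.step (!z) (I.step z st) = st
  start : ¬ I.Val (I.step true I.st0)
  start_v : ∀ y c, I.v N.v0 y c = N.bit c (I.sec I.st0 y)
  /-- steps -/
  step_ok : ∀ z st, I.Val st → ∀ y c,
    N.stepF z (fun k => N.bit (I.A (.inl k) y c) (I.sec st (I.g (.inl k) y)))
      (fun v => I.v v y c) = N.bit c (I.sec (I.step z st) y)
  /-- completeness of the test -/
  test_ok : ∀ st, I.Val st → ∀ y c,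
    N.testF (fun k => N.bit (I.A (.inr k) y c) (I.sec st (I.g (.inr k) y)))
      (fun v => I.v v y c) = false

/-- Soundness of the identities, for words which have low degree on most lines. -/
def CInst.IdSound (I : CInst N) (κ τ : ℝ) : Prop :=
  ∀ (s : I.Y → I.E) (J : Finset I.ι), (1 - κ) * Fintype.card I.ι ≤ #J →
    (∀ i ∈ J, ∀ y, Low (Fintype.card N.F - 2 - N.D) fun u : N.F => s (y + I.r i u)) →
    pr (fun p : I.P => N.testF
      (fun k => N.bit (I.A (.inr k) p.1 p.2) (s (I.g (.inr k) p.1)))
      (fun v => I.v v p.1 p.2) = true) ≤ τ → I.WVal s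

/-- The instance of the local code. -/
noncomputable def CInst.toLInst (I : CInst N) (sP : Fin 4 → I.P ≃ I.P) (sZ : Fin 4 → I.Z ≃ I.Z)
    (hlow : ∀ st, I.IsWord (I.sec st)) : LInst N.spec where
  P := I.P
  fP := inferInstance
  nP := ⟨(0, fun _ => 0)⟩
  Z := I.Z
  fZ := by classical exact inferInstance
  nZ := ⟨(fun _ => 0, fun _ _ _ => 0, fun _ => Classical.arbitrary _)⟩
  rd := I.rd
  cb v ω := I.v v ω.1.1 ω.1.2
  sP := sP
  sZ := sZ
  Cf := {s : I.Y → I.E // I.IsWord s}
  Valid s := I.WVal s.1
  w0 := ⟨I.sec I.st0, hlow _⟩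
  step z s := ⟨I.wstep z s.1, by
    unfold CInst.wstep
    split
    · exact hlow _
    · exact s.2⟩
  cod s _ p := N.bit p.2 (s.1 p.1)

end Vale.Agent.P330.Q
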