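import Vale.Agent.P330.Q.TSRead
import Vale.Agent.P330.Q.Low

/-!
# Test soundness, part 3: `TestSound` from the soundness of the identities
-/

namespace Vale.Agent.P330.Q

open Finset PCP.AR TS
open Vale.Agent.P318.S (crv Low sgn ind CharBd fdist word PolyLe expect_nn expect_mono
  expect_prod' ind_add_le ind_nonneg ind_le_one crv_zero)
open S (b2)
open scoped BigOperators

variable {N : Code}

theorem b2_decide (a : ZMod 2) : b2 (decide (a = 1)) = a := by
  rcases Vale.Agent.P318.S.zmod2_cases a with rfl | rfl <;> simp [b2]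

theorem b2_inj {a b : Bool} : b2 a = b2 b ↔ a = b := by
  cases a <;> cases b <;> simp [b2]

/-- The table of a function. -/
def tabOf {P : Type*} {E : Type*} (f : P × E → Bool) (y : P) (c : E) : ZMod 2 := b2 (f (y, c))

/-- The value of a corrected read. -/
theorem CInst.cval_eq (I : CInst N) (f : I.P → Bool) (k : N.K ⊕ N.KT) (y : I.Y) (c : I.E)
    (z : I.Z) :
    (decide (∑ p : N.U, b2 (f (I.rd (.inl (k, p)) ((y, c), z)).1) = 1) : Bool) =
      decide (rdSum (tabOf f) I.r (I.g k y) (I.A k y c) z.2.2 z.2.1 z.1 = 1) := by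
  obtain ⟨c2, C, i⟩ := z
  rfl

theorem CInst.line_eq (I : CInst N) (f : I.P → Bool) (y : I.Y) (c : I.E) (z : I.Z) :
    ∑ u : N.F, b2 (f (I.rd (.inr u) ((y, c), z)).1) =
      tsum (tabOf f) (I.r (z.2.2 0)) y (Fin.cons c (z.2.1 0) : Fin (N.D + 1) → I.E) := by
  obtain ⟨c2, C, i⟩ := z
  rfl

theorem CInst.self_eq (I : CInst N) (y : I.Y) (c : I.E) (z : I.Z) :
    (I.rd (.inr 0) ((y, c), z)).1 = (y, c) := by
  obtain ⟨c2, C, i⟩ := z
  simp only [CInst.rd, map_zero, add_zero, Prod.mk.injEq, true_and]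
  rw [crv_zero, Fin.cons_zero]

/-- The three tests. -/
theorem CInst.tfail_iff (I : CInst N) (sP : Fin 4 → I.P ≃ I.P) (sZ : Fin 4 → I.Z ≃ I.Z)
    (hlow : ∀ st, I.IsWord (I.sec st)) (f : I.P → Bool) (y : I.Y) (c : I.E) (z : I.Z) :
    (I.toLInst sP sZ hlow).TFail (fun _ => f) ((y, c), z) ↔
      tsum (tabOf f) (I.r (z.2.2 0)) y (Fin.cons c (z.2.1 0) : Fin (N.D + 1) → I.E) ≠ 0 ∨
      rdSum (tabOf f) I.r y c z.2.2 z.2.1 z.1 ≠ tabOf f y c ∨
      N.testF (fun k => decide (rdSum (tabOf f) I.r (I.g (.inr k) y) (I.A (.inr k) y c)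
        z.2.2 z.2.1 z.1 = 1)) (fun v => I.v v y c) = true := by
  have h0 : ∀ k : N.KT, (decide (∑ p : N.U, b2 (f (I.rd (.inl (.inr k, p)) ((y, c), z)).1) = 1)
      : Bool) = decide (rdSum (tabOf f) I.r (I.g (.inr k) y) (I.A (.inr k) y c)
        z.2.2 z.2.1 z.1 = 1) := fun k => I.cval_eq f (.inr k) y c z
  have e1 : (I.toLInst sP sZ hlow).TFail (fun _ => f) ((y, c), z) ↔
      (decide (∑ u : N.F, b2 (f (I.rd (.inr u) ((y, c), z)).1) ≠ 0) ||
      decide (f (I.rd (.inr 0) ((y, c), z)).1 ≠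
        decide (∑ p : N.U, b2 (f (I.rd (.inl (.inr N.kt0, p)) ((y, c), z)).1) = 1)) ||
      N.testF (fun k => decide (∑ p : N.U, b2 (f (I.rd (.inl (.inr k, p)) ((y, c), z)).1) = 1))
        (fun v => I.v v y c)) = true := Iff.rfl
  rw [e1, I.line_eq f y c z, I.self_eq y c z]
  simp only [h0, Bool.or_eq_true, decide_eq_true_eq, or_assoc]
  rw [I.g_kt0, I.A_kt0]
  refine or_congr Iff.rfl (or_congr ?_ Iff.rfl)
  rw [not_iff_not, ← b2_inj, b2_decide]
  exact ⟨fun h => h.symm, fun h => h.symm⟩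

theorem pr_inst {Ω : Type*} (i₁ i₂ : Fintype Ω) (p : Ω → Prop) : @pr Ω i₁ p = @pr Ω i₂ p := by
  rw [Subsingleton.elim i₁ i₂]

/-- Probability as expectation. -/
theorem pr_sites {Y E Z : Type*} [Fintype Y] [Fintype E] [Fintype Z] (p : (Y × E) × Z → Prop)
    [DecidablePred p] :
    pr p = 𝔼 x : Y × E, 𝔼 z : Z, if p (x, z) then (1 : ℝ) else 0 := by
  rw [pr_eq_expect, expect_prod' (fun ω : (Y × E) × Z => if p ω then (1 : ℝ) else 0)]

/-- **Soundness of the test.** -/
theorem CInst.sound (I : CInst N) {lam κ τ ρ δ : ℝ} (hF : I.CFacts lam)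
    (hI : I.IdSound κ τ) (hlam : (Fintype.card N.F : ℝ) * lam ≤ 1 / 16)
    (h1 : δ ≤ 1 / (160 * (Fintype.card N.F : ℝ) ^ 2))
    (h2 : 4 * (Fintype.card N.F : ℝ) * δ ≤ κ)
    (h3 : δ + Fintype.card N.KT * ((6 + 8 * (Fintype.card N.F : ℝ)) * δ) ≤ τ)
    (h4 : (7 + 8 * (Fintype.card N.F : ℝ)) * δ ≤ ρ)
    (sP : Fin 4 → I.P ≃ I.P) (sZ : Fin 4 → I.Z ≃ I.Z) (f : I.P → Bool)
    (hf : 𝔼 x : I.P, 𝔼 z : QPad N.F I.R I.ι N.D, (open Classical in
      if (I.toLInst sP sZ hF.low).TFail (fun _ => f) (x, z) then (1 : ℝ) else 0) ≤ δ) :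
    ∃ s, I.WVal s ∧ fdist (tabOf f) (word N.φ 0 s) ≤ ρ := by
  classical
  set q : ℕ := Fintype.card N.F with hq
  have hιpos : (0 : ℝ) < Fintype.card I.ι := by exact_mod_cast Fintype.card_pos
  have hE : Nonempty I.E := ⟨fun _ => 0⟩
  have hYn : Nonempty I.Y := ⟨0⟩
  set fl : I.P → QPad N.F I.R I.ι N.D → ℝ := fun x z =>
    if (I.toLInst sP sZ hF.low).TFail (fun _ => f) (x, z) then (1 : ℝ) else 0 with hfl
  have hfl0 : ∀ x z, 0 ≤ fl x z := fun x z => by simp only [hfl]; split_ifs <;> norm_num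
  have hflt : ∀ x z, (I.toLInst sP sZ hF.low).TFail (fun _ => f) (x, z) → fl x z = 1 :=
    fun x z h => if_pos h
  -- line test
  have a1 : 𝔼 x : I.P, 𝔼 z : QPad N.F I.R I.ι N.D,
      ind (tsum (tabOf f) (I.r (z.2.2 0)) x.1 (Fin.cons x.2 (z.2.1 0) : Fin (N.D + 1) → I.E)) ≤
      δ := by
    refine (expect_mono fun x => expect_mono fun z => ?_).trans hf
    show _ ≤ fl x z
    by_cases h : tsum (tabOf f) (I.r (z.2.2 0)) x.1
      (Fin.cons x.2 (z.2.1 0) : Fin (N.D + 1) → I.E) = 0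
    · rw [h, Vale.Agent.P318.S.ind_zero]
      exact hfl0 x z
    · rw [hflt x z ((I.tfail_iff sP sZ hF.low f x.1 x.2 z).2 (Or.inl h))]
      exact ind_le_one _
  -- consistency
  have a2 : 𝔼 x : I.P, 𝔼 z : QPad N.F I.R I.ι N.D,
      ind (rdSum (tabOf f) I.r x.1 x.2 z.2.2 z.2.1 z.1 + tabOf f x.1 x.2) ≤ δ := by
    refine (expect_mono fun x => expect_mono fun z => ?_).trans hf
    show _ ≤ fl x z
    by_cases h : rdSum (tabOf f) I.r x.1 x.2 z.2.2 z.2.1 z.1 = tabOf f x.1 x.2
    · rw [h, CharTwo.add_self_eq_zero, Vale.Agent.P318.S.ind_zero]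
      exact hfl0 x z
    · rw [hflt x z ((I.tfail_iff sP sZ hF.low f x.1 x.2 z).2 (Or.inr (Or.inl h)))]
      exact ind_le_one _
  obtain ⟨s, J, hJ, hlow, hcard, herr⟩ := ltc_core N.φ N.hφ hq.symm N.hD N.hD2 I.exp2 I.r hF.inj
    hF.spr hlam (tabOf f) a1 h1
  refine ⟨s, ?_, ?_⟩
  · refine hI s J (le_trans ?_ hcard) hlow ?_
    · exact mul_le_mul_of_nonneg_right (by linarith) hιpos.le
    · rw [pr_eq_expect]
      have hpt : ∀ (x : I.P) (z : QPad N.F I.R I.ι N.D),
          (if N.testF (fun k => N.bit (I.A (.inr k) x.1 x.2) (s (I.g (.inr k) x.1)))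
            (fun v => I.v v x.1 x.2) = true then (1 : ℝ) else 0) ≤
          fl x z + ∑ k : N.KT,
            err N.φ (tabOf f) I.r s (I.g (.inr k) x.1) (I.A (.inr k) x.1 x.2) z := by
        intro x z
        have n1 : 0 ≤ ∑ k : N.KT,
            err N.φ (tabOf f) I.r s (I.g (.inr k) x.1) (I.A (.inr k) x.1 x.2) z :=
          sum_nonneg fun k _ => err_nonneg _ _ _ _ _ _ _
        by_cases ht : N.testF (fun k => N.bit (I.A (.inr k) x.1 x.2) (s (I.g (.inr k) x.1)))
            (fun v => I.v v x.1 x.2) = true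
        · rw [if_pos ht]
          by_cases hall : ∀ k : N.KT,
              err N.φ (tabOf f) I.r s (I.g (.inr k) x.1) (I.A (.inr k) x.1 x.2) z = 0
          · have h5 : (fun k : N.KT => (decide (rdSum (tabOf f) I.r (I.g (.inr k) x.1)
                (I.A (.inr k) x.1 x.2) z.2.2 z.2.1 z.1 = 1) : Bool)) =
                fun k => N.bit (I.A (.inr k) x.1 x.2) (s (I.g (.inr k) x.1)) := by
              funext k
              rw [eq_of_add (ind_eq_zero (hall k))]
              rfl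
            have h6 : fl x z = 1 := hflt x z ((I.tfail_iff sP sZ hF.low f x.1 x.2 z).2
              (Or.inr (Or.inr (by rw [h5]; exact ht))))
            linarith
          · push Not at hall
            obtain ⟨k, hk⟩ := hall
            have h7 : 1 ≤ err N.φ (tabOf f) I.r s (I.g (.inr k) x.1) (I.A (.inr k) x.1 x.2) z := by
              refine one_le_ind fun h => hk ?_
              rw [err, h]
              simp
            have h8 := Finset.single_le_sum (f := fun k : N.KT =>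
              err N.φ (tabOf f) I.r s (I.g (.inr k) x.1) (I.A (.inr k) x.1 x.2) z)
              (fun k _ => err_nonneg _ _ _ _ _ _ _) (mem_univ k)
            have h9 := hfl0 x z
            linarith
        · rw [if_neg ht]
          have := hfl0 x z
          linarith
      calc _ ≤ 𝔼 x : I.P, 𝔼 z : QPad N.F I.R I.ι N.D, (fl x z + ∑ k : N.KT,
            err N.φ (tabOf f) I.r s (I.g (.inr k) x.1) (I.A (.inr k) x.1 x.2) z) := by
            refine expect_mono fun x => ?_
            rw [← Fintype.expect_const (ι := QPad N.F I.R I.ι N.D) (if N.testF (fun k =>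
              N.bit (I.A (.inr k) x.1 x.2) (s (I.g (.inr k) x.1)))
              (fun v => I.v v x.1 x.2) = true then (1 : ℝ) else 0)]
            exact expect_mono fun z => hpt x z
        _ ≤ δ + Fintype.card N.KT * ((6 + 8 * (q : ℝ)) * δ) := by
            simp only [Finset.expect_add_distrib, Finset.expect_sum_comm]
            refine add_le_add hf ?_
            calc _ ≤ ∑ _k : N.KT, (6 + 8 * (q : ℝ)) * δ := sum_le_sum fun k _ =>
                  herr (fun x => I.g (.inr k) x.1) (fun h => by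
                    rw [expect_prod' (fun x : I.Y × I.E => h (I.g (.inr k) x.1))]
                    simp only [Fintype.expect_const]
                    exact Fintype.expect_equiv (I.g (.inr k)) _ _ fun y => rfl)
                    fun x => I.A (.inr k) x.1 x.2
              _ = _ := by rw [sum_const, card_univ, nsmul_eq_mul]
        _ ≤ τ := h3
  · refine (dist_core N.φ I.r (tabOf f) s a2 (herr (fun x => x.1) (fun h => by
      rw [expect_prod' (fun x : I.Y × I.E => h x.1)]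
      simp) fun x => x.2)).trans (le_trans (le_of_eq (by ring)) h4)

/-- **Soundness of the test**, for a class of instances. -/
theorem testSound {lam κ τ : ℝ} (hlam : (Fintype.card N.F : ℝ) * lam ≤ 1 / 16)
    (hκ : 0 < κ) (hτ : 0 < τ) (Q : LInst N.spec → Prop)
    (hQ : ∀ L, Q L → ∃ (I : CInst N) (sP : Fin 4 → I.P ≃ I.P) (sZ : Fin 4 → I.Z ≃ I.Z)
      (hF : I.CFacts lam), I.IdSound κ τ ∧ L = I.toLInst sP sZ hF.low) :
    TestSound N.spec Q := by
  classical
  intro ρ hρ
  set q : ℝ := (Fintype.card N.F : ℝ) with hq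
  have hq0 : 0 < q := by rw [hq]; exact_mod_cast Fintype.card_pos
  have hKT : (0 : ℝ) ≤ Fintype.card N.KT := by positivity
  set δ : ℝ := min (min (1 / (160 * q ^ 2)) (κ / (4 * q)))
    (min (τ / (1 + Fintype.card N.KT * (6 + 8 * q))) (ρ / (7 + 8 * q))) with hδ
  have hδ0 : 0 < δ := by
    rw [hδ]
    refine lt_min (lt_min ?_ ?_) (lt_min ?_ ?_) <;> positivity
  have h1 : δ ≤ 1 / (160 * q ^ 2) := (min_le_left _ _).trans (min_le_left _ _)
  have h2 : 4 * q * δ ≤ κ := by
    have : δ ≤ κ / (4 * q) := (min_le_left _ _).trans (min_le_right _ _)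
    rw [le_div_iff₀ (by positivity)] at this
    linarith
  have h3 : δ + Fintype.card N.KT * ((6 + 8 * q) * δ) ≤ τ := by
    have : δ ≤ τ / (1 + Fintype.card N.KT * (6 + 8 * q)) :=
      (min_le_right _ _).trans (min_le_left _ _)
    rw [le_div_iff₀ (by positivity)] at this
    linarith
  have h4 : (7 + 8 * q) * δ ≤ ρ := by
    have : δ ≤ ρ / (7 + 8 * q) := (min_le_right _ _).trans (min_le_right _ _)
    rw [le_div_iff₀ (by positivity)] at this
    linarith
  refine ⟨δ, hδ0, fun L hL f hf => ?_⟩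
  obtain ⟨I, sP, sZ, hF, hI, rfl⟩ := hQ L hL
  have hf' : f = fun _ => f () := by funext c; cases c; rfl
  rw [hf'] at hf ⊢
  have hf2 : 𝔼 x : I.P, 𝔼 z : QPad N.F I.R I.ι N.D, (open Classical in
      if (I.toLInst sP sZ hF.low).TFail (fun _ => f ()) (x, z) then (1 : ℝ) else 0) ≤ δ := by
    have e := pr_sites (Y := I.Y) (E := I.E) (Z := QPad N.F I.R I.ι N.D)
      (fun ω => (I.toLInst sP sZ hF.low).TFail (fun _ => f ()) ω)
    refine le_trans (le_of_eq (Eq.trans ?_ (e.symm.trans ?_))) hf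
    · congr!
    · exact pr_inst _ _ _
  obtain ⟨s, hs, hd⟩ := I.sound hF hI hlam h1 h2 h3 h4 sP sZ (f ()) hf2
  obtain ⟨st, hst, rfl⟩ := hs
  refine ⟨⟨I.sec st, hF.low st⟩, ⟨st, hst, rfl⟩, ?_⟩
  refine le_trans (le_of_eq ?_) hd
  have e1 : ∀ p : I.Y × I.E, (∃ c : Unit, f c p ≠ N.bit p.2 (I.sec st p.1)) ↔
      tabOf (f ()) p.1 p.2 + word N.φ 0 (I.sec st) p.1 p.2 ≠ 0 := by
    rintro ⟨y, c⟩
    constructor
    · rintro ⟨u, h⟩ h0
      apply h
      have h1 := eq_of_add h0
      simp only [tabOf, word, Pi.zero_apply, zero_add] at h1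
      rw [← b2_inj, Code.bit, b2_decide]
      exact h1
    · intro h
      refine ⟨(), fun h1 => h ?_⟩
      simp only [tabOf, word, Pi.zero_apply, zero_add]
      rw [h1, Code.bit, b2_decide, CharTwo.add_self_eq_zero]
  have e2 : pr (fun p : I.Y × I.E => ∃ c : Unit, f c p ≠ N.bit p.2 (I.sec st p.1)) =
      fdist (tabOf (f ())) (word N.φ 0 (I.sec st)) := by
    rw [pr_eq_expect]
    unfold fdist
    rw [← expect_prod' (fun x : I.Y × I.E =>
      ind (tabOf (f ()) x.1 x.2 + word N.φ 0 (I.sec st) x.1 x.2))]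
    refine expect_congr rfl fun p _ => ?_
    by_cases h : tabOf (f ()) p.1 p.2 + word N.φ 0 (I.sec st) p.1 p.2 = 0
    · rw [if_neg (by rw [e1]; exact fun h' => h' h), h, Vale.Agent.P318.S.ind_zero]
    · rw [if_pos ((e1 p).2 h)]
      rcases Vale.Agent.P318.S.zmod2_cases
        (tabOf (f ()) p.1 p.2 + word N.φ 0 (I.sec st) p.1 p.2) with h1 | h1
      · exact absurd h1 h
      · rw [h1, Vale.Agent.P318.S.ind_one]
  exact e2

end Vale.Agent.P330.Q
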