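import Vale.Agent.P330.Q.Conc
import Vale.Agent.P330.Q.ConcDir
import Vale.Agent.P330.Q.Gen
import Vale.Agent.P330.Q.LowFacts
import Vale.Agent.P330.Q.TSMain
import Vale.Agent.P330.Q.Sound

/-!
# Project Q: the facts about the concrete family

`factsC`: `CFacts` of `famC I`.  `idSoundC`: `IdSound`.  `lfactsC`: `LInst.Facts` for all
expanders.  `ClassC`: the class of the local codes of the family with expanders of gap `g`, with
`testSoundC`, `lsoundC`.
-/

namespace Vale.Agent.P330.Q

open Finset Vale.Agent.P330.S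
open S.Mach (spec)
open Vale.Agent.P318.S (PolyLe Low)

/-- The degree facts. -/
noncomputable def degC (I : EndOfLine) : DegData (domC I).toDomData (dirC I) parQ.t :=
  degData (sysC I) (famQ I) (famQ_facts I) σQ (epsQ I)
    (fun f y i => ysys_idir (alC_sum I) (cvC I) parQ.t f y i)
    (mvTheta (apC I) (beC I) parQ.t) fun _ => rfl

/-- The translations of the digit `0` and the shift generate. -/
theorem genC (I : EndOfLine) : (domC I).toDomData.Gen (dgC I) := fun f h1 h2 y y' =>
  gen_YY KQ f (fun y => h1 y) (fun x y => h2 x y) y y'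

theorem card_codeF : Fintype.card codeQ.F = parQ.q := card_KQ

theorem codeQ_D : codeQ.D = parQ.Dc := rfl

/-- **The facts of the code.** -/
theorem factsC (I : EndOfLine) : (famC I).CFacts parQ.lam := by
  refine mkInst_facts (M := domC I) (TI := tinC I) (r := pdir (dirC I) (dirC I))
    (h2 := YC_add_self I) φQ_one (fun i => ?_) (sprC I).2.2 (fun s i p => ?_)
    fun s hs p c => ?_
  · exact pdir_injective _ _ i (idir_injective (axC I) parQ.t i.1)
  · refine (degC I).word_Low (d := Fintype.card KQ - 2 - parQ.Dc) ?_ s p i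
    rw [card_KQ, parQ.Dc_3]
    exact le_refl _
  · exact test_ok (domC I) (dgC I) φQ_ne s hs p c

theorem lowC (I : EndOfLine) (st : (famC I).St) : (famC I).IsWord ((famC I).sec st) :=
  (factsC I).low st

/-- The number of the values read by the test. -/
noncomputable def nQ : ℕ := Fintype.card (Fn spec.Cell (VOut spec) × Mv BQ (TY KQ))

/-- The fraction of the bad directions. -/
noncomputable def κQ : ℝ := 1 / (4 * (nQ + 1))

theorem κQ_pos : 0 < κQ := by
  unfold κQ
  positivity

/-- **Soundness of the identities.** -/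
theorem idSoundC (I : EndOfLine) : (famC I).IdSound κQ (1 / 4) := by
  have h0 := parQ.hids (n := nQ) (d1 := parQ.d') (le_refl _)
  refine mkInst_idSound (domC I) 1 (dgC I) (degC I) (genC I) (YC_add_self I)
    parQ.lamQ_pos.le (sprC I).2.2 h0.1 ?_
  rw [card_KQ, parQ.Dc_3]
  exact h0.2

theorem sound_radius : ∃ ρ₁ : ℝ, 0 < ρ₁ ∧ ρ₁ < 1 ∧
    ((Fintype.card codeQ.K * (2 * (Fintype.card codeQ.F - 1)) : ℕ) : ℝ) * ρ₁ ≤ 1 / 16 :=
  Pars.exists_rho _

/-- The radius of the sampler. -/
noncomputable def ρQ : ℝ := sound_radius.choose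

theorem ρQ_pos : 0 < ρQ := sound_radius.choose_spec.1
theorem ρQ_lt : ρQ < 1 := sound_radius.choose_spec.2.1

/-- **The facts of the local code.** -/
theorem lfactsC (I : EndOfLine) (sP : Fin 4 → (famC I).P ≃ (famC I).P)
    (sZ : Fin 4 → (famC I).Z ≃ (famC I).Z) {g : ℝ} (gapP : H855.Gap sP g)
    (gapZ : H855.Gap sZ g) : ((famC I).toLInst sP sZ (lowC I)).Facts (1 / 4) ρQ g := by
  refine (famC I).facts (factsC I) parQ.lamQ_pos.le sP sZ gapP gapZ ?_
    sound_radius.choose_spec.2.2 ?_
  · exact parQ.hlam (F := KQ) (Cell := spec.Cell) card_KQ rfl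
  · exact parQ.htheta (F := KQ) card_KQ

/-- The class of the local codes of the family. -/
def ClassC (g : ℝ) (L : LInst codeQ.spec) : Prop :=
  ∃ (I : EndOfLine) (sP : Fin 4 → (famC I).P ≃ (famC I).P)
    (sZ : Fin 4 → (famC I).Z ≃ (famC I).Z),
    H855.Gap sP g ∧ H855.Gap sZ g ∧ L = (famC I).toLInst sP sZ (lowC I)

theorem classC_mk (I : EndOfLine) (sP : Fin 4 → (famC I).P ≃ (famC I).P)
    (sZ : Fin 4 → (famC I).Z ≃ (famC I).Z) {g : ℝ} (gapP : H855.Gap sP g)
    (gapZ : H855.Gap sZ g) : ClassC g ((famC I).toLInst sP sZ (lowC I)) :=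
  ⟨I, sP, sZ, gapP, gapZ, rfl⟩

/-- **Soundness of the test.** -/
theorem testSoundC (g : ℝ) : TestSound codeQ.spec (ClassC g) := by
  refine testSound (lam := parQ.lam) (κ := κQ) (τ := 1 / 4) ?_ κQ_pos (by norm_num) _ ?_
  · rw [card_codeF]
    exact parQ.q_mul_lam
  · rintro L ⟨I, sP, sZ, -, -, rfl⟩
    exact ⟨famC I, sP, sZ, factsC I, idSoundC I, rfl⟩

/-- **Soundness of the network.** -/
theorem lsoundC {g : ℝ} (hg : g < 1) : LSound codeQ.spec (ClassC g) := by
  refine lsound (θ := 1 / 4) (ρ₁ := ρQ) (g := g) (by norm_num) ρQ_pos hg ?_ (testSoundC g)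
  rintro L ⟨I, sP, sZ, gP, gZ, rfl⟩
  exact lfactsC I sP sZ gP gZ

end Vale.Agent.P330.Q
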