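import Vale.Agent.Lib.PCP.AR.Blr

/-!
# Project Q, decoder: iterated correction

Points `P`, pads `Z`, reads `rd k : P → Z → P`. A table `s` is recovered exactly from any table close
to it by iterating: replace the value at `p` by the majority over the pads `z` of the value computed
from the reads. The hypothesis `Samp` is the sampler property of the reads (spectral gap).
-/

namespace Vale.Agent.P330.Q.Dec

open Finset PCP.AR

variable {P Z κ : Type*} [Fintype P] [Fintype Z]

/-- majority over the pads -/
def maj (f : P → Z → Bool) (p : P) : Bool :=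
  decide (Fintype.card Z < 2 * (univ.filter fun z => f p z = true).card)

/-- one round of correction -/
def round (rd : κ → P → Z → P) (f : P → Z → (κ → Bool) → Bool) (g : P → Bool) : P → Bool :=
  maj fun p z => f p z fun k => g (rd k p z)

theorem pr_eq_card' {Ω : Type*} [Fintype Ω] (p : Ω → Prop) [DecidablePred p] :
    pr p = (Finset.univ.filter p).card / Fintype.card Ω := by
  unfold pr
  congr 1
  rw [Finset.card_filter]
  push_cast
  exact Finset.sum_congr rfl fun ω _ => by congr

/-- If the majority is wrong then at least half of the pads are wrong. -/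
theorem half_le_of_maj_ne [Nonempty Z] {f : P → Z → Bool} {p : P} {b : Bool} (h : maj f p ≠ b) :
    1 / 2 ≤ pr (fun z => f p z ≠ b) := by
  classical
  have hZ : (0 : ℝ) < Fintype.card Z := by exact_mod_cast Fintype.card_pos
  cases b
  · have h1 : maj f p = true := by simpa using h
    unfold maj at h1
    rw [decide_eq_true_eq] at h1
    rw [pr_congr (r := fun z => f p z = true) (fun z => by simp), pr_eq_card',
      div_le_div_iff₀ (by norm_num) hZ]
    have h2 : ((Fintype.card Z : ℕ) : ℝ) ≤
        ((2 * (univ.filter fun z => f p z = true).card : ℕ) : ℝ) := by exact_mod_cast h1.le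
    push_cast at h2
    linarith
  · have h1 : maj f p = false := by simpa using h
    unfold maj at h1
    rw [decide_eq_false_iff_not, not_lt] at h1
    have h3 := pr_not (fun z => f p z = true)
    rw [h3, pr_eq_card']
    have h2 : ((2 * (univ.filter fun z => f p z = true).card : ℕ) : ℝ) ≤
        ((Fintype.card Z : ℕ) : ℝ) := by exact_mod_cast h1
    push_cast at h2
    have h4 : (((univ.filter fun z => f p z = true).card : ℝ)) / Fintype.card Z ≤ 1 / 2 := by
      rw [div_le_div_iff₀ hZ (by norm_num)]
      linarith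
    linarith

/-- The sampler property of the reads. -/
def Samp (rd : κ → P → Z → P) (ρ : ℝ) : Prop :=
  ∀ B : P → Prop, pr B ≤ ρ → pr (fun p => 1 / 8 ≤ pr (fun z => ∃ k, B (rd k p z))) ≤ 1 / 2 * pr B

variable {rd : κ → P → Z → P} {f : P → Z → (κ → Bool) → Bool} {s : P → Bool} {ρ : ℝ}

/-- The decoding function is right if all reads are right. -/
def Exact (rd : κ → P → Z → P) (f : P → Z → (κ → Bool) → Bool) (s : P → Bool) : Prop :=
  ∀ p z, f p z (fun k => s (rd k p z)) = s p

theorem pr_round_le [Nonempty Z] (hS : Samp rd ρ) (hf : Exact rd f s) {g : P → Bool}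
    (hg : pr (fun p => g p ≠ s p) ≤ ρ) :
    pr (fun p => round rd f g p ≠ s p) ≤ 1 / 2 * pr (fun p => g p ≠ s p) := by
  refine le_trans (pr_mono fun p hp => ?_) (hS _ hg)
  have h1 := half_le_of_maj_ne hp
  refine le_trans (by norm_num) (le_trans h1 (pr_mono fun z hz => ?_))
  by_contra hc
  push Not at hc
  apply hz
  rw [← hf p z]
  congr 1
  funext k
  exact hc k

theorem pr_iterate_le [Nonempty Z] (hS : Samp rd ρ) (hf : Exact rd f s) {g : P → Bool}
    (hg : pr (fun p => g p ≠ s p) ≤ ρ) (n : ℕ) :
    pr (fun p => (round rd f)^[n] g p ≠ s p) ≤ (1 / 2) ^ n * pr (fun p => g p ≠ s p) := by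
  induction n with
  | zero => simp
  | succ n ih =>
    rw [Function.iterate_succ_apply']
    have h0 := pr_nonneg (fun p => g p ≠ s p)
    have h1 : pr (fun p => (round rd f)^[n] g p ≠ s p) ≤ ρ := by
      refine le_trans ih (le_trans ?_ hg)
      have : ((1 : ℝ) / 2) ^ n ≤ 1 := pow_le_one₀ (by norm_num) (by norm_num)
      nlinarith
    refine le_trans (pr_round_le hS hf h1) ?_
    rw [pow_succ]
    nlinarith

theorem eq_zero_of_pr_lt {p : P → Prop} (h : pr p < 1 / Fintype.card P) (x : P) : ¬ p x := by
  classical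
  intro hx
  have hP : (0 : ℝ) < Fintype.card P := by
    exact_mod_cast Fintype.card_pos_iff.2 ⟨x⟩
  rw [pr_eq_card', div_lt_div_iff_of_pos_right hP] at h
  have h1 : 1 ≤ (univ.filter p).card := Finset.card_pos.2 ⟨x, by simpa using hx⟩
  have h2 : (1 : ℝ) ≤ (univ.filter p).card := by exact_mod_cast h1
  linarith

/-- **Exact decoding.** -/
theorem iterate_eq [Nonempty Z] (hS : Samp rd ρ) (hf : Exact rd f s) {g : P → Bool}
    (hg : pr (fun p => g p ≠ s p) ≤ ρ) (hρ : ρ < 1) {n : ℕ} (hn : Fintype.card P ≤ 2 ^ n) :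
    (round rd f)^[n] g = s := by
  funext x
  by_contra hne
  have hP : (0 : ℝ) < Fintype.card P := by
    exact_mod_cast Fintype.card_pos_iff.2 ⟨x⟩
  refine eq_zero_of_pr_lt (p := fun p => (round rd f)^[n] g p ≠ s p) ?_ x hne
  refine lt_of_le_of_lt (pr_iterate_le hS hf hg n) ?_
  have h0 := pr_nonneg (fun p => g p ≠ s p)
  have h1 : ((1 : ℝ) / 2) ^ n ≤ 1 / Fintype.card P := by
    rw [div_pow, one_pow]
    apply one_div_le_one_div_of_le hP
    exact_mod_cast hn
  have h2 : (0 : ℝ) < 1 / Fintype.card P := by positivity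
  have h3 : (0 : ℝ) < (1 / 2) ^ n := by positivity
  nlinarith

/-- The first table: majority over the pads of a bit that is right up to `ρ / 2`. -/
theorem pr_maj_le [Nonempty P] [Nonempty Z] {b : P × Z → Bool} {δ : ℝ}
    (h : pr (fun ω => b ω ≠ s ω.1) ≤ δ) :
    pr (fun p => maj (fun p z => b (p, z)) p ≠ s p) ≤ 2 * δ := by
  have h1 := mul_le_pr_prod (fun p => maj (fun p z => b (p, z)) p ≠ s p)
    (fun ω : P × Z => b ω ≠ s ω.1) (1 / 2) (fun p hp => half_le_of_maj_ne hp)
  linarith

end Vale.Agent.P330.Q.Dec
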