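import Vale.Agent.P330.Q.DecN
import Vale.Agent.P330.PTEol

/-!
# Project Q, decoder: output

The output of the decoder is the first candidate that is a solution. A candidate is a string of
bits, every bit is the parity of some bits of the corrected table of a register.
-/

namespace Vale.Agent.P330.Q.Dec

open Finset PCP.AR Vale.Agent.Lib.PolyTime Vale.Agent.P330.S

variable {κ : Type*}

/-- The first candidate that is a solution. -/
def firstSol (I : EndOfLine) (l : List κ) (bit : κ → ℕ → Bool) : List Bool :=
  match l with
  | [] => []
  | k :: l =>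
    if I.isSol ((List.range I.n).map (bit k)) = true then (List.range I.n).map (bit k)
    else firstSol I l bit

theorem firstSol_isSolution {I : EndOfLine} {l : List κ} {bit : κ → ℕ → Bool} {k : κ} (hk : k ∈ l)
    {u : ℕ → Bool} (hu : I.IsSolution ((List.range I.n).map u)) (hb : ∀ p < I.n, bit k p = u p) :
    I.IsSolution (firstSol I l bit) := by
  have e : (List.range I.n).map (bit k) = (List.range I.n).map u :=
    List.map_congr_left fun p hp => hb p (List.mem_range.1 hp)
  induction l with
  | nil => simp at hk
  | cons c l ih =>
    unfold firstSol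
    split_ifs with h
    · exact (I.isSol_iff _).1 h
    · rcases List.mem_cons.1 hk with rfl | hk
      · rw [e] at h
        exact absurd ((I.isSol_iff _).2 hu) h
      · exact ih hk

/-- The bits of a candidate: parities of `N` bits of a corrected table. -/
def candBit (N : ℕ) (pos : ℕ → ℕ → ℕ) (tab : List Bool) (p : ℕ) : Bool :=
  parity N fun b => tab.getD (pos p b) false

section PT

variable {A : Set Word} {α : Type*} [Enc α]

theorem PT_firstSol {I : α → EndOfLine} (hI : PT A I) (l : List κ) {bit : κ → α → ℕ → Bool}
    (hb : ∀ k, PT A (fun q : α × ℕ => bit k q.1 q.2)) :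
    PT A (fun a => firstSol (I a) l (fun k p => bit k a p)) := by
  have h1 : ∀ k, PT A (fun a => (List.range (I a).n).map (bit k a)) := fun k =>
    PT.map (f := fun a p => bit k a p) (PT.range (PT_eolN hI) (PBd_eolN hI)) (hb k)
  induction l with
  | nil => exact PT.const []
  | cons c l ih =>
    unfold firstSol
    exact PT.ite ((PT_isSol hI (h1 c)).congr fun a => by simp) (h1 c) ih

theorem PT_candBit {N : α → ℕ} {pos : α → ℕ → ℕ → ℕ} {tab : α → List Bool} {p : α → ℕ}
    (hN : PT A N) (hNb : PBd N) (hpos : PT A (fun q : (α × ℕ) × ℕ => pos q.1.1 q.1.2 q.2))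
    (ht : PT A tab) (hp : PT A p) :
    PT A (fun a => candBit (N a) (pos a) (tab a) (p a)) := by
  unfold candBit
  refine PT.parity (f := fun a b => (tab a).getD (pos a (p a) b) false) hN hNb ?_
  exact PT.getD (ht.comp PT.fst')
    (hpos.comp ((PT.fst'.pair (hp.comp PT.fst')).pair PT.snd')) (PT.const false)

end PT

end Vale.Agent.P330.Q.Dec
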