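import Vale.Agent.P330.Q.DecCell
import Vale.Agent.P330.Q.DecOut
import Vale.Agent.P330.Q.Fam

/-!
# Project Q, decoder: the solution

`decOut_sol`: the output of the decoder from the bits of the candidates.
`candQ`: the bits of a candidate from the exact table.
-/

namespace Vale.Agent.P330.Q

open Finset Vale.Agent.Lib.PolyTime
open S (Inst Spec parity parity_eq)
open S.Mach (spec prm Prm Good mkInst pt CellVal decOut machStmt progOk map_range_congr
  decide_cellVal Cell)

/-- **The output of the decoder.** -/
theorem decOut_sol (I : EndOfLine) {bit : Bool → ℕ → Bool} (z : Bool)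
    (w : (famQ I).J → spec.Cell) (hw : (famQ I).Valid w)
    (hs : ¬ (famQ I).Valid ((famQ I).step z w)) (h0 : z = true → w ≠ (famQ I).w0)
    (hbit : ∀ p < I.n, bit z p = decide (CellVal z (w (pt (lensQ I) p)))) :
    I.IsSolution (decOut I bit) := by
  obtain ⟨-, hS, hV⟩ := machStmt 1 (prm I) (lensQ I) (goodQ I)
  have hP := progOk I
  cases z
  · obtain ⟨u, h4, h5⟩ := hS w hw hs
    have h6 : I.IsSolution ((List.range I.n).map (bit false)) := by
      rw [map_range_congr (g := u)]
      · exact hP.solS u h5
      · intro p hp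
        rw [hbit p hp]
        exact decide_cellVal (z := false) (h4 p hp)
    unfold decOut
    rw [if_pos ((I.isSol_iff _).2 h6)]
    exact h6
  · obtain ⟨v, h4, h5, h7⟩ := hV w hw (h0 rfl) hs
    have h6 : I.IsSolution ((List.range I.n).map (bit true)) := by
      rw [map_range_congr (g := v)]
      · exact hP.solP v h5 h7
      · intro p hp
        rw [hbit p hp]
        exact decide_cellVal (z := true) (h4 p hp)
    unfold decOut
    split_ifs with h8
    · exact (I.isSol_iff _).1 h8
    · exact h6

/-! ### Sums over the cube -/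

namespace Dec

/-- the point of the cube with number `n` -/
def cubD (h n : ℕ) : Cube h := fun i => if n.testBit i.val then 1 else 0

theorem sum_cubD {M : Type*} [AddCommMonoid M] (h : ℕ) [NeZero h] (f : Cube h → M) :
    ∑ b : Cube h, f b = ∑ n ∈ Finset.range (2 ^ h), f (cubD h n) := by
  classical
  symm
  refine Finset.sum_bij (fun n _ => cubD h n) (fun n _ => Finset.mem_univ _) ?_ ?_
    (fun n _ => rfl)
  · intro n hn m hm e
    rw [Finset.mem_range] at hn hm
    apply Nat.eq_of_testBit_eq
    intro i
    by_cases hi : i < h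
    · have h1 := congrFun e (i : ZMod h)
      simp only [cubD, ZMod.val_natCast, Nat.mod_eq_of_lt hi] at h1
      cases h2 : n.testBit i <;> cases h3 : m.testBit i <;> simp [h2, h3] at h1 ⊢
    · rw [Nat.testBit_lt_two_pow (lt_of_lt_of_le hn (Nat.pow_le_pow_right (by norm_num)
        (by omega))), Nat.testBit_lt_two_pow (lt_of_lt_of_le hm (Nat.pow_le_pow_right (by norm_num)
        (by omega)))]
  · intro b _
    refine ⟨S.ofBits h (fun i => decide (b (i : ZMod h) = 1)), ?_, ?_⟩
    · exact Finset.mem_range.2 (S.ofBits_lt _ _)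
    · funext i
      simp only [cubD]
      rw [S.testBit_ofBits _ _ _ (ZMod.val_lt i), ZMod.natCast_zmod_val]
      rcases PCP.AR.zmod2_cases (b i) with h1 | h1 <;> simp [h1]

/-- All coordinates of the dual monomial of the address with number `a` are `1` at the point of the
cube with number `n`. -/
def selD (h k a n : ℕ) : Bool :=
  ((List.range k).all fun i => n.testBit (2 * i + (!a.testBit i).toNat)) &&
  ((List.range h).all fun l => decide (l < 2 * k) || n.testBit l)

theorem cubD_eq_one {h : ℕ} (n : ℕ) (i : ZMod h) : cubD h n i = 1 ↔ n.testBit i.val = true := by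
  unfold cubD
  cases n.testBit i.val <;> simp

theorem selD_iff {h k : ℕ} [NeZero h] (hk : 2 * k ≤ h) (a n : ℕ) :
    selD h k a n = true ↔ ∀ i ∈ dualS h (univ : Finset (Fin 1))
      (fun _ => (fun i => a.testBit i : Addr k)), cubD h n i = 1 := by
  unfold selD dualS
  simp only [Bool.and_eq_true, List.all_eq_true, List.mem_range, Bool.or_eq_true,
    decide_eq_true_eq, Finset.mem_union, Finset.mem_biUnion, Finset.mem_univ, true_and, if_true,
    cubD_eq_one]
  constructor
  · rintro ⟨h1, h2⟩ i (⟨t, hi⟩ | hi)
    · unfold muS at hi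
      simp only [Finset.mem_image, Finset.mem_univ, true_and] at hi
      obtain ⟨j, rfl⟩ := hi
      have ht : (t : ℕ) = 0 := by omega
      have hlt : posN k (t : ℕ) j (!a.testBit j) < h := by
        unfold posN
        rw [ht]
        have := j.2
        have : (!a.testBit (j : ℕ)).toNat ≤ 1 := Bool.toNat_le _
        omega
      rw [ZMod.val_natCast, Nat.mod_eq_of_lt hlt]
      have h3 := h1 j j.2
      unfold posN
      rw [ht, mul_zero, zero_add]
      exact h3
    · unfold restS at hi
      simp only [Finset.mem_filter, Finset.mem_univ, true_and] at hi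
      rcases h2 i.val (ZMod.val_lt i) with h3 | h3
      · omega
      · exact h3
  · intro h1
    constructor
    · intro i hi
      have h2 := h1 ((posN k ((0 : Fin 1) : ℕ) i (!a.testBit i) : ℕ) : ZMod h)
        (Or.inl ⟨0, by
          unfold muS
          exact Finset.mem_image.2 ⟨⟨i, hi⟩, Finset.mem_univ _, rfl⟩⟩)
      have hlt : posN k ((0 : Fin 1) : ℕ) i (!a.testBit i) < h := by
        unfold posN
        have : (!a.testBit i).toNat ≤ 1 := Bool.toNat_le _
        simp only [Fin.isValue, Fin.coe_ofNat_eq_mod, Nat.zero_mod]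
        omega
      rw [ZMod.val_natCast, Nat.mod_eq_of_lt hlt] at h2
      unfold posN at h2
      simpa using h2
    · intro l hl
      by_cases h3 : l < 2 * k
      · exact Or.inl h3
      · right
        have h2 := h1 (l : ZMod h) (Or.inr (by
          unfold restS
          simp only [Finset.mem_filter, Finset.mem_univ, true_and]
          rw [ZMod.val_natCast, Nat.mod_eq_of_lt hl]
          omega))
        rwa [ZMod.val_natCast, Nat.mod_eq_of_lt hl] at h2

/-- The content of the cell with address `a`, from the table `tab`; `pos n` is the number of the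
point of the table that belongs to the point of the cube with number `n`. -/
def cellBit (h k : ℕ) (pos : ℕ → ℕ) (tab : List Bool) (a : ℕ) : Bool :=
  parity (2 ^ h) fun n => selD h k a n && tab.getD (pos n) false

theorem b_of_decide (x : ZMod 2) : (if decide (x = 1) = true then (1 : ZMod 2) else 0) = x := by
  rcases PCP.AR.zmod2_cases x with h | h <;> subst h <;> simp

/-- **The content of a cell.** -/
theorem cellBit_eq {F : Type*} [Field F] {h : ℕ} [NeZero h] {Y : Type*} [AddCommGroup Y]
    [CharP F 2] {S : Spec} {r k : ℕ} (D : ESys F h Y) (hk : 2 * k ≤ h) (φ : F →+ ZMod 2) {γ : F}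
    (hγ : φ γ = 1) (I : Inst S r) (ε : I.J ≃ Addr k) (w : I.J → S.Cell) (P : S.Cell → Prop)
    [DecidablePred P] (a : I.J) {an : ℕ} (ha : ε a = fun i : Fin k => an.testBit (i : ℕ)) {pos : ℕ → ℕ}
    {tab : List Bool}
    (hpos : ∀ n < 2 ^ h, tab.getD (pos n) false =
      decide (φ (γ * ∑ e, if P e then D.code (arr I ε w e) (D.ι (cubD h n)) else 0) = 1)) :
    cellBit h k pos tab an = decide (P (w a)) := by
  unfold cellBit
  rw [parity_eq]
  have h1 := cell_parity D hk φ hγ I ε w P a
  rw [sum_cubD] at h1
  have h2 : (∑ n ∈ Finset.range (2 ^ h), (if (selD h k an n && tab.getD (pos n) false) = true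
      then (1 : ZMod 2) else 0)) = if P (w a) then 1 else 0 := by
    rw [← h1]
    refine Finset.sum_congr rfl fun n hn => ?_
    rw [hpos n (Finset.mem_range.1 hn), ha]
    by_cases h3 : selD h k an n = true
    · rw [if_pos ((selD_iff hk an n).1 h3), h3, Bool.true_and, b_of_decide]
    · rw [if_neg (fun h4 => h3 ((selD_iff hk an n).2 h4))]
      have h5 : selD h k an n = false := by simpa using h3
      rw [h5, Bool.false_and]
      simp
  rw [h2]
  by_cases hP : P (w a) <;> simp [hP]

/-! ### Polynomial time -/

section PT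

variable {A : Set Word} {α : Type} [Enc α]

theorem PT_selD {h k a n : α → ℕ} (hh : PT A h) (hhb : PBd h) (hk : PT A k) (hkb : PBd k)
    (ha : PT A a) (hn : PT A n) : PT A (fun x => selD (h x) (k x) (a x) (n x)) := by
  unfold selD
  refine PT.and ?_ ?_
  · refine PT.all (f := fun x i => (n x).testBit (2 * i + (!(a x).testBit i).toNat))
      (PT.range hk hkb) ?_
    refine PT.testBit (hn.comp PT.fst') (PT.add (PT.mul (PT.const 2) PT.snd') ?_)
    exact (PT.cond (PT.testBit (ha.comp PT.fst') PT.snd') (PT.const 0) (PT.const 1)).congr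
      fun x => by cases (a x.1).testBit x.2 <;> rfl
  · refine PT.all (f := fun x l => decide (l < 2 * k x) || (n x).testBit l)
      (PT.range hh hhb) ?_
    exact PT.or (PT.lt PT.snd' (PT.mul (PT.const 2) (hk.comp PT.fst')))
      (PT.testBit (hn.comp PT.fst') PT.snd')

theorem PT_cellBit {h k a : α → ℕ} {pos : α → ℕ → ℕ} {tab : α → List Bool} (hh : PT A h)
    (hhb : PBd fun x => 2 ^ h x) (hk : PT A k) (hkb : PBd k) (ha : PT A a)
    (hpos : PT A (fun q : α × ℕ => pos q.1 q.2)) (ht : PT A tab) :
    PT A (fun x => cellBit (h x) (k x) (pos x) (tab x) (a x)) := by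
  have hhb' : PBd h := hhb.mono fun _ => Nat.lt_two_pow_self.le
  unfold cellBit
  refine S.PT.parity (f := fun x n => selD (h x) (k x) (a x) n && (tab x).getD (pos x n) false)
    (PT.pow (PT.const 2) hh hhb') hhb ?_
  exact PT.and (PT_selD (hh.comp PT.fst') (hhb'.comp (A := A) PT.fst') (hk.comp PT.fst')
    (hkb.comp (A := A) PT.fst') (ha.comp PT.fst') PT.snd')
    (PT.getD (ht.comp PT.fst') hpos (PT.const false))

end PT

/-- The decoder: `tab z` the corrected table of the register `z`, `pos z n` the number of the point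
`((0, ι (cubD h n)), cellFun z (CellVal z) γ)`, `ad p` the number of the address of the cell `p`. -/
def decodeQ (I : EndOfLine) (h k : ℕ) (pos : Bool → ℕ → ℕ) (tab : Bool → List Bool)
    (ad : ℕ → ℕ) : List Bool :=
  decOut I fun z p => cellBit h k (pos z) (tab z) (ad p)

theorem PT_decodeQ {A : Set Word} {α : Type} [Enc α] {I : α → EndOfLine} {h k : α → ℕ}
    {pos : α → Bool → ℕ → ℕ} {tab : α → Bool → List Bool} {ad : α → ℕ → ℕ} (hI : PT A I)
    (hh : PT A h) (hhb : PBd fun x => 2 ^ h x) (hk : PT A k) (hkb : PBd k)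
    (hpos : ∀ z, PT A (fun q : α × ℕ => pos q.1 z q.2)) (ht : ∀ z, PT A (fun x => tab x z))
    (had : PT A (fun q : α × ℕ => ad q.1 q.2)) :
    PT A (fun x => decodeQ (I x) (h x) (k x) (pos x) (tab x) (ad x)) := by
  unfold decodeQ
  refine S.Mach.PT_decOut (bit := fun z x p => cellBit (h x) (k x) (pos x z) (tab x z) (ad x p))
    hI fun z => ?_
  exact PT_cellBit (α := α × ℕ) (pos := fun q => pos q.1 z) (tab := fun q => tab q.1 z)
    (hh.comp PT.fst') (hhb.comp (A := A) PT.fst') (hk.comp PT.fst') (hkb.comp (A := A) PT.fst')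
    had ((hpos z).comp (PT.fst'.fst.pair PT.snd')) ((ht z).comp PT.fst')

end Dec

end Vale.Agent.P330.Q
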