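import Vale.Agent.P330.Q.Final
import Vale.Agent.P330.Q.DecFin
import Vale.Agent.P330.Q.LowFacts

/-!
# Project Q, decoder: assembly

`Reads`: what the exact table of a revealing word tells about the machine.
`decodes_of_reads`: the decoder in the form of `Final.lean`.
-/

namespace Vale.Agent.P330.Q.Dec

open Finset PCP.AR Vale.Agent.Lib.PolyTime
open S (Inst Spec)
open S.Mach (spec prm pt CellVal decOut)

/-- the bits of a register -/
def regBit (K : ℕ) (rt : ℕ) (xs : List ℚ) (s : ℕ) : Bool := decide (1 / 2 < xs.getD (s * K + rt) 0)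

theorem regBit_eq (K rt : ℕ) (xs : List ℚ) (s : ℕ) :
    regBit K rt xs s = decide (1 / 2 < val xs (s * K + rt)) := by
  unfold regBit
  have h2 : (1 / 2 < xs.getD (s * K + rt) 0) ↔ (1 / 2 < val xs (s * K + rt)) := by
    unfold val
    rw [← Rat.cast_lt (K := ℝ)]
    push_cast
    rfl
  rw [decide_eq_decide.2 h2]

variable {N : LSpec} {fam : EndOfLine → LInst N}

/-- What the exact table `tab` of a revealing word tells. -/
def Reads (E : Nums N fam) (m : ℕ) (c0 : N.C) (h k : EndOfLine → ℕ)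
    (pos : EndOfLine → Bool → ℕ → ℕ) (ad : EndOfLine → ℕ → ℕ) : Prop :=
  ∀ a : EndOfLine, m ≤ (eolW a).length → ∀ z w, (fam a).Valid w → ¬ (fam a).Valid ((fam a).step z w) →
    (z = true → w ≠ (fam a).w0) →
    ∃ c : (famQ a).J → spec.Cell, (famQ a).Valid c ∧ ¬ (famQ a).Valid ((famQ a).step z c) ∧
      (z = true → c ≠ (famQ a).w0) ∧
      ∀ tab : List Bool, (∀ p, tab.getD (E.eP a p) false = (fam a).cod w c0 p) →
        ∀ p < a.n, cellBit (h a) (k a) (pos a z) tab (ad a p) =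
          decide (CellVal z (c (pt (lensQ a) p)))

/-- The decoder. -/
noncomputable def decD (E : Nums N fam) (c0 : N.C) (h k : EndOfLine → ℕ)
    (pos : EndOfLine → Bool → ℕ → ℕ) (ad : EndOfLine → ℕ → ℕ) (K : ℕ) (root : Bool → N.C → ℕ)
    (q : EndOfLine × List ℚ) : Raw :=
  Raw.mk (decodeQ q.1 (h q.1) (k q.1) (pos q.1)
    (fun z => decTab N (E.NP q.1) (E.NZ q.1) (Nat.size (E.NP q.1)) (E.rdN q.1) (E.cbN q.1)
      (fun c s => regBit K (root z c) q.2 s) c0) (ad q.1))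

theorem PT_decD (E : Nums N fam) (c0 : N.C) {h k : EndOfLine → ℕ}
    {pos : EndOfLine → Bool → ℕ → ℕ} {ad : EndOfLine → ℕ → ℕ} (K : ℕ) (root : Bool → N.C → ℕ)
    (hh : PT ∅ h) (hhb : PBd fun x => 2 ^ h x) (hk : PT ∅ k) (hkb : PBd k)
    (hpos : ∀ z, PT ∅ (fun q : EndOfLine × ℕ => pos q.1 z q.2))
    (had : PT ∅ (fun q : EndOfLine × ℕ => ad q.1 q.2)) :
    PT ∅ (decD E c0 h k pos ad K root) := by
  classical
  unfold decD
  refine PT.rawOfList ?_
  have hx : PT ∅ (fun q : EndOfLine × List ℚ => q.2) := PT.snd'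
  refine PT_decodeQ (I := fun q : EndOfLine × List ℚ => q.1)
    (pos := fun q : EndOfLine × List ℚ => pos q.1)
    (ad := fun q : EndOfLine × List ℚ => ad q.1) PT.fst' (hh.comp PT.fst')
    (hhb.comp (A := ∅) PT.fst') (hk.comp PT.fst') (hkb.comp (A := ∅) PT.fst')
    (fun z => (hpos z).comp (PT.fst'.fst.pair PT.snd')) (fun z => ?_)
    (had.comp (PT.fst'.fst.pair PT.snd'))
  refine OfTM2.PT_apply (F := fun q : EndOfLine × List ℚ => decTab N (E.NP q.1) (E.NZ q.1)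
    (Nat.size (E.NP q.1)) (E.rdN q.1) (E.cbN q.1) (fun c s => regBit K (root z c) q.2 s)) ?_ c0
  refine PT_decTab (NP := fun q : EndOfLine × List ℚ => E.NP q.1)
    (NZ := fun q : EndOfLine × List ℚ => E.NZ q.1)
    (n := fun q : EndOfLine × List ℚ => Nat.size (E.NP q.1))
    (rdN := fun q : EndOfLine × List ℚ => E.rdN q.1)
    (cbN := fun q : EndOfLine × List ℚ => E.cbN q.1)
    (bN := fun (q : EndOfLine × List ℚ) c s => regBit K (root z c) q.2 s)
    (E.ptP.comp PT.fst') (E.bdP.comp (A := ∅) PT.fst') (E.ptZ.comp PT.fst')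
    (E.bdZ.comp (A := ∅) PT.fst') (PT.natSize (E.ptP.comp PT.fst'))
    ((E.bdP.comp (A := ∅) PT.fst').mono fun q => Nat.size_le.2 Nat.lt_two_pow_self)
    (fun R => (E.rdN_pt R).comp (PT.fst'.fst.pair PT.snd'))
    (fun R => (E.cbN_pt R).comp (PT.fst'.fst.pair PT.snd')) (fun c => ?_)
  unfold regBit
  exact S.PT_halfLt (PT.getD (hx.comp PT.fst')
    (PT.add (PT.mul PT.snd' (PT.const K)) (PT.const _)) (PT.const 0))

/-- **The decoder.** -/
theorem decodes_of_reads (E : Nums N fam) (m : ℕ) (c0 : N.C) {ρ₁ : ℝ}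
    (hρ0 : 0 < ρ₁) (hρ1 : ρ₁ < 1)
    (hF : ∀ a : EndOfLine, m ≤ (eolW a).length → ∃ θ g, (fam a).Facts θ ρ₁ g)
    {h k : EndOfLine → ℕ} {pos : EndOfLine → Bool → ℕ → ℕ} {ad : EndOfLine → ℕ → ℕ}
    (hR : Reads E m c0 h k pos ad)
    (hh : PT ∅ h) (hhb : PBd fun x => 2 ^ h x) (hk : PT ∅ k) (hkb : PBd k)
    (hpos : ∀ z, PT ∅ (fun q : EndOfLine × ℕ => pos q.1 z q.2))
    (had : PT ∅ (fun q : EndOfLine × ℕ => ad q.1 q.2)) : Decodes E m := by
  refine ⟨ρ₁ / 2, by linarith, fun K root => ⟨decD E c0 h k pos ad K root,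
    PT_decD E c0 K root hh hhb hk hkb hpos had, ?_⟩⟩
  intro a ha xs ε x hε hx hrev
  obtain ⟨θ, g, F⟩ := hF a ha
  have key : ∀ z w, (fam a).Valid w → (fam a).Near ε (ρ₁ / 2) x z w →
      ¬ (fam a).Valid ((fam a).step z w) → (z = true → w ≠ (fam a).w0) →
      a.IsSolution (decD E c0 h k pos ad K root (a, xs)).w := by
    intro z w hw hnear hs h0
    obtain ⟨c, hc1, hc2, hc3, hc4⟩ := hR a ha z w hw hs h0
    show a.IsSolution (decOut a fun z p => cellBit (h a) (k a) (pos a z) (decTab N (E.NP a)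
      (E.NZ a) (Nat.size (E.NP a)) (E.rdN a) (E.cbN a)
      (fun c s => regBit K (root z c) xs s) c0) (ad a p))
    refine decOut_sol a z c hc1 hc2 hc3 fun p hp => ?_
    refine hc4 _ (fun p => ?_) p hp
    refine F.decTab_correct hρ1 (E.eP a) (E.eZ a) (E.rdN_eq a) (E.cbN_eq a) (x := x) (z := z)
      (w := w) (by linarith) hnear (by linarith) (fun c ω => ?_) (Nat.lt_size_self _).le c0 p
    rw [regBit_eq, hx z c ω]
    rfl
  rcases hrev with ⟨w, h1, h2, h3⟩ | ⟨w, h1, h2, h3, h4⟩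
  · exact key false w h1 h2 h3 (fun h => absurd h (by simp))
  · exact key true w h1 h3 h4 fun _ => h2

end Vale.Agent.P330.Q.Dec
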