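import Vale.Agent.P330.Q.ExtSys
import Vale.Agent.P330.Q.Pub
import Vale.Agent.P330.Q.State

/-!
# Project Q, decoder: contents of the cells from the exact table

`cellFun σ P γ`: the functional that reads `γ ∑ e, [P e] W σ e`.  `cell_parity`: the parity over the
points of the cube (with all coordinates of the dual monomial equal to `1`) of these bits tells
whether `P (w a)`.
-/

namespace Vale.Agent.P330.Q

open Finset Vale.Agent.P330.S

section functional

variable {F Cell V : Type*} [Field F] [Fintype Cell] [DecidableEq Cell] [Fintype V]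
  [DecidableEq V] {h : ℕ}

/-- The functional that reads `γ ∑ e, [P e] W σ e`. -/
def cellFun (σ : Bool) (P : Cell → Prop) [DecidablePred P] (γ : F) : Comp Cell V h → F
  | .W σ' e => if σ' = σ ∧ P e then γ else 0
  | _ => 0

theorem sum_cellFun (σ : Bool) (P : Cell → Prop) [DecidablePred P] (γ : F)
    (g : Comp Cell V h → F) :
    ∑ k, cellFun σ P γ k * g k = γ * ∑ e, if P e then g (.W σ e) else 0 := by
  rw [Finset.mul_sum]
  symm
  apply Fintype.sum_of_injective (fun e : Cell => (Comp.W σ e : Comp Cell V h))
  · intro e e' h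
    simpa using h
  · intro k hk
    cases k with
    | W σ' e =>
      have : σ' ≠ σ := by
        rintro rfl
        exact hk ⟨e, rfl⟩
      simp [cellFun, this]
    | S _ _ _ => simp [cellFun]
    | T _ _ => simp [cellFun]
    | rel => simp [cellFun]
  · intro e
    by_cases he : P e
    · simp [cellFun, he]
    · simp [cellFun, he]

end functional

section cell

variable {F : Type*} [Field F] {h : ℕ} [NeZero h] {Y : Type*} [AddCommGroup Y] [CharP F 2]
  {S : Spec} {r k : ℕ}

/-- **The contents of the cells.** -/
theorem cell_parity (D : ESys F h Y) (hk : 2 * k ≤ h) (φ : F →+ ZMod 2) {γ : F} (hγ : φ γ = 1)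
    (I : Inst S r) (ε : I.J ≃ Addr k) (w : I.J → S.Cell) (P : S.Cell → Prop) [DecidablePred P]
    (a : I.J) :
    (∑ b : Cube h, if ∀ i ∈ dualS h (univ : Finset (Fin 1)) (fun _ => ε a), b i = 1 then
      φ (γ * ∑ e, if P e then D.code (arr I ε w e) (D.ι b) else 0) else 0) =
      if P (w a) then 1 else 0 := by
  classical
  have h1 : ∀ b : Cube h, (if ∀ i ∈ dualS h (univ : Finset (Fin 1)) (fun _ => ε a), b i = 1 then
      φ (γ * ∑ e, if P e then D.code (arr I ε w e) (D.ι b) else 0) else 0) =
      φ (γ * ∑ e, if P e then mon F (dualS h (univ : Finset (Fin 1)) (fun _ => ε a)) b *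
        D.code (arr I ε w e) (D.ι b) else 0) := by
    intro b
    rw [mon_eq]
    split_ifs with h1
    · simp
    · simp
  rw [Finset.sum_congr rfl fun b _ => h1 b, ← map_sum, ← Finset.mul_sum, Finset.sum_comm]
  have h2 : ∀ e, (∑ b : Cube h, if P e then
      mon F (dualS h (univ : Finset (Fin 1)) (fun _ => ε a)) b *
        D.code (arr I ε w e) (D.ι b) else 0) = if P e then (arr I ε w e (ε a) : F) else 0 := by
    intro e
    split_ifs with he
    · exact D.rd1_code hk (arr I ε w e) (ε a)
    · simp
  rw [Finset.sum_congr rfl fun e _ => h2 e]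
  have h3 : (∑ e, if P e then (arr I ε w e (ε a) : F) else 0) = if P (w a) then 1 else 0 := by
    rw [Finset.sum_eq_single (w a)]
    · simp [arr, onehot]
    · intro e _ he
      simp [arr, onehot, Ne.symm he]
    · intro hh
      exact absurd (Finset.mem_univ _) hh
  rw [h3]
  split_ifs with hP
  · rw [mul_one, hγ]
  · rw [mul_zero, map_zero]

end cell

end Vale.Agent.P330.Q
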