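import Vale.Agent.P330.S.AE
import Vale.Agent.P330.S.Mux

/-!
# Networks over an abstract local code

`LSpec` is the finite data of a local code: which bits are read, and the Boolean functions which
compute the corrected bit (`hF`), the bit of the next / previous configuration (`aF`) and the test
(`tF`).  `LInst` is an instance: points `P`, pads `Z`, the maps of the sites `P × Z`, the
configurations and their codes.  `LInst.Facts` is everything that has to be known of the code,
apart from the soundness of the test (`TestSound`).  `LSound` is the soundness of the network.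
-/

namespace Vale.Agent.P330.Q

open Finset PCP.AR
open S (BitDef MDef Sem IsB Tst Ctl target MuxI)

/-- Finite data of a local code. -/
structure LSpec where
  /-- the bits of the table at a point -/
  C : Type
  fC : Fintype C
  dC : DecidableEq C
  /-- names of maps of sites -/
  Rd : Type
  /-- names of hard-wired bits -/
  CB : Type
  /-- reads of `h` and `a` -/
  K : Type
  fK : Fintype K
  KB : Type
  fKB : Fintype KB
  /-- reads of the test -/
  TK : Type
  fTK : Fintype TK
  TB : Type
  fTB : Fintype TB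
  /-- the name of the identity -/
  self : Rd
  /-- the code of the start configuration -/
  start : C → CB
  rd : K → Rd × C
  cb : KB → CB
  tRd : TK → Rd × C
  tCB : TB → CB
  /-- the corrected bit -/
  hF : C → (K → Bool) → (KB → Bool) → Bool
  /-- the bit of the successor (`false`) or of the predecessor (`true`) -/
  aF : Bool → C → (K → Bool) → (KB → Bool) → Bool
  /-- the test fails -/
  tF : (TK → Bool) → (TB → Bool) → Bool

attribute [instance] LSpec.fC LSpec.dC LSpec.fK LSpec.fKB LSpec.fTK LSpec.fTB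

/-- The registers. -/
inductive LReg (C : Type)
  /-- what is written into the register `z` -/
  | m (z : Bool) (c : C)
  /-- its average over the pads -/
  | p (z : Bool) (c : C)
  /-- thresholds `1/2`, `1/4`, `3/4` of `p` -/
  | x (z : Bool) (c : C)
  | lo (z : Bool) (c : C)
  | hi (z : Bool) (c : C)
  /-- corrected read -/
  | h (z : Bool) (c : C)
  /-- corrected read of the next configuration -/
  | a (z : Bool) (c : C)
  /-- tests -/
  | t (k : Tst)
  | ta (k : Tst)
  | tf (k : Tst)
  /-- the three control bits, their averages and thresholds -/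
  | q (i : Fin 3)
  | qa (i : Fin 3)
  | th (i : Fin 3) (l : Fin 5)

variable (N : LSpec)

/-- Inputs of `h` and `a`. -/
def inpK (z : Bool) : N.K ⊕ N.KB → (N.Rd × LReg N.C) ⊕ N.CB
  | .inl k => .inl ((N.rd k).1, .x z (N.rd k).2)
  | .inr b => .inr (N.cb b)

/-- Definition of `h z c`. -/
def hDef (z : Bool) (c : N.C) : BitDef (LReg N.C) N.Rd N.CB where
  ι := N.K ⊕ N.KB
  fι := inferInstance
  inp := inpK N z
  f y := N.hF c (fun k => y (.inl k)) fun b => y (.inr b)

/-- Definition of `a z c`. -/
def aDef (z : Bool) (c : N.C) : BitDef (LReg N.C) N.Rd N.CB where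
  ι := N.K ⊕ N.KB
  fι := inferInstance
  inp := inpK N z
  f y := N.aF z c (fun k => y (.inl k)) fun b => y (.inr b)

/-- Definition of `m z c`: start if `s < 1/6`; otherwise `X` holds if `b < 2/3` and `Y` holds if
`b > 1/3`; otherwise copy the other register if `a < 1/2`; otherwise step of the other
register. -/
def muxDef (z : Bool) (c : N.C) : BitDef (LReg N.C) N.Rd N.CB where
  ι := MuxI
  fι := inferInstance
  inp
    | .s1 => .inl (N.self, .th 2 0)
    | .bsel => .inl (N.self, .th 1 (if z then 1 else 3))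
    | .asel => .inl (N.self, .th 0 2)
    | .start => .inr (N.start c)
    | .hold => .inl (N.self, .h z c)
    | .other => .inl (N.self, .h (!z) c)
    | .next => .inl (N.self, .a (!z) c)
  f y := if y .s1 = false then y .start
    else if y .bsel = z then y .hold
    else if y .asel = false then y .other
    else y .next

/-- Inputs of the test. -/
def inpT (z : Bool) : (Bool × N.C) ⊕ (N.TK ⊕ N.TB) → (N.Rd × LReg N.C) ⊕ N.CB
  | .inl p => .inl (N.self, if p.1 then .hi z p.2 else .lo z p.2)
  | .inr (.inl k) => .inl ((N.tRd k).1, .x z (N.tRd k).2)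
  | .inr (.inr b) => .inr (N.tCB b)

open Classical in
/-- Definition of `t (T z)`: flags, and the test of the code. -/
noncomputable def tDef (z : Bool) : BitDef (LReg N.C) N.Rd N.CB where
  ι := (Bool × N.C) ⊕ (N.TK ⊕ N.TB)
  fι := inferInstance
  inp := inpT N z
  f y := decide ((∃ c, y (.inl (false, c)) = true ∧ y (.inl (true, c)) = false) ∨
    N.tF (fun k => y (.inr (.inl k))) (fun b => y (.inr (.inr b))) = true)

open Classical in
/-- Comparison of two families of bits. -/
noncomputable def cmpDef (u v : N.C → (N.Rd × LReg N.C) ⊕ N.CB) :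
    BitDef (LReg N.C) N.Rd N.CB where
  ι := Bool × N.C
  fι := inferInstance
  inp p := if p.1 then v p.2 else u p.2
  f y := decide (∃ c, y (false, c) ≠ y (true, c))

/-- Definition of the tests. -/
noncomputable def tstDef : Tst → BitDef (LReg N.C) N.Rd N.CB
  | .T z => tDef N z
  | .E0 => cmpDef N (fun c => .inl (N.self, .x false c)) (fun c => .inl (N.self, .x true c))
  | .E1 => cmpDef N (fun c => .inl (N.self, .x true c)) (fun c => .inl (N.self, .a false c))
  | .D z => cmpDef N (fun c => .inl (N.self, .x z c)) (fun c => .inr (N.start c))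

/-- Definition of the control bits. -/
def qDef (i : Fin 3) : BitDef (LReg N.C) N.Rd N.CB where
  ι := (Fin 3 × Fin 5) ⊕ Tst
  fι := inferInstance
  inp
    | .inl p => .inl (N.self, .th p.1 p.2)
    | .inr k => .inl (N.self, .tf k)
  f y :=
    let c : Ctl := ⟨fun i l => y (.inl (i, l)), fun k => y (.inr k)⟩
    target c.th c.v (c.sg false) (c.sg true) i

/-- The network (with the threshold `τ` for the tests). -/
noncomputable def net (τ : ℚ) : LReg N.C → MDef (LReg N.C) N.Rd N.CB
  | .m z c => .bit (muxDef N z c)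
  | .p z c => .ra false (.m z c)
  | .x z c => .thr (1 / 2) (.p z c)
  | .lo z c => .thr (1 / 4) (.p z c)
  | .hi z c => .thr (3 / 4) (.p z c)
  | .h z c => .bit (hDef N z c)
  | .a z c => .bit (aDef N z c)
  | .t k => .bit (tstDef N k)
  | .ta k => .ra true (.t k)
  | .tf k => .thr τ (.ta k)
  | .q i => .bit (qDef N i)
  | .qa i => .ra true (.q i)
  | .th i l => .thr (((l : ℕ) + 1 : ℚ) / 6) (.qa i)

/-! ### Instances -/

/-- An instance of a local code: points, pads, maps of sites, hard-wired bits, expanders,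
configurations and their codes. -/
structure LInst (N : LSpec) where
  /-- points -/
  P : Type
  fP : Fintype P
  nP : Nonempty P
  /-- pads -/
  Z : Type
  fZ : Fintype Z
  nZ : Nonempty Z
  rd : N.Rd → P × Z → P × Z
  cb : N.CB → P × Z → Bool
  sP : Fin 4 → P ≃ P
  sZ : Fin 4 → Z ≃ Z
  /-- configurations -/
  Cf : Type
  Valid : Cf → Prop
  w0 : Cf
  /-- successor (`false`), predecessor (`true`) -/
  step : Bool → Cf → Cf
  /-- the code of a configuration -/
  cod : Cf → N.C → P → Bool

attribute [instance] LInst.fP LInst.nP LInst.fZ LInst.nZ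

variable {N}

/-- sites -/
abbrev LInst.Site (I : LInst N) : Type := I.P × I.Z

/-- The semantics of the network. -/
def LInst.sem (I : LInst N) : Sem N.Rd N.CB I.Site where
  rd := I.rd
  cb := I.cb
  nb k ω := if h : (k : ℕ) < 4 then (ω.1, I.sZ ⟨k, h⟩ ω.2)
    else (I.sP ⟨k - 4, by omega⟩ ω.1, ω.2)

/-- What has to be known of the code. -/
structure LInst.Facts (I : LInst N) (θ ρ₁ g : ℝ) : Prop where
  rd_bij : ∀ R, Function.Bijective (I.rd R)
  rd_self : ∀ ω, I.rd N.self ω = ω
  gapP : H855.Gap I.sP g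
  gapZ : H855.Gap I.sZ g
  valid0 : I.Valid I.w0
  inv : ∀ z w, I.Valid w → I.Valid (I.step z w) → I.step (!z) (I.step z w) = w
  start : ¬ I.Valid (I.step true I.w0)
  start_cb : ∀ c ω, I.cb (N.start c) ω = I.cod I.w0 c ω.1
  /-- distance -/
  dist : ∀ w w', w ≠ w' → ∃ c, θ ≤ pr fun p : I.P => I.cod w c p ≠ I.cod w' c p
  /-- the reads of `h` and `a` mix -/
  samp : ∀ B : I.P → Prop, pr B ≤ ρ₁ →
    pr (fun p : I.P => 1 / 8 ≤ pr fun z : I.Z => ∃ k : N.K, B (I.rd (N.rd k).1 (p, z)).1) ≤
      1 / 2 * pr B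
  /-- corrected reads of codes are right -/
  h_ok : ∀ w c ω, N.hF c (fun k => I.cod w (N.rd k).2 (I.rd (N.rd k).1 ω).1)
    (fun b => I.cb (N.cb b) ω) = I.cod w c ω.1
  /-- steps of valid codes are right -/
  a_ok : ∀ z w, I.Valid w → ∀ c ω,
    N.aF z c (fun k => I.cod w (N.rd k).2 (I.rd (N.rd k).1 ω).1)
      (fun b => I.cb (N.cb b) ω) = I.cod (I.step z w) c ω.1
  /-- valid codes pass the test -/
  t_ok : ∀ w, I.Valid w → ∀ ω, N.tF (fun k => I.cod w (N.tRd k).2 (I.rd (N.tRd k).1 ω).1)
    (fun b => I.cb (N.tCB b) ω) = false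

/-- The test of the code fails for the table `f` at the site `ω`. -/
def LInst.TFail (I : LInst N) (f : N.C → I.P → Bool) (ω : I.Site) : Prop :=
  N.tF (fun k => f (N.tRd k).2 (I.rd (N.tRd k).1 ω).1) (fun b => I.cb (N.tCB b) ω) = true

/-- Soundness of the test, for a class of instances. -/
def TestSound (N : LSpec) (Q : LInst N → Prop) : Prop :=
  ∀ ρ : ℝ, 0 < ρ → ∃ κ : ℝ, 0 < κ ∧ ∀ I : LInst N, Q I → ∀ f : N.C → I.P → Bool,
    pr (I.TFail f) ≤ κ →
      ∃ w, I.Valid w ∧ pr (fun p : I.P => ∃ c, f c p ≠ I.cod w c p) ≤ ρ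

/-- The values `x` obey the network, except for a small fraction of the sites. -/
def LInst.Obeys (I : LInst N) (τ : ℚ) (ε lam β : ℝ) (x : LReg N.C → I.Site → ℝ) : Prop :=
  (∀ ρ ω, 0 ≤ x ρ ω ∧ x ρ ω ≤ 1) ∧
  ∀ ρ, pr (fun ω : I.Site => ¬ (net N τ ρ).Rel I.sem ε lam x ρ ω) ≤ β

/-- The content of the register `z` is `ρ₀`-near the code of `w`. -/
def LInst.Near (I : LInst N) (ε ρ₀ : ℝ) (x : LReg N.C → I.Site → ℝ) (z : Bool) (w : I.Cf) :
    Prop :=
  pr (fun ω : I.Site => ∃ c : N.C, ¬ IsB ε (I.cod w c ω.1) (x (.x z c) ω)) ≤ ρ₀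

/-- **Soundness of the network**, for a class of instances. -/
def LSound (N : LSpec) (Q : LInst N → Prop) : Prop :=
  ∀ ρ₀ : ℝ, 0 < ρ₀ →
    ∃ τ : ℚ, 0 < τ ∧ τ < 1 ∧ ∃ lam : ℚ, 0 < lam ∧ lam < 1 ∧ ∃ ε₀ : ℚ, 0 < ε₀ ∧ ε₀ < 1 / 100 ∧
    ∃ β : ℝ, 0 < β ∧ ∀ I : LInst N, Q I → ∀ x : LReg N.C → I.Site → ℝ,
      I.Obeys τ ε₀ lam β x →
      (∃ w, I.Valid w ∧ I.Near ε₀ ρ₀ x false w ∧ ¬ I.Valid (I.step false w)) ∨
      (∃ w, I.Valid w ∧ w ≠ I.w0 ∧ I.Near ε₀ ρ₀ x true w ∧ ¬ I.Valid (I.step true w))

end Vale.Agent.P330.Q
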