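import Vale.Agent.P330.Q.DecN
import Vale.Agent.P330.Q.Net
import Vale.Agent.Lib.PolyTime.OfTM2

/-!
# Project Q, decoder for the network over an abstract local code

The content of a register is corrected by iterating the corrected reads of the network: the value
at a point is replaced by the majority over the pads of the corrected read.
* `LInst.fix_iterate`: the exact code after `log₂` of the number of points rounds.
* `decTab`: the decoder on numbers; `decTab_correct`; `PT_decTab`.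
-/

namespace Vale.Agent.P330.Q

open Finset PCP.AR Vale.Agent.Lib.PolyTime Vale.Agent.Lib.PolyTime.OfTM2 Vale.Agent.P330.S
open Dec (maj half_le_of_maj_ne countP_eq_card)

variable {N : LSpec}

/-- One round of correction of a table. -/
def LInst.fix (I : LInst N) (g : N.C → I.P → Bool) (c : N.C) : I.P → Bool :=
  maj (fun p z => N.hF c (fun k => g (N.rd k).2 (I.rd (N.rd k).1 (p, z)).1)
    (fun b => I.cb (N.cb b) (p, z)))

theorem LInst.Facts.pr_fix_le {I : LInst N} {θ ρ₁ g₁ : ℝ} (F : I.Facts θ ρ₁ g₁) (w : I.Cf)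
    {g : N.C → I.P → Bool} (hg : pr (fun p : I.P => ∃ c, g c p ≠ I.cod w c p) ≤ ρ₁) :
    pr (fun p : I.P => ∃ c, I.fix g c p ≠ I.cod w c p) ≤
      1 / 2 * pr (fun p : I.P => ∃ c, g c p ≠ I.cod w c p) := by
  refine le_trans (pr_mono fun p hp => ?_) (F.samp _ hg)
  obtain ⟨c, hc⟩ := hp
  have h1 := half_le_of_maj_ne hc
  refine le_trans (by norm_num) (le_trans h1 (pr_mono fun z hz => ?_))
  by_contra hcon
  apply hz
  rw [← F.h_ok w c (p, z)]
  congr 1
  funext k
  by_contra hk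
  exact hcon ⟨k, (N.rd k).2, hk⟩

theorem LInst.Facts.pr_iterate_le {I : LInst N} {θ ρ₁ g₁ : ℝ} (F : I.Facts θ ρ₁ g₁) (w : I.Cf)
    {g : N.C → I.P → Bool} (hg : pr (fun p : I.P => ∃ c, g c p ≠ I.cod w c p) ≤ ρ₁) (n : ℕ) :
    pr (fun p : I.P => ∃ c, I.fix^[n] g c p ≠ I.cod w c p) ≤
      (1 / 2) ^ n * pr (fun p : I.P => ∃ c, g c p ≠ I.cod w c p) := by
  induction n with
  | zero => simp
  | succ n ih =>
    rw [Function.iterate_succ_apply']
    have h0 := pr_nonneg (fun p : I.P => ∃ c, g c p ≠ I.cod w c p)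
    have h1 : pr (fun p : I.P => ∃ c, I.fix^[n] g c p ≠ I.cod w c p) ≤ ρ₁ := by
      refine le_trans ih (le_trans ?_ hg)
      have : ((1 : ℝ) / 2) ^ n ≤ 1 := pow_le_one₀ (by norm_num) (by norm_num)
      nlinarith
    refine le_trans (F.pr_fix_le w h1) ?_
    rw [pow_succ]
    nlinarith

/-- **Exact decoding.** -/
theorem LInst.Facts.fix_iterate {I : LInst N} {θ ρ₁ g₁ : ℝ} (F : I.Facts θ ρ₁ g₁) (hρ : ρ₁ < 1)
    (w : I.Cf) {g : N.C → I.P → Bool}
    (hg : pr (fun p : I.P => ∃ c, g c p ≠ I.cod w c p) ≤ ρ₁) {n : ℕ}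
    (hn : Fintype.card I.P ≤ 2 ^ n) : I.fix^[n] g = I.cod w := by
  funext c p
  by_contra hne
  have hP : (0 : ℝ) < Fintype.card I.P := by exact_mod_cast Fintype.card_pos
  refine Dec.eq_zero_of_pr_lt (p := fun p => ∃ c, I.fix^[n] g c p ≠ I.cod w c p) ?_ p ⟨c, hne⟩
  refine lt_of_le_of_lt (F.pr_iterate_le w hg n) ?_
  have h0 := pr_nonneg (fun p : I.P => ∃ c, g c p ≠ I.cod w c p)
  have h1 : ((1 : ℝ) / 2) ^ n ≤ 1 / Fintype.card I.P := by
    rw [div_pow, one_pow]
    apply one_div_le_one_div_of_le hP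
    exact_mod_cast hn
  have h2 : (0 : ℝ) < 1 / Fintype.card I.P := by positivity
  have h3 : (0 : ℝ) < (1 / 2) ^ n := by positivity
  nlinarith

/-- The first table. -/
theorem LInst.pr_maj_le (I : LInst N) {s : N.C → I.P → Bool} {b : N.C → I.Site → Bool} {δ : ℝ}
    (h : pr (fun ω : I.Site => ∃ c, b c ω ≠ s c ω.1) ≤ δ) :
    pr (fun p : I.P => ∃ c, maj (fun p z => b c (p, z)) p ≠ s c p) ≤ 2 * δ := by
  have h1 := mul_le_pr_prod (fun p => ∃ c, maj (fun p z => b c (p, z)) p ≠ s c p)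
    (fun ω : I.P × I.Z => ∃ c, b c ω ≠ s c ω.1) (1 / 2) (fun p hp => by
      obtain ⟨c, hc⟩ := hp
      exact le_trans (half_le_of_maj_ne hc) (pr_mono fun z hz => ⟨c, hz⟩))
  linarith

/-! ### On numbers -/

/-- majorities over the pads, as a list -/
def majL (NP NZ : ℕ) (b : ℕ → Bool) : List Bool :=
  (List.range NP).map fun p => decide (NZ < 2 * (List.range NZ).countP fun z => b (p * NZ + z))

/-- One round of correction of a table, on numbers. -/
def fixN (N : LSpec) (NP NZ : ℕ) (rdN : N.Rd → ℕ → ℕ) (cbN : N.CB → ℕ → Bool)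
    (l : N.C → List Bool) (c : N.C) : List Bool :=
  majL NP NZ fun s => N.hF c (fun k => (l (N.rd k).2).getD (rdN (N.rd k).1 s / NZ) false)
    (fun b => cbN (N.cb b) s)

/-- The decoder: the corrected table. `bN c s` are the bits of the register at the site `s`. -/
def decTab (N : LSpec) (NP NZ n : ℕ) (rdN : N.Rd → ℕ → ℕ) (cbN : N.CB → ℕ → Bool)
    (bN : N.C → ℕ → Bool) : N.C → List Bool :=
  (fixN N NP NZ rdN cbN)^[n] fun c => majL NP NZ (bN c)

section meaning

variable (I : LInst N) {NP NZ : ℕ} (eP : I.P ≃ Fin NP) (eZ : I.Z ≃ Fin NZ)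

/-- a table as a list -/
def LInst.tabOf (g : I.P → Bool) : List Bool := List.ofFn fun i => g (eP.symm i)

theorem LInst.tabOf_getD (g : I.P → Bool) (p : I.P) :
    (I.tabOf eP g).getD (eP p : ℕ) false = g p := by
  unfold LInst.tabOf
  rw [List.getD_eq_getElem?_getD, List.getElem?_ofFn]
  simp

/-- the number of a site -/
def LInst.num (ω : I.Site) : ℕ := (eP ω.1 : ℕ) * NZ + (eZ ω.2 : ℕ)

theorem LInst.num_div (ω : I.Site) : I.num eP eZ ω / NZ = (eP ω.1 : ℕ) := by
  unfold LInst.num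
  have hZ : 0 < NZ := lt_of_le_of_lt (Nat.zero_le _) (eZ ω.2).2
  rw [add_comm, Nat.add_mul_div_right _ _ hZ, Nat.div_eq_of_lt (eZ ω.2).2, zero_add]

theorem LInst.majL_eq {bN : ℕ → Bool} {b : I.Site → Bool} (h : ∀ ω, bN (I.num eP eZ ω) = b ω) :
    majL NP NZ bN = I.tabOf eP (maj fun p z => b (p, z)) := by
  unfold majL LInst.tabOf
  rw [List.ofFn_eq_map, ← List.map_coe_finRange_eq_range (n := NP), List.map_map]
  refine List.map_congr_left fun i _ => ?_
  simp only [Function.comp]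
  unfold maj
  have hc : Fintype.card I.Z = NZ := by
    rw [Fintype.card_congr eZ, Fintype.card_fin]
  rw [hc, countP_eq_card eZ (fun z => b (eP.symm i, z)) (fun z => bN ((i : ℕ) * NZ + z))]
  intro z
  rw [← h]
  unfold LInst.num
  rw [eP.apply_symm_apply]

variable {rdN : N.Rd → ℕ → ℕ} {cbN : N.CB → ℕ → Bool}
  (hrd : ∀ R ω, rdN R (I.num eP eZ ω) = I.num eP eZ (I.rd R ω))
  (hcb : ∀ κ ω, cbN κ (I.num eP eZ ω) = I.cb κ ω)

include hrd hcb in
theorem LInst.fixN_eq (g : N.C → I.P → Bool) :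
    fixN N NP NZ rdN cbN (fun c => I.tabOf eP (g c)) = fun c => I.tabOf eP (I.fix g c) := by
  funext c
  unfold fixN LInst.fix
  rw [I.majL_eq eP eZ (b := fun ω => N.hF c (fun k => g (N.rd k).2 (I.rd (N.rd k).1 ω).1)
    (fun b => I.cb (N.cb b) ω))]
  intro ω
  congr 1
  · funext k
    rw [hrd, I.num_div, I.tabOf_getD]
  · funext b
    rw [hcb]

include hrd hcb in
theorem LInst.decTab_eq {bN : N.C → ℕ → Bool} {b : N.C → I.Site → Bool}
    (hb : ∀ c ω, bN c (I.num eP eZ ω) = b c ω) (n : ℕ) :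
    decTab N NP NZ n rdN cbN bN =
      fun c => I.tabOf eP (I.fix^[n] (fun c => maj fun p z => b c (p, z)) c) := by
  unfold decTab
  have h0 : (fun c => majL NP NZ (bN c)) =
      fun c => I.tabOf eP ((fun c => maj fun p z => b c (p, z)) c) := by
    funext c
    exact I.majL_eq eP eZ (hb c)
  rw [h0]
  generalize (fun c => maj fun p z => b c (p, z)) = g
  induction n generalizing g with
  | zero => rfl
  | succ n ih =>
    rw [Function.iterate_succ_apply, Function.iterate_succ_apply, I.fixN_eq eP eZ hrd hcb, ih]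

omit hrd hcb in
/-- **The decoder finds the exact code.** -/
theorem LInst.Facts.decTab_correct {θ ρ₁ g₁ : ℝ} {I : LInst N} (F : I.Facts θ ρ₁ g₁)
    (hρ : ρ₁ < 1) {NP NZ : ℕ} (eP : I.P ≃ Fin NP) (eZ : I.Z ≃ Fin NZ)
    {rdN : N.Rd → ℕ → ℕ} {cbN : N.CB → ℕ → Bool}
    (hrd : ∀ R ω, rdN R (I.num eP eZ ω) = I.num eP eZ (I.rd R ω))
    (hcb : ∀ κ ω, cbN κ (I.num eP eZ ω) = I.cb κ ω)
    {x : LReg N.C → I.Site → ℝ} {z : Bool} {w : I.Cf} {ε ρ₀ : ℝ}
    (hε : ε < 1 / 2) (hN : I.Near ε ρ₀ x z w) (hρ₀ : 2 * ρ₀ ≤ ρ₁)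
    {bN : N.C → ℕ → Bool} (hb : ∀ c ω, bN c (I.num eP eZ ω) = decide (1 / 2 < x (.x z c) ω))
    {n : ℕ} (hn : NP ≤ 2 ^ n) (c : N.C) (p : I.P) :
    (decTab N NP NZ n rdN cbN bN c).getD (eP p) false = I.cod w c p := by
  have h1 : pr (fun p : I.P => ∃ c, maj (fun p z' => decide (1 / 2 < x (.x z c) (p, z'))) p ≠
      I.cod w c p) ≤ ρ₁ := by
    refine le_trans (I.pr_maj_le (b := fun c ω => decide (1 / 2 < x (.x z c) ω))
      (s := I.cod w) (δ := ρ₀) ?_) hρ₀
    refine le_trans (pr_mono fun ω hω => ?_) hN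
    obtain ⟨c, hc⟩ := hω
    exact ⟨c, fun h1 => hc (IsB.half hε h1)⟩
  have h2 := F.fix_iterate hρ w (g := fun c => maj fun p z' => decide (1 / 2 < x (.x z c) (p, z')))
    h1 (n := n) (by rw [Fintype.card_congr eP, Fintype.card_fin]; exact hn)
  have h3 := I.decTab_eq eP eZ hrd hcb (b := fun c ω => decide (1 / 2 < x (.x z c) ω)) hb n
  have h4 := I.tabOf_getD eP (I.cod w c) p
  rw [h3, h2]
  exact h4

end meaning

/-! ### Polynomial time -/

section PT

variable {A : Set Word} {α : Type} [Enc α]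

theorem PT_majL {NP NZ : α → ℕ} {b : α → ℕ → Bool} (hP : PT A NP) (hPb : PBd NP)
    (hZ : PT A NZ) (hZb : PBd NZ) (hb : PT A (fun q : α × ℕ => b q.1 q.2)) :
    PT A (fun a => majL (NP a) (NZ a) (b a)) := by
  unfold majL
  refine PT.map (f := fun a p => decide (NZ a < 2 * (List.range (NZ a)).countP
    fun z => b a (p * NZ a + z))) (PT.range hP hPb) ?_
  refine PT.lt (hZ.comp PT.fst') (PT.mul (PT.const 2) ?_)
  refine PT.countP (f := fun (q : α × ℕ) z => b q.1 (q.2 * NZ q.1 + z))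
    (PT.range (hZ.comp PT.fst') (hZb.comp (A := A) PT.fst')) ?_
  exact hb.comp (PT.fst'.fst.pair
    (PT.add (PT.mul PT.fst'.snd (hZ.comp PT.fst'.fst)) PT.snd'))

theorem length_majL (NP NZ : ℕ) (b : ℕ → Bool) : (majL NP NZ b).length = NP := by
  unfold majL
  rw [List.length_map, List.length_range]

theorem PT_fixN {NP NZ : α → ℕ} {rdN : α → N.Rd → ℕ → ℕ} {cbN : α → N.CB → ℕ → Bool}
    {l : α → N.C → List Bool} (hP : PT A NP) (hPb : PBd NP) (hZ : PT A NZ) (hZb : PBd NZ)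
    (hrd : ∀ R, PT A (fun q : α × ℕ => rdN q.1 R q.2))
    (hcb : ∀ R, PT A (fun q : α × ℕ => cbN q.1 R q.2)) (hl : PT A l) :
    PT A (fun a => fixN N (NP a) (NZ a) (rdN a) (cbN a) (l a)) := by
  classical
  refine PT_pi (K := N.C) (F := fun a => fixN N (NP a) (NZ a) (rdN a) (cbN a) (l a)) fun c => ?_
  unfold fixN
  refine PT_majL (b := fun a s => N.hF c
    (fun k => (l a (N.rd k).2).getD (rdN a (N.rd k).1 s / NZ a) false)
    (fun b => cbN a (N.cb b) s)) hP hPb hZ hZb ?_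
  exact PT_boolFn (ι := N.K ⊕ N.KB) (f := fun i (q : α × ℕ) => Sum.elim
    (fun k => (l q.1 (N.rd k).2).getD (rdN q.1 (N.rd k).1 q.2 / NZ q.1) false)
    (fun b => cbN q.1 (N.cb b) q.2) i) (fun i => by
      rcases i with k | b
      · exact PT.getD (PT_apply (hl.comp PT.fst') _)
          (PT.div (hrd _) (hZ.comp PT.fst')) (PT.const false)
      · exact hcb _) (fun y => N.hF c (fun k => y (.inl k)) fun b => y (.inr b))

/-- **The decoder runs in polynomial time.** -/
theorem PT_decTab {NP NZ n : α → ℕ} {rdN : α → N.Rd → ℕ → ℕ} {cbN : α → N.CB → ℕ → Bool}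
    {bN : α → N.C → ℕ → Bool} (hP : PT A NP) (hPb : PBd NP) (hZ : PT A NZ) (hZb : PBd NZ)
    (hn : PT A n) (hnb : PBd n)
    (hrd : ∀ R, PT A (fun q : α × ℕ => rdN q.1 R q.2))
    (hcb : ∀ R, PT A (fun q : α × ℕ => cbN q.1 R q.2))
    (hb : ∀ c, PT A (fun q : α × ℕ => bN q.1 c q.2)) :
    PT A (fun a => decTab N (NP a) (NZ a) (n a) (rdN a) (cbN a) (bN a)) := by
  unfold decTab
  have hsize : ∀ a (l : N.C → List Bool), (∀ c, (l c).length = NP a) →
      esize l ≤ Fintype.card N.C * (6 * NP a + 1) := by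
    intro a l hl
    rw [esize_pi]
    refine (Finset.sum_le_sum fun c _ => (?_ : 2 * esize (l c) + 1 ≤ 6 * NP a + 1)).trans ?_
    · have := Dec.esize_bools_le (l c)
      rw [hl c] at this
      omega
    · rw [Finset.sum_const, Finset.card_univ, smul_eq_mul]
  have hi : PT A (fun a (c : N.C) => majL (NP a) (NZ a) (bN a c)) :=
    PT_pi (K := N.C) (F := fun a c => majL (NP a) (NZ a) (bN a c))
      fun c => PT_majL hP hPb hZ hZb (hb c)
  refine PT.iterate' hn hnb hi
    (step := fun a l => fixN N (NP a) (NZ a) (rdN a) (cbN a) l)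
    (PT_fixN (α := α × (N.C → List Bool)) (rdN := fun q => rdN q.1) (cbN := fun q => cbN q.1)
      (hP.comp PT.fst') (hPb.comp (A := A) PT.fst') (hZ.comp PT.fst')
      (hZb.comp (A := A) PT.fst')
      (fun k => (hrd k).comp (PT.fst'.fst.pair PT.snd'))
      (fun k => (hcb k).comp (PT.fst'.fst.pair PT.snd')) PT.snd')
    (b := fun a => Fintype.card N.C * (6 * NP a + 1))
    ((PBd.const _).mul (((PBd.const 6).mul hPb).add (PBd.const 1))) fun a j _ => ?_
  apply hsize a
  cases j with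
  | zero => exact fun c => length_majL _ _ _
  | succ j =>
    rw [Function.iterate_succ_apply']
    exact fun c => length_majL _ _ _

end PT

end Vale.Agent.P330.Q
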