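import Vale.Agent.P330.Q.Inst
import Vale.Agent.P330.Q.Dom
import Vale.Agent.P330.Q.LowFacts
import Vale.Agent.P330.Q.DecNet
import Vale.Agent.P330.Q.DecFin

/-!
# Project Q, decoder: the concrete instance

`reveal_word`: a valid word without valid next word reveals a configuration of the machine that is
a solution.  `cod_cellFun`: the bits of its table at the points used by the decoder.
`decode_isSolution`: **the decoder finds a solution.**
-/

namespace Vale.Agent.P330.Q.Dec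

open Finset
open S (Inst Spec)
open S.Mach (spec prm pt CellVal decOut)

section general

variable {F : Type} [Field F] [Fintype F] [DecidableEq F] [CharP F 2] {Cell V : Type}
  [Fintype Cell] [DecidableEq Cell] [Fintype V] [DecidableEq V]
  {B h : ℕ} {Y X : Type} [AddCommGroup Y] [Fintype Y] [DecidableEq Y]
  {φ : F →+ ZMod 2} {hφ : φ ≠ 0} {Dg : ℕ} {hD : Fintype.card F ≤ 2 * Dg + 1}
  {hD2 : Dg + 2 ≤ Fintype.card F} {T : THalf} {ι : Type} [Fintype ι] [Nonempty ι]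
  {M : Dom F h B Y Cell V X} {l₁ : F} {TI : TInst T F Y Cell V h}
  {r : ι → F →+ Y × Y} {h2 : ∀ y : Y, y + y = 0} {lam : ℝ}

/-- A valid word without valid next word is the word of a state whose full side reveals a
configuration. -/
theorem reveal_word
    (hF : (mkInst M l₁ TI r h2 : CInst (mkCode Cell V B φ hφ Dg hD hD2 T)).CFacts lam)
    {sP} {sZ} (z : Bool)
    (w : ((mkInst M l₁ TI r h2 : CInst (mkCode Cell V B φ hφ Dg hD hD2 T)).toLInst sP sZ
      hF.low).Cf)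
    (hw : LInst.Valid _ w) (hs : ¬ LInst.Valid _ (LInst.step _ z w))
    (h0 : z = true → w ≠ LInst.w0 _) :
    ∃ st : St X, w.1 = M.word st ∧ M.D.Valid (st.base z) ∧ ¬ M.D.Valid (M.D.step z (st.base z)) ∧
      (z = true → st.base z ≠ M.D.w0) := by
  obtain ⟨w, hlow⟩ := w
  obtain ⟨st, hst, hw1⟩ := hw
  simp only at hw1
  subst hw1
  have hs' : ¬ M.D.VE (h + 1) (M.D.stepE (h + 1) z st) := by
    intro hv
    apply hs
    exact ⟨_, hv, CInst.wstep_eq _ hF z hst⟩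
  obtain ⟨-, -, -, h4, -, h6⟩ := Dyn.not_ve_stepE (Nat.succ_pos h) hst hs'
  refine ⟨st, rfl, h4, h6, ?_⟩
  rintro rfl hb
  have h5 : st ≠ M.D.st0 (h + 1) := by
    rintro rfl
    exact h0 rfl rfl
  exact (Dyn.reveal_true (Nat.succ_pos h) hst h5 hs').2.1 hb

/-- The bit of a word for the functional `cellFun`. -/
theorem cod_cellFun
    {low : ∀ st, (mkInst M l₁ TI r h2 : CInst (mkCode Cell V B φ hφ Dg hD hD2 T)).IsWord
      ((mkInst M l₁ TI r h2 : CInst (mkCode Cell V B φ hφ Dg hD hD2 T)).sec st)}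
    {sP} {sZ} (z : Bool)
    (w : ((mkInst M l₁ TI r h2 : CInst (mkCode Cell V B φ hφ Dg hD hD2 T)).toLInst sP sZ low).Cf)
    {st : St X} (hw : w.1 = M.word st) (P : Cell → Prop) [DecidablePred P] (γ : F) (p : Y × Y) :
    LInst.cod _ w () (p, cellFun z P γ) =
      decide (φ (γ * ∑ e, if P e then M.cd (st.base z) e p.2 else 0) = 1) := by
  have h7 : ∑ j, cellFun z P γ j * M.word st p j =
      γ * ∑ e, if P e then M.cd (st.base z) e p.2 else 0 := sum_cellFun z P γ _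
  have key : ∀ f : Y × Y → Comp Cell V h → F, f = M.word st →
      decide (φ (∑ j, cellFun z P γ j * f p j) = 1) =
      decide (φ (γ * ∑ e, if P e then M.cd (st.base z) e p.2 else 0) = 1) := by
    rintro f rfl
    rw [h7]
  exact key w.1 hw

end general

section

variable {F : Type} [Field F] [CharP F 2] {B h k : ℕ} [NeZero h]
  {Y : Type} [AddCommGroup Y] {Sp : Spec} {r' : ℕ} (D : ESys F h Y) (J : Inst Sp r')
  (hJ : Vale.Agent.P330.S.Facts J) (σ : PSlot Sp ≃ Fin B) (ε : J.J ≃ Addr k) (hB : 2 * k * B ≤ h) (hk : 2 * k ≤ h)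

theorem dom_Valid : (dom D J hJ σ ε hB hk).D.Valid = J.Valid := rfl

theorem dom_step : (dom D J hJ σ ε hB hk).D.step = J.step := rfl

theorem dom_w0 : (dom D J hJ σ ε hB hk).D.w0 = J.w0 := rfl

theorem dom_cd : (dom D J hJ σ ε hB hk).cd = fun w e => D.code (arr J ε w e) := rfl

end

section

variable {F : Type} [Field F] [Fintype F] [DecidableEq F] [CharP F 2] {B h k : ℕ} [NeZero h]
  {Y : Type} [AddCommGroup Y] [Fintype Y] [DecidableEq Y] [DecidableEq (VOut spec)]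
  {φ : F →+ ZMod 2} {hφ : φ ≠ 0} {Dg : ℕ} {hD : Fintype.card F ≤ 2 * Dg + 1}
  {hD2 : Dg + 2 ≤ Fintype.card F} {T : THalf} {ι : Type} [Fintype ι] [Nonempty ι]
  {I : EndOfLine} {D : ESys F h Y} {σ : PSlot spec ≃ Fin B} {ε : (famQ I).J ≃ Addr k}
  {hB : 2 * k * B ≤ h} {hk : 2 * k ≤ h} {l₁ : F}
  {TI : TInst T F Y spec.Cell (VOut spec) h} {r : ι → F →+ Y × Y} {h2 : ∀ y : Y, y + y = 0}
  {lam : ℝ}

/-- **The exact table of a revealing word.** -/
theorem reads_inst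
    (hF : (mkInst (dom D (famQ I) (famQ_facts I) σ ε hB hk) l₁ TI r h2 :
      CInst (mkCode spec.Cell (VOut spec) B φ hφ Dg hD hD2 T)).CFacts lam)
    {sP} {sZ} {NP : ℕ} (eP : LInst.P ((mkInst (dom D (famQ I) (famQ_facts I) σ ε hB hk)
      l₁ TI r h2 : CInst (mkCode spec.Cell (VOut spec) B φ hφ Dg hD hD2 T)).toLInst sP sZ
      hF.low) ≃ Fin NP) {γ : F} (hγ : φ γ = 1) {pos : Bool → ℕ → ℕ}
    (hpos : ∀ z, ∀ m < 2 ^ h, pos z m =
      (eP ((0, D.ι (cubD h m)), cellFun z (CellVal z) γ) : ℕ))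
    {ad : ℕ → ℕ} (had : ∀ p < I.n, ε (pt (lensQ I) p) = fun i : Fin k => (ad p).testBit (i : ℕ))
    (z : Bool)
    (w : ((mkInst (dom D (famQ I) (famQ_facts I) σ ε hB hk) l₁ TI r h2 :
      CInst (mkCode spec.Cell (VOut spec) B φ hφ Dg hD hD2 T)).toLInst sP sZ hF.low).Cf)
    (hw : LInst.Valid _ w) (hs : ¬ LInst.Valid _ (LInst.step _ z w))
    (h0 : z = true → w ≠ LInst.w0 _) :
    ∃ c : (famQ I).J → spec.Cell, (famQ I).Valid c ∧ ¬ (famQ I).Valid ((famQ I).step z c) ∧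
      (z = true → c ≠ (famQ I).w0) ∧
      ∀ tab : List Bool, (∀ p, tab.getD (eP p) false = LInst.cod _ w () p) →
        ∀ p < I.n, cellBit h k (pos z) tab (ad p) =
          decide (CellVal z (c (pt (lensQ I) p))) := by
  obtain ⟨st, hst, hc1, hc2, hc3⟩ := reveal_word hF z w hw hs h0
  rw [dom_Valid] at hc1
  rw [dom_Valid, dom_step] at hc2
  rw [dom_w0] at hc3
  refine ⟨st.base z, hc1, hc2, hc3, fun tab htab p hp => ?_⟩
  refine cellBit_eq D hk φ hγ (famQ I) ε (st.base z) (CellVal z) (pt (lensQ I) p) (had p hp)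
    (fun m hm => ?_)
  rw [hpos z m hm]
  have h1 := htab ((0, D.ι (cubD h m)), cellFun z (CellVal z) γ)
  have h2 := cod_cellFun z w hst (CellVal z) γ (0, D.ι (cubD h m))
  rw [dom_cd] at h2
  exact h1.trans h2

/-- **The decoder finds a solution.** -/
theorem decode_isSolution
    (hF : (mkInst (dom D (famQ I) (famQ_facts I) σ ε hB hk) l₁ TI r h2 :
      CInst (mkCode spec.Cell (VOut spec) B φ hφ Dg hD hD2 T)).CFacts lam)
    {sP} {sZ} {θ ρ₁ g₁ : ℝ}
    (F1 : ((mkInst (dom D (famQ I) (famQ_facts I) σ ε hB hk) l₁ TI r h2 :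
      CInst (mkCode spec.Cell (VOut spec) B φ hφ Dg hD hD2 T)).toLInst sP sZ hF.low).Facts θ ρ₁ g₁)
    (hρ : ρ₁ < 1) {NP NZ : ℕ} (eP : LInst.P ((mkInst (dom D (famQ I) (famQ_facts I) σ ε hB hk)
      l₁ TI r h2 : CInst (mkCode spec.Cell (VOut spec) B φ hφ Dg hD hD2 T)).toLInst sP sZ
      hF.low) ≃ Fin NP) (eZ : LInst.Z ((mkInst (dom D (famQ I) (famQ_facts I) σ ε hB hk)
      l₁ TI r h2 : CInst (mkCode spec.Cell (VOut spec) B φ hφ Dg hD hD2 T)).toLInst sP sZ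
      hF.low) ≃ Fin NZ)
    {rdN : (mkCode spec.Cell (VOut spec) B φ hφ Dg hD hD2 T).spec.Rd → ℕ → ℕ}
    {cbN : (mkCode spec.Cell (VOut spec) B φ hφ Dg hD hD2 T).spec.CB → ℕ → Bool}
    (hrd : ∀ R ω, rdN R (LInst.num _ eP eZ ω) = LInst.num _ eP eZ (LInst.rd _ R ω))
    (hcb : ∀ κ ω, cbN κ (LInst.num _ eP eZ ω) = LInst.cb _ κ ω)
    {x : LReg (mkCode spec.Cell (VOut spec) B φ hφ Dg hD hD2 T).spec.C →
      ((mkInst (dom D (famQ I) (famQ_facts I) σ ε hB hk) l₁ TI r h2 :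
      CInst (mkCode spec.Cell (VOut spec) B φ hφ Dg hD hD2 T)).toLInst sP sZ hF.low).Site → ℝ}
    {ε₀ ρ₀ : ℝ} (hε : ε₀ < 1 / 2) (hρ₀ : 2 * ρ₀ ≤ ρ₁)
    {bN : Bool → Unit → ℕ → Bool}
    (hb : ∀ z c ω, bN z c (LInst.num _ eP eZ ω) = decide (1 / 2 < x (.x z c) ω))
    {n : ℕ} (hn : NP ≤ 2 ^ n) {γ : F} (hγ : φ γ = 1) {pos : Bool → ℕ → ℕ}
    (hpos : ∀ z, ∀ m < 2 ^ h, pos z m =
      (eP ((0, D.ι (cubD h m)), cellFun z (CellVal z) γ) : ℕ))
    {ad : ℕ → ℕ} (had : ∀ p < I.n, ε (pt (lensQ I) p) = fun i : Fin k => (ad p).testBit (i : ℕ))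
    (hN : (∃ w, LInst.Valid _ w ∧ LInst.Near _ ε₀ ρ₀ x false w ∧
        ¬ LInst.Valid _ (LInst.step _ false w)) ∨
      (∃ w, LInst.Valid _ w ∧ w ≠ LInst.w0 _ ∧ LInst.Near _ ε₀ ρ₀ x true w ∧
        ¬ LInst.Valid _ (LInst.step _ true w))) :
    I.IsSolution (decodeQ I h k pos
      (fun z => decTab (mkCode spec.Cell (VOut spec) B φ hφ Dg hD hD2 T).spec NP NZ n rdN cbN
        (bN z) ()) ad) := by
  have key : ∀ z w, LInst.Valid _ w → LInst.Near _ ε₀ ρ₀ x z w →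
      ¬ LInst.Valid _ (LInst.step _ z w) → (z = true → w ≠ LInst.w0 _) →
      I.IsSolution (decodeQ I h k pos
        (fun z => decTab (mkCode spec.Cell (VOut spec) B φ hφ Dg hD hD2 T).spec NP NZ n rdN cbN
          (bN z) ()) ad) := by
    intro z w hw hnear hs h0
    obtain ⟨st, hst, hc1, hc2, hc3⟩ := reveal_word hF z w hw hs h0
    rw [dom_Valid] at hc1
    rw [dom_Valid, dom_step] at hc2
    rw [dom_w0] at hc3
    unfold decodeQ
    refine decOut_sol I z (st.base z) hc1 hc2 hc3 fun p hp => ?_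
    refine cellBit_eq D hk φ hγ (famQ I) ε (st.base z) (CellVal z) (pt (lensQ I) p) (had p hp)
      (fun m hm => ?_)
    rw [hpos z m hm]
    have h1 := F1.decTab_correct hρ eP eZ hrd hcb (x := x) (z := z) (w := w) hε hnear hρ₀
      (bN := bN z) (hb z) hn () ((0, D.ι (cubD h m)), cellFun z (CellVal z) γ)
    rw [h1]
    have h2 := cod_cellFun z w hst (CellVal z) γ (0, D.ι (cubD h m))
    rw [dom_cd] at h2
    exact h2
  rcases hN with ⟨w, h1, h2, h3⟩ | ⟨w, h1, h2, h3, h4⟩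
  · exact key false w h1 h2 h3 (fun h => absurd h (by simp))
  · exact key true w h1 h3 h4 fun _ => h2

end

end Vale.Agent.P330.Q.Dec
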