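import Vale.Agent.P330.Q.SitesDef
import Vale.Agent.P330.Q.SitesDir
import Vale.Agent.P330.Q.NumComp
import Vale.Agent.P330.Q.DecInst
import Vale.Agent.P330.Q.DecAsm
import Vale.Agent.P330.Q.CbFam

/-!
# Project Q, decoder: the numbers of the points of the table used by the decoder
-/

namespace Vale.Agent.P330.Q.Dec

open Finset Vale.Agent.Lib.PolyTime
open S (Inst Spec)
open S.Mach (spec prm pt CellVal decOut)

theorem cubD_eq_cub (h n : ℕ) : cubD h n = cub h n := rfl

section defs

variable (K Cell V : Type) [Field K] [CharP K 2] [Fintype K] [Fintype Cell] [DecidableEq Cell]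
  [Fintype V] [DecidableEq V]

/-- The number of the functional `cellFun z P γ`. -/
noncomputable def cfN (h : ℕ) (z : Bool) (P : Cell → Prop) [DecidablePred P] (γ : K) : ℕ :=
  fnum (nC Cell V h) fun n => cellFun z P γ (decK h n : Comp Cell V h)

/-- The number of the point of the table at the point number `m` of the cube. -/
noncomputable def posN (h : ℕ) (z : Bool) (P : Cell → Prop) [DecidablePred P] (γ : K) (m : ℕ) :
    ℕ :=
  (iotaN K h 0 * cY K h + iotaN K h m) * Fintype.card K ^ nC Cell V h + cfN K Cell V h z P γ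

end defs

section val

variable {N : Code} {I : CInst N} (n : CNum I)

theorem cE_val (dec : ℕ → I.R) (hdec : ∀ r, dec (n.eR r) = r) (c : I.E) :
    (n.cE c : ℕ) = fnum n.nR fun i => c (dec i) := by
  show (numT N.F n.nR (fun i => c (n.eR.symm i)) : ℕ) = _
  rw [← numT_fn]
  congr 2
  funext i
  rw [← hdec (n.eR.symm i), Equiv.apply_symm_apply]

theorem eP_val (y : I.Y) (c : I.E) :
    (n.eP (y, c) : ℕ) = n.eY y * n.Qc + n.cE c := by
  show ((finProdFinEquiv (n.eY y, n.cE c) : Fin (n.nY * n.Qc)) : ℕ) = _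
  rw [finProdFinEquiv_apply_val]
  ring

end val

section inst

variable {F : Type} [Field F] [Fintype F] [DecidableEq F] [CharP F 2] {Cell V : Type}
  [Fintype Cell] [DecidableEq Cell] [Fintype V] [DecidableEq V]
  {B h : ℕ} [NeZero h] [Fintype (YY F h)] [DecidableEq (YY F h)] {X : Type}
  {φ : F →+ ZMod 2} {hφ : φ ≠ 0} {Dg : ℕ} {hD : Fintype.card F ≤ 2 * Dg + 1}
  {hD2 : Dg + 2 ≤ Fintype.card F} {T : THalf} {ι : Type} [Fintype ι] [Nonempty ι]
  {M : Dom F h B (YY F h) Cell V X} {l₁ : F} {TI : TInst T F (YY F h) Cell V h}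
  {r : ι → F →+ YY F h × YY F h} {h2 : ∀ y : YY F h, y + y = 0}

/-- **The number of a point used by the decoder.** -/
theorem posN_eq (n : CNum (mkInst M l₁ TI r h2 : CInst (mkCode Cell V B φ hφ Dg hD hD2 T)))
    (hY : ∀ y : YY F h × YY F h, (n.eY y : ℕ) = eYY F h y)
    (hnR : n.nR = nC Cell V h) (hR : ∀ r : Comp Cell V h, (n.eR r : ℕ) = compE h r)
    (z : Bool) (P : Cell → Prop) [DecidablePred P] (γ : F) (m : ℕ) :
    posN F Cell V h z P γ m =
      (n.eP ((0, iotaY F h (cubD h m)), cellFun z P γ) : ℕ) := by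
  have e1 := eP_val n (0, iotaY F h (cubD h m)) (cellFun z P γ)
  have e2 := cE_val n (fun i => (decK h i : Comp Cell V h))
    (fun r => (congrArg (decK h) (hR r)).trans (decK_compE r)) (cellFun z P γ)
  have e3 : ((n.eY (0, iotaY F h (cubD h m)) : Fin _) : ℕ) = iotaN F h 0 * cY F h + iotaN F h m := by
    have h1 := hY (0, iotaY F h (cubD h m))
    rw [eYY_val, cubD_eq_cub, numZ_iota, numZ_zero] at h1
    exact h1
  have e4 : n.Qc = Fintype.card F ^ nC Cell V h := by
    unfold CNum.Qc
    rw [hnR]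
    rfl
  have e5 : fnum n.nR (fun i => cellFun z P γ (decK h i : Comp Cell V h)) = cfN F Cell V h z P γ := by
    unfold cfN
    rw [hnR]
  refine Eq.trans ?_ e1.symm
  exact congrArg₂ (· + ·) (congrArg₂ (· * ·) e3.symm e4.symm) (e5.symm.trans e2.symm)

end inst

section pt

variable {A : Set Word} {α : Type*} [Enc α]
variable (K Cell V : Type) [Field K] [CharP K 2] [Fintype K] [Fintype Cell] [DecidableEq Cell]
  [Fintype V] [DecidableEq V]

omit [DecidableEq Cell] [DecidableEq V] in
theorem PT.nC {h : α → ℕ} (hh : PT A h) : PT A (fun a => nC Cell V (h a)) :=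
  PT.add (PT.const _) (PT.mul (PT.add hh (PT.const 1)) (PT.const _))

omit [DecidableEq Cell] [DecidableEq V] in
theorem PBd.nC {h : α → ℕ} (hhb : PBd h) : PBd (fun a => nC Cell V (h a)) :=
  (PBd.const (α := α) (Fintype.card (CLo Cell))).add
    ((hhb.add (PBd.const 1)).mul (PBd.const (Fintype.card (CHi Cell V))))

omit [CharP K 2] in
theorem PTt.cellFun {h n : α → ℕ} (hn : PT A n) (z : Bool) (P : Cell → Prop) [DecidablePred P]
    (γ : K) :
    PTt A (fun a => cellFun z P γ (decK (h a) (n a) : Comp Cell V (h a)) : α → K) := by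
  refine PTt.compCases (G := fun a => Q.cellFun z P γ) hn (fun x => ?_) (fun κ => ?_)
  · rcases x with _ | ⟨σ, e⟩
    · exact PTt.const 0
    · exact PTt.const (if σ = z ∧ P e then γ else 0)
  · rcases κ with σ | ⟨σ, i⟩
    · exact PTt.const 0
    · exact PTt.const 0

omit [CharP K 2] in
theorem PT.cfN {h : α → ℕ} (hh : PT A h) (hhb : PBd h) (z : Bool) (P : Cell → Prop)
    [DecidablePred P] (γ : K) : PT A (fun a => cfN K Cell V (h a) z P γ) := by
  refine PT.fnum (PT.nC Cell V hh) (PBd.nC Cell V hhb)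
    (y := fun a n => Q.cellFun z P γ (decK (h a) n : Comp Cell V (h a))) ?_
  exact PTt.cellFun K Cell V (h := fun p : α × ℕ => h p.1)
    (PT.min PT.snd' ((PT.nC Cell V hh).comp PT.fst')) z P γ

theorem PT.posN {h m : α → ℕ} (hh : PT A h) (hhb : PBd h) (hm : PT A m) (z : Bool)
    (P : Cell → Prop) [DecidablePred P] (γ : K) :
    PT A (fun a => posN K Cell V (h a) z P γ (m a)) :=
  PT.add (PT.mul (PT.add (PT.mul (PT.iotaN K hh hhb (PT.const 0)) (PT.cY K hh hhb))
    (PT.iotaN K hh hhb hm)) (PT.pow (PT.const _) (PT.nC Cell V hh) (PBd.nC Cell V hhb)))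
    (PT.cfN K Cell V hh hhb z P γ)

end pt

end Vale.Agent.P330.Q.Dec
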