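import Vale.Agent.P330.Q.Asm
import Vale.Agent.P330.Q.DecNet
import Vale.Agent.P330.S.GBPT

/-!
# Final assembly for networks over an abstract local code

* `Nums N fam`: numbers of points and pads for a family `fam` of instances of a local code, and the
  polynomial time algorithms of its maps and hard-wired bits on numbers.
* `Decodes`: what the decoder has to do.
* `obeys_of_sat`: an assignment which satisfies almost all gates obeys the network.
* `pcp_of_family`: `LSound` and a decoder give the reduction.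
-/

namespace Vale.Agent.P330.Q

open Finset PCP.AR Vale.Agent.Lib.PolyTime
open S (MDef Sem IsB gatesL KK root circ circ_obeys pr_le_of_card PT_gatesL length_gatesL)

variable {N : LSpec}

/-! ### The registers -/

instance {C : Type} [Finite C] : Finite (LReg C) := by
  let f : (Fin 7 × Bool × C) ⊕ ((Fin 3 × S.Tst) ⊕ (Fin 2 × Fin 3) ⊕ (Fin 3 × Fin 5)) → LReg C :=
    fun u => match u with
    | .inl (k, z, c) => (![.m z c, .p z c, .x z c, .lo z c, .hi z c, .h z c, .a z c] :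
        Fin 7 → LReg C) k
    | .inr (.inl (k, t)) => (![.t t, .ta t, .tf t] : Fin 3 → LReg C) k
    | .inr (.inr (.inl (k, i))) => (![.q i, .qa i] : Fin 2 → LReg C) k
    | .inr (.inr (.inr (i, l))) => .th i l
  refine Finite.of_surjective f fun ρ => ?_
  cases ρ with
  | m z c => exact ⟨.inl (0, z, c), rfl⟩
  | p z c => exact ⟨.inl (1, z, c), rfl⟩
  | x z c => exact ⟨.inl (2, z, c), rfl⟩
  | lo z c => exact ⟨.inl (3, z, c), rfl⟩
  | hi z c => exact ⟨.inl (4, z, c), rfl⟩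
  | h z c => exact ⟨.inl (5, z, c), rfl⟩
  | a z c => exact ⟨.inl (6, z, c), rfl⟩
  | t k => exact ⟨.inr (.inl (0, k)), rfl⟩
  | ta k => exact ⟨.inr (.inl (1, k)), rfl⟩
  | tf k => exact ⟨.inr (.inl (2, k)), rfl⟩
  | q i => exact ⟨.inr (.inr (.inl (0, i))), rfl⟩
  | qa i => exact ⟨.inr (.inr (.inl (1, i))), rfl⟩
  | th i l => exact ⟨.inr (.inr (.inr (i, l))), rfl⟩

noncomputable instance {C : Type} [Finite C] : Fintype (LReg C) := Fintype.ofFinite _

instance {C : Type} : Nonempty (LReg C) := ⟨.q 0⟩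

theorem net_ok (N : LSpec) (τ : ℚ) (hτ : 0 ≤ τ ∧ τ ≤ 1) (ρ : LReg N.C) : (net N τ ρ).Ok := by
  cases ρ with
  | th i l =>
    simp only [net, MDef.Ok]
    fin_cases l <;> norm_num
  | tf k => exact hτ
  | _ => simp only [net, MDef.Ok] <;> norm_num

/-! ### Numbers -/

/-- Numbers for a family of local codes: points and pads are numbered, and on numbers the maps,
the hard-wired bits and the expanders are computable in polynomial time. -/
structure Nums (N : LSpec) (fam : EndOfLine → LInst N) where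
  /-- number of points -/
  NP : EndOfLine → ℕ
  /-- number of pads -/
  NZ : EndOfLine → ℕ
  ptP : PT ∅ NP
  bdP : PBd NP
  ptZ : PT ∅ NZ
  bdZ : PBd NZ
  eP : ∀ a, (fam a).P ≃ Fin (NP a)
  eZ : ∀ a, (fam a).Z ≃ Fin (NZ a)
  /-- the maps of sites on the numbers `(number of the point) * NZ + (number of the pad)` -/
  rdN : EndOfLine → N.Rd → ℕ → ℕ
  rdN_eq : ∀ a R ω, rdN a R ((fam a).num (eP a) (eZ a) ω) =
    (fam a).num (eP a) (eZ a) ((fam a).rd R ω)
  rdN_pt : ∀ R, PT ∅ (fun q : EndOfLine × ℕ => rdN q.1 R q.2)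
  /-- the hard-wired bits -/
  cbN : EndOfLine → N.CB → ℕ → Bool
  cbN_eq : ∀ a κ ω, cbN a κ ((fam a).num (eP a) (eZ a) ω) = (fam a).cb κ ω
  cbN_pt : ∀ κ, PT ∅ (fun q : EndOfLine × ℕ => cbN q.1 κ q.2)
  /-- the expander on the points, on numbers of points -/
  sPN : EndOfLine → Fin 4 → ℕ → ℕ
  sPN_eq : ∀ a k p, sPN a k (eP a p) = (eP a ((fam a).sP k p) : ℕ)
  sPN_pt : ∀ k, PT ∅ (fun q : EndOfLine × ℕ => sPN q.1 k q.2)
  /-- the expander on the pads, on numbers of pads -/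
  sZN : EndOfLine → Fin 4 → ℕ → ℕ
  sZN_eq : ∀ a k z, sZN a k (eZ a z) = (eZ a ((fam a).sZ k z) : ℕ)
  sZN_pt : ∀ k, PT ∅ (fun q : EndOfLine × ℕ => sZN q.1 k q.2)

namespace Nums

variable {fam : EndOfLine → LInst N} (E : Nums N fam)

/-- the number of a site -/
def num (a : EndOfLine) (ω : (fam a).Site) : ℕ := (fam a).num (E.eP a) (E.eZ a) ω

/-- the number of sites -/
def sites (a : EndOfLine) : ℕ := E.NP a * E.NZ a

/-- the neighbours -/
def nbN (a : EndOfLine) (k : Fin 8) (s : ℕ) : ℕ :=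
  if h : (k : ℕ) < 4 then s / E.NZ a * E.NZ a + E.sZN a ⟨k, h⟩ (s % E.NZ a)
  else E.sPN a ⟨k - 4, by omega⟩ (s / E.NZ a) * E.NZ a + s % E.NZ a

theorem NZ_pos (a : EndOfLine) : 0 < E.NZ a :=
  lt_of_le_of_lt (Nat.zero_le _) (E.eZ a (Classical.arbitrary _)).2

theorem NP_pos (a : EndOfLine) : 0 < E.NP a :=
  lt_of_le_of_lt (Nat.zero_le _) (E.eP a (Classical.arbitrary _)).2

theorem sites_pos (a : EndOfLine) : 0 < E.sites a := Nat.mul_pos (E.NP_pos a) (E.NZ_pos a)

theorem num_lt (a : EndOfLine) (ω : (fam a).Site) : E.num a ω < E.sites a := by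
  unfold num LInst.num sites
  have h1 := (E.eP a ω.1).2
  have h2 := (E.eZ a ω.2).2
  calc (E.eP a ω.1 : ℕ) * E.NZ a + (E.eZ a ω.2 : ℕ)
      < (E.eP a ω.1 : ℕ) * E.NZ a + E.NZ a := by omega
    _ = ((E.eP a ω.1 : ℕ) + 1) * E.NZ a := by ring
    _ ≤ E.NP a * E.NZ a := Nat.mul_le_mul_right _ h1

theorem num_div (a : EndOfLine) (ω : (fam a).Site) : E.num a ω / E.NZ a = (E.eP a ω.1 : ℕ) :=
  (fam a).num_div (E.eP a) (E.eZ a) ω

theorem num_mod (a : EndOfLine) (ω : (fam a).Site) : E.num a ω % E.NZ a = (E.eZ a ω.2 : ℕ) := by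
  unfold num LInst.num
  rw [add_comm, Nat.add_mul_mod_self_right, Nat.mod_eq_of_lt (E.eZ a ω.2).2]

theorem num_inj (a : EndOfLine) : Function.Injective (E.num a) := by
  intro ω ω' h
  have h1 := E.num_div a ω
  have h2 := E.num_mod a ω
  rw [h, E.num_div] at h1
  rw [h, E.num_mod] at h2
  refine Prod.ext ((E.eP a).injective (Fin.ext h1.symm)) ((E.eZ a).injective (Fin.ext h2.symm))

theorem card_site (a : EndOfLine) : Fintype.card (fam a).Site = E.sites a := by
  rw [Fintype.card_prod, Fintype.card_congr (E.eP a), Fintype.card_congr (E.eZ a),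
    Fintype.card_fin, Fintype.card_fin]
  rfl

theorem num_surj (a : EndOfLine) {s : ℕ} (hs : s < E.sites a) : ∃ ω, E.num a ω = s := by
  have hZ := E.NZ_pos a
  have h1 : s / E.NZ a < E.NP a := Nat.div_lt_of_lt_mul (by rw [mul_comm]; exact hs)
  have h2 : s % E.NZ a < E.NZ a := Nat.mod_lt _ hZ
  refine ⟨((E.eP a).symm ⟨_, h1⟩, (E.eZ a).symm ⟨_, h2⟩), ?_⟩
  unfold num LInst.num
  rw [Equiv.apply_symm_apply, Equiv.apply_symm_apply]
  exact Nat.div_add_mod' s _

theorem nbN_eq (a : EndOfLine) (k : Fin 8) (ω : (fam a).Site) :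
    E.nbN a k (E.num a ω) = E.num a ((fam a).sem.nb k ω) := by
  unfold nbN
  rw [E.num_div, E.num_mod]
  simp only [LInst.sem]
  split_ifs with h
  · rw [E.sZN_eq]
    rfl
  · rw [E.sPN_eq]
    rfl

theorem rd_lt (a : EndOfLine) (R : N.Rd) (s : ℕ) (hs : s < E.sites a) :
    E.rdN a R s < E.sites a := by
  obtain ⟨ω, rfl⟩ := E.num_surj a hs
  have h := E.rdN_eq a R ω
  exact lt_of_le_of_lt (le_of_eq h) (E.num_lt a _)

theorem nb_lt (a : EndOfLine) (k : Fin 8) (s : ℕ) (hs : s < E.sites a) :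
    E.nbN a k s < E.sites a := by
  obtain ⟨ω, rfl⟩ := E.num_surj a hs
  rw [E.nbN_eq]
  exact E.num_lt a _

theorem PT_sites : PT ∅ E.sites := PT.mul E.ptP E.ptZ

theorem PBd_sites : PBd E.sites := E.bdP.mul E.bdZ

theorem PT_nbN (k : Fin 8) : PT ∅ (fun q : EndOfLine × ℕ => E.nbN q.1 k q.2) := by
  unfold nbN
  have hZ : PT ∅ (fun q : EndOfLine × ℕ => E.NZ q.1) := E.ptZ.comp PT.fst'
  have hd : PT ∅ (fun q : EndOfLine × ℕ => q.2 / E.NZ q.1) := PT.div PT.snd' hZ
  have hm : PT ∅ (fun q : EndOfLine × ℕ => q.2 % E.NZ q.1) := PT.mod PT.snd' hZ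
  by_cases h : (k : ℕ) < 4
  · simp only [h, dif_pos]
    exact (hd.mul hZ).add ((E.sZN_pt ⟨k, h⟩).comp (PT.fst'.pair hm))
  · simp only [h, dif_neg, not_false_eq_true]
    exact (((E.sPN_pt ⟨k - 4, by omega⟩).comp (PT.fst'.pair hd)).mul hZ).add hm

end Nums

/-! ### The circuit of an instance -/

section circuit

variable [Fintype N.CB] {fam : EndOfLine → LInst N} (E : Nums N fam) (τ lam : ℚ)

/-- the number of nodes -/
noncomputable def netNodes (a : EndOfLine) : ℕ := E.sites a * KK (net N τ) lam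

/-- the gates -/
noncomputable def netGates (a : EndOfLine) : List Gate :=
  gatesL (net N τ) lam (E.sites a) (E.rdN a) (E.cbN a) (E.nbN a)

/-- The circuit. -/
noncomputable def netCirc (a : EndOfLine) : GenCircuit :=
  circ (net N τ) lam (E.sites a) (E.rdN a) (E.cbN a) (E.nbN a) (E.sites_pos a) (E.rd_lt a)
    (E.nb_lt a)

theorem wfNet (a : EndOfLine) : WFNet (netNodes E τ lam a) (netGates E τ lam a) :=
  ⟨(netCirc E τ lam a).gates_ne, (netCirc E τ lam a).out_lt, (netCirc E τ lam a).ins_lt,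
    (netCirc E τ lam a).out_nodup, (netCirc E τ lam a).params_mem⟩

theorem PT_netNodes : PT ∅ (netNodes E τ lam) := PT.mul E.PT_sites (PT.const _)

theorem PBd_netNodes : PBd (netNodes E τ lam) := E.PBd_sites.mul (PBd.const _)

theorem PT_netGates : PT ∅ (netGates E τ lam) :=
  PT_gatesL (net N τ) lam E.PT_sites E.PBd_sites (rd := E.rdN) (cb := E.cbN) (nb := E.nbN)
    E.rdN_pt E.cbN_pt E.PT_nbN

/-- The values of the registers. -/
noncomputable def regVal (xs : List ℚ) (a : EndOfLine) (ρ : LReg N.C) (ω : (fam a).Site) : ℝ :=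
  val xs (E.num a ω * KK (net N τ) lam + root (net N τ) lam ρ)

theorem val_mem {x : List ℚ} (hx : ∀ r ∈ x, 0 ≤ r ∧ r ≤ 1) (v : ℕ) :
    0 ≤ val x v ∧ val x v ≤ 1 := by
  unfold val
  rw [List.getD_eq_getElem?_getD]
  cases h : x[v]? with
  | none => simp
  | some r =>
    have := hx r (List.mem_of_getElem? h)
    simp only [Option.getD_some]
    exact ⟨by exact_mod_cast this.1, by exact_mod_cast this.2⟩

/-- **An assignment which satisfies almost all gates obeys the network.** -/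
theorem obeys_of_sat (hτ : 0 ≤ τ ∧ τ ≤ 1) (hlam : 0 ≤ lam ∧ lam ≤ 1) {ε δ β : ℝ}
    (hε : ε < 1 / 2) (hβ : δ * KK (net N τ) lam ≤ β) (a : EndOfLine) (xs : List ℚ)
    (hx : ∀ r ∈ xs, 0 ≤ r ∧ r ≤ 1)
    (hsat : (1 - δ) * (netGates E τ lam a).length ≤
      ({g : Gate | g ∈ netGates E τ lam a ∧ g.Sat ε (val xs)}.ncard : ℝ)) :
    (fam a).Obeys τ ε lam β (regVal E τ lam xs a) := by
  classical
  set K := KK (net N τ) lam with hK
  set G := netCirc E τ lam a with hG
  have hnodes : G.nodes = E.sites a * K := rfl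
  -- the assignment of the right length
  set y : List ℚ := (List.range G.nodes).map fun v => xs.getD v 0 with hy
  have hval : ∀ v < G.nodes, val y v = val xs v := fun v hv => val_map_range _ _ hv
  have hyA : IsAssignment G y := by
    refine ⟨by simp [hy], fun r hr => ?_⟩
    obtain ⟨v, _, rfl⟩ := List.mem_map.1 hr
    have h := val_mem hx v
    unfold val at h
    exact ⟨by exact_mod_cast h.1, by exact_mod_cast h.2⟩
  have hsatG : ∀ g ∈ G.gates, (g.Sat ε (val y) ↔ g.Sat ε (val xs)) := fun g hg =>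
    sat_congr g (hval _ (G.out_lt g hg)) fun b hb => hval _ (G.ins_lt g hg b hb)
  have hnum : numSat ε G y =
      {g : Gate | g ∈ netGates E τ lam a ∧ g.Sat ε (val xs)}.ncard := by
    unfold numSat
    congr 1
    ext g
    exact ⟨fun h => ⟨h.1, (hsatG g h.1).1 h.2⟩, fun h => ⟨h.1, (hsatG g h.1).2 h.2⟩⟩
  have hsat' : (1 - δ) * G.gates.length ≤ numSat ε G y := by
    rw [hnum]
    exact hsat
  obtain ⟨h1, h2⟩ := circ_obeys (net N τ) lam (E.sites a) (E.rdN a) (E.cbN a) (E.nbN a)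
    ((fam a).sem) (E.num a) (E.num_inj a) (E.num_lt a) (fun R ω => E.rdN_eq a R ω)
    (fun k ω => E.nbN_eq a k ω) (fun κ ω => E.cbN_eq a κ ω) (E.sites_pos a) (E.rd_lt a)
    (E.nb_lt a) hε hlam (net_ok N τ hτ) y hyA hsat'
  -- the values of the registers are the same
  have hroot : ∀ (ρ : LReg N.C) (ω : (fam a).Site),
      val y (E.num a ω * K + root (net N τ) lam ρ) = regVal E τ lam xs a ρ ω := by
    intro ρ ω
    refine hval _ ?_
    rw [hnodes]
    have h3 := E.num_lt a ω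
    have h4 := S.root_lt (net N τ) lam ρ
    calc E.num a ω * K + root (net N τ) lam ρ < E.num a ω * K + K := by omega
      _ = (E.num a ω + 1) * K := by ring
      _ ≤ E.sites a * K := Nat.mul_le_mul_right _ h3
  have hfun : (fun (ρ' : LReg N.C) (ω' : (fam a).Site) =>
      val y (E.num a ω' * K + root (net N τ) lam ρ')) = regVal E τ lam xs a := by
    funext ρ ω
    exact hroot ρ ω
  rw [hfun] at h2
  refine ⟨fun ρ ω => val_mem hx _, fun ρ => ?_⟩
  have hN' : (0 : ℝ) < E.sites a := by exact_mod_cast E.sites_pos a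
  refine pr_le_of_card _ (E.sites_pos a) (E.card_site a)
    (le_trans (Nat.cast_le.2 (Finset.card_le_card ?_)) (h2.trans ?_))
  · intro ω hω
    simp only [Finset.mem_filter, Finset.mem_univ, true_and] at hω ⊢
    exact ⟨ρ, hω⟩
  · calc δ * (E.sites a * K) = (δ * K) * E.sites a := by ring
      _ ≤ β * E.sites a := mul_le_mul_of_nonneg_right hβ hN'.le

end circuit

/-! ### The decoder and the final theorem -/

/-- The conclusion of `LSound`. -/
def LInst.Rev (I : LInst N) (ε ρ₀ : ℝ) (x : LReg N.C → I.Site → ℝ) : Prop :=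
  (∃ w, I.Valid w ∧ I.Near ε ρ₀ x false w ∧ ¬ I.Valid (I.step false w)) ∨
  (∃ w, I.Valid w ∧ w ≠ I.w0 ∧ I.Near ε ρ₀ x true w ∧ ¬ I.Valid (I.step true w))

/-- What the decoder has to do: the value of the register `.x z c` at the site `ω` is the value of
the node `E.num a ω * K + root z c`, with constants `K` and `root`. -/
def Decodes {fam : EndOfLine → LInst N} (E : Nums N fam) (m : ℕ) : Prop :=
  ∃ ρ₀ : ℝ, 0 < ρ₀ ∧ ∀ (K : ℕ) (root : Bool → N.C → ℕ),
    ∃ D : EndOfLine × List ℚ → Raw, PT ∅ D ∧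
      ∀ a : EndOfLine, m ≤ (eolW a).length → ∀ (xs : List ℚ) (ε : ℝ)
        (x : LReg N.C → (fam a).Site → ℝ), ε < 1 / 100 →
        (∀ z c ω, x (.x z c) ω = val xs (E.num a ω * K + root z c)) →
        (fam a).Rev ε ρ₀ x → a.IsSolution (D (a, xs)).w

/-- **From the soundness of the network to the reduction.** -/
theorem pcp_of_family [Fintype N.CB] {fam : EndOfLine → LInst N} (E : Nums N fam) (m : ℕ)
    {Q : LInst N → Prop} (hQ : ∀ a : EndOfLine, m ≤ (eolW a).length → Q (fam a))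
    (hS : LSound N Q) (hD : Decodes E m) :
    ∃ (ε δ : ℚ) (C : ℕ), 0 < ε ∧ ε < 1 ∧ 0 < δ ∧ δ < 1 ∧
      ∀ p : Polynomial ℕ, (∀ᶠ M in Filter.atTop, C * M ≤ p.eval M) → PolySizePCP ε δ p := by
  obtain ⟨ρ₀, hρ₀, hdec⟩ := hD
  obtain ⟨τ, hτ0, hτ1, lam, hl0, hl1, ε, hε0, hε1, β, hβ, hsound⟩ := hS ρ₀ hρ₀
  obtain ⟨D, hDpt, hDs⟩ := hdec (KK (net N τ) lam) fun z c => root (net N τ) lam (.x z c)
  have hε1' : (ε : ℝ) < 1 / 100 := by
    have h := (Rat.cast_lt (K := ℝ)).2 hε1
    push_cast at h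
    exact h
  -- the choice of `δ`
  obtain ⟨δ, hδ0, hδ1, hδβ⟩ : ∃ δ : ℚ, 0 < δ ∧ δ < 1 ∧
      (δ : ℝ) * KK (net N τ) lam ≤ β := by
    have hK : (0 : ℝ) ≤ KK (net N τ) lam := Nat.cast_nonneg _
    have hpos : (0 : ℝ) < min 1 (β / (KK (net N τ) lam + 1)) := lt_min one_pos (by positivity)
    obtain ⟨δ, h1, h2⟩ := exists_rat_btwn hpos
    refine ⟨δ, by exact_mod_cast h1, ?_, ?_⟩
    · have h3 := h2.trans_le (min_le_left _ _)
      exact_mod_cast h3
    · have h3 := (h2.trans_le (min_le_right _ _)).le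
      rw [le_div_iff₀ (by positivity)] at h3
      nlinarith
  obtain ⟨C, hC⟩ := pcp_of hε0 hδ0 (PT_netNodes E τ lam) (PBd_netNodes E τ lam)
    (PT_netGates E τ lam) hDpt m (fun I _ => wfNet E τ lam I) (fun I hI x hx hsat => by
      have hob := obeys_of_sat E τ lam ⟨hτ0.le, hτ1.le⟩ ⟨hl0.le, hl1.le⟩ (ε := (ε : ℝ))
        (δ := (δ : ℝ)) (β := β) (by linarith) hδβ I x hx hsat
      exact hDs I hI x ε _ hε1' (fun z c ω => rfl)
        (hsound (fam I) (hQ I hI) _ hob))
  exact ⟨ε, δ, C, hε0, lt_trans hε1 (by norm_num), hδ0, hδ1, hC⟩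

end Vale.Agent.P330.Q
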