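import Vale.Agent.P330.Q.SitesPT
import Vale.Agent.P330.Q.Final

/-!
# Project Q: the numbers of the sites in the form of the final assembly
-/

namespace Vale.Agent.P330.Q

open Vale.Agent.Lib.PolyTime

variable {N : Code}

/-- **The numbers of the sites**, for a family of instances. -/
noncomputable def CNum.toNums {I : EndOfLine → CInst N} {n : ∀ a, CNum (I a)}
    (hok : ∀ a, (n a).Ok) (hpt : CNum.OkPT ∅ n) (hlow : ∀ a st, (I a).IsWord ((I a).sec st)) :
    Nums N.spec fun a => (I a).toLInst ((n a).sP (hok a)) ((n a).sZ (hok a)) (hlow a) where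
  NP a := (n a).NP
  NZ a := (n a).NZ
  ptP := hpt.NP
  bdP := hpt.NPb
  ptZ := hpt.NZ
  bdZ := hpt.NZb
  eP a := (n a).eP
  eZ a := (n a).eZ
  rdN a R s := (n a).rdN R s
  rdN_eq a R ω := (hok a).rdN_num R ω
  rdN_pt R := (hpt.comp' (PT.fst' (α := EndOfLine) (β := ℕ))).rdN R PT.snd'
  cbN a v s := (n a).cbN v s
  cbN_eq a v ω := (hok a).cbN_num v ω
  cbN_pt v := (hpt.comp' (PT.fst' (α := EndOfLine) (β := ℕ))).cbN v PT.snd'
  sPN a k s := S.mgN (n a).mP k s
  sPN_eq a k p := (n a).mgN_sP (hok a) k p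
  sPN_pt k := S.PT_mgN (hpt.mP.comp PT.fst') PT.snd' k
  sZN a k s := S.mgN (n a).mZ k s
  sZN_eq a k z := (n a).mgN_sZ (hok a) k z
  sZN_pt k := S.PT_mgN (hpt.mZ.comp PT.fst') PT.snd' k

end Vale.Agent.P330.Q
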