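import Vale.Agent.P330.Q.Conc
import Vale.Agent.P330.Q.DecPos
import Vale.Agent.P330.Q.SitesNums

/-!
# Project Q, decoder: the concrete family

`decodes_conc`: **the decoder** for the family `famC`, with the numbers `CNum.toNums`.
-/

namespace Vale.Agent.P330.Q.Dec

open Finset Vale.Agent.Lib.PolyTime
open S (Inst Spec)
open S.Mach (spec prm pt CellVal decOut)

/-- The numbers of the points of the table used by the decoder. -/
noncomputable def posC (a : EndOfLine) (z : Bool) (m : ℕ) : ℕ :=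
  posN KQ spec.Cell (VOut spec) (hC a) z (CellVal z) 1 m

theorem PT_posC (z : Bool) : PT ∅ (fun q : EndOfLine × ℕ => posC q.1 z q.2) :=
  PT.posN KQ spec.Cell (VOut spec) (h := fun q : EndOfLine × ℕ => hC q.1) (m := fun q => q.2)
    (PT_hQ _ _ PT.fst') (PBd_hQ _ _ (PT.fst' (A := ∅))) PT.snd' z (CellVal z) 1

theorem posC_eq {a : EndOfLine} (n : CNum (famC a))
    (hY : ∀ y : YC a × YC a, (n.eY y : ℕ) = eYY KQ (hC a) y)
    (hnR : n.nR = nC spec.Cell (VOut spec) (hC a))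
    (hR : ∀ r : Comp spec.Cell (VOut spec) (hC a), (n.eR r : ℕ) = compE (hC a) r)
    (z : Bool) (m : ℕ) :
    posC a z m = (n.eP ((0, iotaY KQ (hC a) (cubD (hC a) m)), cellFun z (CellVal z) 1) : ℕ) :=
  posN_eq (M := domC a) (TI := tinC a) (r := pdir (dirC a) (dirC a)) n hY hnR hR z (CellVal z) 1 m

theorem lt_two_pow_kQ (I : EndOfLine) {p : ℕ} (hp : p < I.n) : p < 2 ^ kQ I := by
  have h1 := lt_LQ I
  unfold LQ at h1
  have h2 : I.n ≤ (prm I).W := (goodQ I).nW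
  have h3 : (prm I).W ≤ (prm I).R * (prm I).W :=
    Nat.le_mul_of_pos_left _ (by have := (goodQ I).R2; omega)
  omega

/-- The exact table of a revealing word, for the concrete family. -/
theorem reads_conc {lam : ℝ} (hF : ∀ a, (famC a).CFacts lam) (n : ∀ a, CNum (famC a))
    {sP : ∀ a, Fin 4 → (famC a).P ≃ (famC a).P} {sZ : ∀ a, Fin 4 → (famC a).Z ≃ (famC a).Z}
    (E : Nums codeQ.spec fun a => (famC a).toLInst (sP a) (sZ a) (hF a).low)
    (hE : ∀ a p, (E.eP a p : ℕ) = (n a).eP p)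
    (hY : ∀ a, ∀ y : YC a × YC a, ((n a).eY y : ℕ) = eYY KQ (hC a) y)
    (hnR : ∀ a, (n a).nR = nC spec.Cell (VOut spec) (hC a))
    (hR : ∀ a, ∀ r : Comp spec.Cell (VOut spec) (hC a), ((n a).eR r : ℕ) = compE (hC a) r)
    (m : ℕ) : Reads E m () (fun a => hC a) kQ posC (fun _ p => p) := by
  intro a _ z w hw hs h0
  exact reads_inst (I := a) (D := sysC a) (σ := σQ) (ε := epsQ a) (hB := hC_le a) (hk := hC_le' a)
    (TI := tinC a) (r := pdir (dirC a) (dirC a)) (hF a) (E.eP a) φQ_one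
    (pos := posC a) (fun z m _ => by
      have hι : (sysC a).ι (cubD (hC a) m) = iotaY KQ (hC a) (cubD (hC a) m) :=
        DFunLike.congr_fun (ysys_ι _ _ _ _ _) _
      rw [hι]
      exact (posC_eq (n a) (hY a) (hnR a) (hR a) z m).trans (hE a _).symm)
    (ad := fun p => p) (fun p hp => epsQ_ptQ a (lt_two_pow_kQ a hp)) z w hw hs h0

/-- **The decoder.** -/
theorem decodes_conc {lam : ℝ} (hF : ∀ a, (famC a).CFacts lam) {n : ∀ a, CNum (famC a)}
    (hok : ∀ a, (n a).Ok) (hpt : CNum.OkPT ∅ n)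
    (hY : ∀ a, ∀ y : YC a × YC a, ((n a).eY y : ℕ) = eYY KQ (hC a) y)
    (hnR : ∀ a, (n a).nR = nC spec.Cell (VOut spec) (hC a))
    (hR : ∀ a, ∀ r : Comp spec.Cell (VOut spec) (hC a), ((n a).eR r : ℕ) = compE (hC a) r)
    {ρ₁ : ℝ} (hρ0 : 0 < ρ₁) (hρ1 : ρ₁ < 1)
    (hL : ∀ a, ∃ θ g, ((famC a).toLInst ((n a).sP (hok a)) ((n a).sZ (hok a))
      (hF a).low).Facts θ ρ₁ g) (m : ℕ) :
    Decodes (CNum.toNums hok hpt fun a => (hF a).low) m :=
  decodes_of_reads _ m () hρ0 hρ1 (fun a _ => hL a)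
    (reads_conc hF n _ (fun _ _ => rfl) hY hnR hR m)
    (PT_hQ _ _ PT.id) (PBd_two_pow_hQ _ _ (PT.id (A := ∅))) (PT_kQ PT.id) (PBd_kQ (PT.id (A := ∅)))
    PT_posC PT.snd'

end Vale.Agent.P330.Q.Dec
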