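import Vale.Agent.P330.Q.Dec
import Vale.Agent.P330.S.DecN
import Vale.Agent.P330.S.NumPT

/-!
# Project Q, decoder on numbers

Points and pads are numbers, tables are lists of bits.
-/

namespace Vale.Agent.P330.Q.Dec

open Finset PCP.AR Vale.Agent.Lib.PolyTime Vale.Agent.P330.S

variable {κ : Type*}

/-- majorities over the pads, as a list -/
def majN (NP NZ : ℕ) (b : ℕ → ℕ → Bool) : List Bool :=
  (List.range NP).map fun p => decide (NZ < 2 * (List.range NZ).countP fun z => b p z)

/-- one round of correction, on lists -/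
def roundN (NP NZ : ℕ) (rd : κ → ℕ → ℕ → ℕ) (f : (κ → Bool) → Bool) (l : List Bool) : List Bool :=
  majN NP NZ fun p z => f fun k => l.getD (rd k p z) false

/-- The corrected table. -/
def tabN (NP NZ n : ℕ) (rd : κ → ℕ → ℕ → ℕ) (f : (κ → Bool) → Bool) (b : ℕ → ℕ → Bool) :
    List Bool :=
  (roundN NP NZ rd f)^[n] (majN NP NZ b)

/-! ### Meaning -/

section meaning

variable {P Z : Type*} [Fintype P] [Fintype Z] {NP NZ : ℕ} (eP : P ≃ Fin NP) (eZ : Z ≃ Fin NZ)

/-- a table as a list -/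
def tabOf (g : P → Bool) : List Bool := List.ofFn fun i => g (eP.symm i)

theorem tabOf_getD (g : P → Bool) (p : P) : (tabOf eP g).getD (eP p : ℕ) false = g p := by
  unfold tabOf
  rw [List.getD_eq_getElem?_getD, List.getElem?_ofFn]
  simp

theorem countP_eq_card (p : Z → Bool) (q : ℕ → Bool) (h : ∀ z, q (eZ z) = p z) :
    (List.range NZ).countP q = (univ.filter fun z => p z = true).card := by
  rw [countP_range_eq_card]
  refine (Finset.card_bij (fun z _ => eZ z) ?_ ?_ ?_).symm
  · intro z hz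
    simp only [Finset.mem_filter, Finset.mem_univ, true_and] at hz ⊢
    rw [h]; exact hz
  · intro z _ z' _ h
    exact eZ.injective h
  · intro i hi
    simp only [Finset.mem_filter, Finset.mem_univ, true_and] at hi ⊢
    refine ⟨eZ.symm i, ?_, eZ.apply_symm_apply i⟩
    rw [← h, eZ.apply_symm_apply]
    exact hi

theorem majN_eq {bN : ℕ → ℕ → Bool} {b : P → Z → Bool} (h : ∀ p z, bN (eP p) (eZ z) = b p z) :
    majN NP NZ bN = tabOf eP (maj b) := by
  unfold majN tabOf
  rw [List.ofFn_eq_map, ← List.map_coe_finRange_eq_range (n := NP), List.map_map]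
  refine List.map_congr_left fun i _ => ?_
  simp only [Function.comp]
  unfold maj
  have hc : Fintype.card Z = NZ := by
    rw [Fintype.card_congr eZ, Fintype.card_fin]
  rw [hc, countP_eq_card eZ (fun z => b (eP.symm i) z) (fun z => bN i z)]
  intro z
  rw [← h, eP.apply_symm_apply]

variable {rdN : κ → ℕ → ℕ → ℕ} {rd : κ → P → Z → P}

theorem roundN_eq (hrd : ∀ k p z, rdN k (eP p) (eZ z) = eP (rd k p z)) (f : (κ → Bool) → Bool)
    (g : P → Bool) :
    roundN NP NZ rdN f (tabOf eP g) = tabOf eP (round rd (fun _ _ => f) g) := by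
  unfold roundN round
  apply majN_eq eP eZ
  intro p z
  congr 1
  funext k
  rw [hrd, tabOf_getD]

theorem tabN_eq (hrd : ∀ k p z, rdN k (eP p) (eZ z) = eP (rd k p z)) (f : (κ → Bool) → Bool)
    {bN : ℕ → ℕ → Bool} {b : P → Z → Bool} (hb : ∀ p z, bN (eP p) (eZ z) = b p z) (n : ℕ) :
    tabN NP NZ n rdN f bN = tabOf eP ((round rd (fun _ _ => f))^[n] (maj b)) := by
  unfold tabN
  rw [majN_eq eP eZ hb]
  generalize maj b = g
  induction n generalizing g with
  | zero => rfl
  | succ n ih => rw [Function.iterate_succ_apply, Function.iterate_succ_apply, roundN_eq eP eZ hrd, ih]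

/-- **The decoder finds the exact table.** -/
theorem tabN_correct [Nonempty P] [Nonempty Z] {s : P → Bool} {ρ : ℝ} (hS : Samp rd ρ)
    (f : (κ → Bool) → Bool) (hf : ∀ p z, f (fun k => s (rd k p z)) = s p) (hρ : ρ < 1)
    (hrd : ∀ k p z, rdN k (eP p) (eZ z) = eP (rd k p z))
    {bN : ℕ → ℕ → Bool} {b : P → Z → Bool} (hb : ∀ p z, bN (eP p) (eZ z) = b p z)
    (hnear : 2 * pr (fun ω : P × Z => b ω.1 ω.2 ≠ s ω.1) ≤ ρ) {n : ℕ} (hn : NP ≤ 2 ^ n) (p : P) :
    (tabN NP NZ n rdN f bN).getD (eP p) false = s p := by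
  rw [tabN_eq eP eZ hrd f hb n, iterate_eq (f := fun _ _ => f) (s := s) hS (fun p z => hf p z) _ hρ,
    tabOf_getD]
  · rw [Fintype.card_congr eP, Fintype.card_fin]
    exact hn
  · refine le_trans ?_ hnear
    exact pr_maj_le (b := fun ω : P × Z => b ω.1 ω.2) le_rfl

end meaning

/-! ### Polynomial time -/

section PT

variable {A : Set Word} {α : Type*} [Enc α]

theorem PT_majN {NP NZ : α → ℕ} {b : α → ℕ → ℕ → Bool} (hP : PT A NP) (hPb : PBd NP)
    (hZ : PT A NZ) (hZb : PBd NZ) (hb : PT A (fun q : (α × ℕ) × ℕ => b q.1.1 q.1.2 q.2)) :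
    PT A (fun a => majN (NP a) (NZ a) (b a)) := by
  unfold majN
  refine PT.map (f := fun a p => decide (NZ a < 2 * (List.range (NZ a)).countP fun z => b a p z))
    (PT.range hP hPb) ?_
  refine PT.lt (hZ.comp PT.fst') (PT.mul (PT.const 2) ?_)
  refine PT.countP (f := fun (q : α × ℕ) z => b q.1 q.2 z)
    (PT.range (hZ.comp PT.fst') (hZb.comp (A := A) PT.fst')) ?_
  exact hb

variable [Fintype κ]

theorem PT_roundN {NP NZ : α → ℕ} {rd : α → κ → ℕ → ℕ → ℕ} {f : (κ → Bool) → Bool}
    {l : α → List Bool} (hP : PT A NP) (hPb : PBd NP) (hZ : PT A NZ) (hZb : PBd NZ)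
    (hrd : ∀ k, PT A (fun q : (α × ℕ) × ℕ => rd q.1.1 k q.1.2 q.2)) (hl : PT A l) :
    PT A (fun a => roundN (NP a) (NZ a) (rd a) f (l a)) := by
  unfold roundN
  refine PT_majN hP hPb hZ hZb ?_
  exact PT_boolFn (f := fun (k : κ) (q : (α × ℕ) × ℕ) =>
    (l q.1.1).getD (rd q.1.1 k q.1.2 q.2) false)
    (fun k => PT.getD (hl.comp PT.fst'.fst) (hrd k) (PT.const false)) f

theorem length_majN (NP NZ : ℕ) (b : ℕ → ℕ → Bool) : (majN NP NZ b).length = NP := by
  unfold majN
  rw [List.length_map, List.length_range]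

theorem esize_bools_le (l : List Bool) : esize l ≤ 3 * l.length := by
  induction l with
  | nil => simp [esize_list_nil]
  | cons b l ih =>
    rw [esize_list_cons, esize_bool, List.length_cons]
    omega

/-- **The corrected table is computed in polynomial time.** -/
theorem PT_tabN {NP NZ n : α → ℕ} {rd : α → κ → ℕ → ℕ → ℕ} {f : (κ → Bool) → Bool}
    {b : α → ℕ → ℕ → Bool} (hP : PT A NP) (hPb : PBd NP) (hZ : PT A NZ) (hZb : PBd NZ)
    (hn : PT A n) (hnb : PBd n)
    (hrd : ∀ k, PT A (fun q : (α × ℕ) × ℕ => rd q.1.1 k q.1.2 q.2))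
    (hb : PT A (fun q : (α × ℕ) × ℕ => b q.1.1 q.1.2 q.2)) :
    PT A (fun a => tabN (NP a) (NZ a) (n a) (rd a) f (b a)) := by
  unfold tabN
  refine PT.iterate' hn hnb (PT_majN hP hPb hZ hZb hb)
    (step := fun a l => roundN (NP a) (NZ a) (rd a) f l)
    (PT_roundN (α := α × List Bool) (rd := fun q => rd q.1) (hP.comp PT.fst')
      (hPb.comp (A := A) PT.fst') (hZ.comp PT.fst') (hZb.comp (A := A) PT.fst')
      (fun k => (hrd k).comp ((PT.fst'.fst.fst.pair PT.fst'.snd).pair PT.snd')) PT.snd')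
    (b := fun a => 3 * NP a) ((PBd.const 3).mul hPb) fun a j _ => ?_
  refine le_trans (esize_bools_le _) ?_
  apply Nat.mul_le_mul_left
  cases j with
  | zero => exact (length_majN _ _ _).le
  | succ j =>
    rw [Function.iterate_succ_apply']
    exact (length_majN _ _ _).le

end PT

end Vale.Agent.P330.Q.Dec
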