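import Vale.Agent.P318.S.Fourier
import Vale.Agent.Lib.PCP.AR.Blr

/-!
# Contraction by reads along biased directions

Sites are pairs (point, pad).  A read map `rd : P × Z → P` (`MixRead rd lam`) is almost independent
of the point.  If every bad point is wrong on a fraction `θ` of its pads, and a wrong site has a bad
read or is exceptional, then the bad set is at most `2 / θ` times the exceptional set.
-/

namespace Vale.Agent.P330.Q

open Finset PCP.AR Vale.Agent.P318.S
open scoped BigOperators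

section abs

variable {P Z : Type*} [Fintype P] [Fintype Z]

/-- The point read is almost independent of the point. -/
def MixRead (rd : P × Z → P) (lam : ℝ) : Prop :=
  ∀ (B' B : P → Prop) (s : ℝ), 0 < s → pr (fun ω : P × Z => B' ω.1 ∧ B (rd ω)) ≤
    pr B' * pr B + lam / 2 * (s * pr B' + pr B / s)

theorem MixRead.self {rd : P × Z → P} {lam : ℝ} (h : MixRead rd lam) (B : P → Prop) :
    pr (fun ω : P × Z => B ω.1 ∧ B (rd ω)) ≤ pr B ^ 2 + lam * pr B := by
  have := h B B 1 one_pos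
  rw [div_one] at this
  nlinarith

theorem pr_ex_le {Ω κ : Type*} [Fintype Ω] [Fintype κ] (E : κ → Ω → Prop) (c : ℝ)
    (h : ∀ k, pr (E k) ≤ c) : pr (fun t => ∃ k, E k t) ≤ Fintype.card κ * c := by
  classical
  have key : ∀ s : Finset κ, pr (fun t => ∃ k ∈ s, E k t) ≤ s.card * c := by
    intro s
    induction s using Finset.induction_on with
    | empty =>
      simp only [notMem_empty, false_and, exists_false, card_empty, Nat.cast_zero, zero_mul]
      exact pr_false.le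
    | insert a s ha ih =>
      have h1 : pr (fun t => ∃ k ∈ insert a s, E k t) ≤
          pr (fun t => E a t ∨ ∃ k ∈ s, E k t) := by
        apply pr_mono
        rintro t ⟨k, hk, ht⟩
        rcases mem_insert.1 hk with rfl | hk
        · exact Or.inl ht
        · exact Or.inr ⟨k, hk, ht⟩
      have h2 := pr_or (E a) (fun t => ∃ k ∈ s, E k t)
      have h3 := h a
      rw [card_insert_of_notMem ha]
      push_cast
      linarith
  have h1 := key univ
  rw [card_univ] at h1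
  refine le_trans (pr_mono ?_) h1
  rintro t ⟨k, hk⟩
  exact ⟨k, mem_univ _, hk⟩

/-- **Contraction.** -/
theorem contraction {κ : Type*} [Fintype κ] (rd : κ → P × Z → P) {lam θ : ℝ} (hθ : 0 < θ)
    (hmix : ∀ k, MixRead (rd k) lam) (B : P → Prop) (W N : P × Z → Prop)
    (h1 : ∀ p, B p → θ ≤ pr (fun z : Z => W (p, z)))
    (h2 : ∀ ω, W ω → N ω ∨ ∃ k, B (rd k ω))
    (h3 : (Fintype.card κ : ℝ) * (pr B + lam) ≤ θ / 2) : pr B ≤ 2 / θ * pr N := by
  have k1 : pr B * θ ≤ pr (fun ω : P × Z => B ω.1 ∧ W ω) := by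
    apply mul_le_pr_prod
    intro p hp
    exact (h1 p hp).trans (pr_mono fun z hz => ⟨hp, hz⟩)
  have k2 : pr (fun ω : P × Z => B ω.1 ∧ W ω) ≤
      pr (fun ω : P × Z => N ω ∨ ∃ k, B ω.1 ∧ B (rd k ω)) := by
    apply pr_mono
    rintro ω ⟨hB, hW⟩
    rcases h2 ω hW with h | ⟨k, h⟩
    · exact Or.inl h
    · exact Or.inr ⟨k, hB, h⟩
  have k3 := pr_or N (fun ω : P × Z => ∃ k, B ω.1 ∧ B (rd k ω))
  have k4 := pr_ex_le (fun k (ω : P × Z) => B ω.1 ∧ B (rd k ω)) _ (fun k => (hmix k).self B)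
  have k5 : (Fintype.card κ : ℝ) * (pr B ^ 2 + lam * pr B) ≤ θ / 2 * pr B := by
    have := mul_le_mul_of_nonneg_right h3 (pr_nonneg B)
    nlinarith
  have k6 : θ / 2 * pr B ≤ pr N := by linarith
  rw [div_mul_eq_mul_div, le_div_iff₀ hθ]
  linarith

/-- **Sampler**: few points have a bad read on many pads. -/
theorem sampler {κ : Type*} [Fintype κ] (rd : κ → P × Z → P) {lam θ : ℝ} (hθ : 0 < θ)
    (h0 : 0 ≤ lam) (hmix : ∀ k, MixRead (rd k) lam) (B : P → Prop)
    (h3 : (Fintype.card κ : ℝ) * pr B ≤ θ / 2) :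
    pr (fun p => θ ≤ pr (fun z : Z => ∃ k, B (rd k (p, z)))) ≤
      (2 * Fintype.card κ * lam / θ) ^ 2 * pr B := by
  set B' : P → Prop := fun p => θ ≤ pr (fun z : Z => ∃ k, B (rd k (p, z))) with hB'
  set K : ℝ := (Fintype.card κ : ℝ) with hK
  have hK0 : 0 ≤ K := by positivity
  have hb' := pr_nonneg B'
  have hb := pr_nonneg B
  have key : ∀ s : ℝ, 0 < s →
      pr B' * θ ≤ K * (pr B' * pr B + lam / 2 * (s * pr B' + pr B / s)) := by
    intro s hs
    have k1 : pr B' * θ ≤ pr (fun ω : P × Z => ∃ k, B' ω.1 ∧ B (rd k ω)) := by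
      apply mul_le_pr_prod
      intro p hp
      refine (show θ ≤ _ from hp).trans (pr_mono ?_)
      rintro z ⟨k, hk⟩
      exact ⟨k, hp, hk⟩
    have k4 := pr_ex_le (fun k (ω : P × Z) => B' ω.1 ∧ B (rd k ω)) _
      (fun k => hmix k B' B s hs)
    exact k1.trans k4
  rcases eq_or_lt_of_le (mul_nonneg hK0 h0) with h | h
  · -- `K * lam = 0`
    have h1 := key 1 one_pos
    have h2 : K * (pr B' * pr B + lam / 2 * (1 * pr B' + pr B / 1)) = pr B' * (K * pr B) := by
      have : K * (pr B' * pr B + lam / 2 * (1 * pr B' + pr B / 1)) =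
        pr B' * (K * pr B) + (K * lam) / 2 * (pr B' + pr B) := by ring
      rw [this, ← h]
      ring
    rw [h2] at h1
    have h4 := mul_le_mul_of_nonneg_left h3 hb'
    have h5 : pr B' * (θ / 2) ≤ 0 := by linarith
    have h6 : pr B' ≤ 0 := by
      by_contra hc
      push Not at hc
      have : 0 < pr B' * (θ / 2) := by positivity
      linarith
    exact h6.trans (by positivity)
  · have hs : 0 < θ / (2 * (K * lam)) := by positivity
    have h1 := key _ hs
    have h4 := mul_le_mul_of_nonneg_left h3 hb'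
    have e1 : K * (lam / 2 * (θ / (2 * (K * lam)) * pr B')) = θ / 4 * pr B' := by
      have hK' : K ≠ 0 := by rintro h'; rw [h'] at h; simp at h
      have hl' : lam ≠ 0 := by rintro h'; rw [h'] at h; simp at h
      field_simp
      ring
    have e2 : K * (lam / 2 * (pr B / (θ / (2 * (K * lam))))) = (K * lam) ^ 2 / θ * pr B := by
      field_simp
    have h5 : θ / 4 * pr B' ≤ (K * lam) ^ 2 / θ * pr B := by
      have : K * (pr B' * pr B + lam / 2 * (θ / (2 * (K * lam)) * pr B' +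
          pr B / (θ / (2 * (K * lam))))) = pr B' * (K * pr B) +
          K * (lam / 2 * (θ / (2 * (K * lam)) * pr B')) +
          K * (lam / 2 * (pr B / (θ / (2 * (K * lam))))) := by ring
      rw [this, e1, e2] at h1
      linarith
    have h6 : pr B' ≤ (K * lam) ^ 2 / θ * pr B * (4 / θ) := by
      have := mul_le_mul_of_nonneg_right h5 (show 0 ≤ 4 / θ by positivity)
      have e3 : θ / 4 * pr B' * (4 / θ) = pr B' := by field_simp
      rw [e3] at this
      exact this
    refine h6.trans (le_of_eq ?_)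
    field_simp
    ring

/-- The sampler hypothesis of the network. -/
theorem sampler_half {κ : Type*} [Fintype κ] (rd : κ → P × Z → P) {lam ρ₁ : ℝ}
    (h0 : 0 ≤ lam) (hmix : ∀ k, MixRead (rd k) lam) (hlam : 512 * (Fintype.card κ * lam) ^ 2 ≤ 1)
    (hρ : (Fintype.card κ : ℝ) * ρ₁ ≤ 1 / 16) (B : P → Prop) (hB : pr B ≤ ρ₁) :
    pr (fun p => 1 / 8 ≤ pr (fun z : Z => ∃ k, B (rd k (p, z)))) ≤ 1 / 2 * pr B := by
  have h := sampler rd (θ := 1 / 8) (by norm_num) h0 hmix B (by
    have := mul_le_mul_of_nonneg_left hB (Nat.cast_nonneg (α := ℝ) (Fintype.card κ))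
    linarith)
  refine h.trans (mul_le_mul_of_nonneg_right ?_ (pr_nonneg B))
  nlinarith

/-- The first bound on the bad set. -/
theorem contraction0 {κ : Type*} [Fintype κ] {θ γ : ℝ} (hθ : 0 < θ) (B : P → Prop)
    (W N : P × Z → Prop) (G : κ → P × Z → Prop)
    (h1 : ∀ p, B p → θ ≤ pr (fun z : Z => W (p, z)))
    (h2 : ∀ ω, W ω → N ω ∨ ∃ k, G k ω) (h3 : ∀ k, pr (G k) ≤ γ) :
    pr B ≤ (pr N + Fintype.card κ * γ) / θ := by
  have k1 : pr B * θ ≤ pr W := mul_le_pr_prod _ _ _ h1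
  have k2 : pr W ≤ pr (fun ω : P × Z => N ω ∨ ∃ k, G k ω) := pr_mono h2
  have k3 := pr_or N (fun ω : P × Z => ∃ k, G k ω)
  have k4 := pr_ex_le G _ h3
  rw [le_div_iff₀ hθ]
  linarith

end abs

section mix

variable {Y : Type*} [AddCommGroup Y] [Fintype Y]

/-- Mixing, for two functions. -/
theorem mix2 (h2 : ∀ y : Y, y + y = 0) {Ω : Type*} [Fintype Ω] [Nonempty Ω] (z : Ω → Y)
    {lam : ℝ} (hb : CharBd z lam) (g g' : Y → ℝ) :
    |(𝔼 ω, 𝔼 y, g y * g' (y + z ω)) - (𝔼 y, g y) * (𝔼 y, g' y)| ≤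
      lam / 2 * (((𝔼 y, g y ^ 2) - (𝔼 y, g y) ^ 2) + ((𝔼 y, g' y ^ 2) - (𝔼 y, g' y) ^ 2)) := by
  have sym : ∀ ω, 𝔼 y, g' y * g (y + z ω) = 𝔼 y, g y * g' (y + z ω) := by
    intro ω
    refine Fintype.expect_equiv (Equiv.addRight (z ω)) _ _ fun y => ?_
    have : y + z ω + z ω = y := by rw [add_assoc, h2, add_zero]
    simp only [Equiv.coe_addRight, this]
    ring
  have h1 := mix_abs h2 z hb (fun y => g y + g' y)
  have h3 := mix_abs h2 z hb (fun y => g y - g' y)
  have e1 : 𝔼 ω, 𝔼 y, (g y + g' y) * (g (y + z ω) + g' (y + z ω)) =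
      (𝔼 ω, 𝔼 y, g y * g (y + z ω)) + 2 * (𝔼 ω, 𝔼 y, g y * g' (y + z ω)) +
        (𝔼 ω, 𝔼 y, g' y * g' (y + z ω)) := by
    rw [Finset.mul_expect, ← Finset.expect_add_distrib, ← Finset.expect_add_distrib]
    refine expect_congr rfl fun ω _ => ?_
    have : 𝔼 y, (g y + g' y) * (g (y + z ω) + g' (y + z ω)) =
        (𝔼 y, g y * g (y + z ω)) + (𝔼 y, g y * g' (y + z ω)) + (𝔼 y, g' y * g (y + z ω)) +
          (𝔼 y, g' y * g' (y + z ω)) := by
      rw [← Finset.expect_add_distrib, ← Finset.expect_add_distrib, ← Finset.expect_add_distrib]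
      exact expect_congr rfl fun y _ => by ring
    rw [this, sym]
    ring
  have e2 : 𝔼 ω, 𝔼 y, (g y - g' y) * (g (y + z ω) - g' (y + z ω)) =
      (𝔼 ω, 𝔼 y, g y * g (y + z ω)) - 2 * (𝔼 ω, 𝔼 y, g y * g' (y + z ω)) +
        (𝔼 ω, 𝔼 y, g' y * g' (y + z ω)) := by
    rw [Finset.mul_expect, ← Finset.expect_sub_distrib, ← Finset.expect_add_distrib]
    refine expect_congr rfl fun ω _ => ?_
    have : 𝔼 y, (g y - g' y) * (g (y + z ω) - g' (y + z ω)) =
        (𝔼 y, g y * g (y + z ω)) - (𝔼 y, g y * g' (y + z ω)) - (𝔼 y, g' y * g (y + z ω)) +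
          (𝔼 y, g' y * g' (y + z ω)) := by
      rw [← Finset.expect_sub_distrib, ← Finset.expect_sub_distrib, ← Finset.expect_add_distrib]
      exact expect_congr rfl fun y _ => by ring
    rw [this, sym]
    ring
  have e3 : 𝔼 y, (g y + g' y) = (𝔼 y, g y) + 𝔼 y, g' y := Finset.expect_add_distrib _ _ _
  have e4 : 𝔼 y, (g y - g' y) = (𝔼 y, g y) - 𝔼 y, g' y := Finset.expect_sub_distrib _ _ _
  have e5 : 𝔼 y, (g y + g' y) ^ 2 = (𝔼 y, g y ^ 2) + 2 * (𝔼 y, g y * g' y) + 𝔼 y, g' y ^ 2 := by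
    rw [Finset.mul_expect, ← Finset.expect_add_distrib, ← Finset.expect_add_distrib]
    exact expect_congr rfl fun y _ => by ring
  have e6 : 𝔼 y, (g y - g' y) ^ 2 = (𝔼 y, g y ^ 2) - 2 * (𝔼 y, g y * g' y) + 𝔼 y, g' y ^ 2 := by
    rw [Finset.mul_expect, ← Finset.expect_sub_distrib, ← Finset.expect_add_distrib]
    exact expect_congr rfl fun y _ => by ring
  rw [e1, e3, e5] at h1
  rw [e2, e4, e6] at h3
  have a1 := abs_le.1 h1
  have a2 := abs_le.1 h3
  rw [abs_le]
  constructor <;> nlinarith [a1.1, a1.2, a2.1, a2.2]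

theorem pr_eq_expect {Ω : Type*} [Fintype Ω] (p : Ω → Prop) [DecidablePred p] :
    pr p = 𝔼 ω, (if p ω then (1 : ℝ) else 0) := by
  unfold pr
  rw [Fintype.expect_eq_sum_div_card]
  congr 1
  exact sum_congr rfl fun ω _ => by split_ifs <;> rfl

theorem pr_eq_sum_div {Ω : Type*} [Fintype Ω] (p : Ω → Prop) :
    pr p = 𝔼 ω, ((open Classical in if p ω then (1 : ℝ) else 0)) := by
  unfold pr
  rw [Fintype.expect_eq_sum_div_card]

/-- Reads along biased directions mix. -/
theorem mixRead_of {E ι T : Type*} [Fintype E] [Fintype ι] [Nonempty ι] [Fintype T]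
    (h2 : ∀ y : Y, y + y = 0) {r : ι → Y} {lam : ℝ} (h0 : 0 ≤ lam) (hb : CharBd r lam)
    (π : Y ≃ Y) (e : Y → E → ι → T → E)
    (he : ∀ y c i (B : E → Prop), pr (fun t => B (e y c i t)) = pr B) :
    MixRead (fun ω : (Y × E) × (ι × T) =>
      (π ω.1.1 + r ω.2.1, e ω.1.1 ω.1.2 ω.2.1 ω.2.2)) lam := by
  classical
  intro B' B s hs
  have hY : Nonempty Y := ⟨0⟩
  set b : Y → ℝ := fun y => pr (fun c : E => B (y, c)) with hbdef
  set b' : Y → ℝ := fun y => pr (fun c : E => B' (y, c)) with hbdef'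
  have b0 : ∀ (C : Y × E → Prop) (y : Y), 0 ≤ pr (fun c : E => C (y, c)) := fun C y => pr_nonneg _
  have b1 : ∀ (C : Y × E → Prop) (y : Y), pr (fun c : E => C (y, c)) ≤ 1 := by
    intro C y
    rcases isEmpty_or_nonempty E with hE | hE
    · simp [pr]
    · exact pr_le_one _
  have e0 : ∀ C : Y × E → Prop, pr C = 𝔼 y, pr (fun c : E => C (y, c)) := by
    intro C
    rw [pr_prod, Fintype.expect_eq_sum_div_card]
  have sq : ∀ C : Y × E → Prop, (𝔼 y, pr (fun c : E => C (y, c)) ^ 2) ≤ pr C := by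
    intro C
    rw [e0 C]
    refine expect_le_expect fun y _ => ?_
    have := b0 C y
    have := b1 C y
    nlinarith
  -- the probability as a correlation
  have e1 : pr (fun ω : (Y × E) × (ι × T) =>
      B' ω.1 ∧ B (π ω.1.1 + r ω.2.1, e ω.1.1 ω.1.2 ω.2.1 ω.2.2)) =
      𝔼 y, 𝔼 i, b' y * b (π y + r i) := by
    have f1 : ∀ (y : Y) (c : E) (i : ι), pr (fun t : T => B' (y, c) ∧ B (π y + r i, e y c i t)) =
        (if B' (y, c) then (1 : ℝ) else 0) * b (π y + r i) := by
      intro y c i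
      by_cases h : B' (y, c)
      · simp only [h, true_and, if_true, one_mul]
        exact he y c i fun c' => B (π y + r i, c')
      · simp only [h, false_and, if_false, zero_mul]
        exact pr_false
    have f2 : ∀ (y : Y) (c : E), pr (fun z : ι × T => B' (y, c) ∧ B (π y + r z.1, e y c z.1 z.2)) =
        (if B' (y, c) then (1 : ℝ) else 0) * 𝔼 i, b (π y + r i) := by
      intro y c
      rw [pr_prod, ← Fintype.expect_eq_sum_div_card, Finset.mul_expect]
      exact expect_congr rfl fun i _ => f1 y c i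
    rw [pr_prod, ← Fintype.expect_eq_sum_div_card]
    have f3 : 𝔼 p : Y × E, pr (fun z : ι × T => B' p ∧ B (π p.1 + r z.1, e p.1 p.2 z.1 z.2)) =
        𝔼 y : Y, 𝔼 c : E, pr (fun z : ι × T => B' (y, c) ∧ B (π y + r z.1, e y c z.1 z.2)) := by
      rw [← Finset.univ_product_univ, Finset.expect_product]
    refine f3.trans (expect_congr rfl fun y _ => ?_)
    rw [Finset.expect_congr rfl fun c _ => f2 y c, ← Finset.expect_mul, ← Finset.mul_expect]
    congr 1
    exact (pr_eq_expect (fun c : E => B' (y, c))).symm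
  have e2 : 𝔼 y, 𝔼 i, b' y * b (π y + r i) = 𝔼 i, 𝔼 y, b' (π.symm y) * b (y + r i) := by
    rw [Finset.expect_comm]
    refine expect_congr rfl fun i _ => ?_
    refine Fintype.expect_equiv π _ _ fun y => ?_
    simp
  have e3 : 𝔼 y, b' (π.symm y) = pr B' := by
    rw [e0 B']
    exact Fintype.expect_equiv π.symm _ _ fun y => rfl
  have e4 : 𝔼 y, b' (π.symm y) ^ 2 ≤ pr B' := by
    refine le_trans (le_of_eq ?_) (sq B')
    exact Fintype.expect_equiv π.symm _ _ fun y => rfl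
  have hq : 0 < Real.sqrt s := Real.sqrt_pos.2 hs
  have hq2 : Real.sqrt s ^ 2 = s := Real.sq_sqrt hs.le
  have m := mix2 h2 r hb (fun y => Real.sqrt s * b' (π.symm y)) (fun y => b y / Real.sqrt s)
  have e5 : 𝔼 i, 𝔼 y, Real.sqrt s * b' (π.symm y) * (b (y + r i) / Real.sqrt s) =
      𝔼 i, 𝔼 y, b' (π.symm y) * b (y + r i) := by
    refine expect_congr rfl fun i _ => expect_congr rfl fun y _ => ?_
    field_simp
  have e6 : 𝔼 y, Real.sqrt s * b' (π.symm y) = Real.sqrt s * pr B' := by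
    rw [← Finset.mul_expect, e3]
  have e7 : 𝔼 y, b y / Real.sqrt s = pr B / Real.sqrt s := by
    rw [← Finset.expect_div, ← e0 B]
  have e8 : 𝔼 y, (Real.sqrt s * b' (π.symm y)) ^ 2 ≤ s * pr B' := by
    have : 𝔼 y, (Real.sqrt s * b' (π.symm y)) ^ 2 = s * 𝔼 y, b' (π.symm y) ^ 2 := by
      rw [Finset.mul_expect]
      exact expect_congr rfl fun y _ => by rw [mul_pow, hq2]
    rw [this]
    exact mul_le_mul_of_nonneg_left e4 hs.le
  have e9 : 𝔼 y, (b y / Real.sqrt s) ^ 2 ≤ pr B / s := by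
    have : 𝔼 y, (b y / Real.sqrt s) ^ 2 = (𝔼 y, b y ^ 2) / s := by
      rw [Finset.expect_div]
      exact expect_congr rfl fun y _ => by rw [div_pow, hq2]
    rw [this]
    exact div_le_div_of_nonneg_right (sq B) hs.le
  have m1 := (abs_le.1 m).2
  rw [e5, e6, e7] at m1
  rw [e1, e2]
  have e10 : Real.sqrt s * pr B' * (pr B / Real.sqrt s) = pr B' * pr B := by field_simp
  rw [e10] at m1
  have e11 : ((𝔼 y, (Real.sqrt s * b' (π.symm y)) ^ 2) - (Real.sqrt s * pr B') ^ 2) +
      ((𝔼 y, (b y / Real.sqrt s) ^ 2) - (pr B / Real.sqrt s) ^ 2) ≤ s * pr B' + pr B / s := by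
    have := sq_nonneg (Real.sqrt s * pr B')
    have := sq_nonneg (pr B / Real.sqrt s)
    linarith
  have e12 := mul_le_mul_of_nonneg_left e11 (show 0 ≤ lam / 2 by linarith)
  linarith

end mix

end Vale.Agent.P330.Q
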