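import Mathlib

/-!
# Project Q, code layer: extension systems over the cube

`ESys F h Y` is a group `Y` with a copy `ι` of the cube `F_2^h` (coordinates indexed by `ZMod h`),
a shift `θ` and a linear extension operator `E` from functions on the cube to functions on `Y`
which is equivariant under translations by the cube and under the shift.

`PD ι d w` : all `d`-fold derivatives of `w : Y → F` in directions of the cube are constant on `Y`.
Products, extensions, cube sums, the shift recursion of the partial sums, and the dual rail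
monomials (reading of a product of coefficients as a cube sum).
-/

namespace Vale.Agent.P330.Q

open Finset
open scoped BigOperators

/-- The cube `F_2^h`, coordinates indexed by `ZMod h`. -/
abbrev Cube (h : ℕ) : Type := ZMod h → ZMod 2

/-- The cyclic shift of the cube, `(shf b) i = b (i - 1)`. -/
def shf (h : ℕ) : Cube h ≃+ Cube h where
  toFun b i := b (i - 1)
  invFun b i := b (i + 1)
  left_inv b := by funext i; simp
  right_inv b := by funext i; simp
  map_add' a b := by funext i; rfl

@[simp] theorem shf_apply {h : ℕ} (b : Cube h) (i : ZMod h) : shf h b i = b (i - 1) := rfl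

@[simp] theorem shf_symm_apply {h : ℕ} (b : Cube h) (i : ZMod h) :
    (shf h).symm b i = b (i + 1) := rfl

/-- The unit vector of the cube. -/
def ev {h : ℕ} (i : ZMod h) : Cube h := Pi.single i 1

theorem shf_ev {h : ℕ} (i : ZMod h) : shf h (ev i) = ev (i + 1) := by
  funext j
  by_cases hj : j = i + 1
  · subst hj; simp [ev]
  · have : j - 1 ≠ i := fun h => hj (by rw [← h]; ring)
    simp [ev, hj, this]

/-! ### Derivatives along the cube -/

section PD

variable {F : Type*} [Field F] {h : ℕ} {Y : Type*} [AddCommGroup Y]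

/-- The derivative in the direction `b` of the cube. -/
def dv (ι : Cube h →+ Y) (b : Cube h) (w : Y → F) (y : Y) : F := w (y + ι b) + w y

/-- All `d`-fold derivatives along the cube are constant on `Y`. -/
def PD (ι : Cube h →+ Y) : ℕ → (Y → F) → Prop
  | 0, w => ∀ y y', w y = w y'
  | d + 1, w => ∀ b, PD ι d (dv ι b w)

variable {ι : Cube h →+ Y}

theorem PD.zero_iff {w : Y → F} : PD ι 0 w ↔ ∀ y y', w y = w y' := Iff.rfl

theorem PD.succ_iff {d : ℕ} {w : Y → F} : PD ι (d + 1) w ↔ ∀ b, PD ι d (dv ι b w) := Iff.rfl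

theorem PD.const [CharP F 2] (c : F) : ∀ d : ℕ, PD ι d (fun _ : Y => c)
  | 0 => fun _ _ => rfl
  | d + 1 => fun b => by
      have : dv ι b (fun _ : Y => c) = fun _ => (0 : F) := by
        funext y; exact CharTwo.add_self_eq_zero c
      rw [this]; exact PD.const 0 d

theorem PD.of_zero [CharP F 2] {w : Y → F} (hw : PD ι 0 w) (d : ℕ) : PD ι d w := by
  have : w = fun _ => w 0 := by funext y; exact hw y 0
  rw [this]; exact PD.const _ d

theorem PD.succ [CharP F 2] : ∀ {d : ℕ} {w : Y → F}, PD ι d w → PD ι (d + 1) w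
  | 0, _, hw => PD.of_zero hw 1
  | _ + 1, _, hw => fun b => PD.succ (hw b)

theorem PD.mono [CharP F 2] {d d' : ℕ} {w : Y → F} (hw : PD ι d w) (hd : d ≤ d') :
    PD ι d' w := by
  induction d', hd using Nat.le_induction with
  | base => exact hw
  | succ n _ ih => exact ih.succ

theorem PD.add : ∀ {d : ℕ} {w w' : Y → F}, PD ι d w → PD ι d w' → PD ι d (w + w')
  | 0, w, w', hw, hw' => fun y y' => by
      rw [Pi.add_apply, Pi.add_apply, hw y y', hw' y y']
  | d + 1, w, w', hw, hw' => fun b => by
      have : dv ι b (w + w') = dv ι b w + dv ι b w' := by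
        funext y; simp only [dv, Pi.add_apply]; ring
      rw [this]; exact PD.add (hw b) (hw' b)

theorem PD.smul (c : F) : ∀ {d : ℕ} {w : Y → F}, PD ι d w → PD ι d (c • w)
  | 0, w, hw => fun y y' => by rw [Pi.smul_apply, Pi.smul_apply, hw y y']
  | d + 1, w, hw => fun b => by
      have : dv ι b (c • w) = c • dv ι b w := by
        funext y; simp only [dv, Pi.smul_apply, smul_eq_mul]; ring
      rw [this]; exact PD.smul c (hw b)

theorem PD.sum [CharP F 2] {κ : Type*} (s : Finset κ) {d : ℕ} {w : κ → Y → F}
    (hw : ∀ k ∈ s, PD ι d (w k)) : PD ι d (∑ k ∈ s, w k) := by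
  classical
  induction s using Finset.induction_on with
  | empty => exact PD.const 0 d
  | insert a s ha ih =>
      rw [sum_insert ha]
      exact (hw a (mem_insert_self a s)).add (ih fun k hk => hw k (mem_insert_of_mem hk))

/-- Translation by an element of the group. -/
theorem PD.translate : ∀ {d : ℕ} {w : Y → F}, PD ι d w → ∀ z, PD ι d (fun y => w (y + z))
  | 0, _, hw => fun _ _ _ => hw _ _
  | d + 1, w, hw => fun z b => by
      have : dv ι b (fun y => w (y + z)) = fun y => dv ι b w (y + z) := by
        funext y; simp only [dv]; rw [add_right_comm]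
      rw [this]; exact PD.translate (hw b) z

/-- Change of the group by a map compatible with the cube (up to an automorphism of the cube). -/
theorem PD.comp {Y' : Type*} [AddCommGroup Y'] {ι' : Cube h →+ Y'} (T : Y' →+ Y)
    (σ : Cube h → Cube h) (hT : ∀ b, T (ι' b) = ι (σ b)) :
    ∀ {d : ℕ} {w : Y → F}, PD ι d w → PD ι' d (fun y => w (T y))
  | 0, _, hw => fun _ _ => hw _ _
  | d + 1, w, hw => fun b => by
      have : dv ι' b (fun y => w (T y)) = fun y => dv ι (σ b) w (T y) := by
        funext y; simp only [dv, map_add, hT]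
      rw [this]; exact PD.comp T σ hT (hw (σ b))

theorem PD.mul_aux [CharP F 2] : ∀ (n d d' : ℕ), d + d' = n → ∀ {w w' : Y → F}, PD ι d w →
    PD ι d' w' → PD ι n (w * w')
  | n, 0, d', hn, w, w', hw, hw' => by
      have : w * w' = (w 0) • w' := by
        funext y; simp only [Pi.mul_apply, Pi.smul_apply, smul_eq_mul]; rw [hw y 0]
      rw [this, ← hn, zero_add]; exact hw'.smul _
  | n, d, 0, hn, w, w', hw, hw' => by
      have : w * w' = (w' 0) • w := by
        funext y; simp only [Pi.mul_apply, Pi.smul_apply, smul_eq_mul]; rw [hw' y 0, mul_comm]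
      rw [this, ← hn, add_zero]; exact hw.smul _
  | 0, d + 1, d' + 1, hn, w, w', hw, hw' => by omega
  | n + 1, d + 1, d' + 1, hn, w, w', hw, hw' => fun b => by
      have : dv ι b (w * w') = dv ι b w * w' + w * dv ι b w' + dv ι b w * dv ι b w' := by
        funext y
        simp only [dv, Pi.mul_apply, Pi.add_apply]
        have h2 : (2 : F) = 0 := CharTwo.two_eq_zero
        linear_combination (- w y * w' y - w (y + ι b) * w' y - w y * w' (y + ι b)) * h2
      rw [this]
      refine (PD.add ?_ ?_).add ?_
      · exact PD.mul_aux n d (d' + 1) (by omega) (hw b) hw'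
      · exact PD.mul_aux n (d + 1) d' (by omega) hw (hw' b)
      · exact (PD.mul_aux (d + d') d d' rfl (hw b) (hw' b)).mono (by omega)

theorem PD.mul [CharP F 2] {d d' : ℕ} {w w' : Y → F} (hw : PD ι d w) (hw' : PD ι d' w') :
    PD ι (d + d') (w * w') := PD.mul_aux _ d d' rfl hw hw'

theorem PD.prod [CharP F 2] {κ : Type*} (s : Finset κ) {d : κ → ℕ} {w : κ → Y → F}
    (hw : ∀ k ∈ s, PD ι (d k) (w k)) : PD ι (∑ k ∈ s, d k) (∏ k ∈ s, w k) := by
  classical
  induction s using Finset.induction_on with
  | empty =>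
      rw [sum_empty, prod_empty]
      exact PD.const (ι := ι) (1 : F) 0
  | insert a s ha ih =>
      rw [sum_insert ha, prod_insert ha]
      exact (hw a (mem_insert_self a s)).mul (ih fun k hk => hw k (mem_insert_of_mem hk))

end PD

/-! ### Cube sums and partial sums -/

section csum

variable {F : Type*} [Field F] {h : ℕ} {Y : Type*} [AddCommGroup Y]

/-- Sum over the cube. -/
def csum [NeZero h] (ι : Cube h →+ Y) (w : Y → F) (y : Y) : F := ∑ b : Cube h, w (y + ι b)

/-- The partial sums: over the span of the first `j` unit vectors. -/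
def wp (ι : Cube h →+ Y) (w : Y → F) : ℕ → Y → F
  | 0 => w
  | j + 1 => fun y => wp ι w j y + wp ι w j (y + ι (ev (j : ZMod h)))

/-- Indicator vector of a set of coordinates. -/
def iv {h : ℕ} (A : Finset (ZMod h)) : Cube h := fun i => if i ∈ A then 1 else 0

theorem iv_insert {h : ℕ} {A : Finset (ZMod h)} {a : ZMod h} (ha : a ∉ A) :
    iv (insert a A) = iv A + ev a := by
  funext i
  by_cases hi : i = a
  · subst hi; simp [iv, ev, ha]
  · simp [iv, ev, hi]

theorem wp_eq (ι : Cube h →+ Y) (w : Y → F) {j : ℕ} (hj : j ≤ h) [NeZero h] (y : Y) :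
    wp ι w j y = ∑ A ∈ ((range j).image (fun i : ℕ => (i : ZMod h))).powerset,
      w (y + ι (iv A)) := by
  induction j generalizing y with
  | zero =>
      have h0 : iv (∅ : Finset (ZMod h)) = 0 := by funext i; simp [iv]
      simp [wp, h0]
  | succ j ih =>
      have hnot : (j : ZMod h) ∉ (range j).image (fun i : ℕ => (i : ZMod h)) := by
        intro hm
        obtain ⟨i, hi, hij⟩ := mem_image.1 hm
        rw [mem_range] at hi
        have h1 := congrArg ZMod.val hij
        rw [ZMod.val_natCast, ZMod.val_natCast, Nat.mod_eq_of_lt (by omega),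
          Nat.mod_eq_of_lt (by omega)] at h1
        omega
      rw [range_add_one, image_insert, sum_powerset_insert hnot]
      simp only [wp]
      rw [ih (by omega), ih (by omega)]
      congr 1
      refine sum_congr rfl fun A hA => ?_
      have hA' : (j : ZMod h) ∉ A := fun hm => hnot (mem_powerset.1 hA hm)
      rw [iv_insert hA', map_add, add_assoc, add_comm (ι (iv A))]

theorem image_range_univ [NeZero h] : (range h).image (fun i : ℕ => (i : ZMod h)) = univ := by
  ext i
  simp only [mem_image, mem_range, mem_univ, iff_true]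
  exact ⟨i.val, ZMod.val_lt i, ZMod.natCast_zmod_val i⟩

theorem sum_iv [NeZero h] (g : Cube h → F) : ∑ A : Finset (ZMod h), g (iv A) = ∑ b, g b := by
  refine Fintype.sum_bijective iv ⟨fun A B hAB => ?_, fun b => ⟨univ.filter (b · = 1), ?_⟩⟩ _ _
    fun A => rfl
  · ext i
    have h1 := congrFun hAB i
    by_cases hA : i ∈ A <;> by_cases hB : i ∈ B <;> simp [iv, hA, hB] at h1 ⊢
  · funext i
    have : b i = 0 ∨ b i = 1 := by generalize b i = x; revert x; decide
    rcases this with h0 | h0 <;> simp [iv, h0]

theorem wp_h [NeZero h] (ι : Cube h →+ Y) (w : Y → F) (y : Y) : wp ι w h y = csum ι w y := by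
  rw [wp_eq ι w le_rfl, image_range_univ, powerset_univ, csum,
    ← sum_iv (fun b => w (y + ι b))]

theorem wp_PD {ι : Cube h →+ Y} {w : Y → F} {d : ℕ} : ∀ {j : ℕ}, PD ι (d + j) w →
    PD ι d (wp ι w j)
  | 0, hw => hw
  | j + 1, hw => by
      have h1 : PD ι (d + 1) (wp ι w j) := wp_PD (by rwa [add_assoc, add_comm 1 j])
      have h2 := h1 (ev (j : ZMod h))
      have : dv ι (ev (j : ZMod h)) (wp ι w j) = wp ι w (j + 1) := by
        funext y; simp only [dv, wp]; ring
      rwa [this] at h2

/-- KEY FACT: the cube sum of a function of degree `≤ h` is constant. -/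
theorem csum_const [NeZero h] {ι : Cube h →+ Y} {w : Y → F} (hw : PD ι h w) (y y' : Y) :
    csum ι w y = csum ι w y' := by
  rw [← wp_h, ← wp_h]
  exact wp_PD (d := 0) (by rwa [zero_add]) y y'

variable (ι : Cube h →+ Y) (θ : Y → Y)

/-- The shifted partial sums. -/
def vs (w : Y → F) (j : ℕ) (y : Y) : F := wp ι w j (θ^[j] y)

@[simp] theorem vs_zero (w : Y → F) (y : Y) : vs ι θ w 0 y = w y := rfl

theorem iter_add (hθ : ∀ y b, θ (y + ι b) = θ y + ι (shf h b)) (j : ℕ) (y : Y) (i : ZMod h) :
    θ^[j] (y + ι (ev i)) = θ^[j] y + ι (ev (i + j)) := by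
  induction j generalizing y i with
  | zero => simp
  | succ j ih =>
      rw [Function.iterate_succ_apply, Function.iterate_succ_apply, hθ, shf_ev, ih]
      congr 3
      push_cast
      ring

/-- The recursion of the shifted partial sums (the same for all `j`). -/
theorem vs_succ (hθ : ∀ y b, θ (y + ι b) = θ y + ι (shf h b)) (w : Y → F) (j : ℕ) (y : Y) :
    vs ι θ w (j + 1) y = vs ι θ w j (θ y) + vs ι θ w j (θ y + ι (ev 0)) := by
  simp only [vs, wp]
  rw [iter_add ι θ hθ, Function.iterate_succ_apply, zero_add]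

/-- A chain of functions satisfying the recursion consists of the shifted partial sums. -/
theorem chain_eq (hθ : ∀ y b, θ (y + ι b) = θ y + ι (shf h b)) (v : ℕ → Y → F) {n : ℕ}
    (hv : ∀ j < n, ∀ y, v (j + 1) y = v j (θ y) + v j (θ y + ι (ev 0))) :
    ∀ j ≤ n, ∀ y, v j y = vs ι θ (v 0) j y := by
  intro j
  induction j with
  | zero => intro _ y; rfl
  | succ j ih =>
      intro hj y
      rw [hv j (by omega), vs_succ ι θ hθ, ih (by omega), ih (by omega)]

/-- The last function of a complete chain is the cube sum of the first one. -/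
theorem chain_top [NeZero h] (hθ : ∀ y b, θ (y + ι b) = θ y + ι (shf h b)) (v : ℕ → Y → F)
    (hv : ∀ j < h, ∀ y, v (j + 1) y = v j (θ y) + v j (θ y + ι (ev 0))) (y : Y) :
    v h y = csum ι (v 0) (θ^[h] y) := by
  rw [chain_eq ι θ hθ v hv h le_rfl, vs, wp_h]

end csum

/-! ### Monomials on the cube -/

section mon

variable (F : Type*) [Field F] {h : ℕ}

/-- A bit as an element of the field. -/
def bt (a : ZMod 2) : F := if a = 0 then 0 else 1

@[simp] theorem bt_zero : bt F 0 = 0 := by simp [bt]

@[simp] theorem bt_one : bt F 1 = 1 := by simp [bt]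

theorem zmod2_or (a : ZMod 2) : a = 0 ∨ a = 1 := by revert a; decide

theorem bt_add [CharP F 2] (a b : ZMod 2) : bt F (a + b) = bt F a + bt F b := by
  rcases zmod2_or a with rfl | rfl <;> rcases zmod2_or b with rfl | rfl <;>
    simp [show (1 : ZMod 2) + 1 = 0 from rfl, CharTwo.add_self_eq_zero]

theorem bt_mul_self (a : ZMod 2) : bt F a * bt F a = bt F a := by
  rcases zmod2_or a with rfl | rfl <;> simp

/-- The monomial `∏_{i ∈ A} b i` on the cube. -/
def mon (A : Finset (ZMod h)) (b : Cube h) : F := ∏ i ∈ A, bt F (b i)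

variable {F}

theorem mon_eq (A : Finset (ZMod h)) (b : Cube h) :
    mon F A b = if ∀ i ∈ A, b i = 1 then 1 else 0 := by
  split_ifs with h1
  · exact prod_eq_one fun i hi => by rw [h1 i hi, bt_one]
  · push Not at h1
    obtain ⟨i, hi, hb⟩ := h1
    exact prod_eq_zero hi (by rw [(zmod2_or (b i)).resolve_right hb, bt_zero])

theorem mon_mul (A B : Finset (ZMod h)) (b : Cube h) :
    mon F A b * mon F B b = mon F (A ∪ B) b := by
  simp only [mon_eq]
  by_cases h1 : ∀ i ∈ A, b i = 1
  · by_cases h2 : ∀ i ∈ B, b i = 1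
    · have : ∀ i ∈ A ∪ B, b i = 1 := fun i hi => (mem_union.1 hi).elim (h1 i) (h2 i)
      rw [if_pos h1, if_pos h2, if_pos this, mul_one]
    · have : ¬ ∀ i ∈ A ∪ B, b i = 1 := fun h3 => h2 fun i hi => h3 i (mem_union_right _ hi)
      rw [if_neg h2, if_neg this, mul_zero]
  · have : ¬ ∀ i ∈ A ∪ B, b i = 1 := fun h3 => h1 fun i hi => h3 i (mem_union_left _ hi)
    rw [if_neg h1, if_neg this, zero_mul]

theorem mon_prod {κ : Type*} (s : Finset κ) (A : κ → Finset (ZMod h)) (b : Cube h) :
    ∏ k ∈ s, mon F (A k) b = mon F (s.biUnion A) b := by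
  classical
  induction s using Finset.induction_on with
  | empty => simp [mon]
  | insert a s ha ih => rw [prod_insert ha, ih, mon_mul, biUnion_insert]

theorem sum_mon [CharP F 2] [NeZero h] (A : Finset (ZMod h)) :
    ∑ b : Cube h, mon F A b = if A = univ then 1 else 0 := by
  have h1 : ∀ b : Cube h, mon F A b = ∏ i, (if i ∈ A then bt F (b i) else 1) := by
    intro b
    rw [mon, prod_ite_mem, univ_inter]
  rw [sum_congr rfl fun b _ => h1 b]
  have h2 := (prod_univ_sum (fun _ : ZMod h => (univ : Finset (ZMod 2)))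
    (fun i x => if i ∈ A then bt F x else 1)).symm
  rw [Fintype.piFinset_univ] at h2
  rw [h2]
  have h3 : ∀ i, (∑ x : ZMod 2, if i ∈ A then bt F x else 1) = if i ∈ A then 1 else 0 := by
    intro i
    have : (univ : Finset (ZMod 2)) = {0, 1} := rfl
    by_cases hi : i ∈ A
    · simp [hi, this]
    · simp [hi, this, CharTwo.two_eq_zero]
  rw [prod_congr rfl fun i _ => h3 i]
  split_ifs with h4
  · subst h4; simp
  · have : ∃ i, i ∉ A := by
      by_contra h5
      push Not at h5
      exact h4 (eq_univ_iff_forall.2 h5)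
    obtain ⟨i, hi⟩ := this
    exact prod_eq_zero (mem_univ i) (by simp [hi])

theorem PD_mon [CharP F 2] (A : Finset (ZMod h)) :
    PD (AddMonoidHom.id (Cube h)) A.card (mon F A) := by
  have h1 : mon F A = ∏ i ∈ A, fun b : Cube h => bt F (b i) := by
    funext b; rw [mon, prod_apply]
  rw [h1]
  have := PD.prod (ι := AddMonoidHom.id (Cube h)) A (d := fun _ => 1)
    (w := fun i (b : Cube h) => bt F (b i)) (fun i _ => ?_)
  · simpa using this
  · intro b y y'
    simp only [dv, AddMonoidHom.id_apply, Pi.add_apply, bt_add]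
    have h2 : (2 : F) = 0 := CharTwo.two_eq_zero
    linear_combination (bt F (y i) - bt F (y' i)) * h2

end mon

end Vale.Agent.P330.Q
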