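import Vale.Agent.P330.Q.ExtSys

/-!
# Project Q, code layer: the multi-affine extension

`P` is an invertible matrix over a field of characteristic two, `gp P x` the `F_2`-combinations of
its columns.  The kernel `kr P v = det (1 + N diag v)`, `N = P (P^(2))⁻¹`, is multi-affine and the
indicator of `0` on the group of the points `gp P x`.
-/

namespace Vale.Agent.P330.Q

open Finset Matrix
open scoped BigOperators

section MA

variable {F : Type*} [Field F] {I : Type*} [Fintype I] [DecidableEq I]

/-- Multi-affine functions. -/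
def MA (f : (I → F) → F) : Prop := ∃ c : Finset I → F, ∀ v, f v = ∑ A, c A * ∏ i ∈ A, v i

omit [DecidableEq I] in
theorem MA.add {f g : (I → F) → F} (hf : MA f) (hg : MA g) : MA (fun v => f v + g v) := by
  obtain ⟨c, hc⟩ := hf
  obtain ⟨d, hd⟩ := hg
  refine ⟨fun A => c A + d A, fun v => ?_⟩
  change f v + g v = ∑ A, (c A + d A) * ∏ i ∈ A, v i
  rw [hc, hd, ← sum_add_distrib]
  exact sum_congr rfl fun A _ => by ring

omit [DecidableEq I] in
theorem MA.smul {f : (I → F) → F} (hf : MA f) (a : F) : MA (fun v => a * f v) := by
  obtain ⟨c, hc⟩ := hf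
  refine ⟨fun A => a * c A, fun v => ?_⟩
  change a * f v = ∑ A, a * c A * ∏ i ∈ A, v i
  rw [hc, mul_sum]
  exact sum_congr rfl fun A _ => by ring

omit [DecidableEq I] in
theorem MA.zero : MA (fun _ : I → F => (0 : F)) := ⟨fun _ => 0, fun v => by simp⟩

omit [DecidableEq I] in
theorem MA.sum {κ : Type*} (s : Finset κ) {f : κ → (I → F) → F} (hf : ∀ k ∈ s, MA (f k)) :
    MA (fun v => ∑ k ∈ s, f k v) := by
  classical
  induction s using Finset.induction_on with
  | empty => simpa using MA.zero
  | insert a s ha ih =>
      simp only [sum_insert ha]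
      exact (hf a (mem_insert_self a s)).add (ih fun k hk => hf k (mem_insert_of_mem hk))

omit [Fintype I] in
theorem MA.monomial [Fintype I] (A : Finset I) (a : F) : MA (fun v => a * ∏ i ∈ A, v i) := by
  refine ⟨fun B => if B = A then a else 0, fun v => ?_⟩
  simp

theorem MA.const (a : F) : MA (fun _ : I → F => a) := by
  have := MA.monomial (∅ : Finset I) a
  simpa using this

theorem MA.translate {f : (I → F) → F} (hf : MA f) (z : I → F) : MA (fun v => f (v + z)) := by
  obtain ⟨c, hc⟩ := hf
  have h1 : (fun v => f (v + z)) = fun v => ∑ A, c A * ∑ B ∈ A.powerset,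
      (∏ i ∈ A \ B, z i) * ∏ i ∈ B, v i := by
    funext v
    rw [hc]
    refine sum_congr rfl fun A _ => ?_
    congr 1
    simp only [Pi.add_apply]
    rw [prod_add]
    exact sum_congr rfl fun B _ => mul_comm _ _
  rw [h1]
  refine MA.sum _ fun A _ => MA.smul (MA.sum _ fun B _ => MA.monomial B _) _

theorem MA.reindex {f : (I → F) → F} (hf : MA f) (σ : Equiv.Perm I) :
    MA (fun v : I → F => f (fun i => v (σ i))) := by
  obtain ⟨c, hc⟩ := hf
  have h1 : (fun v : I → F => f (fun i => v (σ i))) = fun v => ∑ A : Finset I, c A *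
      ∏ i ∈ A.map σ.toEmbedding, v i := by
    funext v
    rw [hc]
    refine sum_congr rfl fun A _ => ?_
    rw [prod_map]
    rfl
  rw [h1]
  exact MA.sum _ fun A _ => MA.monomial _ _

/-- The determinant `det (1 + N diag v)` is multi-affine in `v`. -/
theorem MA.det (N : Matrix I I F) : MA (fun v => (1 + N * diagonal v).det) := by
  let Nt : I → I → F := fun i j => N j i
  let O : I → I → F := fun i j => if i = j then 1 else 0
  let D := (detRowAlternating (R := F) (n := I)).toMultilinearMap
  have h1 : ∀ v : I → F, (1 + N * diagonal v).det =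
      ∑ A : Finset I, (∏ i ∈ A, v i) * D (A.piecewise Nt O) := by
    intro v
    have h2 : (1 + N * diagonal v).det = D ((fun i => v i • Nt i) + O) := by
      rw [← det_transpose]
      change ((1 + N * diagonal v)ᵀ).det = Matrix.det (Matrix.of ((fun i => v i • Nt i) + O))
      congr 1
      ext i j
      simp only [transpose_apply, Matrix.add_apply, mul_diagonal, one_apply, of_apply,
        Pi.add_apply, Pi.smul_apply, smul_eq_mul, Nt, O]
      rw [add_comm, mul_comm]
      congr 1
      exact if_congr eq_comm rfl rfl
    rw [h2, D.map_add_univ]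
    refine sum_congr rfl fun A _ => ?_
    have h5 := D.map_piecewise_smul v (A.piecewise Nt O) A
    have h6 : A.piecewise (fun i => v i • A.piecewise Nt O i) (A.piecewise Nt O) =
        A.piecewise (fun i => v i • Nt i) O := by
      funext i
      by_cases hi : i ∈ A <;> simp [hi]
    rw [h6] at h5
    exact h5
  refine ⟨fun A => D (A.piecewise Nt O), fun v => ?_⟩
  change (1 + N * diagonal v).det = ∑ A : Finset I, D (A.piecewise Nt O) * ∏ i ∈ A, v i
  rw [h1]
  exact sum_congr rfl fun A _ => mul_comm _ _

/-- A multi-affine function is a polynomial of degree `≤ t` along a line whose direction has at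
most `t` nonzero coordinates. -/
theorem MA.line [DecidableEq F] {f : (I → F) → F} (hf : MA f) (v r : I → F) {t : ℕ}
    (hr : (univ.filter fun i => r i ≠ 0).card ≤ t) :
    ∃ p : Polynomial F, p.natDegree ≤ t ∧ ∀ u : F, f (v + u • r) = p.eval u := by
  obtain ⟨c, hc⟩ := hf
  refine ⟨∑ A, Polynomial.C (c A) * ∏ i ∈ A, (Polynomial.C (r i) * Polynomial.X +
    Polynomial.C (v i)), ?_, fun u => ?_⟩
  · refine Polynomial.natDegree_sum_le_of_forall_le _ _ fun A _ => ?_
    refine Polynomial.natDegree_C_mul_le _ _ |>.trans ?_
    refine (Polynomial.natDegree_prod_le _ _).trans ?_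
    refine le_trans (sum_le_sum (g := fun i => if r i ≠ 0 then 1 else 0) fun i _ => ?_) ?_
    · split_ifs with h1
      · exact Polynomial.natDegree_linear_le
      · push Not at h1
        simp [h1]
    · rw [← card_filter]
      exact (card_le_card (filter_subset_filter _ (subset_univ A))).trans hr
  · rw [hc, Polynomial.eval_finsetSum]
    refine sum_congr rfl fun A _ => ?_
    rw [Polynomial.eval_mul, Polynomial.eval_C, Polynomial.eval_prod]
    congr 1
    refine prod_congr rfl fun i _ => ?_
    simp only [Pi.add_apply, Pi.smul_apply, smul_eq_mul, Polynomial.eval_add,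
      Polynomial.eval_mul, Polynomial.eval_C, Polynomial.eval_X]
    ring

end MA

/-! ### The kernel -/

section kr

variable {F : Type*} [Field F] {I : Type*} [Fintype I] [DecidableEq I]

/-- The point with `F_2`-coordinates `x` in the basis of the columns of `P`. -/
def gp (P : Matrix I I F) (x : I → ZMod 2) : I → F := P *ᵥ fun i => bt F (x i)

/-- The matrix of the kernel. -/
noncomputable def krN (P : Matrix I I F) : Matrix I I F := P * (P.map fun a => a ^ 2)⁻¹

/-- The kernel. -/
noncomputable def kr (P : Matrix I I F) (v : I → F) : F := (1 + krN P * diagonal v).det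

theorem MA_kr (P : Matrix I I F) : MA (kr P) := MA.det _

variable [CharP F 2]

theorem gp_add (P : Matrix I I F) (x z : I → ZMod 2) : gp P (x + z) = gp P x + gp P z := by
  rw [gp, gp, gp, ← mulVec_add]
  congr 1
  funext i
  simp [bt_add]

theorem bt_sq (a : ZMod 2) : bt F a ^ 2 = bt F a := by rw [sq, bt_mul_self]

theorem det_map_sq (P : Matrix I I F) : (P.map fun a => a ^ 2).det = P.det ^ 2 := by
  have h1 : (P.map fun a => a ^ 2) = (frobenius F 2).mapMatrix P := by
    ext i j; simp [frobenius_def]
  rw [h1, ← RingHom.map_det, frobenius_def]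

variable {P : Matrix I I F} (hP : P.det ≠ 0)

include hP in
theorem gp_inj : Function.Injective (gp P) := by
  intro x z hxz
  have h1 : Function.Injective P.mulVec := by
    rw [Matrix.mulVec_injective_iff_isUnit, Matrix.isUnit_iff_isUnit_det]
    exact isUnit_iff_ne_zero.2 hP
  have h2 := h1 hxz
  funext i
  have h3 := congrFun h2 i
  rcases zmod2_or (x i) with h4 | h4 <;> rcases zmod2_or (z i) with h5 | h5 <;>
    simp [h4, h5] at h3 ⊢

include hP in
theorem kr_gp (x : I → ZMod 2) : kr P (gp P x) = if x = 0 then 1 else 0 := by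
  split_ifs with hx
  · subst hx
    have h1 : gp P 0 = 0 := by
      have : (fun i : I => bt F ((0 : I → ZMod 2) i)) = 0 := by funext i; simp
      rw [gp, this, mulVec_zero]
    have h2 : diagonal (0 : I → F) = 0 := by
      rw [← diagonal_zero]; rfl
    rw [h1, kr, h2, Matrix.mul_zero, add_zero, det_one]
  · have hv : gp P x ≠ 0 := by
      intro h1
      have h2 : gp P 0 = 0 := by
        have : (fun i : I => bt F ((0 : I → ZMod 2) i)) = 0 := by funext i; simp
        rw [gp, this, mulVec_zero]
      exact hx (gp_inj hP (h1.trans h2.symm))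
    rw [kr, ← Matrix.exists_mulVec_eq_zero_iff]
    refine ⟨gp P x, hv, ?_⟩
    have h3 : diagonal (gp P x) *ᵥ gp P x = (P.map fun a => a ^ 2) *ᵥ fun i => bt F (x i) := by
      funext i
      rw [mulVec_diagonal, gp, mulVec, dotProduct, mulVec, dotProduct, ← sq]
      have h4 : (∑ j, P i j * bt F (x j)) ^ 2 = ∑ j, (P i j * bt F (x j)) ^ 2 := by
        have h7 := map_sum (frobenius F 2) (fun j => P i j * bt F (x j)) univ
        rw [frobenius_def] at h7
        rw [h7]
        exact sum_congr rfl fun j _ => frobenius_def _ _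
      rw [h4]
      refine sum_congr rfl fun j _ => ?_
      rw [mul_pow, bt_sq, map_apply]
    have h5 : IsUnit (P.map fun a => a ^ 2).det := by
      rw [det_map_sq]; exact isUnit_iff_ne_zero.2 (pow_ne_zero 2 hP)
    rw [add_mulVec, one_mulVec, ← mulVec_mulVec, h3, krN, ← mulVec_mulVec, mulVec_mulVec _ _
      (P.map fun a => a ^ 2), nonsing_inv_mul _ h5, one_mulVec]
    change gp P x + gp P x = 0
    funext i
    exact CharTwo.add_self_eq_zero _

/-- Extension of a function on the group of the points `gp P x`. -/
noncomputable def extG (P : Matrix I I F) (g : (I → ZMod 2) → F) (v : I → F) : F :=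
  ∑ x, g x * kr P (v + gp P x)

omit [CharP F 2] in
theorem MA_extG (g : (I → ZMod 2) → F) : MA (extG P g) := by
  unfold extG
  exact MA.sum _ fun x _ => ((MA_kr P).translate _).smul _

theorem zvec_add_eq_zero {x z : I → ZMod 2} : z + x = 0 ↔ x = z := by
  constructor
  · intro h1
    funext i
    have h2 := congrFun h1 i
    simp only [Pi.add_apply, Pi.zero_apply] at h2
    revert h2
    generalize x i = a
    generalize z i = b
    revert a b
    decide
  · rintro rfl
    funext i
    simp only [Pi.add_apply, Pi.zero_apply]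
    generalize x i = a
    revert a
    decide

include hP in
theorem extG_gp (g : (I → ZMod 2) → F) (z : I → ZMod 2) : extG P g (gp P z) = g z := by
  unfold extG
  rw [sum_eq_single z]
  · rw [← gp_add, kr_gp hP, if_pos (zvec_add_eq_zero.2 rfl), mul_one]
  · intro x _ hx
    rw [← gp_add, kr_gp hP, if_neg (fun h => hx (zvec_add_eq_zero.1 h)), mul_zero]
  · simp

theorem extG_tr (g : (I → ZMod 2) → F) (v : I → F) (z : I → ZMod 2) :
    extG P g (v + gp P z) = extG P (fun x => g (x + z)) v := by
  unfold extG
  refine Fintype.sum_equiv (Equiv.addRight z) _ _ fun x => ?_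
  simp only [Equiv.coe_addRight]
  have h1 : x + z + z = x := by
    rw [add_assoc, show z + z = 0 from zvec_add_eq_zero.2 rfl, add_zero]
  rw [h1, add_assoc, ← gp_add, add_comm z x]

include hP in
/-- Uniqueness: a multi-affine function is determined by its values at the points `gp P x`. -/
theorem MA.ext_gp {f g : (I → F) → F} (hf : MA f) (hg : MA g)
    (h : ∀ x, f (gp P x) = g (gp P x)) : f = g := by
  let Φ : (Finset I → F) →ₗ[F] ((I → ZMod 2) → F) :=
    { toFun := fun c x => ∑ A, c A * ∏ i ∈ A, gp P x i
      map_add' := fun c d => by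
        funext x
        simp only [Pi.add_apply, add_mul, sum_add_distrib]
      map_smul' := fun a c => by
        funext x
        simp only [Pi.smul_apply, smul_eq_mul, RingHom.id_apply, mul_sum, mul_assoc] }
  have hsurj : Function.Surjective Φ := by
    intro y
    obtain ⟨c, hc⟩ := MA_extG (P := P) y
    refine ⟨c, ?_⟩
    funext x
    change ∑ A, c A * ∏ i ∈ A, gp P x i = y x
    rw [← hc, extG_gp hP]
  have hfin : Module.finrank F (Finset I → F) = Module.finrank F ((I → ZMod 2) → F) := by
    rw [Module.finrank_pi, Module.finrank_pi, Fintype.card_finset, Fintype.card_fun,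
      ZMod.card]
  have hinj : Function.Injective Φ :=
    (LinearMap.injective_iff_surjective_of_finrank_eq_finrank hfin).2 hsurj
  obtain ⟨c, hc⟩ := hf
  obtain ⟨d, hd⟩ := hg
  have hcd : c = d := by
    apply hinj
    funext x
    change ∑ A, c A * ∏ i ∈ A, gp P x i = ∑ A, d A * ∏ i ∈ A, gp P x i
    rw [← hc, ← hd, h]
  subst hcd
  funext v
  rw [hc, hd]

end kr

end Vale.Agent.P330.Q
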