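import Vale.Agent.P330.Q.Ext

/-!
# Project Q, code layer: extension systems and the memory code
-/

namespace Vale.Agent.P330.Q

open Finset
open scoped BigOperators

/-- An extension system over the cube. -/
structure ESys (F : Type*) [Field F] (h : ℕ) (Y : Type*) [AddCommGroup Y] where
  /-- the cube in `Y` -/
  ι : Cube h →+ Y
  /-- the shift -/
  θ : Y ≃+ Y
  /-- the extension operator -/
  E : (Cube h → F) →ₗ[F] (Y → F)
  E_ι : ∀ f b, E f (ι b) = f b
  E_one : E (fun _ => 1) = fun _ => 1
  E_tr : ∀ f b y, E f (y + ι b) = E (fun x => f (x + b)) y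
  E_θ : ∀ f y, E f (θ y) = E (fun b => f (shf h b)) y
  θ_ι : ∀ b, θ (ι b) = ι (shf h b)
  θ_h : ∀ y, (⇑θ)^[h] y = y

namespace ESys

variable {F : Type*} [Field F] {h : ℕ} {Y : Type*} [AddCommGroup Y] (D : ESys F h Y)

theorem θ_tr (y : Y) (b : Cube h) : D.θ (y + D.ι b) = D.θ y + D.ι (shf h b) := by
  rw [map_add, D.θ_ι]

theorem E_const (c : F) : D.E (fun _ => c) = fun _ => c := by
  have : (fun _ : Cube h => c) = c • (fun _ => (1 : F)) := by funext b; simp
  rw [this, map_smul, D.E_one]
  funext y; simp

theorem ι_inj : Function.Injective D.ι := by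
  classical
  intro b b' hb
  by_contra hne
  have h1 := D.E_ι (fun x => if x = b then 1 else 0) b
  have h2 := D.E_ι (fun x => if x = b then 1 else 0) b'
  rw [hb, h2] at h1
  simp [Ne.symm hne] at h1

theorem E_dv (f : Cube h → F) (b : Cube h) :
    dv D.ι b (D.E f) = D.E (dv (AddMonoidHom.id (Cube h)) b f) := by
  have : dv (AddMonoidHom.id (Cube h)) b f = (fun x => f (x + b)) + f := by
    funext x; simp [dv]
  rw [this, map_add]
  funext y
  simp only [dv, Pi.add_apply, D.E_tr]

theorem PD_E {d : ℕ} {f : Cube h → F} (hf : PD (AddMonoidHom.id (Cube h)) d f) :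
    PD D.ι d (D.E f) := by
  induction d generalizing f with
  | zero =>
      have : f = fun _ => f 0 := by funext b; exact hf b 0
      rw [this, D.E_const]
      intro y y'; rfl
  | succ d ih =>
      intro b
      rw [E_dv]
      exact ih (hf b)

/-- Degree `0` in terms of the top coefficient: a function of `F_2`-degree `≤ d`. -/
theorem PD_E_mon [CharP F 2] (A : Finset (ZMod h)) : PD D.ι A.card (D.E (mon F A)) :=
  D.PD_E (PD_mon A)

/-- The `n`-th power of the inverse shift. -/
def θi (n : ℕ) : Y → Y := (⇑D.θ.symm)^[n]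

theorem θi_zero (y : Y) : D.θi 0 y = y := rfl

theorem θi_add (n : ℕ) (y z : Y) : D.θi n (y + z) = D.θi n y + D.θi n z := by
  induction n generalizing y z with
  | zero => rfl
  | succ n ih =>
      simp only [θi, Function.iterate_succ_apply] at ih ⊢
      rw [map_add, ih]

/-- `θi n` as an additive homomorphism. -/
def θh (n : ℕ) : Y →+ Y where
  toFun := D.θi n
  map_zero' := by
    have h1 := D.θi_add n 0 0
    rw [add_zero] at h1
    simpa using h1
  map_add' := D.θi_add n

@[simp] theorem θh_apply (n : ℕ) (y : Y) : D.θh n y = D.θi n y := rfl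

theorem θi_ι (n : ℕ) (b : Cube h) :
    D.θi n (D.ι b) = D.ι (fun i => b (i + n)) := by
  induction n generalizing b with
  | zero => simp [θi]
  | succ n ih =>
      have h1 : D.θ.symm (D.ι b) = D.ι ((shf h).symm b) := by
        rw [AddEquiv.symm_apply_eq, D.θ_ι, AddEquiv.apply_symm_apply]
      have h2 : D.θi (n + 1) (D.ι b) = D.θi n (D.θ.symm (D.ι b)) := by
        simp only [θi, Function.iterate_succ_apply]
      rw [h2, h1, ih]
      congr 1
      funext i
      simp only [shf_symm_apply]
      congr 1
      push_cast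
      ring

theorem E_θi (n : ℕ) (f : Cube h → F) (y : Y) :
    D.E f (D.θi n y) = D.E (fun b => f (fun i => b (i + n))) y := by
  induction n generalizing f y with
  | zero => simp [θi]
  | succ n ih =>
      have h1 : D.E f (D.θ.symm y) = D.E (fun b => f ((shf h).symm b)) y := by
        have h3 := D.E_θ (fun b => f ((shf h).symm b)) (D.θ.symm y)
        rw [AddEquiv.apply_symm_apply] at h3
        rw [h3]
        simp
      have h2 : D.θi (n + 1) y = D.θ.symm (D.θi n y) := by
        simp only [θi, Function.iterate_succ_apply']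
      rw [h2]
      have h4 : D.E f (D.θ.symm (D.θi n y)) = D.E (fun b => f ((shf h).symm b)) (D.θi n y) := by
        have h3 := D.E_θ (fun b => f ((shf h).symm b)) (D.θ.symm (D.θi n y))
        rw [AddEquiv.apply_symm_apply] at h3
        rw [h3]
        simp
      rw [h4, ih]
      have h5 : (fun b : Cube h => f ((shf h).symm fun i => b (i + (n : ZMod h)))) =
          fun b => f fun i => b (i + ((n + 1 : ℕ) : ZMod h)) := by
        funext b
        congr 1
        funext i
        rw [shf_symm_apply]
        congr 1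
        push_cast
        ring
      rw [h5]

theorem PD_θi {d n : ℕ} {w : Y → F} (hw : PD D.ι d w) : PD D.ι d (fun y => w (D.θi n y)) :=
  PD.comp (ι' := D.ι) (D.θh n) (fun b i => b (i + n)) (fun b => D.θi_ι n b) hw

theorem csum_ι [NeZero h] (w : Y → F) : csum D.ι w 0 = ∑ b, w (D.ι b) := by
  simp [csum]

/-- The chain theorem for an extension system. -/
theorem chain_top [NeZero h] (v : ℕ → Y → F)
    (hv : ∀ j < h, ∀ y, v (j + 1) y = v j (D.θ y) + v j (D.θ y + D.ι (ev 0))) (y : Y) :
    v h y = csum D.ι (v 0) y := by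
  rw [Q.chain_top D.ι D.θ D.θ_tr v hv, D.θ_h]

/-! ### The memory code -/

end ESys

/-- Addresses. -/
abbrev Addr (k : ℕ) : Type := Fin k → Bool

/-- The coordinate number `2 k t + 2 i + e`. -/
def posN (k t i : ℕ) (e : Bool) : ℕ := 2 * k * t + 2 * i + e.toNat

/-- The coordinates of block `t` of the monomial of the address `a`. -/
def muS (h : ℕ) {k : ℕ} (t : ℕ) (a : Addr k) : Finset (ZMod h) :=
  univ.image fun i : Fin k => ((posN k t i (a i) : ℕ) : ZMod h)

/-- The coordinates outside of the blocks. -/
def restS (h k B : ℕ) [NeZero h] : Finset (ZMod h) := univ.filter fun c => 2 * k * B ≤ c.val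

/-- All coordinates of block `t`. -/
def blkS (h k t : ℕ) : Finset (ZMod h) :=
  univ.image fun p : Fin k × Bool => ((posN k t p.1 p.2 : ℕ) : ZMod h)

/-- The coordinates of the dual monomial of a tuple of addresses; `L` is the set of the blocks
which are read, the other blocks are full. -/
def dualS (h : ℕ) [NeZero h] {k B : ℕ} (L : Finset (Fin B)) (α : Fin B → Addr k) :
    Finset (ZMod h) :=
  (univ.biUnion fun t : Fin B =>
    if t ∈ L then muS h (t : ℕ) (fun i => !α t i) else blkS h k t) ∪ restS h k B

section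

variable {h k B : ℕ}

theorem posN_lt {t i : ℕ} {e : Bool} (ht : t < B) (hi : i < k) : posN k t i e < 2 * k * B := by
  have h1 : e.toNat ≤ 1 := Bool.toNat_le e
  have h2 : 2 * k * t + 2 * k ≤ 2 * k * B := by
    calc 2 * k * t + 2 * k = 2 * k * (t + 1) := by ring
      _ ≤ 2 * k * B := Nat.mul_le_mul_left _ ht
  unfold posN
  omega

theorem posN_inj {t i t' i' : ℕ} {e e' : Bool} (hi : i < k) (hi' : i' < k)
    (hp : posN k t i e = posN k t' i' e') : t = t' ∧ i = i' ∧ e = e' := by
  unfold posN at hp
  have h1 : e.toNat ≤ 1 := Bool.toNat_le e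
  have h2 : e'.toNat ≤ 1 := Bool.toNat_le e'
  have ht : t = t' := by
    rcases lt_trichotomy t t' with hlt | heq | hgt
    · exfalso
      have : 2 * k * t + 2 * k ≤ 2 * k * t' := by
        calc 2 * k * t + 2 * k = 2 * k * (t + 1) := by ring
          _ ≤ 2 * k * t' := Nat.mul_le_mul_left _ hlt
      omega
    · exact heq
    · exfalso
      have : 2 * k * t' + 2 * k ≤ 2 * k * t := by
        calc 2 * k * t' + 2 * k = 2 * k * (t' + 1) := by ring
          _ ≤ 2 * k * t := Nat.mul_le_mul_left _ hgt
      omega
  subst ht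
  have h3 : 2 * i + e.toNat = 2 * i' + e'.toNat := by omega
  refine ⟨rfl, by omega, ?_⟩
  have h4 : e.toNat = e'.toNat := by omega
  revert h4
  cases e <;> cases e' <;> simp

theorem val_posN (hB : 2 * k * B ≤ h) {t i : ℕ} {e : Bool} (ht : t < B) (hi : i < k) :
    ((posN k t i e : ℕ) : ZMod h).val = posN k t i e := by
  rw [ZMod.val_natCast, Nat.mod_eq_of_lt ((posN_lt ht hi).trans_le hB)]

theorem mem_muS {t : ℕ} {a : Addr k} {c : ZMod h} :
    c ∈ muS h t a ↔ ∃ i : Fin k, ((posN k t i (a i) : ℕ) : ZMod h) = c := by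
  simp [muS]

theorem mem_muS_pos (hB : 2 * k * B ≤ h) {t t' : ℕ} (ht : t < B) (ht' : t' < B) {a : Addr k}
    {i : Fin k} {e : Bool} :
    ((posN k t' i e : ℕ) : ZMod h) ∈ muS h t a ↔ t' = t ∧ a i = e := by
  rw [mem_muS]
  constructor
  · rintro ⟨j, hj⟩
    have h1 := congrArg ZMod.val hj
    rw [val_posN hB ht j.2, val_posN hB ht' i.2] at h1
    obtain ⟨h2, h3, h4⟩ := posN_inj j.2 i.2 h1
    have h5 : j = i := Fin.ext h3
    subst h5
    exact ⟨h2.symm, h4⟩
  · rintro ⟨rfl, rfl⟩
    exact ⟨i, rfl⟩

/-- Every coordinate below `2 k B` is a position. -/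
theorem exists_pos {n : ℕ} (hn : n < 2 * k * B) :
    ∃ (t : Fin B) (i : Fin k) (e : Bool), posN k t i e = n := by
  have hk : 0 < 2 * k := by
    rcases Nat.eq_zero_or_pos (2 * k) with h0 | h0
    · rw [h0, zero_mul] at hn; omega
    · exact h0
  refine ⟨⟨n / (2 * k), (Nat.div_lt_iff_lt_mul hk).2 (by rwa [mul_comm])⟩,
    ⟨n % (2 * k) / 2, by have := Nat.mod_lt n hk; omega⟩, decide (n % 2 = 1), ?_⟩
  have h1 := Nat.div_add_mod n (2 * k)
  have h2 : n % (2 * k) % 2 = n % 2 := Nat.mod_mul_right_mod n 2 k
  have h3 := Nat.div_add_mod (n % (2 * k)) 2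
  unfold posN
  simp only
  rcases Nat.mod_two_eq_zero_or_one n with h4 | h4
  · simp only [h4]; simp; omega
  · simp only [h4]; simp; omega

theorem mem_blkS {t : ℕ} {c : ZMod h} :
    c ∈ blkS h k t ↔ ∃ (i : Fin k) (e : Bool), ((posN k t i e : ℕ) : ZMod h) = c := by
  simp only [blkS, mem_image, mem_univ, true_and, Prod.exists]

theorem mem_blkS_pos (hB : 2 * k * B ≤ h) {t t' : ℕ} (ht : t < B) (ht' : t' < B)
    {i : Fin k} {e : Bool} :
    ((posN k t' i e : ℕ) : ZMod h) ∈ blkS h k t ↔ t' = t := by
  rw [mem_blkS]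
  constructor
  · rintro ⟨j, e', hj⟩
    have h1 := congrArg ZMod.val hj
    rw [val_posN hB ht j.2, val_posN hB ht' i.2] at h1
    exact (posN_inj j.2 i.2 h1).1.symm
  · rintro rfl
    exact ⟨i, e, rfl⟩

theorem cover_iff [NeZero h] (hB : 2 * k * B ≤ h) (L : Finset (Fin B)) (α β : Fin B → Addr k) :
    dualS h L α ∪ (L.biUnion fun t : Fin B => muS h (t : ℕ) (β t)) = univ ↔
      ∀ t ∈ L, α t = β t := by
  constructor
  · intro hu t ht
    funext i
    by_contra hne
    have h1 : ((posN k t i (α t i) : ℕ) : ZMod h) ∈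
        dualS h L α ∪ (L.biUnion fun t : Fin B => muS h (t : ℕ) (β t)) := hu ▸ mem_univ _
    rw [dualS, mem_union, mem_union, mem_biUnion, mem_biUnion] at h1
    rcases h1 with (⟨t', -, h1⟩ | h1) | ⟨t', -, h1⟩
    · split_ifs at h1 with hL
      · rw [mem_muS_pos hB t'.2 t.2] at h1
        obtain ⟨h2, h3⟩ := h1
        have : t = t' := Fin.ext h2
        subst this
        simp at h3
      · rw [mem_blkS_pos hB t'.2 t.2] at h1
        have : t = t' := Fin.ext h1
        subst this
        exact hL ht
    · rw [restS, mem_filter, val_posN hB t.2 i.2] at h1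
      exact absurd h1.2 (not_le.2 (posN_lt t.2 i.2))
    · rw [mem_muS_pos hB t'.2 t.2] at h1
      obtain ⟨h2, h3⟩ := h1
      have : t = t' := Fin.ext h2
      subst this
      exact hne h3.symm
  · intro hαβ
    rw [eq_univ_iff_forall]
    intro c
    rw [dualS, mem_union, mem_union, mem_biUnion, mem_biUnion]
    by_cases hc : 2 * k * B ≤ c.val
    · exact Or.inl (Or.inr (by rw [restS, mem_filter]; exact ⟨mem_univ _, hc⟩))
    · obtain ⟨t, i, e, he⟩ := exists_pos (not_le.1 hc)
      have hc' : c = ((posN k t i e : ℕ) : ZMod h) := by rw [he, ZMod.natCast_zmod_val]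
      rw [hc']
      by_cases hL : t ∈ L
      · by_cases hae : β t i = e
        · exact Or.inr ⟨t, hL, (mem_muS_pos hB t.2 t.2).2 ⟨rfl, hae⟩⟩
        · refine Or.inl (Or.inl ⟨t, mem_univ _, ?_⟩)
          rw [if_pos hL, mem_muS_pos hB t.2 t.2]
          refine ⟨rfl, ?_⟩
          rw [hαβ t hL]
          revert hae
          cases β t i <;> cases e <;> simp
      · refine Or.inl (Or.inl ⟨t, mem_univ _, ?_⟩)
        rw [if_neg hL, mem_blkS_pos hB t.2 t.2]

theorem card_muS (hB : 2 * k * B ≤ h) {t : ℕ} (ht : t < B) (a : Addr k) :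
    (muS h t a).card = k := by
  rw [muS, card_image_of_injective, card_univ, Fintype.card_fin]
  intro i j hij
  have h1 := congrArg ZMod.val hij
  simp only [val_posN hB ht i.2, val_posN hB ht j.2] at h1
  exact Fin.ext (posN_inj i.2 j.2 h1).2.1

theorem card_restS_le [NeZero h] : (restS h k B).card ≤ h - 2 * k * B := by
  have h1 : (restS h k B).card ≤ (Finset.Ico (2 * k * B) h).card := by
    refine card_le_card_of_injOn ZMod.val (fun c hc => ?_) (fun c _ c' _ hcc => ?_)
    · rw [restS, coe_filter] at hc
      rw [coe_Ico, Set.mem_Ico]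
      exact ⟨hc.2, ZMod.val_lt c⟩
    · exact ZMod.val_injective h hcc
  simpa using h1

theorem card_blkS_le (t : ℕ) : (blkS h k t).card ≤ 2 * k := by
  refine card_image_le.trans ?_
  rw [card_univ, Fintype.card_prod, Fintype.card_fin, Fintype.card_bool, mul_comm]

theorem card_dualS_le [NeZero h] (hB : 2 * k * B ≤ h) (L : Finset (Fin B))
    (α : Fin B → Addr k) : (dualS h L α).card + k * L.card ≤ h := by
  have h1 : (dualS h L α).card ≤ (∑ t : Fin B, if t ∈ L then k else 2 * k) +
      (h - 2 * k * B) := by
    refine (card_union_le _ _).trans (Nat.add_le_add ?_ card_restS_le)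
    refine card_biUnion_le.trans (sum_le_sum fun t _ => ?_)
    split_ifs with hL
    · exact (card_muS hB t.2 _).le
    · exact card_blkS_le _
  have h3 : (∑ t : Fin B, if t ∈ L then k else 2 * k) + k * L.card = 2 * k * B := by
    have h4 : k * L.card = ∑ t : Fin B, if t ∈ L then k else 0 := by
      rw [sum_ite_mem, univ_inter, sum_const, smul_eq_mul, mul_comm]
    rw [h4, ← sum_add_distrib, sum_congr rfl (g := fun _ => 2 * k)]
    · rw [sum_const, card_univ, Fintype.card_fin, smul_eq_mul, mul_comm]
    · intro t _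
      split_ifs <;> omega
  omega

theorem muS_shift (t : ℕ) (a : Addr k) (F : Type*) [Field F] (b : Cube h) :
    mon F (muS h 0 a) (fun i => b (i + ((2 * k * t : ℕ) : ZMod h))) = mon F (muS h t a) b := by
  rw [mon_eq, mon_eq]
  congr 1
  apply propext
  simp only [mem_muS]
  constructor
  · rintro h1 c ⟨i, rfl⟩
    have h2 := h1 _ ⟨i, rfl⟩
    rw [← h2]
    congr 1
    unfold posN
    push_cast
    ring
  · rintro h1 c ⟨i, rfl⟩
    have h2 := h1 _ ⟨i, rfl⟩
    rw [← h2]
    congr 1
    unfold posN
    push_cast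
    ring

end

/-! ### The memory code and the reading theorem -/

namespace ESys

variable {F : Type*} [Field F] {h : ℕ} {Y : Type*} [AddCommGroup Y] (D : ESys F h Y)
variable {k B : ℕ}

/-- The memory code: `∑ a, x a * (extension of the monomial of the address a)`. -/
def code : (Addr k → F) →ₗ[F] (Y → F) :=
  ∑ a : Addr k, (LinearMap.proj a : (Addr k → F) →ₗ[F] F).smulRight (D.E (mon F (muS h 0 a)))

theorem code_apply (x : Addr k → F) (y : Y) :
    D.code x y = ∑ a, x a * D.E (mon F (muS h 0 a)) y := by
  simp [code, LinearMap.sum_apply]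

theorem code_θi (x : Addr k → F) (t : ℕ) (y : Y) :
    D.code x (D.θi (2 * k * t) y) = ∑ a, x a * D.E (mon F (muS h t a)) y := by
  rw [code_apply]
  refine sum_congr rfl fun a _ => ?_
  have h1 : (fun b : Cube h => mon F (muS h 0 a) fun i => b (i + ((2 * k * t : ℕ) : ZMod h))) =
      mon F (muS h t a) := funext fun b => muS_shift t a F b
  rw [D.E_θi, h1]

/-- The function in a slot: `1` or a code word. -/
def slotF (w : Option (Addr k → F)) (t : ℕ) (y : Y) : F :=
  match w with
  | none => 1
  | some x => D.code x (D.θi (2 * k * t) y)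

/-- The value of a slot at an address. -/
def slotV (w : Option (Addr k → F)) (a : Addr k) : F :=
  match w with
  | none => 1
  | some x => x a

/-- The slots which are read. -/
def live (w : Fin B → Option (Addr k → F)) : Finset (Fin B) := univ.filter fun t => (w t).isSome

/-- The kernel of a public polynomial map with coefficients `A`. -/
def ker [NeZero h] (L : Finset (Fin B)) (A : Addr k → (Fin B → Addr k) → F) (ρ y : Y) : F :=
  ∑ a, ∑ α, A a α * D.E (mon F (muS h 0 a)) ρ * D.E (mon F (dualS h L α)) y

variable [CharP F 2] [NeZero h]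

omit [NeZero h] in
theorem PD_code_θi (hB : 2 * k * B ≤ h) (x : Addr k → F) {t : ℕ} (ht : t < B) :
    PD D.ι k (fun y => D.code x (D.θi (2 * k * t) y)) := by
  have h1 : (fun y => D.code x (D.θi (2 * k * t) y)) =
      ∑ a, x a • D.E (mon F (muS h t a)) := by
    funext y
    rw [code_θi, Finset.sum_apply]
    rfl
  rw [h1]
  refine PD.sum _ fun a _ => (PD.smul _ ?_)
  have := D.PD_E_mon (muS h t a)
  rwa [card_muS hB ht] at this

/-- A product of a function of degree `≤ h - k |live|` and the slots has constant cube sums. -/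
theorem PD_slots (hB : 2 * k * B ≤ h) (w : Fin B → Option (Addr k → F))
    (C : (Fin B → Addr k) → F) :
    PD D.ι h (fun y => (∑ α, C α * D.E (mon F (dualS h (live w) α)) y) *
      ∏ t : Fin B, D.slotF (w t) t y) := by
  have h1 : PD D.ι (h - k * (live w).card)
      (fun y => ∑ α, C α * D.E (mon F (dualS h (live w) α)) y) := by
    have : (fun y => ∑ α, C α * D.E (mon F (dualS h (live w) α)) y) =
        ∑ α, C α • D.E (mon F (dualS h (live w) α)) := by
      funext y; rw [Finset.sum_apply]; rfl
    rw [this]
    refine PD.sum _ fun α _ => (PD.smul _ ?_)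
    refine (D.PD_E_mon _).mono ?_
    have := card_dualS_le hB (live w) α
    omega
  have h2 : PD D.ι (∑ t : Fin B, if t ∈ live w then k else 0)
      (∏ t : Fin B, fun y => D.slotF (w t) t y) := by
    refine PD.prod _ fun t _ => ?_
    cases hw : w t with
    | none =>
        have hL : t ∉ live w := by simp [live, hw]
        rw [if_neg hL]
        intro y y'
        simp [slotF]
    | some x =>
        have hL : t ∈ live w := by simp [live, hw]
        rw [if_pos hL]
        exact D.PD_code_θi hB x t.2
  have h3 := (h1.mul h2).mono (d' := h) (by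
    rw [sum_ite_mem, univ_inter, sum_const, smul_eq_mul]
    by_cases h4 : (live w).card = 0
    · simp [h4]
    · have h5 : ∃ t, t ∈ live w := by
        by_contra h6
        push Not at h6
        exact h4 (card_eq_zero.2 (eq_empty_iff_forall_notMem.2 h6))
      have h7 : k * (live w).card ≤ h := by
        have h8 : (live w).card ≤ B := by
          simpa using card_le_univ (live w)
        calc k * (live w).card ≤ k * B := Nat.mul_le_mul_left _ h8
          _ ≤ 2 * k * B := Nat.mul_le_mul_right _ (by omega)
          _ ≤ h := hB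
      have : (live w).card * k = k * (live w).card := mul_comm _ _
      omega)
  have h4 : (fun y => (∑ α, C α * D.E (mon F (dualS h (live w) α)) y) *
      ∏ t : Fin B, D.slotF (w t) t y) =
      (fun y => ∑ α, C α * D.E (mon F (dualS h (live w) α)) y) *
      ∏ t : Fin B, fun y => D.slotF (w t) t y := by
    funext y
    rw [Pi.mul_apply, prod_apply]
  rw [h4]
  exact h3

omit [CharP F 2] [NeZero h] in
/-- The coefficients of a slot. -/
private def slX (w : Option (Addr k → F)) (β : Addr k) : F :=
  match w with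
  | none => if β = (fun _ => false) then 1 else 0
  | some x => x β

omit [CharP F 2] [NeZero h] in
/-- The function of a slot on the cube as a sum over addresses. -/
theorem slotF_ι (w : Fin B → Option (Addr k → F)) (t : Fin B) (b : Cube h) :
    D.slotF (w t) t (D.ι b) =
      ∑ β, slX (w t) β * mon F (if t ∈ live w then muS h (t : ℕ) β else ∅) b := by
  cases hw : w t with
  | none =>
      have hL : t ∉ live w := by simp [live, hw]
      simp [slotF, hL, slX, mon]
  | some x =>
      have hL : t ∈ live w := by simp [live, hw]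
      simp only [slotF, slX, if_pos hL]
      rw [code_θi]
      exact sum_congr rfl fun a _ => by rw [D.E_ι]

omit [CharP F 2] [NeZero h] in
theorem sum_slX (w : Fin B → Option (Addr k → F)) (t : Fin B) (a : Addr k) :
    (∑ β, slX (w t) β * if t ∈ live w → a = β then 1 else 0) = slotV (w t) a := by
  cases hw : w t with
  | none =>
      have hL : t ∉ live w := by simp [live, hw]
      simp [slotV, hL, slX]
  | some x =>
      have hL : t ∈ live w := by simp [live, hw]
      simp [slotV, hL, slX]

/-- Sum over the cube of a dual monomial against the slots. -/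
theorem sum_dual_slots (hB : 2 * k * B ≤ h) (w : Fin B → Option (Addr k → F))
    (α : Fin B → Addr k) :
    ∑ b, mon F (dualS h (live w) α) b * ∏ t : Fin B, D.slotF (w t) t (D.ι b) =
      ∏ t : Fin B, slotV (w t) (α t) := by
  have h1 : ∀ b, (∏ t : Fin B, D.slotF (w t) t (D.ι b)) =
      ∑ β : Fin B → Addr k, (∏ t : Fin B, slX (w t) (β t)) *
        mon F ((live w).biUnion fun t : Fin B => muS h (t : ℕ) (β t)) b := by
    intro b
    rw [prod_congr rfl fun t _ => D.slotF_ι w t b, prod_univ_sum, Fintype.piFinset_univ]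
    refine sum_congr rfl fun β _ => ?_
    rw [prod_mul_distrib]
    congr 1
    rw [← mon_prod]
    have h2 : ∀ t : Fin B, mon F (if t ∈ live w then muS h (t : ℕ) (β t) else ∅) b =
        if t ∈ live w then mon F (muS h (t : ℕ) (β t)) b else 1 := by
      intro t
      split_ifs
      · rfl
      · simp [mon]
    rw [prod_congr rfl fun t _ => h2 t, prod_ite_mem, univ_inter]
  calc ∑ b, mon F (dualS h (live w) α) b * ∏ t : Fin B, D.slotF (w t) t (D.ι b)
      = ∑ b, ∑ β : Fin B → Addr k, (∏ t : Fin B, slX (w t) (β t)) *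
          mon F (dualS h (live w) α ∪
            (live w).biUnion fun t : Fin B => muS h (t : ℕ) (β t)) b := by
        refine sum_congr rfl fun b _ => ?_
        rw [h1 b, mul_sum]
        refine sum_congr rfl fun β _ => ?_
        rw [← mon_mul]
        ring
    _ = ∑ β : Fin B → Addr k, (∏ t : Fin B, slX (w t) (β t)) *
          (if ∀ t ∈ live w, α t = β t then 1 else 0) := by
        rw [sum_comm]
        refine sum_congr rfl fun β _ => ?_
        rw [← mul_sum, sum_mon]
        congr 1
        exact if_congr (cover_iff hB (live w) α β) rfl rfl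
    _ = ∑ β : Fin B → Addr k, ∏ t : Fin B, (slX (w t) (β t) *
          if t ∈ live w → α t = β t then 1 else 0) := by
        refine sum_congr rfl fun β _ => ?_
        rw [prod_mul_distrib]
        congr 1
        by_cases hall : ∀ t ∈ live w, α t = β t
        · rw [if_pos hall]
          exact (prod_eq_one fun t _ => if_pos (hall t)).symm
        · rw [if_neg hall]
          push Not at hall
          obtain ⟨t, ht, hne⟩ := hall
          exact (prod_eq_zero (mem_univ t) (if_neg fun h2 => hne (h2 ht))).symm
    _ = ∏ t : Fin B, ∑ β : Addr k, (slX (w t) β * if t ∈ live w → α t = β then 1 else 0) := by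
        rw [prod_univ_sum, Fintype.piFinset_univ]
    _ = ∏ t : Fin B, slotV (w t) (α t) := prod_congr rfl fun t _ => sum_slX w t (α t)

/-- READING THEOREM: the cube sum (at every point `y0`) of a dual kernel against the slots is the
value of the multilinear form. -/
theorem csum_read (hB : 2 * k * B ≤ h) (w : Fin B → Option (Addr k → F))
    (C : (Fin B → Addr k) → F) (y0 : Y) :
    csum D.ι (fun y => (∑ α, C α * D.E (mon F (dualS h (live w) α)) y) *
      ∏ t : Fin B, D.slotF (w t) t y) y0 = ∑ α, C α * ∏ t : Fin B, slotV (w t) (α t) := by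
  rw [csum_const (D.PD_slots hB w C) y0 0, csum_ι]
  have h1 : ∀ b, (∑ α, C α * D.E (mon F (dualS h (live w) α)) (D.ι b)) *
      ∏ t : Fin B, D.slotF (w t) t (D.ι b) =
      ∑ α, C α * (mon F (dualS h (live w) α) b * ∏ t : Fin B, D.slotF (w t) t (D.ι b)) := by
    intro b
    rw [sum_mul]
    exact sum_congr rfl fun α _ => by rw [D.E_ι]; ring
  rw [sum_congr rfl fun b _ => h1 b, sum_comm]
  exact sum_congr rfl fun α _ => by rw [← mul_sum, D.sum_dual_slots hB w α]

/-- The kernel of a public polynomial map: the cube sum is the code word of the value. -/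
theorem csum_ker (hB : 2 * k * B ≤ h) (w : Fin B → Option (Addr k → F))
    (A : Addr k → (Fin B → Addr k) → F) (ρ y0 : Y) :
    csum D.ι (fun y => D.ker (live w) A ρ y * ∏ t : Fin B, D.slotF (w t) t y) y0 =
      D.code (fun a => ∑ α, A a α * ∏ t : Fin B, slotV (w t) (α t)) ρ := by
  have h1 : (fun y => D.ker (live w) A ρ y * ∏ t : Fin B, D.slotF (w t) t y) =
      fun y => (∑ α, (∑ a, A a α * D.E (mon F (muS h 0 a)) ρ) *
        D.E (mon F (dualS h (live w) α)) y) * ∏ t : Fin B, D.slotF (w t) t y := by
    funext y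
    rw [ker, sum_comm]
    congr 1
    exact sum_congr rfl fun α _ => by rw [sum_mul]
  rw [h1, D.csum_read hB w, code_apply]
  simp only [sum_mul]
  rw [sum_comm]
  refine sum_congr rfl fun a _ => sum_congr rfl fun α _ => by ring

omit [CharP F 2] in
/-- For arbitrary functions the sum over the cube of a kernel is a code word in `ρ`. -/
theorem sum_ker_span (L : Finset (Fin B)) (A : Addr k → (Fin B → Addr k) → F)
    (G : Cube h → F) (ρ : Y) :
    ∑ b, D.ker L A ρ (D.ι b) * G b =
      D.code (fun a => ∑ α, A a α * ∑ b, mon F (dualS h L α) b * G b) ρ := by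
  rw [code_apply]
  simp only [ker, sum_mul, D.E_ι, mul_sum]
  rw [sum_comm]
  refine sum_congr rfl fun a _ => ?_
  rw [sum_comm]
  refine sum_congr rfl fun α _ => sum_congr rfl fun b _ => by ring

/-- Reading one address of a function. -/
def rd1 (w : Y → F) (a : Addr k) : F :=
  ∑ b, mon F (dualS h (univ : Finset (Fin 1)) (fun _ => a)) b * w (D.ι b)

theorem rd1_code (hk : 2 * k ≤ h) (x : Addr k → F) (a : Addr k) : D.rd1 (D.code x) a = x a := by
  have h1 := D.sum_dual_slots (B := 1) (by omega) (fun _ => some x) (fun _ => a)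
  have h2 : live (fun _ : Fin 1 => some x) = univ := by simp [live]
  rw [h2] at h1
  simpa [slotF, slotV, θi, rd1] using h1

theorem code_inj (hk : 2 * k ≤ h) : Function.Injective (D.code : (Addr k → F) → Y → F) := by
  intro x x' hxx
  funext a
  rw [← D.rd1_code hk x a, ← D.rd1_code hk x' a, hxx]

end ESys

end Vale.Agent.P330.Q
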