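import Vale.Agent.P330.Q.Net
import Vale.Agent.P330.S.GB

/-!
# From the network over a local code to a generalized circuit

* `LInst.Num`: a numbering of the sites of an instance by `0, …, n - 1`, and the maps and the
  hard-wired bits on numbers;
* `regv`: the values of the registers read off an assignment;
* `LInst.obeys_circ`: an assignment satisfying all but the fraction `δ` of the gates of the circuit
  obeys the network;
* `LSound.exists_params`: soundness and completeness of the circuits of a class of instances.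
-/

namespace Vale.Agent.P330.Q

open Finset PCP.AR
open S (MDef Sem Tst circ KK root pr_le_of_card circ_obeys)

instance {C : Type} [Finite C] : Finite (LReg C) := by
  let f : ((Fin 7 × Bool × C)) ⊕ ((Fin 3 × Tst) ⊕ (Fin 2 × Fin 3) ⊕ (Fin 3 × Fin 5)) →
      LReg C := fun u =>
    match u with
    | .inl (k, z, c) => (![.m z c, .p z c, .x z c, .lo z c, .hi z c, .h z c, .a z c] :
        Fin 7 → LReg C) k
    | .inr (.inl (k, t)) => (![.t t, .ta t, .tf t] : Fin 3 → LReg C) k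
    | .inr (.inr (.inl (k, i))) => (![.q i, .qa i] : Fin 2 → LReg C) k
    | .inr (.inr (.inr (i, l))) => .th i l
  refine Finite.of_surjective f fun ρ => ?_
  cases ρ with
  | m z c => exact ⟨.inl (0, z, c), rfl⟩
  | p z c => exact ⟨.inl (1, z, c), rfl⟩
  | x z c => exact ⟨.inl (2, z, c), rfl⟩
  | lo z c => exact ⟨.inl (3, z, c), rfl⟩
  | hi z c => exact ⟨.inl (4, z, c), rfl⟩
  | h z c => exact ⟨.inl (5, z, c), rfl⟩
  | a z c => exact ⟨.inl (6, z, c), rfl⟩
  | t k => exact ⟨.inr (.inl (0, k)), rfl⟩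
  | ta k => exact ⟨.inr (.inl (1, k)), rfl⟩
  | tf k => exact ⟨.inr (.inl (2, k)), rfl⟩
  | q i => exact ⟨.inr (.inr (.inl (0, i))), rfl⟩
  | qa i => exact ⟨.inr (.inr (.inl (1, i))), rfl⟩
  | th i l => exact ⟨.inr (.inr (.inr (i, l))), rfl⟩

noncomputable instance {C : Type} [Finite C] : Fintype (LReg C) := Fintype.ofFinite _

instance {C : Type} : Nonempty (LReg C) := ⟨.q 0⟩

variable {N : LSpec}

theorem net_ok (N : LSpec) (τ : ℚ) (hτ : 0 ≤ τ ∧ τ ≤ 1) (ρ : LReg N.C) : (net N τ ρ).Ok := by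
  cases ρ with
  | th i l =>
    simp only [net, MDef.Ok]
    fin_cases l <;> norm_num
  | tf k => exact hτ
  | _ => simp only [net, MDef.Ok] <;> norm_num

/-- A numbering `e` of the sites of `I` by `0, …, n - 1`, and the maps `rd`, `nb` and the
hard-wired bits `cb` of `I` on numbers. -/
structure LInst.Num (I : LInst N) (n : ℕ) (rd : N.Rd → ℕ → ℕ) (cb : N.CB → ℕ → Bool)
    (nb : Fin 8 → ℕ → ℕ) (e : I.Site → ℕ) : Prop where
  inj : Function.Injective e
  lt : ∀ ω, e ω < n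
  card : Fintype.card I.Site = n
  rd_e : ∀ r ω, rd r (e ω) = e (I.rd r ω)
  nb_e : ∀ k ω, nb k (e ω) = e (I.sem.nb k ω)
  cb_e : ∀ κ ω, cb κ (e ω) = I.cb κ ω

namespace LInst.Num

variable {I : LInst N} {n : ℕ} {rd : N.Rd → ℕ → ℕ} {cb : N.CB → ℕ → Bool}
  {nb : Fin 8 → ℕ → ℕ} {e : I.Site → ℕ}

theorem surj (h : I.Num n rd cb nb e) {w : ℕ} (hw : w < n) : ∃ ω, e ω = w := by
  let f : I.Site → Fin n := fun ω => ⟨e ω, h.lt ω⟩
  have hf : Function.Injective f := fun a b hab => h.inj (congrArg Fin.val hab)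
  have hb : Function.Bijective f :=
    (Fintype.bijective_iff_injective_and_card f).2 ⟨hf, by rw [Fintype.card_fin, h.card]⟩
  obtain ⟨ω, hω⟩ := hb.2 ⟨w, hw⟩
  exact ⟨ω, congrArg Fin.val hω⟩

theorem pos (h : I.Num n rd cb nb e) : 0 < n := by
  rw [← h.card]
  exact Fintype.card_pos

theorem rd_lt (h : I.Num n rd cb nb e) (r : N.Rd) (w : ℕ) (hw : w < n) : rd r w < n := by
  obtain ⟨ω, rfl⟩ := h.surj hw
  rw [h.rd_e]
  exact h.lt _

theorem nb_lt (h : I.Num n rd cb nb e) (k : Fin 8) (w : ℕ) (hw : w < n) : nb k w < n := by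
  obtain ⟨ω, rfl⟩ := h.surj hw
  rw [h.nb_e]
  exact h.lt _

end LInst.Num

variable [Fintype N.CB]

/-- The values of the registers, read off an assignment. -/
noncomputable def regv {I : LInst N} (τ lam : ℚ) (e : I.Site → ℕ) (x : List ℚ) :
    LReg N.C → I.Site → ℝ :=
  fun ρ ω => val x (e ω * KK (net N τ) lam + root (net N τ) lam ρ)

open Classical in
/-- **GB for the network**: the values of the registers, read off an assignment of the circuit
which satisfies all but the fraction `δ` of the gates, obey the network. -/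
theorem LInst.obeys_circ (I : LInst N) (τ lam : ℚ) (hτ : 0 ≤ τ ∧ τ ≤ 1)
    (hlam : 0 ≤ lam ∧ lam ≤ 1) {n : ℕ} {rd : N.Rd → ℕ → ℕ} {cb : N.CB → ℕ → Bool}
    {nb : Fin 8 → ℕ → ℕ} {e : I.Site → ℕ} (hn : I.Num n rd cb nb e) (hN : 0 < n)
    (hrd' : ∀ r w, w < n → rd r w < n) (hnb' : ∀ k w, w < n → nb k w < n) {ε δ β : ℝ}
    (hε : ε < 1 / 2) (hβ : δ * KK (net N τ) lam ≤ β)
    (x : List ℚ) (hx : IsAssignment (circ (net N τ) lam n rd cb nb hN hrd' hnb') x)
    (hsat : (1 - δ) * (circ (net N τ) lam n rd cb nb hN hrd' hnb').gates.length ≤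
      numSat ε (circ (net N τ) lam n rd cb nb hN hrd' hnb') x) :
    I.Obeys τ ε lam β (regv τ lam e x) := by
  obtain ⟨h1, h2⟩ := circ_obeys (net N τ) lam n rd cb nb I.sem e hn.inj hn.lt hn.rd_e hn.nb_e
    hn.cb_e hN hrd' hnb' hε hlam (net_ok N τ hτ) x hx hsat
  refine ⟨fun ρ ω => h1 _, fun ρ => ?_⟩
  have hN' : (0 : ℝ) < n := by exact_mod_cast hN
  refine pr_le_of_card _ hN hn.card
    (le_trans (Nat.cast_le.2 (Finset.card_le_card ?_)) (h2.trans ?_))
  · intro ω hω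
    simp only [Finset.mem_filter, Finset.mem_univ, true_and] at hω ⊢
    exact ⟨ρ, hω⟩
  · calc δ * (n * KK (net N τ) lam) = (δ * KK (net N τ) lam) * n := by ring
      _ ≤ β * n := mul_le_mul_of_nonneg_right hβ hN'.le

/-- **Soundness and completeness of the circuits** of a class of instances with a sound network:
for suitable constants, the circuit has an acceptable assignment, and every acceptable assignment
holds a configuration which reveals a solution. -/
theorem LSound.exists_params {Q : LInst N → Prop} (h : LSound N Q) {ρ₀ : ℝ} (hρ₀ : 0 < ρ₀) :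
    ∃ τ lam ε δ : ℚ, 0 < ε ∧ ε < 1 / 100 ∧ 0 < δ ∧ δ < 1 ∧ ∃ C : ℕ, ∀ p : Polynomial ℕ,
      (∀ M, C * M ≤ p.eval M) → ∀ I : LInst N, Q I →
      ∀ (n : ℕ) (rd : N.Rd → ℕ → ℕ) (cb : N.CB → ℕ → Bool) (nb : Fin 8 → ℕ → ℕ)
        (e : I.Site → ℕ), I.Num n rd cb nb e → ∀ (hN : 0 < n)
        (hrd : ∀ r w, w < n → rd r w < n) (hnb : ∀ k w, w < n → nb k w < n),
      (∃ x, Acceptable ε δ p (circ (net N τ) lam n rd cb nb hN hrd hnb) x) ∧
      ∀ x, Acceptable ε δ p (circ (net N τ) lam n rd cb nb hN hrd hnb) x →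
        (∃ w, I.Valid w ∧ I.Near ε ρ₀ (regv τ lam e x) false w ∧ ¬ I.Valid (I.step false w)) ∨
        (∃ w, I.Valid w ∧ w ≠ I.w0 ∧ I.Near ε ρ₀ (regv τ lam e x) true w ∧
          ¬ I.Valid (I.step true w)) := by
  obtain ⟨τ, hτ0, hτ1, lam, hl0, hl1, ε, hε0, hε1, β, hβ0, hs⟩ := h ρ₀ hρ₀
  have hε0' : (0 : ℝ) < ε := by exact_mod_cast hε0
  have hε1' : (ε : ℝ) < 1 / 100 := by
    have : (ε : ℝ) < ((1 / 100 : ℚ) : ℝ) := by exact_mod_cast hε1
    norm_num at this
    linarith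
  obtain ⟨C, hC⟩ := exists_acceptable ε hε0'
  have hK : (0 : ℝ) < KK (net N τ) lam + 1 := by positivity
  obtain ⟨δ, hδ0, hδ1⟩ := exists_rat_btwn (show (0 : ℝ) < min (β / (KK (net N τ) lam + 1)) 1 from
    lt_min (div_pos hβ0 hK) one_pos)
  have hδ0' : 0 < δ := by exact_mod_cast hδ0
  have hδ1' : δ < 1 := by
    have := hδ1.trans_le (min_le_right _ _)
    exact_mod_cast this
  have hβ : (δ : ℝ) * KK (net N τ) lam ≤ β := by
    have h1 := hδ1.trans_le (min_le_left _ _)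
    rw [lt_div_iff₀ hK] at h1
    nlinarith
  refine ⟨τ, lam, ε, δ, hε0, hε1, hδ0', hδ1', C, fun p hp I hQ n rd cb nb e hn hN hrd hnb =>
    ⟨?_, fun x hx => ?_⟩⟩
  · obtain ⟨x, hx, _⟩ := hC (circ (net N τ) lam n rd cb nb hN hrd hnb) δ p hδ0.le hp
    exact ⟨x, hx⟩
  · exact hs I hQ _ (I.obeys_circ τ lam ⟨hτ0.le, hτ1.le⟩ ⟨hl0.le, hl1.le⟩ hn hN hrd hnb
      (by linarith) hβ x hx.1 hx.2.2)

end Vale.Agent.P330.Q
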