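import Vale.Agent.P330.Q.NumComp
import Vale.Agent.P330.Q.TestF

/-!
# Project Q: the functional maps of the test on numbers

`fn_lo`, `fn_T`, `fn_S`: the values of the functionals `fn c f` of the test at the components.
`PTt.tfn`: they are computed in polynomial time from the number of `c`.
-/

namespace Vale.Agent.P330.Q

open Vale.Agent.Lib.PolyTime
open Finset

section val

variable {F : Type*} [Field F] {h : ℕ} {Cell V : Type} [Fintype Cell] [DecidableEq Cell]
  [Fintype V] [DecidableEq V]

theorem pf_of_ne {ι R : Type*} [Fintype ι] [DecidableEq R] (e : ι → R) (a : ι → F) {r : R}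
    (hr : ∀ i, e i ≠ r) : pf e a r = 0 :=
  Finset.sum_eq_zero fun i _ => if_neg (hr i)

theorem pf_of_eq {ι R : Type*} [Fintype ι] [DecidableEq R] (e : ι → R)
    (a : ι → F) {r : R} (i : ι) (hi : e i = r) (hr : ∀ j, e j = r → j ≠ i → a j = 0) :
    pf e a r = a i := by
  unfold pf
  rw [Finset.sum_eq_single i]
  · rw [if_pos hi]
  · intro j _ hj
    split_ifs with h1
    · exact hr j h1 hj
    · rfl
  · intro hh
    exact absurd (mem_univ _) hh

omit [Fintype Cell] [Fintype V] in
theorem pf_T (σ : Bool) (a : Fin (h + 1) → F) (r : Comp Cell V h) :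
    pf (fun j : Fin (h + 1) => (.T σ j : Comp Cell V h)) a r =
      match r with
      | .T τ j => if τ = σ then a j else 0
      | _ => 0 := by
  cases r with
  | W τ e => exact pf_of_ne _ _ fun i => by simp
  | S τ c j => exact pf_of_ne _ _ fun i => by simp
  | rel => exact pf_of_ne _ _ fun i => by simp
  | T τ j =>
    by_cases hτ : τ = σ
    · subst hτ
      show _ = if τ = τ then a j else 0
      rw [if_pos rfl]
      refine pf_of_eq _ _ j rfl fun i hi hne => ?_
      injection hi with _ h2
      exact absurd h2 hne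
    · show _ = if τ = σ then a j else 0
      rw [if_neg hτ]
      refine pf_of_ne _ _ fun i => ?_
      intro h1
      injection h1 with h2 _
      exact hτ h2.symm

theorem fn_s_apply (c : Comp Cell V h → F) (r : Comp Cell V h) :
    fn c .s r = match r with
      | .S _ _ _ => c r
      | _ => 0 := by
  cases r with
  | W τ e => exact pf_of_ne _ _ fun i => by simp
  | T τ j => exact pf_of_ne _ _ fun i => by simp
  | rel => exact pf_of_ne _ _ fun i => by simp
  | S τ ch j =>
    refine pf_of_eq _ _ (τ, ch, j) rfl fun i hi hne => ?_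
    exfalso
    apply hne
    injection hi with h1 h2 h3
    exact Prod.ext h1 (Prod.ext h2 h3)

theorem fn_s1_apply (c : Comp Cell V h → F) (r : Comp Cell V h) :
    fn c .s1 r = match r with
      | .S σ ch j => if _hj : (j : ℕ) = 0 then 0 else c (.S σ ch ⟨j - 1, by omega⟩)
      | _ => 0 := by
  cases r with
  | W τ e => exact pf_of_ne _ _ fun i => by simp
  | T τ j => exact pf_of_ne _ _ fun i => by simp
  | rel => exact pf_of_ne _ _ fun i => by simp
  | S τ ch j =>
    show _ = if hj : (j : ℕ) = 0 then 0 else c (.S τ ch ⟨j - 1, by omega⟩)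
    by_cases hj : (j : ℕ) = 0
    · rw [dif_pos hj]
      refine Finset.sum_eq_zero fun i _ => ?_
      by_cases h2 : (i.2.2 : ℕ) + 1 < h + 1
      · refine if_neg fun h1 => ?_
        injection h1 with _ _ h3
        have h4 := congrArg Fin.val h3
        simp only [nx, dif_pos h2] at h4
        omega
      · simp only [if_neg h2, ite_self]
    · rw [dif_neg hj]
      have hj' : (j : ℕ) - 1 + 1 < h + 1 := by omega
      refine (pf_of_eq _ _ (τ, ch, ⟨j - 1, by omega⟩) ?_ fun i hi hne => ?_).trans ?_
      · simp only [nx, dif_pos hj']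
        congr 1
        apply Fin.ext
        simp only
        omega
      · by_cases h2 : (i.2.2 : ℕ) + 1 < h + 1
        · exfalso
          apply hne
          simp only [nx, dif_pos h2] at hi
          injection hi with h3 h4 h5
          have h6 := congrArg Fin.val h5
          simp only at h6
          refine Prod.ext h3 (Prod.ext h4 (Fin.ext ?_))
          simp only
          omega
        · exact if_neg h2
      · exact if_pos hj'

end val

/-! ### Polynomial time -/

section pt

variable {F : Type*} [Field F] [Fintype F] {A : Set Word} {α : Type*} [Enc α]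
variable {Cell V : Type} [Fintype Cell] [DecidableEq Cell] [Fintype V] [DecidableEq V]
variable {h c n : α → ℕ}

/-- A functional which is supported on the markers of the side `σ`. -/
theorem PTt.onT (hn : PT A n) (σ : Bool) {G : ∀ a, Fin (h a + 1) → F}
    (hG : PTt A (fun p : α × ℕ => G p.1 (Fin.ofNat (h p.1 + 1) p.2))) :
    PTt A (fun a => pf (fun j : Fin (h a + 1) => (.T σ j : Comp Cell V (h a))) (G a)
      (decK (h a) (n a))) := by
  refine PTt.compCases (G := fun a => pf (fun j : Fin (h a + 1) => (.T σ j : Comp Cell V (h a)))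
    (G a)) hn (fun x => ?_) (fun κ => ?_)
  · refine (PTt.const (0 : F)).congr fun a => ?_
    rw [pf_T]
    rcases x with _ | ⟨τ, e⟩ <;> rfl
  · rcases κ with τ | ⟨τ, i⟩
    · by_cases hτ : τ = σ
      · refine hG.congr fun p => ?_
        rw [pf_T]
        exact (if_pos hτ).symm
      · refine (PTt.const (0 : F)).congr fun p => ?_
        rw [pf_T]
        exact (if_neg hτ).symm
    · refine (PTt.const (0 : F)).congr fun p => ?_
      rw [pf_T]
      rfl

omit [Fintype F] [Fintype Cell] [Fintype V] in
theorem pf_unit {h : ℕ} (r r' : Comp Cell V h) :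
    pf (fun _ : Unit => r) (fun _ => (1 : F)) r' = unitc r 1 r' := by
  unfold pf unitc
  rw [Fintype.sum_unique]
  exact if_congr eq_comm rfl rfl

theorem PTt.unit_S0 (hh : PT A h) (hn : PT A n) (s : Bool) (i : Chn Cell V) (l : F) :
    PTt A (fun a => unitc (.S s i 0) l (decK (h a) (n a) : Comp Cell V (h a)) :
      α → F) := by
  have g1 : PT A (fun p : α × ℕ => p.1) := PT.fst'
  have hm : PT A (fun p : α × ℕ => p.2 % (h p.1 + 1)) :=
    PT.mod PT.snd' (PT.add (hh.comp g1) (PT.const 1))
  refine PTt.compCases (G := fun a => unitc (.S s i 0) l) hn (fun x => ?_)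
    (fun κ => ?_)
  · refine (PTt.const (0 : F)).congr fun p => ?_
    unfold unitc
    rw [if_neg]
    rcases x with _ | ⟨σ, e⟩ <;> simp [loC]
  · rcases κ with σ | ⟨σ, i'⟩
    · refine (PTt.const (0 : F)).congr fun p => ?_
      unfold unitc
      rw [if_neg]
      simp [hiC]
    · by_cases hσ : σ = s ∧ i' = i
      · refine (PTt.ite (PT.eqNat hm (PT.const 0)) (PTt.const l) (PTt.const (0 : F))).congr
          fun p => ?_
        unfold unitc
        refine if_congr ?_ rfl rfl
        show _ ↔ Comp.S σ i' (Fin.ofNat (h p.1 + 1) p.2) = Comp.S s i 0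
        rw [Comp.S.injEq, ofNat_eq_zero]
        exact ⟨fun e => ⟨hσ.1, hσ.2, e⟩, fun e => e.2.2⟩
      · refine (PTt.const (0 : F)).congr fun p => ?_
        unfold unitc
        rw [if_neg]
        show Comp.S σ i' (Fin.ofNat (h p.1 + 1) p.2) ≠ Comp.S s i 0
        intro e
        rw [Comp.S.injEq] at e
        exact hσ ⟨e.1, e.2.1⟩

/-- **The functional maps of the test, on numbers.** -/
theorem PTt.tfn (hh : PT A h) (hhb : PBd h) (hc : PT A c) (hn : PT A n) (f : Fn Cell V) :
    PTt A (fun a => fn (decC (h a) (c a)) f (decK (h a) (n a) : Comp Cell V (h a)) : α → F) := by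
  have g1 : PT A (fun p : α × ℕ => p.1) := PT.fst'
  have hm : PT A (fun p : α × ℕ => p.2 % (h p.1 + 1)) :=
    PT.mod PT.snd' (PT.add (hh.comp g1) (PT.const 1))
  have lo : ∀ x : CLo Cell,
      PTt A (fun a => (decC (h a) (c a) (loC x : Comp Cell V (h a)) : F)) :=
    fun x => PTt.decC_lo hc x
  have hi : ∀ κ : CHi Cell V, PTt A (fun p : α × ℕ =>
      (decC (h p.1) (c p.1) (hiC κ (Fin.ofNat (h p.1 + 1) p.2)) : F)) := fun κ =>
    PTt.decC_hi (T := F) (V := V) (hh.comp g1) (PBd.comp hhb g1) (hc.comp g1) PT.snd' κ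
  have hz : PTt A (fun _ : α => (0 : F)) := PTt.const 0
  have hz' : PTt A (fun _ : α × ℕ => (0 : F)) := PTt.const 0
  cases f with
  | all =>
    exact PTt.compCases (G := fun a => (decC (h a) (c a) : Comp Cell V (h a) → F)) hn lo hi
  | cst =>
    refine PTt.compCases (G := fun a => fn (decC (h a) (c a)) (.cst : Fn Cell V)) hn (fun x => ?_)
      (fun κ => ?_)
    · rcases x with _ | ⟨σ, e⟩
      · exact (lo none).congr fun a => rfl
      · exact hz.congr fun a => rfl
    · rcases κ with σ | ⟨σ, i⟩
      · exact (hi (.inl σ)).congr fun a => rfl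
      · exact hz'.congr fun a => rfl
  | w =>
    refine PTt.compCases (G := fun a => fn (decC (h a) (c a)) (.w : Fn Cell V)) hn (fun x => ?_)
      (fun κ => ?_)
    · rcases x with _ | ⟨σ, e⟩
      · exact hz.congr fun a => rfl
      · exact (lo (some (σ, e))).congr fun a => rfl
    · rcases κ with σ | ⟨σ, i⟩
      · exact hz'.congr fun a => rfl
      · exact hz'.congr fun a => rfl
  | s =>
    refine PTt.compCases (G := fun a => fn (decC (h a) (c a)) (.s : Fn Cell V)) hn (fun x => ?_)
      (fun κ => ?_)
    · refine hz.congr fun a => ?_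
      rw [fn_s_apply]
      rcases x with _ | ⟨σ, e⟩ <;> rfl
    · rcases κ with σ | ⟨σ, i⟩
      · refine hz'.congr fun a => ?_
        rw [fn_s_apply]
        rfl
      · refine (hi (.inr (σ, i))).congr fun a => ?_
        rw [fn_s_apply]
        rfl
  | s1 =>
    refine PTt.compCases (G := fun a => fn (decC (h a) (c a)) (.s1 : Fn Cell V)) hn (fun x => ?_)
      (fun κ => ?_)
    · refine hz.congr fun a => ?_
      rw [fn_s1_apply]
      rcases x with _ | ⟨σ, e⟩ <;> rfl
    · rcases κ with σ | ⟨σ, i⟩
      · refine hz'.congr fun a => ?_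
        rw [fn_s1_apply]
        rfl
      · have e2 := PTt.decC_hi (T := F) (V := V) (hh.comp g1) (PBd.comp hhb g1) (hc.comp g1)
          (PT.sub hm (PT.const 1)) (.inr (σ, i))
        refine (PTt.ite (PT.eqNat hm (PT.const 0)) hz' e2).congr fun p => ?_
        rw [fn_s1_apply]
        show _ = if hj : ((Fin.ofNat (h p.1 + 1) p.2 : Fin (h p.1 + 1)) : ℕ) = 0 then 0 else
          decC (h p.1) (c p.1) (.S σ i ⟨(Fin.ofNat (h p.1 + 1) p.2 : Fin (h p.1 + 1)) - 1, _⟩)
        have e0 : ((Fin.ofNat (h p.1 + 1) p.2 : Fin (h p.1 + 1)) : ℕ) = p.2 % (h p.1 + 1) := rfl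
        by_cases hj : p.2 % (h p.1 + 1) = 0
        · rw [if_pos hj, dif_pos (e0.trans hj)]
        · rw [if_neg hj, dif_neg (fun e => hj (e0.symm.trans e))]
          show decC (h p.1) (c p.1) (.S σ i (Fin.ofNat (h p.1 + 1) (p.2 % (h p.1 + 1) - 1))) = _
          congr 2
          apply Fin.ext
          have h1 := Nat.mod_lt p.2 (show 0 < h p.1 + 1 by omega)
          exact Nat.mod_eq_of_lt (a := p.2 % (h p.1 + 1) - 1) (by omega)
  | ta σ => exact PTt.onT hn σ (hi (.inl σ))
  | tb σ => exact PTt.onT hn σ (hi (.inl (!σ)))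
  | tab σ =>
    exact PTt.onT hn σ (G := fun a j => decC (h a) (c a) (.T σ j : Comp Cell V (h a)) *
      decC (h a) (c a) (.T (!σ) j : Comp Cell V (h a)))
      ((hi (.inl σ)).map₂ (hi (.inl (!σ))) fun x y => x * y)
  | tc σ i => exact PTt.onT hn σ (hi (.inr (σ, i)))
  | uT σ => exact (PTt.unit_T hh hn σ 1).congr fun a => (pf_unit _ _).symm
  | uR => exact (PTt.unit_lo hn none 1).congr fun a => (pf_unit _ _).symm
  | uW σ e => exact (PTt.unit_lo hn (some (σ, e)) 1).congr fun a => (pf_unit _ _).symm
  | uS σ i => exact (PTt.unit_S0 hh hn σ i 1).congr fun a => (pf_unit _ _).symm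

/-- The functional maps of the test with a factor. -/
theorem PTt.tfn_smul (hh : PT A h) (hhb : PBd h) (hc : PT A c) (hn : PT A n) (f : Fn Cell V)
    (l : F) :
    PTt A (fun a => (l • fn (decC (h a) (c a)) f) (decK (h a) (n a) : Comp Cell V (h a)) :
      α → F) :=
  ((PTt.tfn hh hhb hc hn f).map fun x => l * x).congr fun a => rfl

end pt

end Vale.Agent.P330.Q
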