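import Vale.Agent.P330.Q.Sites

/-!
# Project Q: the sites as numbers, polynomial time
-/

namespace Vale.Agent.P330.Q

open Finset
open Vale.Agent.Lib.PolyTime
open scoped BigOperators

/-- Sums over a fixed finite set. -/
theorem PTt.finSum {A : Set Word} {α : Type*} [Enc α] {T : Type*} [Fintype T] [AddCommMonoid T]
    {J : Type*} (s : Finset J) {f : α → J → T} (hf : ∀ j, PTt A (fun a => f a j)) :
    PTt A (fun a => ∑ j ∈ s, f a j) := by
  classical
  induction s using Finset.induction_on with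
  | empty => exact (PTt.const 0).congr fun a => by simp
  | insert j s hj ih =>
    exact ((hf j).map₂ ih fun x y => x + y).congr fun a => by rw [Finset.sum_insert hj]

variable {N : Code}

namespace CNum.OkPT

variable {A : Set Word} {α β : Type*} [Enc α] [Enc β] {I : α → CInst N} {n : ∀ a, CNum (I a)}
  (h : OkPT A n)

include h

theorem comp' {g : β → α} (hg : PT A g) : OkPT A (I := fun b => I (g b)) (fun b => n (g b)) where
  nY := h.nY.comp hg
  nYb := PBd.comp h.nYb hg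
  nR := h.nR.comp hg
  Qcb := PBd.comp (b := fun a => (n a).Qc) h.Qcb hg
  nι := h.nι.comp hg
  nιb := PBd.comp h.nιb hg
  mP := h.mP.comp hg
  mZ := h.mZ.comp hg
  add := PT.comp (g := fun p : α × ℕ × ℕ =>
    (n p.1).addN (min p.2.1 (n p.1).nY) (min p.2.2 (n p.1).nY)) h.add
    ((hg.comp PT.fst').pair PT.snd')
  g k := PT.comp (g := fun p : α × ℕ => (n p.1).gN k (min p.2 (n p.1).nY)) (h.g k)
    ((hg.comp PT.fst').pair PT.snd')
  d u := PT.comp (g := fun p : α × ℕ => (n p.1).dN u (min p.2 (n p.1).nι)) (h.d u)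
    ((hg.comp PT.fst').pair PT.snd')
  Af k := PTt.comp (f := fun p : α × ℕ × ℕ × ℕ => (n p.1).AN k (min p.2.1 (n p.1).nY)
    (min p.2.2.1 (n p.1).Qc) (min p.2.2.2 (n p.1).nR)) (h.Af k)
    ((hg.comp PT.fst').pair PT.snd')
  v v := PT.comp (g := fun p : α × ℕ × ℕ => (n p.1).vN v (min p.2.1 (n p.1).nY)
    (min p.2.2 (n p.1).Qc)) (h.v v) ((hg.comp PT.fst').pair PT.snd')

theorem nRb : PBd (fun a => (n a).nR) :=
  h.Qcb.mono fun _ => (Nat.lt_pow_self Fintype.one_lt_card).le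

theorem Qc : PT A (fun a => (n a).Qc) := PT.pow (PT.const (Fintype.card N.F)) h.nR h.nRb

theorem Qe : PT A (fun a => (n a).Qe) :=
  PT.pow (PT.const (Fintype.card N.F)) (PT.mul (PT.const (M N)) h.nR)
    (PBd.mul (PBd.const (M N)) h.nRb)

theorem Qeb : PBd (fun a => (n a).Qe) :=
  (PBd.pow h.Qcb (M N)).mono fun a => by
    unfold CNum.Qe CNum.Qc
    rw [← pow_mul, mul_comm]

theorem NP : PT A (fun a => (n a).NP) := PT.mul h.nY h.Qc

theorem NPb : PBd (fun a => (n a).NP) := PBd.mul h.nYb h.Qcb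

theorem NZ : PT A (fun a => (n a).NZ) := PT.mul h.Qe (PT.mul h.nι h.nι)

theorem NZb : PBd (fun a => (n a).NZ) := PBd.mul h.Qeb (PBd.mul h.nιb h.nιb)

/-- The number of the sites. -/
theorem NN : PT A (fun a => (n a).NP * (n a).NZ) := PT.mul h.NP h.NZ

theorem NNb : PBd (fun a => (n a).NP * (n a).NZ) := PBd.mul h.NPb h.NZb

theorem yN {s : α → ℕ} (hs : PT A s) : PT A (fun a => (n a).yN (s a)) :=
  PT.min (PT.div (PT.div hs h.NZ) h.Qc) h.nY

theorem cN {s : α → ℕ} (hs : PT A s) : PT A (fun a => (n a).cN (s a)) :=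
  PT.min (PT.mod (PT.div hs h.NZ) h.Qc) h.Qc

theorem ii {s : α → ℕ} (hs : PT A s) :
    PT A (fun a => s a % (n a).NZ % ((n a).nι * (n a).nι)) :=
  PT.mod (PT.mod hs h.NZ) (PT.mul h.nι h.nι)

theorem eN {s : α → ℕ} (hs : PT A s) : PT A (fun a => (n a).eN (s a)) :=
  PT.div (PT.mod hs h.NZ) (PT.mul h.nι h.nι)

theorem iN {s : α → ℕ} (hs : PT A s) (b : Fin 2) : PT A (fun a => (n a).iN (s a) b) := by
  unfold CNum.iN
  split_ifs
  · exact PT.min (PT.div (h.ii hs) h.nι) h.nι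
  · exact PT.min (PT.mod (h.ii hs) h.nι) h.nι

theorem gy (k : N.K ⊕ N.KT) {s : α → ℕ} (hs : PT A s) :
    PT A (fun a => (n a).gN k ((n a).yN (s a))) :=
  (PT.comp (g := fun p : α × ℕ => (n p.1).gN k (min p.2 (n p.1).nY)) (h.g k)
    (PT.id.pair (h.yN hs))).congr fun a => by
      rw [min_eq_left]
      exact min_le_right _ _

theorem di (u : N.F) {s : α → ℕ} (hs : PT A s) (b : Fin 2) :
    PT A (fun a => (n a).dN u ((n a).iN (s a) b)) :=
  (PT.comp (g := fun p : α × ℕ => (n p.1).dN u (min p.2 (n p.1).nι)) (h.d u)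
    (PT.id.pair (h.iN hs b))).congr fun a => by
      rw [min_eq_left]
      unfold CNum.iN
      split_ifs <;> exact min_le_right _ _

theorem addm {x y : α → ℕ} (hx : PT A x) (hy : PT A y) :
    PT A (fun a => (n a).addN (min (x a) (n a).nY) (min (y a) (n a).nY)) :=
  PT.comp (g := fun p : α × ℕ × ℕ =>
    (n p.1).addN (min p.2.1 (n p.1).nY) (min p.2.2 (n p.1).nY)) h.add
    (PT.id.pair (hx.pair hy))

theorem c2N {e j : α → ℕ} (he : PT A e) (hj : PT A j) (hjb : PBd j) :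
    PTt A (fun a => (n a).c2N (e a) (j a)) :=
  PTt.dg he (PT.add hj (PT.mul h.nR (PT.const _))) (PBd.add hjb (PBd.mul h.nRb (PBd.const _)))

theorem crvN (b : Fin 2) (u : N.F) {e j : α → ℕ} (he : PT A e) (hj : PT A j) (hjb : PBd j) :
    PTt A (fun a => (n a).crvN b u (e a) (j a)) :=
  PTt.finSum Finset.univ fun k =>
    (PTt.dg he (PT.add hj (PT.mul h.nR (PT.const _)))
      (PBd.add hjb (PBd.mul h.nRb (PBd.const _)))).map fun x => u ^ ((k : ℕ) + 1) * x

omit h in
theorem minb {m : α → ℕ} (hm : PBd m) : PBd (fun q : α × ℕ => min q.2 (m q.1)) :=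
  (PBd.comp hm (PT.fst' (A := (∅ : Set Word)))).mono fun _ => min_le_right _ _

theorem asm {y c e ii : α → ℕ} (hy : PT A y) (hc : PT A c) (he : PT A e) (hi : PT A ii) :
    PT A (fun a => (n a).asm (y a) (c a) (e a) (ii a)) :=
  PT.add (PT.mul (PT.add (PT.mul hy h.Qc) hc) h.NZ) (PT.add (PT.mul he (PT.mul h.nι h.nι)) hi)

/-- **Raw reads in polynomial time.** -/
theorem rdN (R : N.Raw) {s : α → ℕ} (hs : PT A s) : PT A (fun a => (n a).rdN R (s a)) := by
  have hj : PT A (fun q : α × ℕ => min q.2 (n q.1).nR) := PT.min PT.snd' (h.nR.comp PT.fst')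
  have hjb : PBd (fun q : α × ℕ => min q.2 (n q.1).nR) := minb h.nRb
  have hs' : PT A (fun q : α × ℕ => s q.1) := hs.comp PT.fst'
  have h1 : OkPT A (I := fun q : α × ℕ => I q.1) (fun q : α × ℕ => n q.1) := h.comp' PT.fst'
  have hy := h1.yN hs'
  have hc := h1.cN hs'
  have he := h1.eN hs'
  rcases R with ⟨k, p⟩ | u
  · refine h.asm (h.addm (h.gy k hs) (h.di p.2 hs p.1)) (PT.fnum h.nR h.nRb ?_)
      (PT.fnum (PT.mul (PT.const (M N)) h.nR) (PBd.mul (PBd.const (M N)) h.nRb) ?_) (h.ii hs)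
    · have hA : PTt A (fun q : α × ℕ =>
          (n q.1).AN k ((n q.1).yN (s q.1)) ((n q.1).cN (s q.1)) (min q.2 (n q.1).nR)) := by
        refine (PTt.comp (f := fun p : α × ℕ × ℕ × ℕ => (n p.1).AN k (min p.2.1 (n p.1).nY)
          (min p.2.2.1 (n p.1).Qc) (min p.2.2.2 (n p.1).nR)) (h.Af k)
          (PT.fst'.pair (hy.pair (hc.pair PT.snd')))).congr fun q => ?_
        rw [min_eq_left (a := (n q.1).yN (s q.1)) (min_le_right _ _),
          min_eq_left (a := (n q.1).cN (s q.1)) (min_le_right _ _)]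
      have h2 : PTt A (fun q : α × ℕ =>
          if p.1 = 0 then (n q.1).AN k ((n q.1).yN (s q.1)) ((n q.1).cN (s q.1))
            (min q.2 (n q.1).nR) else 0) := by
        split_ifs
        · exact hA
        · exact PTt.const 0
      exact (h2.map₂ (h1.c2N he hj hjb) fun x y => x + y).map₂ (h1.crvN p.1 p.2 he hj hjb)
        fun x y => x + y
    · have ht : PT A (fun q : α × ℕ => min q.2 (M N * (n q.1).nR)) :=
        PT.min PT.snd' (PT.mul (PT.const (M N)) (h.nR.comp PT.fst'))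
      have htb : PBd (fun q : α × ℕ => min q.2 (M N * (n q.1).nR)) :=
        minb (m := fun a => M N * (n a).nR) (PBd.mul (PBd.const (M N)) h.nRb)
      refine PTt.ite (PT.eqNat (PT.div ht h1.nR) (PT.const (mIx N none : ℕ)))
        (PTt.dg hc (PT.mod ht h1.nR) (htb.mono fun q => Nat.mod_le _ _)) (PTt.dg he ht htb)
  · refine h.asm ((h.addm (h.yN hs) (h.di u hs 0)).congr fun a => ?_)
      (PT.fnum h.nR h.nRb ?_) (h.eN hs) (h.ii hs)
    · rw [min_eq_left (a := (n a).yN (s a)) (min_le_right _ _)]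
    · exact (PTt.dg hc hj hjb).map₂ (h1.crvN 0 u he hj hjb) fun x y => x + y

/-- **Public bits in polynomial time.** -/
theorem cbN (v : N.V) {s : α → ℕ} (hs : PT A s) : PT A (fun a => (n a).cbN v (s a)) :=
  (PT.comp (g := fun p : α × ℕ × ℕ => (n p.1).vN v (min p.2.1 (n p.1).nY)
    (min p.2.2 (n p.1).Qc)) (h.v v) (PT.id.pair ((h.yN hs).pair (h.cN hs)))).congr fun a => by
      show (n a).vN v (min ((n a).yN (s a)) (n a).nY) (min ((n a).cN (s a)) (n a).Qc) =
        (n a).vN v ((n a).yN (s a)) ((n a).cN (s a))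
      rw [min_eq_left (a := (n a).yN (s a)) (min_le_right _ _),
          min_eq_left (a := (n a).cN (s a)) (min_le_right _ _)]

/-- **Neighbours in polynomial time.** -/
theorem nbN (k : Fin 8) {s : α → ℕ} (hs : PT A s) : PT A (fun a => (n a).nbN k (s a)) := by
  unfold CNum.nbN
  by_cases hk : (k : ℕ) < 4
  · simp only [dif_pos hk]
    exact PT.add (PT.mul (PT.div hs h.NZ) h.NZ) (S.PT_mgN h.mZ (PT.mod hs h.NZ) _)
  · simp only [dif_neg hk]
    exact PT.add (PT.mul (S.PT_mgN h.mP (PT.div hs h.NZ) _) h.NZ) (PT.mod hs h.NZ)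

end CNum.OkPT

end Vale.Agent.P330.Q
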