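import Vale.Agent.P330.Q.CbConc
import Vale.Agent.P330.Q.NumTest
import Vale.Agent.P330.Q.ConcFacts
import Vale.Agent.P330.Q.SitesPT

/-!
# Project Q: the sites of the concrete family as numbers

`numC I : CNum (famC I)`, with `numC_ok : (numC I).Ok` and `numC_pt : CNum.OkPT ∅ numC`.
-/

namespace Vale.Agent.P330.Q

open Finset Vale.Agent.Lib.PolyTime
open S.Mach (spec)
open Srch

/-! ### Definitions -/

/-- The digits of the inverse of the first element of the pair. -/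
noncomputable def apN (I : EndOfLine) (i : ℕ) : KQ := (dgT (T3 KQ) (zC I) i).2.2

/-- The digits of the second element of the pair. -/
noncomputable def beN (I : EndOfLine) (i : ℕ) : KQ := (dgT (T3 KQ) (zC I) i).2.1

theorem isNat_ap (I : EndOfLine) : IsNatOf (apN I) (apC I) := fun _ => rfl

theorem isNat_be (I : EndOfLine) : IsNatOf (beN I) (beC I) := fun _ => rfl

/-- The number of directions. -/
noncomputable def nDC (I : EndOfLine) : ℕ := nD (hC I) (apN I) (beN I) parQ.t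

/-- The root of the number of elements of the field. -/
noncomputable def rQ : ℕ := 2 ^ (parQ.s / 2)

theorem rQ_sq : rQ * rQ = Fintype.card KQ := by
  rw [card_KQ]
  unfold rQ Pars.q
  obtain ⟨m, hm⟩ := parQ.even_s
  rw [← pow_add]
  congr 1
  omega

/-- The components. -/
abbrev CC (I : EndOfLine) : Type := Comp spec.Cell (VOut spec) (hC I)

/-- The number of components. -/
noncomputable def nRC (I : EndOfLine) : ℕ := nC spec.Cell (VOut spec) (hC I)

/-- The moves. -/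
noncomputable def gNC (I : EndOfLine) : codeQ.K ⊕ codeQ.KT → ℕ → ℕ
  | .inl none, x => x
  | .inl (some κ), x => akN KQ (hC I) (kQ I) κ x
  | .inr none, x => x
  | .inr (some k), x => mvN KQ (hC I) (kQ I) k.1.2 x

/-- The functional of a number. -/
noncomputable def dC (I : EndOfLine) (c : ℕ) : CC I → KQ := decC (hC I) c

/-- The functional maps. -/
noncomputable def ANC (I : EndOfLine) : codeQ.K ⊕ codeQ.KT → ℕ → ℕ → ℕ → KQ
  | .inl none, _, c, j => dC I c (decK (hC I) j)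
  | .inl (some κ), _, c, j => κ.fn (1 : KQ) (dC I c) (decK (hC I) j)
  | .inr none, _, c, j => dC I c (decK (hC I) j)
  | .inr (some k), _, c, j => (k.2 • fn (dC I c) k.1.1) (decK (hC I) j)

/-- **The numbers of the points, components and directions of the concrete family.** -/
noncomputable def numC (I : EndOfLine) : CNum (famC I) where
  nY := cY KQ (hC I) * cY KQ (hC I)
  eY := eYY KQ (hC I)
  nR := nC spec.Cell (VOut spec) (hC I)
  eR := compE (hC I)
  nι := nDC I * nDC I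
  eι := eDD (isNat_ap I) (isNat_be I) parQ.t
  addN := addP KQ (hC I)
  gN := gNC I
  dN u i := dirN2 (hC I) (apN I) (beN I) parQ.t i u
  AN := ANC I
  vN := vNC I
  mP := cY KQ (hC I) * rQ ^ nC spec.Cell (VOut spec) (hC I)
  mZ := rQ ^ (CNum.M codeQ * nC spec.Cell (VOut spec) (hC I)) * (nDC I * nDC I)

/-! ### Correctness -/

theorem stdC (I : EndOfLine) : StdDom (domC I).toDomData (kQ I) :=
  stdDom_domData (sysC I) (ysys_θ _ _ _ _ _) (ysys_ι _ _ _ _ _) (famQ I) (famQ_facts I) σQ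
    (epsQ I)

theorem dC_cE (I : EndOfLine) (c : CC I → KQ) : dC I ((numC I).cE c) = c := by
  funext k
  exact (numC I).dg_cE c k

theorem gNC_ok (I : EndOfLine) (k : codeQ.K ⊕ codeQ.KT) (y : YC I × YC I) :
    gNC I k (eYY KQ (hC I) y) = eYY KQ (hC I) ((famC I).g k y) := by
  rcases k with (_ | κ) | (_ | κ)
  · rfl
  · exact ((stdC I).akN κ y).symm
  · rfl
  · exact ((stdC I).mvN κ.1.2 y).symm

theorem ANC_ok (I : EndOfLine) (k : codeQ.K ⊕ codeQ.KT) (y : YC I × YC I) (c : CC I → KQ)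
    (j : CC I) :
    ANC I k (eYY KQ (hC I) y) ((numC I).cE c) (compE (hC I) j) = (famC I).A k y c j := by
  rcases k with (_ | κ) | (_ | κ)
  · show dC I ((numC I).cE c) (decK (hC I) (compE (hC I) j)) = c j
    rw [dC_cE, decK_compE]
  · show κ.fn (1 : KQ) (dC I ((numC I).cE c)) (decK (hC I) (compE (hC I) j)) =
      κ.fn (1 : KQ) c j
    rw [dC_cE, decK_compE]
  · show dC I ((numC I).cE c) (decK (hC I) (compE (hC I) j)) = c j
    rw [dC_cE, decK_compE]
  · show (κ.2 • fn (dC I ((numC I).cE c)) κ.1.1) (decK (hC I) (compE (hC I) j)) =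
      (κ.2 • fn c κ.1.1) j
    rw [dC_cE, decK_compE]

/-- **The numbers are correct.** -/
theorem numC_ok (I : EndOfLine) : (numC I).Ok where
  add_ok y y' := (eYY_add (K := KQ) (h := hC I) y y').symm
  g_ok := gNC_ok I
  d_ok u i := dirN2_eDD (isNat_ap I) (isNat_be I) parQ.t i u
  A_ok k y c j := ANC_ok I k y c j
  v_ok v y c := by
    exact (vNC_ok I v y ((numC I).cE c)).trans (congrArg ((famC I).v v y) (dC_cE I c))
  P_sq := by
    show cY KQ (hC I) * cY KQ (hC I) * Fintype.card KQ ^ _ = _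
    rw [← rQ_sq, mul_pow]
    show _ = cY KQ (hC I) * rQ ^ nC spec.Cell (VOut spec) (hC I) *
      (cY KQ (hC I) * rQ ^ nC spec.Cell (VOut spec) (hC I))
    exact mul_mul_mul_comm _ _ _ _
  Z_sq := by
    show Fintype.card KQ ^ (CNum.M codeQ * nC spec.Cell (VOut spec) (hC I)) *
      (nDC I * nDC I * (nDC I * nDC I)) = _
    rw [← rQ_sq, mul_pow]
    show _ = rQ ^ (CNum.M codeQ * nC spec.Cell (VOut spec) (hC I)) * (nDC I * nDC I) *
      (rQ ^ (CNum.M codeQ * nC spec.Cell (VOut spec) (hC I)) * (nDC I * nDC I))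
    exact mul_mul_mul_comm _ _ _ _

/-! ### Polynomial time -/

theorem PTz_apN : PTz ∅ (fun I : EndOfLine => hC I) apN :=
  PTz.dg (T := T3 KQ) PT_hC PBd_hC (fun _ => Nat.two_pow_pos _) PT_zC fun t => t.2.2

theorem PTz_beN : PTz ∅ (fun I : EndOfLine => hC I) beN :=
  PTz.dg (T := T3 KQ) PT_hC PBd_hC (fun _ => Nat.two_pow_pos _) PT_zC fun t => t.2.1

theorem PT_nDC : PT ∅ nDC := PT.nD PT_hC PBd_hC PTz_apN PTz_beN parQ.t

theorem PBd_nDC : PBd nDC := PBd.nD apN beN PBd_hC parQ.t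

theorem PT_nRC : PT ∅ (fun I : EndOfLine => nC spec.Cell (VOut spec) (hC I)) :=
  PT.add (PT.const _) (PT.mul (PT.add PT_hC (PT.const 1)) (PT.const _))

theorem PBd_two_pow_nRC : PBd (fun I : EndOfLine => 2 ^ nC spec.Cell (VOut spec) (hC I)) := by
  refine ((PBd.const (2 ^ (Fintype.card (CLo spec.Cell) +
    Fintype.card (CHi spec.Cell (VOut spec))))).mul
      (PBd_two_pow_hC.pow (Fintype.card (CHi spec.Cell (VOut spec))))).mono fun I => ?_
  unfold nC
  rw [← pow_mul, ← pow_add]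
  exact le_of_eq (by congr 1; ring)

theorem PBd_nRC : PBd (fun I : EndOfLine => nC spec.Cell (VOut spec) (hC I)) :=
  of_pow PBd_two_pow_nRC

theorem PT_gNC (k : codeQ.K ⊕ codeQ.KT) {β : Type} [Enc β] {f : β → EndOfLine} {x : β → ℕ}
    (hf : PT ∅ f) (hx : PT ∅ x) : PT ∅ (fun b => gNC (f b) k (x b)) := by
  have hh : PT ∅ (fun b => hC (f b)) := PT_hC.comp hf
  have hhb : PBd (fun b => hC (f b)) := PBd_hC.comp hf
  rcases k with (_ | κ) | (_ | κ)
  · exact hx
  · exact PT.akN KQ (h := fun b => hC (f b)) (k := fun b => kQ (f b)) hh hhb (PT_kQ hf) hx κ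
  · exact hx
  · exact PT.mvN (K := KQ) (h := fun b => hC (f b)) (k := fun b => kQ (f b)) hh hhb (PT_kQ hf) hx
      κ.1.2

theorem PTt_ANC (k : codeQ.K ⊕ codeQ.KT) {β : Type} [Enc β] {f : β → EndOfLine} {y c j : β → ℕ}
    (hf : PT ∅ f) (hc : PT ∅ c) (hj : PT ∅ j) :
    PTt ∅ (fun b => ANC (f b) k (y b) (c b) (j b)) := by
  have hh : PT ∅ (fun b => hC (f b)) := PT_hC.comp hf
  have hhb : PBd (fun b => hC (f b)) := PBd_hC.comp hf
  have h0 : PTt ∅ (fun b => (decC (hC (f b)) (c b) (decK (hC (f b)) (j b) : CC (f b)) : KQ)) :=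
    PTt.tfn (F := KQ) (h := fun b => hC (f b)) hh hhb hc hj .all
  rcases k with (_ | κ) | (_ | κ)
  · exact h0
  · exact PTt.akfn (F := KQ) (V := VOut spec) (h := fun b => hC (f b)) hh hhb hc hj 1 κ
  · exact h0
  · exact PTt.tfn_smul (F := KQ) (h := fun b => hC (f b)) hh hhb hc hj κ.1.1 κ.2

/-- **The numbers are computable in polynomial time.** -/
theorem numC_pt : CNum.OkPT ∅ numC where
  nY := PT.mul (PT.cY KQ PT_hC PBd_hC) (PT.cY KQ PT_hC PBd_hC)
  nYb := PBd.mul (PBd.cY KQ PBd_two_pow_hC) (PBd.cY KQ PBd_two_pow_hC)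
  nR := PT_nRC
  Qcb := powT PBd_two_pow_nRC _
  nι := PT.mul PT_nDC PT_nDC
  nιb := PBd.mul PBd_nDC PBd_nDC
  mP := PT.mul (PT.cY KQ PT_hC PBd_hC) (PT.pow (PT.const _) PT_nRC PBd_nRC)
  mZ := PT.mul (PT.pow (PT.const _) (PT.mul (PT.const _) PT_nRC) (PBd.mul (PBd.const _) PBd_nRC))
    (PT.mul PT_nDC PT_nDC)
  add := by
    have h1 : PT ∅ (fun p : EndOfLine × ℕ × ℕ => hC p.1) := PT_hC.comp PT.fst'
    have h2 : PBd (fun p : EndOfLine × ℕ × ℕ => hC p.1) := PBd_hC.comp (PT.fst' (A := ∅))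
    have h3 : PT ∅ (fun p : EndOfLine × ℕ × ℕ => cY KQ (hC p.1) * cY KQ (hC p.1)) :=
      PT.mul (PT.cY KQ h1 h2) (PT.cY KQ h1 h2)
    exact PT.addP KQ (h := fun p : EndOfLine × ℕ × ℕ => hC p.1) h1 h2
      (PT.min PT.snd'.fst h3) (PT.min PT.snd'.snd h3)
  g k := by
    have h1 : PT ∅ (fun p : EndOfLine × ℕ => hC p.1) := PT_hC.comp PT.fst'
    have h2 : PBd (fun p : EndOfLine × ℕ => hC p.1) := PBd_hC.comp (PT.fst' (A := ∅))
    have h3 : PT ∅ (fun p : EndOfLine × ℕ => cY KQ (hC p.1) * cY KQ (hC p.1)) :=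
      PT.mul (PT.cY KQ h1 h2) (PT.cY KQ h1 h2)
    exact PT_gNC k PT.fst' (PT.min PT.snd' h3)
  d u := by
    have h3 : PT ∅ (fun p : EndOfLine × ℕ => nDC p.1 * nDC p.1) :=
      PT.mul (PT_nDC.comp PT.fst') (PT_nDC.comp PT.fst')
    exact PT.dirN2 (h := fun I : EndOfLine => hC I) (x := fun p : EndOfLine × ℕ => p.1)
      (u := fun _ : EndOfLine × ℕ => (u : KQ))
      PT_hC PBd_hC PTz_apN PTz_beN parQ.t PT.fst' (PT.min PT.snd' h3) (PTt.const (u : KQ))
  Af k := by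
    have h1 : PT ∅ (fun p : EndOfLine × ℕ × ℕ × ℕ => hC p.1) := PT_hC.comp PT.fst'
    have h2 : PBd (fun p : EndOfLine × ℕ × ℕ × ℕ => hC p.1) := PBd_hC.comp (PT.fst' (A := ∅))
    have h3 : PT ∅ (fun p : EndOfLine × ℕ × ℕ × ℕ => nC spec.Cell (VOut spec) (hC p.1)) :=
      PT_nRC.comp PT.fst'
    have h4 : PBd (fun p : EndOfLine × ℕ × ℕ × ℕ => nC spec.Cell (VOut spec) (hC p.1)) :=
      PBd_nRC.comp (PT.fst' (A := ∅))
    exact PTt_ANC k PT.fst' (PT.min PT.snd'.snd.fst (PT.pow (PT.const _) h3 h4))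
      (PT.min PT.snd'.snd.snd h3)
  v v := by
    have h1 : PT ∅ (fun p : EndOfLine × ℕ × ℕ => hC p.1) := PT_hC.comp PT.fst'
    have h2 : PBd (fun p : EndOfLine × ℕ × ℕ => hC p.1) := PBd_hC.comp (PT.fst' (A := ∅))
    have h3 : PT ∅ (fun p : EndOfLine × ℕ × ℕ => cY KQ (hC p.1) * cY KQ (hC p.1)) :=
      PT.mul (PT.cY KQ h1 h2) (PT.cY KQ h1 h2)
    have h4 : PT ∅ (fun p : EndOfLine × ℕ × ℕ => nC spec.Cell (VOut spec) (hC p.1)) :=
      PT_nRC.comp PT.fst'
    have h5 : PBd (fun p : EndOfLine × ℕ × ℕ => nC spec.Cell (VOut spec) (hC p.1)) :=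
      PBd_nRC.comp (PT.fst' (A := ∅))
    exact PT_vNC PT.fst' (PT.min PT.snd'.fst h3) (PT.min PT.snd'.snd (PT.pow (PT.const _) h4 h5)) v

end Vale.Agent.P330.Q
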