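import Vale.Agent.P330.Q.MainOf
import Vale.Agent.P330.Q.SitesInst

/-!
# Project Q: the weaker form of the PCP-for-PPAD conjecture

`poly_size`: there are constants `ε`, `δ` and a polynomial time reduction from End-of-Line to
generalized circuits such that every assignment which `ε`-satisfies all but a fraction `δ` of the
gates is mapped to a solution.
-/

namespace Vale.Agent.P330.Q

/-- **The weaker form of the PCP-for-PPAD conjecture.** -/
theorem poly_size : ∃ ε δ : ℚ, 0 < ε ∧ ε < 1 ∧ 0 < δ ∧ δ < 1 ∧
    ∀ p : Polynomial ℕ, 2 ≤ p.natDegree → PolySizePCP ε δ p :=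
  pcp_of_nums numC_ok numC_pt (fun _ _ => rfl) (fun _ => rfl) fun _ _ => rfl

end Vale.Agent.P330.Q
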