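import Vale.Agent.P330.Q.ConcFacts
import Vale.Agent.P330.Q.DecConc
import Vale.Agent.P330.H241.Main

/-!
# Project Q: the last steps

`pcp_of_nums`: the numbers of the sites of the concrete family give the weak form of the conjecture
for all polynomials `p` of degree at least `2`.
-/

namespace Vale.Agent.P330.Q

open Vale.Agent.Lib.PolyTime
open S.Mach (spec)

noncomputable instance : Fintype codeQ.spec.CB := codeQ.fV

/-- **From the numbers of the sites to the reduction.** -/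
theorem pcp_of_nums {n : ∀ a, CNum (famC a)} (hok : ∀ a, (n a).Ok) (hpt : CNum.OkPT ∅ n)
    (hY : ∀ a, ∀ y : YC a × YC a, ((n a).eY y : ℕ) = eYY KQ (hC a) y)
    (hnR : ∀ a, (n a).nR = nC spec.Cell (VOut spec) (hC a))
    (hR : ∀ a, ∀ r : Comp spec.Cell (VOut spec) (hC a), ((n a).eR r : ℕ) = compE (hC a) r) :
    ∃ ε δ : ℚ, 0 < ε ∧ ε < 1 ∧ 0 < δ ∧ δ < 1 ∧
      ∀ p : Polynomial ℕ, 2 ≤ p.natDegree → PolySizePCP ε δ p := by
  have hgP := fun a => (n a).gap_sP (hok a)
  have hgZ := fun a => (n a).gap_sZ (hok a)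
  obtain ⟨ε, δ, C, h1, h2, h3, h4, h5⟩ :=
    pcp_of_family (CNum.toNums hok hpt fun a => (factsC a).low) 0 (Q := ClassC (73 / 80))
      (fun a _ => ⟨a, _, _, hgP a, hgZ a, rfl⟩) (lsoundC (by norm_num))
      (Dec.decodes_conc factsC hok hpt hY hnR hR ρQ_pos ρQ_lt
        (fun a => ⟨_, _, lfactsC a _ _ (hgP a) (hgZ a)⟩) 0)
  exact ⟨ε, δ, h1, h2, h3, h4, fun p hp => h5 p (eventually_of_degree hp C)⟩

end Vale.Agent.P330.Q
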