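import Vale.Agent.P330.Q.AE

/-!
# Pointwise lemmas for networks over a local code
-/

namespace Vale.Agent.P330.Q

open Finset PCP.AR
open S (BitDef MDef Sem IsB Tst Ctl target MuxI InpIs Compat ThOK TfOK rel_bit)

variable {N : LSpec} {I : LInst N} {τ : ℚ} {ε lam : ℝ} {x : LReg N.C → I.Site → ℝ} {ω : I.Site}

/-- **Multiplexer**, pointwise. -/
theorem mux_pt {z : Bool} {c : N.C} (hR : (net N τ (.m z c)).Rel I.sem ε lam x (.m z c) ω)
    (hself : I.rd N.self ω = ω) (e : Bool)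
    (ha : IsB ε true (x (.th 2 0) ω) ∨ I.cb (N.start c) ω = e)
    (hb : IsB ε false (x (.th 2 0) ω) ∨ IsB ε (!z) (x (.th 1 (if z then 1 else 3)) ω) ∨
      IsB ε e (x (.h z c) ω))
    (hc : IsB ε false (x (.th 2 0) ω) ∨ IsB ε z (x (.th 1 (if z then 1 else 3)) ω) ∨
      IsB ε true (x (.th 0 2) ω) ∨ IsB ε e (x (.h (!z) c) ω))
    (hd : IsB ε false (x (.th 2 0) ω) ∨ IsB ε z (x (.th 1 (if z then 1 else 3)) ω) ∨
      IsB ε false (x (.th 0 2) ω) ∨ IsB ε e (x (.a (!z) c) ω)) :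
    IsB ε e (x (.m z c) ω) := by
  refine rel_bit (B := muxDef N z c) hR e fun y hy => ?_
  have h1 : ∀ b', IsB ε b' (x (.th 2 0) (I.rd N.self ω)) → y .s1 = b' := hy .s1
  have h2 : ∀ b', IsB ε b' (x (.th 1 (if z then 1 else 3)) (I.rd N.self ω)) → y .bsel = b' :=
    hy .bsel
  have h3 : ∀ b', IsB ε b' (x (.th 0 2) (I.rd N.self ω)) → y .asel = b' := hy .asel
  have h4 : y .start = I.cb (N.start c) ω := hy .start
  have h5 : ∀ b', IsB ε b' (x (.h z c) (I.rd N.self ω)) → y .hold = b' := hy .hold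
  have h6 : ∀ b', IsB ε b' (x (.h (!z) c) (I.rd N.self ω)) → y .other = b' := hy .other
  have h7 : ∀ b', IsB ε b' (x (.a (!z) c) (I.rd N.self ω)) → y .next = b' := hy .next
  rw [hself] at h1 h2 h3 h5 h6 h7
  show (if y .s1 = false then y .start else if y .bsel = z then y .hold
    else if y .asel = false then y .other else y .next) = e
  by_cases c1 : y .s1 = false
  · rw [if_pos c1]
    rcases ha with h | h
    · have := h1 _ h
      rw [c1] at this
      exact absurd this (by simp)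
    · exact Eq.trans h4 h
  · rw [if_neg c1]
    have c1' : y .s1 = true := by simpa using c1
    by_cases c2 : y .bsel = z
    · rw [if_pos c2]
      rcases hb with h | h | h
      · exact absurd (h1 _ h) c1
      · have := h2 _ h
        rw [c2] at this
        cases z <;> simp at this
      · exact h5 _ h
    · rw [if_neg c2]
      by_cases c3 : y .asel = false
      · rw [if_pos c3]
        rcases hc with h | h | h | h
        · exact absurd (h1 _ h) c1
        · exact absurd (h2 _ h) c2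
        · have := h3 _ h
          rw [c3] at this
          exact absurd this (by simp)
        · exact h6 _ h
      · rw [if_neg c3]
        rcases hd with h | h | h | h
        · exact absurd (h1 _ h) c1
        · exact absurd (h2 _ h) c2
        · exact absurd (h3 _ h) c3
        · exact h7 _ h

/-- **Comparison**, pointwise: different inputs. -/
theorem cmp_true {ρ : LReg N.C} {u v : N.C → (N.Rd × LReg N.C) ⊕ N.CB}
    (hR : (MDef.bit (cmpDef N u v)).Rel I.sem ε lam x ρ ω) {c : N.C} {b b' : Bool}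
    (h : InpIs I.sem ε x ω (u c) b) (h' : InpIs I.sem ε x ω (v c) b') (hne : b ≠ b') :
    IsB ε true (x ρ ω) := by
  refine rel_bit (B := cmpDef N u v) hR true fun y hy => ?_
  have h1 := hy (false, c)
  have h2 := hy (true, c)
  refine decide_eq_true ⟨c, ?_⟩
  have e1 : y (false, c) = b := Compat.eq (p := u c) h1 h
  have e2 : y (true, c) = b' := Compat.eq (p := v c) h2 h'
  rw [e1, e2]
  exact hne

/-- **Comparison**, pointwise: equal inputs. -/
theorem cmp_false {ρ : LReg N.C} {u v : N.C → (N.Rd × LReg N.C) ⊕ N.CB}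
    (hR : (MDef.bit (cmpDef N u v)).Rel I.sem ε lam x ρ ω) {b : N.C → Bool}
    (h : ∀ c, InpIs I.sem ε x ω (u c) (b c)) (h' : ∀ c, InpIs I.sem ε x ω (v c) (b c)) :
    IsB ε false (x ρ ω) := by
  refine rel_bit (B := cmpDef N u v) hR false fun y hy => ?_
  refine decide_eq_false ?_
  rintro ⟨c, hc⟩
  have e1 : y (false, c) = b c := Compat.eq (p := u c) (hy (false, c)) (h c)
  have e2 : y (true, c) = b c := Compat.eq (p := v c) (hy (true, c)) (h' c)
  exact hc (e1.trans e2.symm)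

/-- **Control bits**, pointwise. -/
theorem ctl_pt {i : Fin 3} {q : Fin 3 → ℝ} {T : Tst → ℝ} {b : Bool}
    (hR : (net N τ (.q i)).Rel I.sem ε lam x (.q i) ω)
    (hself : I.rd N.self ω = ω)
    (hth : ∀ (j : Fin 3) (l : Fin 5), ((((l : ℕ) : ℝ) + 1) / 6 < q j → IsB ε true (x (.th j l) ω)) ∧
      (q j < (((l : ℕ) : ℝ) + 1) / 6 → IsB ε false (x (.th j l) ω)))
    (htf : ∀ k, ((τ : ℝ) < T k → IsB ε true (x (.tf k) ω)) ∧
      (T k < (τ : ℝ) → IsB ε false (x (.tf k) ω)))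
    (h : ∀ y : Ctl, ThOK q y.th → TfOK (τ : ℝ) T y.tf →
      target y.th y.v (y.sg false) (y.sg true) i = b) :
    IsB ε b (x (.q i) ω) := by
  refine rel_bit (B := qDef N i) hR b fun y hy => ?_
  refine h ⟨fun i l => y (.inl (i, l)), fun k => y (.inr k)⟩ ?_ ?_
  · intro j l
    have h1 : ∀ b', IsB ε b' (x (.th j l) (I.rd N.self ω)) → y (.inl (j, l)) = b' :=
      hy (.inl (j, l))
    rw [hself] at h1
    exact ⟨fun hj => h1 _ ((hth j l).1 hj), fun hj => h1 _ ((hth j l).2 hj)⟩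
  · intro k
    have h1 : ∀ b', IsB ε b' (x (.tf k) (I.rd N.self ω)) → y (.inr k) = b' := hy (.inr k)
    rw [hself] at h1
    exact ⟨fun hj => h1 _ ((htf k).1 hj), fun hj => h1 _ ((htf k).2 hj)⟩

/-- The register `z` is right at the site. -/
def Rt (I : LInst N) (ε : ℝ) (x : LReg N.C → I.Site → ℝ) (z : Bool) (w : I.Cf) (ω : I.Site) :
    Prop :=
  ∀ c : N.C, IsB ε (I.cod w c ω.1) (x (.x z c) ω)

theorem near_iff {ρ₀ : ℝ} {z : Bool} {w : I.Cf} :
    I.Near ε ρ₀ x z w ↔ pr (fun ω : I.Site => ¬ Rt I ε x z w ω) ≤ ρ₀ := by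
  unfold LInst.Near
  rw [pr_congr (p := fun ω : I.Site => ∃ c : N.C, ¬ IsB ε (I.cod w c ω.1) (x (.x z c) ω))
    (r := fun ω : I.Site => ¬ Rt I ε x z w ω) fun ω => not_forall.symm]

/-- **Corrected reads**, pointwise. -/
theorem h_pt {z : Bool} {w : I.Cf} {c : N.C}
    (hok : N.hF c (fun k => I.cod w (N.rd k).2 (I.rd (N.rd k).1 ω).1)
      (fun b => I.cb (N.cb b) ω) = I.cod w c ω.1)
    (hR : (net N τ (.h z c)).Rel I.sem ε lam x (.h z c) ω)
    (hr : ∀ k : N.K, Rt I ε x z w (I.rd (N.rd k).1 ω)) :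
    IsB ε (I.cod w c ω.1) (x (.h z c) ω) := by
  refine rel_bit (B := hDef N z c) hR _ fun y hy => ?_
  have h1 : (fun k => y (.inl k)) = fun k => I.cod w (N.rd k).2 (I.rd (N.rd k).1 ω).1 :=
    funext fun k => (hy (.inl k) : ∀ b', IsB ε b' (x (.x z (N.rd k).2) (I.rd (N.rd k).1 ω)) →
      y (.inl k) = b') _ (hr k _)
  have h2 : (fun b => y (.inr b)) = fun b => I.cb (N.cb b) ω :=
    funext fun b => (hy (.inr b) : y (.inr b) = I.cb (N.cb b) ω)
  show N.hF c (fun k => y (.inl k)) (fun b => y (.inr b)) = _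
  rw [h1, h2, hok]

/-- **Corrected reads of the next configuration**, pointwise. -/
theorem a_pt {z : Bool} {w : I.Cf} {c : N.C}
    (hok : N.aF z c (fun k => I.cod w (N.rd k).2 (I.rd (N.rd k).1 ω).1)
      (fun b => I.cb (N.cb b) ω) = I.cod (I.step z w) c ω.1)
    (hR : (net N τ (.a z c)).Rel I.sem ε lam x (.a z c) ω)
    (hr : ∀ k : N.K, Rt I ε x z w (I.rd (N.rd k).1 ω)) :
    IsB ε (I.cod (I.step z w) c ω.1) (x (.a z c) ω) := by
  refine rel_bit (B := aDef N z c) hR _ fun y hy => ?_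
  have h1 : (fun k => y (.inl k)) = fun k => I.cod w (N.rd k).2 (I.rd (N.rd k).1 ω).1 :=
    funext fun k => (hy (.inl k) : ∀ b', IsB ε b' (x (.x z (N.rd k).2) (I.rd (N.rd k).1 ω)) →
      y (.inl k) = b') _ (hr k _)
  have h2 : (fun b => y (.inr b)) = fun b => I.cb (N.cb b) ω :=
    funext fun b => (hy (.inr b) : y (.inr b) = I.cb (N.cb b) ω)
  show N.aF z c (fun k => y (.inl k)) (fun b => y (.inr b)) = _
  rw [h1, h2, hok]

/-- The test fails if there is a flag. -/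
theorem t_flag {z : Bool} {c : N.C} (hR : (net N τ (.t (.T z))).Rel I.sem ε lam x (.t (.T z)) ω)
    (hself : I.rd N.self ω = ω) (h1 : IsB ε true (x (.lo z c) ω))
    (h2 : IsB ε false (x (.hi z c) ω)) : IsB ε true (x (.t (.T z)) ω) := by
  refine rel_bit (B := tDef N z) hR _ fun y hy => ?_
  refine decide_eq_true (Or.inl ⟨c, ?_, ?_⟩)
  · have h : ∀ b', IsB ε b' (x (.lo z c) (I.rd N.self ω)) → y (.inl (false, c)) = b' :=
      hy (.inl (false, c))
    rw [hself] at h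
    exact h _ h1
  · have h : ∀ b', IsB ε b' (x (.hi z c) (I.rd N.self ω)) → y (.inl (true, c)) = b' :=
      hy (.inl (true, c))
    rw [hself] at h
    exact h _ h2

/-- The test fails if the test of the code fails for the table read. -/
theorem t_fail {z : Bool} {f : N.C → I.P → Bool}
    (hR : (net N τ (.t (.T z))).Rel I.sem ε lam x (.t (.T z)) ω)
    (hr : ∀ k : N.TK, ∀ c, IsB ε (f c (I.rd (N.tRd k).1 ω).1) (x (.x z c) (I.rd (N.tRd k).1 ω)))
    (hf : I.TFail f ω) : IsB ε true (x (.t (.T z)) ω) := by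
  refine rel_bit (B := tDef N z) hR _ fun y hy => ?_
  refine decide_eq_true (Or.inr ?_)
  have h1 : (fun k => y (.inr (.inl k))) = fun k => f (N.tRd k).2 (I.rd (N.tRd k).1 ω).1 :=
    funext fun k => (hy (.inr (.inl k)) : ∀ b', IsB ε b' (x (.x z (N.tRd k).2)
      (I.rd (N.tRd k).1 ω)) → y (.inr (.inl k)) = b') _ (hr k _)
  have h2 : (fun b => y (.inr (.inr b))) = fun b => I.cb (N.tCB b) ω :=
    funext fun b => (hy (.inr (.inr b)) : y (.inr (.inr b)) = I.cb (N.tCB b) ω)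
  rw [h1, h2]
  exact hf

/-- The test passes. -/
theorem t_pass {z : Bool} {f : N.C → I.P → Bool}
    (hR : (net N τ (.t (.T z))).Rel I.sem ε lam x (.t (.T z)) ω)
    (hself : I.rd N.self ω = ω)
    (hr : ∀ k : N.TK, ∀ c, IsB ε (f c (I.rd (N.tRd k).1 ω).1) (x (.x z c) (I.rd (N.tRd k).1 ω)))
    (hlo : ∀ c, IsB ε (f c ω.1) (x (.lo z c) ω)) (hhi : ∀ c, IsB ε (f c ω.1) (x (.hi z c) ω))
    (hf : N.tF (fun k => f (N.tRd k).2 (I.rd (N.tRd k).1 ω).1) (fun b => I.cb (N.tCB b) ω) =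
      false) : IsB ε false (x (.t (.T z)) ω) := by
  refine rel_bit (B := tDef N z) hR _ fun y hy => ?_
  refine decide_eq_false ?_
  have h1 : (fun k => y (.inr (.inl k))) = fun k => f (N.tRd k).2 (I.rd (N.tRd k).1 ω).1 :=
    funext fun k => (hy (.inr (.inl k)) : ∀ b', IsB ε b' (x (.x z (N.tRd k).2)
      (I.rd (N.tRd k).1 ω)) → y (.inr (.inl k)) = b') _ (hr k _)
  have h2 : (fun b => y (.inr (.inr b))) = fun b => I.cb (N.tCB b) ω :=
    funext fun b => (hy (.inr (.inr b)) : y (.inr (.inr b)) = I.cb (N.tCB b) ω)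
  rintro (⟨c, hc1, hc2⟩ | hc)
  · have h3 : ∀ b', IsB ε b' (x (.lo z c) (I.rd N.self ω)) → y (.inl (false, c)) = b' :=
      hy (.inl (false, c))
    have h4 : ∀ b', IsB ε b' (x (.hi z c) (I.rd N.self ω)) → y (.inl (true, c)) = b' :=
      hy (.inl (true, c))
    rw [hself] at h3 h4
    have h5 := h3 _ (hlo c)
    have h6 := h4 _ (hhi c)
    rw [hc1] at h5
    rw [hc2, ← h5] at h6
    exact absurd h6 (by simp)
  · rw [h1, h2, hf] at hc
    exact absurd hc (by simp)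

/-! ### Comparisons, finite form -/

/-- **Comparison**, finite: if the two families are different at a fraction `θ` of the sites then
the test is 1 at a large fraction of the sites. -/
theorem cmp_lower {ρ : LReg N.C} {u v : N.C → (N.Rd × LReg N.C) ⊕ N.CB}
    {g g' : N.C → I.Site → Bool} {β ρ₁ ρ₂ θ : ℝ}
    (hR : pr (fun ω => ¬ (MDef.bit (cmpDef N u v)).Rel I.sem ε lam x ρ ω) ≤ β)
    (h1 : pr (fun ω => ∃ c, ¬ InpIs I.sem ε x ω (u c) (g c ω)) ≤ ρ₁)
    (h2 : pr (fun ω => ∃ c, ¬ InpIs I.sem ε x ω (v c) (g' c ω)) ≤ ρ₂)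
    {c : N.C} (h3 : θ ≤ pr (fun ω => g c ω ≠ g' c ω)) :
    θ - ρ₁ - ρ₂ - β ≤ pr (fun ω => IsB ε true (x ρ ω)) := by
  have key : pr (fun ω => g c ω ≠ g' c ω) ≤
      pr (fun ω => IsB ε true (x ρ ω)) + (pr (fun ω =>
        ¬ (MDef.bit (cmpDef N u v)).Rel I.sem ε lam x ρ ω) +
        (pr (fun ω => ∃ c, ¬ InpIs I.sem ε x ω (u c) (g c ω)) +
        pr (fun ω => ∃ c, ¬ InpIs I.sem ε x ω (v c) (g' c ω)))) := by
    refine le_trans (pr_mono (r := fun ω => IsB ε true (x ρ ω) ∨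
      (¬ (MDef.bit (cmpDef N u v)).Rel I.sem ε lam x ρ ω ∨
      ((∃ c, ¬ InpIs I.sem ε x ω (u c) (g c ω)) ∨
      (∃ c, ¬ InpIs I.sem ε x ω (v c) (g' c ω))))) ?_) ?_
    · intro ω hω
      by_contra hcon
      push Not at hcon
      obtain ⟨a1, a2, a3, a4⟩ := hcon
      exact a1 (cmp_true a2 (a3 c) (a4 c) hω)
    · refine (pr_or _ _).trans (add_le_add le_rfl ((pr_or _ _).trans (add_le_add le_rfl ?_)))
      exact pr_or _ _
  linarith

/-- Different configurations have codes at a distance. -/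
theorem exists_comp {θ ρ₁ g : ℝ} (F : I.Facts θ ρ₁ g) {w w' : I.Cf} (h : w ≠ w') :
    ∃ c, θ ≤ pr (fun ω : I.Site => I.cod w c ω.1 ≠ I.cod w' c ω.1) := by
  obtain ⟨c, hc⟩ := F.dist w w' h
  exact ⟨c, hc.trans (pr_fst (Ω' := I.Z) fun p : I.P => I.cod w c p ≠ I.cod w' c p).ge⟩

/-- The corrected reads of the next configuration are right, up to `ρ₀`. -/
def NearA (I : LInst N) (ε ρ₀ : ℝ) (x : LReg N.C → I.Site → ℝ) (z : Bool) (w : I.Cf) : Prop :=
  pr (fun ω : I.Site => ∃ c : N.C, ¬ IsB ε (I.cod w c ω.1) (x (.a z c) ω)) ≤ ρ₀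

variable {θ ρs g : ℝ}

theorem inp_self (F : I.Facts θ ρs g) {ρ : LReg N.C} {b : Bool} :
    InpIs I.sem ε x ω (.inl (N.self, ρ)) b ↔ IsB ε b (x ρ ω) := by
  show IsB ε b (x ρ (I.rd N.self ω)) ↔ _
  rw [F.rd_self]

theorem E0_lower (F : I.Facts θ ρs g) {w w' : I.Cf} {β ρ₁ ρ₂ : ℝ}
    (hR : pr (fun ω => ¬ (net N τ (.t .E0)).Rel I.sem ε lam x (.t .E0) ω) ≤ β)
    (h1 : I.Near ε ρ₁ x false w) (h2 : I.Near ε ρ₂ x true w') (hne : w ≠ w') :
    θ - ρ₁ - ρ₂ - β ≤ pr (fun ω => IsB ε true (x (.t .E0) ω)) := by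
  obtain ⟨c, hc⟩ := exists_comp F hne
  refine cmp_lower (g := fun c ω => I.cod w c ω.1) (g' := fun c ω => I.cod w' c ω.1) hR ?_ ?_ hc
  · refine (le_of_eq (pr_congr fun ω => ?_)).trans h1
    simp only [inp_self F]
  · refine (le_of_eq (pr_congr fun ω => ?_)).trans h2
    simp only [inp_self F]

theorem E1_lower (F : I.Facts θ ρs g) {w w' : I.Cf} {β ρ₁ ρ₂ : ℝ}
    (hR : pr (fun ω => ¬ (net N τ (.t .E1)).Rel I.sem ε lam x (.t .E1) ω) ≤ β)
    (h1 : NearA I ε ρ₁ x false w) (h2 : I.Near ε ρ₂ x true w') (hne : w' ≠ w) :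
    θ - ρ₂ - ρ₁ - β ≤ pr (fun ω => IsB ε true (x (.t .E1) ω)) := by
  obtain ⟨c, hc⟩ := exists_comp F hne
  refine cmp_lower (g := fun c ω => I.cod w' c ω.1) (g' := fun c ω => I.cod w c ω.1) hR ?_ ?_ hc
  · refine (le_of_eq (pr_congr fun ω => ?_)).trans h2
    simp only [inp_self F]
  · refine (le_of_eq (pr_congr fun ω => ?_)).trans h1
    simp only [inp_self F]

theorem D_lower (F : I.Facts θ ρs g) {z : Bool} {w : I.Cf} {β ρ₁ : ℝ}
    (hR : pr (fun ω => ¬ (net N τ (.t (.D z))).Rel I.sem ε lam x (.t (.D z)) ω) ≤ β)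
    (h1 : I.Near ε ρ₁ x z w) (hne : w ≠ I.w0) :
    θ - ρ₁ - β ≤ pr (fun ω => IsB ε true (x (.t (.D z)) ω)) := by
  obtain ⟨c, hc⟩ := exists_comp F hne
  have h0 : pr (fun ω : I.Site => ∃ c : N.C, ¬ InpIs I.sem ε x ω
      (.inr (N.start c)) (I.cod I.w0 c ω.1)) ≤ 0 := by
    refine le_of_eq ?_
    rw [← pr_false (Ω := I.Site)]
    refine pr_congr fun ω => ⟨fun ⟨c, hc⟩ => hc ?_, fun h => h.elim⟩
    exact F.start_cb c ω
  have h3 : θ - ρ₁ - 0 - β ≤ pr (fun ω => IsB ε true (x (.t (.D z)) ω)) := by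
    refine cmp_lower (g := fun c ω => I.cod w c ω.1)
      (g' := fun c ω => I.cod I.w0 c ω.1) hR ?_ h0 hc
    refine (le_of_eq (pr_congr fun ω => ?_)).trans h1
    simp only [inp_self F]
  linarith

/-- Comparisons are right if both families are right. -/
theorem E0_pt (F : I.Facts θ ρs g) {w : I.Cf} {ω : I.Site}
    (hR : (net N τ (.t .E0)).Rel I.sem ε lam x (.t .E0) ω)
    (h1 : Rt I ε x false w ω) (h2 : Rt I ε x true w ω) : IsB ε false (x (.t .E0) ω) :=
  cmp_false (b := fun c => I.cod w c ω.1) hR (fun c => (inp_self F).2 (h1 c))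
    fun c => (inp_self F).2 (h2 c)

theorem E1_pt (F : I.Facts θ ρs g) {w : I.Cf} {ω : I.Site}
    (hR : (net N τ (.t .E1)).Rel I.sem ε lam x (.t .E1) ω)
    (h1 : ∀ c : N.C, IsB ε (I.cod w c ω.1) (x (.a false c) ω))
    (h2 : Rt I ε x true w ω) : IsB ε false (x (.t .E1) ω) :=
  cmp_false (b := fun c => I.cod w c ω.1) hR (fun c => (inp_self F).2 (h2 c))
    fun c => (inp_self F).2 (h1 c)

theorem D_pt (F : I.Facts θ ρs g) {z : Bool} {ω : I.Site}
    (hR : (net N τ (.t (.D z))).Rel I.sem ε lam x (.t (.D z)) ω)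
    (h1 : Rt I ε x z I.w0 ω) : IsB ε false (x (.t (.D z)) ω) :=
  cmp_false (b := fun c => I.cod I.w0 c ω.1) hR (fun c => (inp_self F).2 (h1 c))
    fun c => F.start_cb c ω

end Vale.Agent.P330.Q
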