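import Vale.Agent.Lib.PolyTime.Lists2
import Vale.Agent.Lib.PolyTime.Lists3
import Vale.Agent.Lib.PolyTime.NatArith2
import Vale.Agent.Lib.PolyTime.Bitwise
import Vale.Agent.Lib.PolyTime.Unary

/-!
# Polynomial time for functions with values in a fixed finite type

`PTt A f` : the function `f : α → T` with values in the finite type `T` is computable in polynomial
time (elements of `T` are coded by their numbers `tix`).  Every function between finite types may be
applied (`PTt.map`, `PTt.map₂`, `PTt.cases`); sums and products in a monoid `T`; functions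
`Fin h → T` as numbers `< card T ^ h` (`dgT`, `fnum`, `numT`).
-/

namespace Vale.Agent.P330.Q

open Vale.Agent.Lib.PolyTime

/-- The number of an element of a finite type. -/
noncomputable def tix {T : Type*} [Fintype T] (t : T) : ℕ := Fintype.equivFin T t

theorem tix_lt {T : Type*} [Fintype T] (t : T) : tix t < Fintype.card T :=
  (Fintype.equivFin T t).2

theorem tix_inj {T : Type*} [Fintype T] {t t' : T} (h : tix t = tix t') : t = t' :=
  (Fintype.equivFin T).injective (Fin.ext h)

/-- Polynomial time for functions with values in a finite type. -/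
def PTt (A : Set Word) {α : Type*} [Enc α] {T : Type*} [Fintype T] (f : α → T) : Prop :=
  PT A (fun a => tix (f a))

variable {A : Set Word} {α β : Type*} [Enc α] [Enc β]
variable {T S U : Type*} [Fintype T] [Fintype S] [Fintype U]

theorem PTt.congr {f g : α → T} (hf : PTt A f) (h : ∀ a, f a = g a) : PTt A g := by
  rwa [show g = f from funext fun a => (h a).symm]

theorem PTt.const (t : T) : PTt A (fun _ : α => t) := PT.const _

theorem PTt.comp {f : β → T} {g : α → β} (hf : PTt A f) (hg : PT A g) :
    PTt A (fun a => f (g a)) :=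
  PT.comp (g := fun b => tix (f b)) hf hg

/-- Case distinction on an element of a finite type. -/
theorem PTt.cases {f : α → T} (hf : PTt A f) {g : T → α → β} (hg : ∀ t, PT A (g t)) :
    PT A (fun a => g (f a) a) := by
  classical
  by_cases hT : Nonempty T
  · obtain ⟨t0⟩ := hT
    have key : ∀ l : List T, PT A (fun a => if f a ∈ l then g (f a) a else g t0 a) := by
      intro l
      induction l with
      | nil => simpa using hg t0
      | cons t l ih =>
        refine (PT.ite (p := fun a => tix (f a) = tix t) (PT.eqNat hf (PT.const (tix t)))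
          (hg t) ih).congr fun a => ?_
        by_cases h : tix (f a) = tix t
        · rw [if_pos h, tix_inj h, if_pos (by simp)]
        · rw [if_neg h]
          have h' : f a ≠ t := fun e => h (by rw [e])
          simp [h']
    exact (key (Finset.univ : Finset T).toList).congr fun a => by simp
  · exact ⟨_, FP.const [], fun a => absurd ⟨f a⟩ hT⟩

theorem PTt.casesT {f : α → T} (hf : PTt A f) {g : T → α → S} (hg : ∀ t, PTt A (g t)) :
    PTt A (fun a => g (f a) a) :=
  PTt.cases (g := fun t a => tix (g t a)) hf hg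

theorem PTt.mapP {f : α → T} (hf : PTt A f) (g : T → β) : PT A (fun a => g (f a)) :=
  PTt.cases (g := fun t _ => g t) hf fun t => PT.const (g t)

theorem PTt.map {f : α → T} (hf : PTt A f) (g : T → S) : PTt A (fun a => g (f a)) :=
  PTt.casesT (g := fun t _ => g t) hf fun t => PTt.const (g t)

theorem PTt.map₂ {f : α → T} {f' : α → S} (hf : PTt A f) (hf' : PTt A f') (g : T → S → U) :
    PTt A (fun a => g (f a) (f' a)) :=
  PTt.casesT (g := fun t a => g t (f' a)) hf fun t => hf'.map (g t)

theorem PTt.map₂P {f : α → T} {f' : α → S} (hf : PTt A f) (hf' : PTt A f') (g : T → S → β) :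
    PT A (fun a => g (f a) (f' a)) :=
  PTt.cases (g := fun t a => g t (f' a)) hf fun t => hf'.mapP (g t)

theorem PTt.pair {f : α → T} {f' : α → S} (hf : PTt A f) (hf' : PTt A f') :
    PTt A (fun a => (f a, f' a)) := hf.map₂ hf' Prod.mk

theorem PTt.decEq [DecidableEq T] {f g : α → T} (hf : PTt A f) (hg : PTt A g) :
    PT A (fun a => decide (f a = g a)) := hf.map₂P hg fun t t' => decide (t = t')

theorem PTt.cond {b : α → Bool} {f g : α → T} (hb : PT A b) (hf : PTt A f) (hg : PTt A g) :
    PTt A (fun a => bif b a then f a else g a) :=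
  (PT.cond hb hf hg).congr fun a => by
    show (bif b a then tix (f a) else tix (g a)) = tix (bif b a then f a else g a)
    cases b a <;> rfl

theorem PTt.ite {p : α → Prop} [DecidablePred p] {f g : α → T}
    (hp : PT A (fun a => decide (p a))) (hf : PTt A f) (hg : PTt A g) :
    PTt A (fun a => if p a then f a else g a) :=
  (PTt.cond hp hf hg).congr fun a => by by_cases h : p a <;> simp [h]

theorem PTt.ofBool {b : α → Bool} (hb : PT A b) (g : Bool → T) : PTt A (fun a => g (b a)) :=
  (PTt.cond hb (PTt.const (g true)) (PTt.const (g false))).congr fun a => by cases b a <;> rfl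

/-- Elements given by their numbers. -/
noncomputable def tOf (T : Type*) [Fintype T] [Nonempty T] (n : ℕ) : T :=
  (Fintype.equivFin T).symm ⟨n % Fintype.card T, Nat.mod_lt _ Fintype.card_pos⟩

theorem tix_tOf [Nonempty T] (n : ℕ) : tix (tOf T n) = n % Fintype.card T := by
  simp [tix, tOf]

theorem tOf_tix [Nonempty T] (t : T) : tOf T (tix t) = t :=
  tix_inj (by rw [tix_tOf, Nat.mod_eq_of_lt (tix_lt t)])

theorem PTt.tOf [Nonempty T] {n : α → ℕ} (hn : PT A n) : PTt A (fun a => tOf T (n a)) :=
  (PT.mod hn (PT.const (Fintype.card T))).congr fun a => (tix_tOf (n a)).symm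

theorem tix_size_le (t : T) : esize (tix t) ≤ Fintype.card T := by
  refine (esize_nat_le_self (tix t)).trans ?_
  exact (tix_lt t).le

/-! ### Folds, sums and products -/

/-- Fold over a range with a state in a finite type. -/
theorem PTt.foldRange [Nonempty T] {n : α → ℕ} (hn : PT A n) (hnb : PBd n) {t0 : α → T}
    (h0 : PTt A t0) {f : α → T → ℕ → T}
    (hf : ∀ t, PTt A (fun p : α × ℕ => f p.1 t (min p.2 (n p.1)))) :
    PTt A (fun a => (List.range (n a)).foldl (f a) (t0 a)) := by
  have key : ∀ (a : α) (l : List ℕ) (t : T), (∀ i ∈ l, i < n a) →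
      l.foldl (fun s i => tix (f a (Q.tOf T s) (min i (n a)))) (tix t) =
        tix (l.foldl (f a) t) := by
    intro a l
    induction l with
    | nil => intro t _; rfl
    | cons i l ih =>
      intro t hl
      rw [List.foldl_cons, List.foldl_cons, tOf_tix, min_eq_left (hl i (by simp)).le]
      exact ih _ fun j hj => hl j (by simp [hj])
  have hst : PT A (fun p : α × ℕ × ℕ => tix (f p.1 (Q.tOf T p.2.1) (min p.2.2 (n p.1)))) :=
    PTt.casesT (f := fun p : α × ℕ × ℕ => Q.tOf T p.2.1)
      (g := fun t p => f p.1 t (min p.2.2 (n p.1))) (PTt.tOf PT.snd'.fst)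
      fun t => (hf t).comp (PT.fst'.pair PT.snd'.snd)
  refine (PT.foldl (init := fun a => tix (t0 a))
    (f := fun a s i => tix (f a (Q.tOf T s) (min i (n a)))) (PT.range hn hnb) h0 hst
    (PBd.const (Fintype.card T)) fun a i => ?_).congr fun a => ?_
  · rw [key a _ (t0 a) fun j hj => List.mem_range.1 (List.mem_of_mem_take hj)]
    exact tix_size_le _
  · exact key a _ (t0 a) fun j hj => List.mem_range.1 hj

theorem foldl_add_range {M : Type*} [AddCommMonoid M] (f : ℕ → M) (n : ℕ) :
    (List.range n).foldl (fun s i => s + f i) 0 = ∑ i ∈ Finset.range n, f i := by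
  induction n with
  | zero => rfl
  | succ n ih => rw [List.range_succ, List.foldl_append, ih, Finset.sum_range_succ]; rfl

theorem foldl_mul_range {M : Type*} [CommMonoid M] (f : ℕ → M) (n : ℕ) :
    (List.range n).foldl (fun s i => s * f i) 1 = ∏ i ∈ Finset.range n, f i := by
  induction n with
  | zero => rfl
  | succ n ih => rw [List.range_succ, List.foldl_append, ih, Finset.prod_range_succ]; rfl

theorem PTt.sum [AddCommMonoid T] {n : α → ℕ} (hn : PT A n) (hnb : PBd n) {f : α → ℕ → T}
    (hf : PTt A (fun p : α × ℕ => f p.1 (min p.2 (n p.1)))) :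
    PTt A (fun a => ∑ i ∈ Finset.range (n a), f a i) :=
  (PTt.foldRange (f := fun a s i => s + f a i) hn hnb (PTt.const 0)
    fun t => hf.map fun x => t + x).congr fun a => foldl_add_range (f a) (n a)

theorem PTt.prod [CommMonoid T] {n : α → ℕ} (hn : PT A n) (hnb : PBd n) {f : α → ℕ → T}
    (hf : PTt A (fun p : α × ℕ => f p.1 (min p.2 (n p.1)))) :
    PTt A (fun a => ∏ i ∈ Finset.range (n a), f a i) :=
  (PTt.foldRange (f := fun a s i => s * f a i) hn hnb (PTt.const 1)
    fun t => hf.map fun x => t * x).congr fun a => foldl_mul_range (f a) (n a)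

/-! ### Digits -/

/-- The digit `i` of the number `x`, an element of `T`. -/
noncomputable def dgT (T : Type*) [Fintype T] [Nonempty T] (x i : ℕ) : T :=
  tOf T (x / Fintype.card T ^ i)

/-- The number with the digits `y 0, …, y (h - 1)`. -/
noncomputable def fnum (h : ℕ) (y : ℕ → T) : ℕ :=
  ∑ i ∈ Finset.range h, tix (y i) * Fintype.card T ^ i

theorem fnum_lt (h : ℕ) (y : ℕ → T) : fnum h y < Fintype.card T ^ h := by
  unfold fnum
  induction h with
  | zero => simp
  | succ h ih =>
    rw [Finset.sum_range_succ, pow_succ]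
    have h1 : (tix (y h) + 1) * Fintype.card T ^ h ≤ Fintype.card T * Fintype.card T ^ h :=
      Nat.mul_le_mul_right _ (tix_lt _)
    rw [add_mul, one_mul] at h1
    rw [Nat.mul_comm (Fintype.card T ^ h)]
    omega

theorem dgT_fnum [Nonempty T] {h : ℕ} (y : ℕ → T) {i : ℕ} (hi : i < h) :
    dgT T (fnum h y) i = y i := by
  have hc : 0 < Fintype.card T := Fintype.card_pos
  apply tix_inj
  unfold dgT
  rw [tix_tOf]
  induction h with
  | zero => omega
  | succ h ih =>
    unfold fnum at ih ⊢
    rw [Finset.sum_range_succ]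
    rcases Nat.lt_succ_iff_lt_or_eq.1 hi with hlt | rfl
    · obtain ⟨d, rfl⟩ : ∃ d, h = i + 1 + d := ⟨h - (i + 1), by omega⟩
      have : tix (y (i + 1 + d)) * Fintype.card T ^ (i + 1 + d) =
          Fintype.card T ^ i * (Fintype.card T * (tix (y (i + 1 + d)) * Fintype.card T ^ d)) := by
        rw [pow_add, pow_add, pow_one]; ring
      rw [this, Nat.add_mul_div_left _ _ (by positivity), Nat.add_mul_mod_self_left]
      exact ih hlt
    · have h3 : (∑ x ∈ Finset.range i, tix (y x) * Fintype.card T ^ x) < Fintype.card T ^ i :=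
        fnum_lt i y
      rw [Nat.add_mul_div_right _ _ (by positivity), Nat.div_eq_of_lt h3, zero_add,
        Nat.mod_eq_of_lt (tix_lt _)]

theorem fnum_dgT [Nonempty T] {h x : ℕ} (hx : x < Fintype.card T ^ h) :
    fnum h (dgT T x) = x := by
  unfold fnum
  induction h generalizing x with
  | zero => simp at hx; simp [hx]
  | succ h ih =>
    rw [Finset.sum_range_succ']
    have hx' : x / Fintype.card T < Fintype.card T ^ h := by
      rw [Nat.div_lt_iff_lt_mul Fintype.card_pos]
      rwa [pow_succ] at hx
    have h1 : ∀ i, dgT T x (i + 1) = dgT T (x / Fintype.card T) i := by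
      intro i
      unfold dgT
      rw [Nat.div_div_eq_div_mul, pow_succ']
    have h2 : ∑ i ∈ Finset.range h, tix (dgT T x (i + 1)) * Fintype.card T ^ (i + 1) =
        Fintype.card T * (x / Fintype.card T) := by
      conv_rhs => rw [← ih hx']
      rw [Finset.mul_sum]
      refine Finset.sum_congr rfl fun i _ => ?_
      rw [h1, pow_succ]; ring
    rw [h2]
    have h3 : tix (dgT T x 0) = x % Fintype.card T := by
      unfold dgT
      rw [tix_tOf, pow_zero, Nat.div_one]
    rw [h3, pow_zero, mul_one]
    exact Nat.div_add_mod x _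

theorem fnum_congr {h : ℕ} {y y' : ℕ → T} (e : ∀ i < h, y i = y' i) : fnum h y = fnum h y' := by
  unfold fnum
  exact Finset.sum_congr rfl fun i hi => by rw [e i (Finset.mem_range.1 hi)]

theorem fnum_inj [Nonempty T] {h : ℕ} {y y' : ℕ → T} (e : fnum h y = fnum h y') {i : ℕ}
    (hi : i < h) : y i = y' i := by
  rw [← dgT_fnum y hi, e, dgT_fnum y' hi]

omit [Fintype T] in
/-- Functions on `Fin h` as functions on the naturals. -/
noncomputable def ext0 {h : ℕ} [Nonempty T] (y : Fin h → T) (i : ℕ) : T :=
  if hi : i < h then y ⟨i, hi⟩ else Classical.arbitrary T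

omit [Fintype T] in
theorem ext0_of_lt {h : ℕ} [Nonempty T] (y : Fin h → T) {i : ℕ} (hi : i < h) :
    ext0 y i = y ⟨i, hi⟩ := dif_pos hi

omit [Fintype T] in
theorem ext0_val {h : ℕ} [Nonempty T] (y : Fin h → T) (i : Fin h) : ext0 y i = y i :=
  ext0_of_lt y i.2

/-- Functions `Fin h → T` as numbers. -/
noncomputable def numT (T : Type*) [Fintype T] [Nonempty T] (h : ℕ) :
    (Fin h → T) ≃ Fin (Fintype.card T ^ h) where
  toFun y := ⟨fnum h (ext0 y), fnum_lt h _⟩
  invFun x i := dgT T x i
  left_inv y := by
    funext i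
    show dgT T (fnum h (ext0 y)) i = y i
    rw [dgT_fnum _ i.2, ext0_val]
  right_inv x := by
    apply Fin.ext
    show fnum h (ext0 fun i : Fin h => dgT T x i) = x
    rw [fnum_congr (y' := dgT T x) fun i hi => ext0_of_lt _ hi]
    exact fnum_dgT x.2

theorem numT_val [Nonempty T] {h : ℕ} (y : Fin h → T) : (numT T h y : ℕ) = fnum h (ext0 y) := rfl

theorem numT_symm [Nonempty T] {h : ℕ} (x : Fin (Fintype.card T ^ h)) (i : Fin h) :
    (numT T h).symm x i = dgT T x i := rfl

theorem numT_fn [Nonempty T] {h : ℕ} (y : ℕ → T) :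
    (numT T h (fun i => y i) : ℕ) = fnum h y := by
  rw [numT_val]
  exact fnum_congr fun i hi => ext0_of_lt _ hi

theorem dgT_numT [Nonempty T] {h : ℕ} (y : Fin h → T) (i : Fin h) : dgT T (numT T h y) i = y i := by
  rw [← numT_symm, Equiv.symm_apply_apply]

theorem PTt.dg [Nonempty T] {x i : α → ℕ} (hx : PT A x) (hi : PT A i) (hib : PBd i) :
    PTt A (fun a => dgT T (x a) (i a)) :=
  PTt.tOf (PT.div hx (PT.pow (PT.const (Fintype.card T)) hi hib))

theorem PT.fnum {h : α → ℕ} (hh : PT A h) (hhb : PBd h) {y : α → ℕ → T}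
    (hy : PTt A (fun p : α × ℕ => y p.1 (min p.2 (h p.1)))) :
    PT A (fun a => fnum (h a) (y a)) := by
  have hm : PT A (fun p : α × ℕ => min p.2 (h p.1)) := PT.min PT.snd' (hh.comp PT.fst')
  have hmb : PBd (fun p : α × ℕ => min p.2 (h p.1)) :=
    (PBd.comp hhb (PT.fst' (A := A))).mono fun p => min_le_right _ _
  refine (PT.sum (PT.map (f := fun a i => tix (y a (min i (h a))) *
    Fintype.card T ^ (min i (h a))) (PT.range hh hhb)
    (PT.mul hy (PT.pow (PT.const (Fintype.card T)) hm hmb)))).congr fun a => ?_
  unfold Q.fnum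
  show ∑ i ∈ Finset.range (h a), tix (y a (min i (h a))) * Fintype.card T ^ (min i (h a)) = _
  refine Finset.sum_congr rfl fun i hi => ?_
  rw [min_eq_left (Finset.mem_range.1 hi).le]

end Vale.Agent.P330.Q
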