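import Vale.Agent.P330.Q.Ext

/-!
# Project Q: the explicit code domain

For `α, β, α' : ZMod h → K` with `α' * α = δ₀` (cyclic convolution) the group
`YY K h = ZMod h → CK K × K` is the quotient of `Bool × ZMod h → K` by
`W = {(x * α, x * β) : x ∈ F_2^h}`, by an explicit homomorphism `piY`.
-/

namespace Vale.Agent.P330.Q

open Finset
open scoped BigOperators

/-! ### Cyclic convolution -/

section cv

variable {R : Type*} [CommSemiring R] {h : ℕ} [NeZero h]

/-- cyclic convolution -/
def cv (x y : ZMod h → R) (j : ZMod h) : R := ∑ i, x i * y (j - i)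

/-- the unit of the convolution -/
def dl (h : ℕ) (R : Type*) [CommSemiring R] : ZMod h → R := Pi.single 0 1

theorem cv_comm (x y : ZMod h → R) : cv x y = cv y x := by
  funext j
  unfold cv
  refine Fintype.sum_equiv (Equiv.subLeft j) _ _ fun i => ?_
  simp [mul_comm]

theorem cv_add (x y z : ZMod h → R) : cv x (y + z) = cv x y + cv x z := by
  funext j
  simp [cv, mul_add, Finset.sum_add_distrib]

theorem add_cv (x y z : ZMod h → R) : cv (x + y) z = cv x z + cv y z := by
  rw [cv_comm, cv_add, cv_comm z x, cv_comm z y]

theorem cv_zero (x : ZMod h → R) : cv x 0 = 0 := by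
  funext j
  simp [cv]

theorem zero_cv (x : ZMod h → R) : cv 0 x = 0 := by
  funext j
  simp [cv]

theorem cv_assoc (x y z : ZMod h → R) : cv (cv x y) z = cv x (cv y z) := by
  funext j
  unfold cv
  simp_rw [Finset.sum_mul, Finset.mul_sum]
  rw [Finset.sum_comm]
  refine Finset.sum_congr rfl fun k _ => ?_
  refine Fintype.sum_equiv (Equiv.subRight k) _ _ fun i => ?_
  simp only [Equiv.subRight_apply]
  rw [mul_assoc, sub_sub, add_sub_cancel k i]

theorem cv_dl (x : ZMod h → R) : cv x (dl h R) = x := by
  funext j
  unfold cv dl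
  rw [Finset.sum_eq_single j]
  · simp
  · intro i _ hi
    rw [Pi.single_eq_of_ne, mul_zero]
    intro h0
    exact hi (sub_eq_zero.1 h0).symm
  · simp

theorem dl_cv (x : ZMod h → R) : cv (dl h R) x = x := by rw [cv_comm, cv_dl]

/-- Convolution with a translate. -/
theorem cv_translate (x y : ZMod h → R) (k : ZMod h) :
    cv x (fun j => y (j - k)) = fun j => cv x y (j - k) := by
  funext j
  unfold cv
  refine Finset.sum_congr rfl fun i _ => ?_
  rw [sub_right_comm]

theorem translate_cv (x y : ZMod h → R) (k : ZMod h) :
    cv (fun j => x (j - k)) y = fun j => cv x y (j - k) := by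
  rw [cv_comm, cv_translate]
  funext j
  rw [cv_comm]

theorem cv_single (x : ZMod h → R) (k : ZMod h) (u : R) :
    cv (Pi.single k u) x = fun j => u * x (j - k) := by
  funext j
  unfold cv
  rw [Finset.sum_eq_single k]
  · simp
  · intro i _ hi
    simp [Pi.single_eq_of_ne hi]
  · simp

end cv

/-! ### Inverses for the convolution -/

section inverse

variable {K : Type*} [Field K] {h : ℕ} [NeZero h]

/-- A function on the cyclic group as an element of the group algebra. -/
noncomputable def toA (x : ZMod h → K) : AddMonoidAlgebra K (ZMod h) :=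
  ∑ j, AddMonoidAlgebra.single j (x j)

theorem toA_cv (x y : ZMod h → K) : toA (cv x y) = toA x * toA y := by
  unfold toA
  rw [Finset.sum_mul_sum]
  simp only [AddMonoidAlgebra.single_mul_single]
  have h1 : ∀ j, AddMonoidAlgebra.single j (cv x y j) =
      ∑ i, AddMonoidAlgebra.single j (x i * y (j - i)) := by
    intro j
    unfold cv
    rw [← AddMonoidAlgebra.singleAddHom_apply, map_sum]
    rfl
  simp_rw [h1]
  rw [Finset.sum_comm]
  refine Finset.sum_congr rfl fun i _ => ?_
  refine Fintype.sum_equiv (Equiv.subRight i) _ _ fun j => ?_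
  simp

theorem toA_coeff (x : ZMod h → K) (j : ZMod h) : (toA x).coeff j = x j := by
  unfold toA
  rw [AddMonoidAlgebra.coeff_sum, Finsupp.finsetSum_apply]
  simp [Finsupp.single_apply]

theorem toA_coe (f : AddMonoidAlgebra K (ZMod h)) : toA (fun j => f.coeff j) = f := by
  rw [← AddMonoidAlgebra.coeff_inj]
  ext j
  exact toA_coeff _ j

theorem toA_inj {x y : ZMod h → K} (e : toA x = toA y) : x = y := by
  funext j
  rw [← toA_coeff x j, e, toA_coeff]

theorem toA_dl : toA (dl h K) = 1 := by
  rw [← AddMonoidAlgebra.coeff_inj]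
  ext j
  rw [toA_coeff, AddMonoidAlgebra.one_def, AddMonoidAlgebra.coeff_single, dl,
    Finsupp.single_apply, Pi.single_apply]
  exact if_congr eq_comm rfl rfl

/-- **Units**: a function on the cyclic group of order `2 ^ a` with nonzero sum has an inverse for
the convolution. -/
theorem exists_cv_inv [CharP K 2] (a : ℕ) (al : ZMod (2 ^ a) → K) (hal : ∑ j, al j ≠ 0) :
    ∃ al' : ZMod (2 ^ a) → K, cv al' al = dl (2 ^ a) K := by
  have hc : CharP (AddMonoidAlgebra K (ZMod (2 ^ a))) 2 := by
    refine charP_of_injective_ringHom
      (f := AddMonoidAlgebra.singleZeroRingHom (R := K) (M := ZMod (2 ^ a))) ?_ 2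
    intro x y hxy
    exact AddMonoidAlgebra.single_right_injective hxy
  have h1 : toA al ^ 2 ^ a = AddMonoidAlgebra.single 0 ((∑ j, al j) ^ 2 ^ a) := by
    unfold toA
    rw [sum_pow_char_pow, sum_pow_char_pow]
    rw [← AddMonoidAlgebra.singleAddHom_apply, map_sum]
    refine Finset.sum_congr rfl fun j _ => ?_
    rw [AddMonoidAlgebra.single_pow, AddMonoidAlgebra.singleAddHom_apply]
    congr 1
    rw [nsmul_eq_mul, ZMod.natCast_self, zero_mul]
  set s := ∑ j, al j
  refine ⟨fun j => (AddMonoidAlgebra.single 0 ((s ^ 2 ^ a)⁻¹) * toA al ^ (2 ^ a - 1)).coeff j,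
    toA_inj ?_⟩
  rw [toA_cv, toA_coe, mul_assoc, ← pow_succ, Nat.sub_add_cancel (Nat.one_le_two_pow), h1,
    AddMonoidAlgebra.single_mul_single, inv_mul_cancel₀ (pow_ne_zero _ hal), add_zero, toA_dl]
  rfl

end inverse

/-! ### The functional `p : K → F_2` and its kernel -/

section kernel

variable (K : Type*) [Field K] [CharP K 2]

theorem exists_pK : ∃ p : K →+ ZMod 2, p 1 = 1 := by
  have h2' : ∀ x : K, 2 • x = 0 := fun x => by rw [two_nsmul]; exact CharTwo.add_self_eq_zero x
  let _ : Module (ZMod 2) K := AddCommGroup.zmodModule h2'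
  obtain ⟨f, hf⟩ := Module.Projective.exists_dual_eq_one (ZMod 2) (x := (1 : K)) one_ne_zero
  exact ⟨f.toAddMonoidHom, hf⟩

/-- A functional with value `1` at `1`. -/
noncomputable def pK : K →+ ZMod 2 := (exists_pK K).choose

theorem pK_one : pK K 1 = 1 := (exists_pK K).choose_spec

theorem pK_bt (a : ZMod 2) : pK K (bt K a) = a := by
  rcases zmod2_or a with rfl | rfl
  · rw [bt_zero, map_zero]
  · rw [bt_one, pK_one]

/-- The kernel of the functional. -/
def CK : Type _ := (pK K).ker

noncomputable instance : AddCommGroup (CK K) := inferInstanceAs (AddCommGroup (pK K).ker)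

noncomputable instance [Fintype K] : Fintype (CK K) :=
  have : Finite (CK K) := inferInstanceAs (Finite (pK K).ker)
  Fintype.ofFinite _

instance : Nonempty (CK K) := ⟨0⟩

/-- The inclusion. -/
noncomputable def CK.val : CK K →+ K := (pK K).ker.subtype

theorem CK.val_inj : Function.Injective (CK.val K) := Subtype.val_injective

theorem pK_val (c : CK K) : pK K (CK.val K c) = 0 := c.2

/-- The projection `x ↦ x + p x`. -/
noncomputable def prC : K →+ CK K where
  toFun x := ⟨x + bt K (pK K x), by
    rw [AddMonoidHom.mem_ker, map_add, pK_bt]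
    exact CharTwo.add_self_eq_zero _⟩
  map_zero' := by
    apply CK.val_inj K
    show (0 : K) + bt K (pK K 0) = 0
    rw [map_zero, bt_zero, add_zero]
  map_add' x y := by
    apply CK.val_inj K
    show x + y + bt K (pK K (x + y)) = (x + bt K (pK K x)) + (y + bt K (pK K y))
    rw [map_add, bt_add]
    abel

theorem val_prC (x : K) : CK.val K (prC K x) = x + bt K (pK K x) := rfl

theorem prC_val (c : CK K) : prC K (CK.val K c) = c := by
  apply CK.val_inj K
  rw [val_prC, pK_val, bt_zero, add_zero]

theorem prC_bt (a : ZMod 2) : prC K (bt K a) = 0 := by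
  apply CK.val_inj K
  rw [val_prC, pK_bt, map_zero]
  exact CharTwo.add_self_eq_zero _

end kernel

/-! ### The domain -/

section domain

variable (K : Type*) [Field K] [CharP K 2]

/-- The digits of the domain. -/
abbrev TY : Type _ := CK K × K

/-- The code domain. -/
abbrev YY (h : ℕ) : Type _ := ZMod h → TY K

variable {K} {h : ℕ} [NeZero h]

/-- A binary vector as a vector over the field. -/
def btv (x : Cube h) : ZMod h → K := fun j => bt K (x j)

omit [NeZero h] in
theorem btv_add (x y : Cube h) : (btv (x + y) : ZMod h → K) = btv x + btv y := by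
  funext j
  exact bt_add K _ _

omit [NeZero h] [CharP K 2] in
theorem btv_zero : (btv (0 : Cube h) : ZMod h → K) = 0 := by
  funext j
  exact bt_zero K

omit [NeZero h] in
/-- The binary part of a vector. -/
noncomputable def pv (w : ZMod h → K) : Cube h := fun j => pK K (w j)

omit [NeZero h] in
theorem pv_add (w w' : ZMod h → K) : pv (w + w') = pv w + pv w' := by
  funext j
  exact map_add _ _ _

omit [NeZero h] in
theorem pv_zero : pv (0 : ZMod h → K) = 0 := by
  funext j
  exact map_zero _

omit [NeZero h] in
theorem pv_btv (x : Cube h) : pv (btv x : ZMod h → K) = x := by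
  funext j
  exact pK_bt K _

/-- The projection to the domain. -/
noncomputable def piY (al' be : ZMod h → K) : (Bool × ZMod h → K) →+ YY K h where
  toFun V j := (prC K (cv al' (fun i => V (false, i)) j),
    V (true, j) + cv (btv (pv (cv al' fun i => V (false, i)))) be j)
  map_zero' := by
    funext j
    have h1 : (fun i : ZMod h => (0 : Bool × ZMod h → K) (false, i)) = 0 := rfl
    rw [h1, cv_zero, pv_zero, btv_zero, zero_cv]
    refine Prod.ext ?_ ?_
    · exact map_zero _
    · exact add_zero _
  map_add' V V' := by
    funext j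
    have h1 : (fun i : ZMod h => (V + V') (false, i)) =
        (fun i => V (false, i)) + fun i => V' (false, i) := rfl
    rw [h1, cv_add, pv_add, btv_add, add_cv]
    refine Prod.ext ?_ ?_
    · exact map_add _ _ _
    · show V (true, j) + V' (true, j) + (_ + _) = _ + _
      show _ = (V (true, j) + _) + (V' (true, j) + _)
      abel

theorem piY_fst (al' be : ZMod h → K) (V : Bool × ZMod h → K) (j : ZMod h) :
    (piY al' be V j).1 = prC K (cv al' (fun i => V (false, i)) j) := rfl

theorem piY_snd (al' be : ZMod h → K) (V : Bool × ZMod h → K) (j : ZMod h) :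
    (piY al' be V j).2 =
      V (true, j) + cv (btv (pv (cv al' fun i => V (false, i)))) be j := rfl

/-- The embedding of the cube, `b ↦ (0, b)`. -/
noncomputable def iotaY (K : Type*) [Field K] [CharP K 2] (h : ℕ) : Cube h →+ YY K h where
  toFun b j := (0, bt K (b j))
  map_zero' := by
    funext j
    exact Prod.ext rfl (bt_zero K)
  map_add' a b := by
    funext j
    refine Prod.ext ?_ ?_
    · exact (add_zero _).symm
    · exact bt_add K _ _

/-- The cyclic shift. -/
noncomputable def thetaY (K : Type*) [Field K] [CharP K 2] (h : ℕ) : YY K h ≃+ YY K h where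
  toFun y j := y (j - 1)
  invFun y j := y (j + 1)
  left_inv y := by funext j; simp
  right_inv y := by funext j; simp
  map_add' y y' := by funext j; rfl

/-- A pair of vectors as one vector. -/
def pr2 (u v : ZMod h → K) (p : Bool × ZMod h) : K := if p.1 then v p.2 else u p.2

omit [Field K] [NeZero h] [CharP K 2] in
theorem pr2_false (u v : ZMod h → K) : (fun i => pr2 u v (false, i)) = u := rfl

omit [Field K] [NeZero h] [CharP K 2] in
theorem pr2_true (u v : ZMod h → K) : (fun i => pr2 u v (true, i)) = v := rfl

theorem piY_iota (al' be : ZMod h → K) (b : Cube h) :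
    piY al' be (pr2 0 (btv b)) = iotaY K h b := by
  funext j
  refine Prod.ext ?_ ?_
  · rw [piY_fst, pr2_false, cv_zero]
    exact map_zero _
  · rw [piY_snd, pr2_false, cv_zero, pv_zero, btv_zero, zero_cv]
    exact add_zero _

/-- The shift of a pair of vectors. -/
def shV (V : Bool × ZMod h → K) : Bool × ZMod h → K := fun p => V (p.1, p.2 - 1)

theorem theta_piY (al' be : ZMod h → K) (V : Bool × ZMod h → K) :
    thetaY K h (piY al' be V) = piY al' be (shV V) := by
  have h1 : cv al' (fun i => shV V (false, i)) =
      fun j => cv al' (fun i => V (false, i)) (j - 1) :=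
    cv_translate al' (fun i => V (false, i)) 1
  funext j
  show piY al' be V (j - 1) = _
  refine Prod.ext ?_ ?_
  · rw [piY_fst, piY_fst, h1]
  · rw [piY_snd, piY_snd, h1]
    congr 1
    exact (congrFun (translate_cv (btv (pv (cv al' fun i => V (false, i)))) be 1) j).symm

/-- A section of the projection. -/
noncomputable def secY (al : ZMod h → K) (y : YY K h) : Bool × ZMod h → K :=
  pr2 (cv al fun j => CK.val K (y j).1) fun j => (y j).2

theorem piY_secY {al al' : ZMod h → K} (be : ZMod h → K) (h1 : cv al' al = dl h K)
    (y : YY K h) : piY al' be (secY al y) = y := by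
  have h2 : cv al' (fun i => secY al y (false, i)) = fun j => CK.val K (y j).1 := by
    show cv al' (cv al fun j => CK.val K (y j).1) = _
    rw [← cv_assoc, h1, dl_cv]
  have h3 : pv (fun j => CK.val K (y j).1) = 0 := by
    funext j
    exact pK_val K _
  funext j
  refine Prod.ext ?_ ?_
  · rw [piY_fst, h2]
    exact prC_val K _
  · rw [piY_snd, h2, h3, btv_zero, zero_cv]
    exact add_zero _

theorem piY_surjective {al al' : ZMod h → K} (be : ZMod h → K) (h1 : cv al' al = dl h K) :
    Function.Surjective (piY al' be) := fun y => ⟨_, piY_secY be h1 y⟩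

/-- **The kernel of the projection.** -/
theorem piY_eq_zero {al al' : ZMod h → K} (be : ZMod h → K) (h1 : cv al' al = dl h K)
    (V : Bool × ZMod h → K) :
    piY al' be V = 0 ↔ ∃ x : Cube h, V = pr2 (cv (btv x) al) (cv (btv x) be) := by
  constructor
  · intro hV
    set w : ZMod h → K := cv al' (fun i => V (false, i)) with hw
    have h2 : btv (pv w) = w := by
      funext j
      have h3 : prC K (w j) = 0 := by
        have := congrArg Prod.fst (congrFun hV j)
        rw [piY_fst, ← hw] at this
        exact this
      have h4 := congrArg (CK.val K) h3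
      rw [val_prC, map_zero] at h4
      show bt K (pK K (w j)) = w j
      exact (CharTwo.add_eq_zero.1 h4).symm
    refine ⟨pv w, ?_⟩
    funext ⟨b, j⟩
    cases b with
    | false =>
      show V (false, j) = cv (btv (pv w)) al j
      rw [h2, hw, cv_comm al', cv_assoc, h1, cv_dl]
    | true =>
      show V (true, j) = cv (btv (pv w)) be j
      have h5 := congrArg Prod.snd (congrFun hV j)
      rw [piY_snd, ← hw] at h5
      exact CharTwo.add_eq_zero.1 h5
  · rintro ⟨x, rfl⟩
    have h2 : cv al' (cv (btv x) al) = btv x := by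
      rw [cv_comm (btv x), ← cv_assoc, h1, dl_cv]
    funext j
    refine Prod.ext ?_ ?_
    · rw [piY_fst, pr2_false, h2]
      exact prC_bt K _
    · rw [piY_snd, pr2_false, h2, pv_btv]
      exact CharTwo.add_self_eq_zero _

omit [NeZero h] in
/-- Adding an element of the domain twice. -/
theorem YY_add_self (y : YY K h) : y + y = 0 := by
  funext j
  refine Prod.ext ?_ ?_
  · apply CK.val_inj K
    show CK.val K ((y j).1 + (y j).1) = CK.val K 0
    rw [map_add, map_zero]
    exact CharTwo.add_self_eq_zero _
  · exact CharTwo.add_self_eq_zero _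

end domain

end Vale.Agent.P330.Q
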