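import Vale.Agent.P330.Q.Dirs
import Vale.Agent.P330.Q.YDef
import Vale.Agent.P330.Q.NumT
import Mathlib.Data.List.NodupEquivFin

/-!
# The direction set as numbers

The injective `t`-fold sums of axis directions of `YY K h` are numbered by `Fin (nD ..)`; the
directions are digit strings, computed in polynomial time.
-/

namespace Vale.Agent.P330.Q

open Finset
open scoped BigOperators
open Vale.Agent.Lib.PolyTime

/-! ### Numbers for residues -/

section zmod

variable {h : ℕ} [NeZero h]

/-- Residues as numbers. -/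
def zFin (h : ℕ) [NeZero h] : ZMod h ≃ Fin h where
  toFun j := ⟨j.val, ZMod.val_lt j⟩
  invFun n := ((n : ℕ) : ZMod h)
  left_inv j := ZMod.natCast_zmod_val j
  right_inv n := Fin.ext (by
    show ((n : ℕ) : ZMod h).val = n
    rw [ZMod.val_natCast, Nat.mod_eq_of_lt n.2])

theorem sum_zmod {M : Type*} [AddCommMonoid M] (f : ZMod h → M) :
    ∑ j, f j = ∑ i ∈ range h, f (i : ZMod h) := by
  rw [← Fin.sum_univ_eq_sum_range (fun i : ℕ => f (i : ZMod h)) h]
  exact (Equiv.sum_comp (zFin h).symm f).symm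

theorem sub_mod_val (j j' : ℕ) :
    (j' + (h - j % h)) % h = ((j' : ZMod h) - (j : ZMod h)).val := by
  rw [← ZMod.val_natCast]
  congr 1
  have h1 : j % h ≤ h := (Nat.mod_lt _ (Nat.pos_of_ne_zero (NeZero.ne h))).le
  rw [Nat.cast_add, Nat.cast_sub h1, ZMod.natCast_self, ZMod.natCast_mod]
  ring

end zmod

/-! ### Digits of the directions -/

section digits

variable {K : Type*} [Field K] [CharP K 2]

/-- Digit `j'` of the image of `v e_(s,j)`. -/
noncomputable def unD (h : ℕ) (ap be : ℕ → K) (s : Bool) (j : ℕ) (v : K) (j' : ℕ) : TY K :=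
  bif s then (0, bif decide (j' % h = j % h) then v else 0)
  else (prC K (v * ap ((j' + (h - j % h)) % h)),
    ∑ i ∈ range h, bt K (pK K (v * ap ((i + (h - j % h)) % h))) * be ((j' + (h - i % h)) % h))

variable {h : ℕ} [NeZero h]

/-- `x` is the list of the values of `al`. -/
def IsNatOf (x : ℕ → K) (al : ZMod h → K) : Prop := ∀ j : ZMod h, al j = x j.val

omit [Field K] [CharP K 2] in
theorem IsNatOf.sub {x : ℕ → K} {al : ZMod h → K} (hx : IsNatOf x al) (j j' : ℕ) :
    x ((j' + (h - j % h)) % h) = al ((j' : ZMod h) - (j : ZMod h)) := by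
  rw [hx, sub_mod_val]

theorem piY_single {ap be : ℕ → K} {al' bet : ZMod h → K} (hap : IsNatOf ap al')
    (hbe : IsNatOf be bet) (s : Bool) (j : ZMod h) (v : K) (j' : ZMod h) :
    piY al' bet (Pi.single (s, j) v) j' = unD h ap be s j.val v j'.val := by
  cases s with
  | false =>
    have h1 : (fun i => (Pi.single (false, j) v : Bool × ZMod h → K) (false, i)) =
        Pi.single j v := by
      funext i
      by_cases hi : i = j
      · subst hi
        simp
      · rw [Pi.single_eq_of_ne hi, Pi.single_eq_of_ne]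
        intro e
        exact hi (Prod.mk.inj e).2
    have h2 : (Pi.single (false, j) v : Bool × ZMod h → K) (true, j') = 0 :=
      Pi.single_eq_of_ne (by simp) _
    refine Prod.ext ?_ ?_
    · rw [piY_fst, h1, cv_comm, cv_single]
      show prC K (v * al' (j' - j)) = prC K (v * ap ((j'.val + (h - j.val % h)) % h))
      rw [hap.sub, ZMod.natCast_zmod_val, ZMod.natCast_zmod_val]
    · rw [piY_snd, h1, h2, zero_add, cv_comm al', cv_single]
      show cv (btv (pv fun i => v * al' (i - j))) bet j' =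
        ∑ i ∈ range h, bt K (pK K (v * ap ((i + (h - j.val % h)) % h))) *
          be ((j'.val + (h - i % h)) % h)
      unfold cv
      rw [sum_zmod]
      refine Finset.sum_congr rfl fun i _ => ?_
      rw [hap.sub, hbe.sub, ZMod.natCast_zmod_val, ZMod.natCast_zmod_val]
      rfl
  | true =>
    have h1 : (fun i => (Pi.single (true, j) v : Bool × ZMod h → K) (false, i)) = 0 := by
      funext i
      exact Pi.single_eq_of_ne (by simp) _
    refine Prod.ext ?_ ?_
    · rw [piY_fst, h1, cv_zero]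
      exact map_zero _
    · rw [piY_snd, h1, cv_zero, pv_zero, btv_zero, zero_cv]
      show (Pi.single (true, j) v : Bool × ZMod h → K) (true, j') + 0 =
        bif decide (j'.val % h = j.val % h) then v else 0
      rw [add_zero, Nat.mod_eq_of_lt (ZMod.val_lt j), Nat.mod_eq_of_lt (ZMod.val_lt j')]
      by_cases hj : j' = j
      · subst hj
        simp
      · have h2 : ¬ j'.val = j.val := fun e => hj (ZMod.val_injective h e)
        rw [Pi.single_eq_of_ne (by simpa using hj)]
        simp [h2]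

end digits

/-! ### Numbers of the indices -/

section index

variable {K : Type*} [Field K] [Fintype K]

/-- The coefficient of the elementary direction number `m`. -/
noncomputable def mC (K : Type*) [Field K] [Fintype K] (h m : ℕ) : K := tOf K (m / (2 * h))

/-- The half of the elementary direction number `m`. -/
def mS (h m : ℕ) : Bool := decide (m % (2 * h) / h = 1)

/-- The position of the elementary direction number `m`. -/
def mJ (h m : ℕ) : ℕ := m % (2 * h) % h

variable {h : ℕ} [NeZero h]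

/-- Elementary indices as numbers. -/
noncomputable def eM (K : Type*) [Field K] [Fintype K] (h : ℕ) [NeZero h] :
    (K × (Bool × ZMod h)) ≃ Fin (Fintype.card K * (2 * h)) :=
  ((Fintype.equivFin K).prodCongr
    (((finTwoEquiv.symm.prodCongr (zFin h))).trans finProdFinEquiv)).trans finProdFinEquiv

theorem eM_symm (m : Fin (Fintype.card K * (2 * h))) :
    (eM K h).symm m = (mC K h m, (mS h m, (mJ h m : ZMod h))) := by
  have hh : 0 < h := Nat.pos_of_ne_zero (NeZero.ne h)
  have h1 : (eM K h).symm m = ((Fintype.equivFin K).symm m.divNat,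
      (finTwoEquiv m.modNat.divNat, (zFin h).symm m.modNat.modNat)) := rfl
  rw [h1]
  refine Prod.ext ?_ (Prod.ext ?_ ?_)
  · show (Fintype.equivFin K).symm m.divNat = tOf K (m / (2 * h))
    unfold tOf
    congr 1
    apply Fin.ext
    rw [Fin.coe_divNat]
    have h2 : (m : ℕ) < 2 * h * Fintype.card K := m.2.trans_eq (Nat.mul_comm _ _)
    exact (Nat.mod_eq_of_lt (Nat.div_lt_of_lt_mul h2)).symm
  · show finTwoEquiv m.modNat.divNat = decide ((m : ℕ) % (2 * h) / h = 1)
    have h2 : ((m.modNat.divNat : Fin 2) : ℕ) = (m : ℕ) % (2 * h) / h := rfl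
    rw [← h2]
    generalize (m.modNat.divNat : Fin 2) = b
    fin_cases b <;> rfl
  · rfl

/-- Indices as numbers. -/
noncomputable def eI (K : Type*) [Field K] [Fintype K] (h : ℕ) [NeZero h] (t : ℕ) :
    (Fin t → K × (Bool × ZMod h)) ≃ Fin ((Fintype.card K * (2 * h)) ^ t) :=
  (Equiv.piCongrRight fun _ => eM K h).trans finFunctionFinEquiv

/-- The `k`-th elementary direction of the index number `n`. -/
def mK (K : Type*) [Field K] [Fintype K] (h n k : ℕ) : ℕ :=
  n / (Fintype.card K * (2 * h)) ^ k % (Fintype.card K * (2 * h))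

theorem eI_symm {t : ℕ} (n : Fin ((Fintype.card K * (2 * h)) ^ t)) (k : Fin t) :
    (eI K h t).symm n k =
      (mC K h (mK K h n k), (mS h (mK K h n k), (mJ h (mK K h n k) : ZMod h))) := by
  have h1 : (eI K h t).symm n k = (eM K h).symm (finFunctionFinEquiv.symm n k) := rfl
  rw [h1, eM_symm]
  have h2 : ((finFunctionFinEquiv.symm n k : Fin (Fintype.card K * (2 * h))) : ℕ) =
      mK K h n k := by
    unfold mK
    exact finFunctionFinEquiv_symm_apply_val n k
  rw [h2]

end index

/-! ### Digits of the directions and the list of the injective ones -/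

section dir

variable {K : Type*} [Field K] [CharP K 2] [Fintype K]

/-- Digit `j'` of the direction number `n` at `u`. -/
noncomputable def dirD (h : ℕ) (ap be : ℕ → K) (t n : ℕ) (u : K) (j' : ℕ) : TY K :=
  ∑ k ∈ range t, unD h ap be (mS h (mK K h n k)) (mJ h (mK K h n k))
    (u * mC K h (mK K h n k)) j'

open Classical in
/-- The direction number `n` is injective. -/
noncomputable def injB (h : ℕ) (ap be : ℕ → K) (t n : ℕ) : Bool :=
  (List.range (Fintype.card K)).all fun a => decide ((tOf K a : K) = 0) ||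
    (List.range h).any fun j' => ! decide (dirD h ap be t n (tOf K a) j' = 0)

/-- The numbers of the injective directions. -/
noncomputable def dList (h : ℕ) (ap be : ℕ → K) (t : ℕ) : List ℕ :=
  (List.range ((Fintype.card K * (2 * h)) ^ t)).filter (injB h ap be t)

/-- The number of the injective directions. -/
noncomputable def nD (h : ℕ) (ap be : ℕ → K) (t : ℕ) : ℕ := (dList h ap be t).length

/-- The number in `YY K h` of the injective direction `i` at `u`. -/
noncomputable def dirN (h : ℕ) (ap be : ℕ → K) (t i : ℕ) (u : K) : ℕ :=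
  fnum h (dirD h ap be t ((dList h ap be t).getD i 0) u)

variable {h : ℕ} [NeZero h] {ap be : ℕ → K} {al' bet : ZMod h → K}

theorem tdir_digit (hap : IsNatOf ap al') (hbe : IsNatOf be bet) {t : ℕ}
    (n : Fin ((Fintype.card K * (2 * h)) ^ t)) (u : K) (j' : ZMod h) :
    tdir (qax (piY al' bet)) ((eI K h t).symm n) u j' = dirD h ap be t n u j'.val := by
  rw [tdir_apply, Finset.sum_apply]
  unfold dirD
  rw [← Fin.sum_univ_eq_sum_range (fun k => unD h ap be (mS h (mK K h n k))
    (mJ h (mK K h n k)) (u * mC K h (mK K h n k)) j'.val) t]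
  refine Finset.sum_congr rfl fun k _ => ?_
  rw [eI_symm, qax_apply, piY_single hap hbe]
  have h1 : ((mJ h (mK K h n k) : ZMod h)).val = mJ h (mK K h n k) := by
    rw [ZMod.val_natCast]
    exact Nat.mod_mod _ _
  rw [h1]

theorem injB_iff (hap : IsNatOf ap al') (hbe : IsNatOf be bet) {t : ℕ}
    (n : Fin ((Fintype.card K * (2 * h)) ^ t)) :
    injB h ap be t n = true ↔
      Function.Injective (tdir (qax (piY al' bet)) ((eI K h t).symm n)) := by
  rw [injective_iff_map_eq_zero]
  unfold injB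
  simp only [List.all_eq_true, List.mem_range, Bool.or_eq_true, decide_eq_true_eq,
    List.any_eq_true, Bool.not_eq_true', decide_eq_false_iff_not]
  constructor
  · intro H u hu
    rcases H (tix u) (tix_lt u) with h1 | ⟨j', hj', h1⟩
    · rwa [tOf_tix] at h1
    · exfalso
      apply h1
      rw [tOf_tix]
      have h2 := tdir_digit hap hbe n u (j' : ZMod h)
      rw [hu, ZMod.val_natCast, Nat.mod_eq_of_lt hj'] at h2
      exact h2.symm
  · intro H a _
    by_cases h0 : (tOf K a : K) = 0
    · exact Or.inl h0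
    · right
      by_contra hcon
      push Not at hcon
      refine h0 (H _ ?_)
      funext j'
      rw [tdir_digit hap hbe]
      exact hcon j'.val (ZMod.val_lt j')

omit [NeZero h] in
theorem mem_dList {t n : ℕ} : n ∈ dList h ap be t ↔
    n < (Fintype.card K * (2 * h)) ^ t ∧ injB h ap be t n = true := by
  unfold dList
  rw [List.mem_filter, List.mem_range]

omit [NeZero h] in
theorem nodup_dList (t : ℕ) : (dList h ap be t).Nodup :=
  List.nodup_range.filter _

/-- The members of the list are the numbers of the injective directions. -/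
noncomputable def eMem (hap : IsNatOf ap al') (hbe : IsNatOf be bet) (t : ℕ) :
    {n // n ∈ dList h ap be t} ≃ DIx (qax (piY al' bet)) t where
  toFun n := ⟨(eI K h t).symm ⟨n.1, (mem_dList.1 n.2).1⟩,
    (injB_iff hap hbe _).1 (mem_dList.1 n.2).2⟩
  invFun i := ⟨eI K h t i.1, mem_dList.2 ⟨(eI K h t i.1).2, by
    rw [injB_iff hap hbe, Equiv.symm_apply_apply]
    exact i.2⟩⟩
  left_inv n := by
    apply Subtype.ext
    show ((eI K h t ((eI K h t).symm ⟨n.1, (mem_dList.1 n.2).1⟩) : Fin _) : ℕ) = n.1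
    rw [Equiv.apply_symm_apply]
  right_inv i := by
    apply Subtype.ext
    show (eI K h t).symm (eI K h t i.1) = i.1
    rw [Equiv.symm_apply_apply]

/-- **The numbering of the injective directions.** -/
noncomputable def eD (hap : IsNatOf ap al') (hbe : IsNatOf be bet) (t : ℕ) :
    DIx (qax (piY al' bet)) t ≃ Fin (nD h ap be t) :=
  (((nodup_dList t).getEquiv).trans (eMem hap hbe t)).symm

theorem eD_symm_val (hap : IsNatOf ap al') (hbe : IsNatOf be bet) (t : ℕ)
    (i : Fin (nD h ap be t)) (u : K) (j' : ZMod h) :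
    idir (qax (piY al' bet)) t ((eD hap hbe t).symm i) u j' =
      dirD h ap be t ((dList h ap be t).getD i 0) u j'.val := by
  have hi : (i : ℕ) < (dList h ap be t).length := i.2
  have h2 : (dList h ap be t).getD i 0 = (dList h ap be t).get ⟨i, hi⟩ := by
    rw [List.getD_eq_getElem _ _ hi]
    rfl
  have h3 : (dList h ap be t).get ⟨i, hi⟩ ∈ dList h ap be t := List.get_mem _ _
  have h1 : ((eD hap hbe t).symm i) = eMem hap hbe t ⟨(dList h ap be t).get ⟨i, hi⟩, h3⟩ := rfl
  rw [h1, h2]
  exact tdir_digit hap hbe ⟨(dList h ap be t).get ⟨i, hi⟩, (mem_dList.1 h3).1⟩ u j'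

/-- **The number of a direction.** -/
theorem dirN_eq (hap : IsNatOf ap al') (hbe : IsNatOf be bet) (t : ℕ)
    (i : Fin (nD h ap be t)) (u : K) :
    dirN h ap be t i u =
      fnum h (fun j => idir (qax (piY al' bet)) t ((eD hap hbe t).symm i) u (j : ZMod h)) := by
  unfold dirN
  refine fnum_congr fun j hj => ?_
  rw [eD_symm_val, ZMod.val_natCast, Nat.mod_eq_of_lt hj]

end dir

/-! ### Polynomial time -/

section pt

variable {K : Type*} [Field K] [CharP K 2] [Fintype K] {A : Set Word} {α : Type*} [Enc α]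

omit [CharP K 2] in
theorem PTt.mC {h m : α → ℕ} (hh : PT A h) (hm : PT A m) :
    PTt A (fun x => mC K (h x) (m x)) :=
  PTt.tOf (PT.div hm (PT.mul (PT.const 2) hh))

theorem PT.mS {h m : α → ℕ} (hh : PT A h) (hm : PT A m) : PT A (fun x => mS (h x) (m x)) :=
  PT.eqNat (PT.div (PT.mod hm (PT.mul (PT.const 2) hh)) hh) (PT.const 1)

theorem PT.mJ {h m : α → ℕ} (hh : PT A h) (hm : PT A m) : PT A (fun x => mJ (h x) (m x)) :=
  PT.mod (PT.mod hm (PT.mul (PT.const 2) hh)) hh

theorem PT.mK (K : Type*) [Field K] [Fintype K] {h n k : α → ℕ} (hh : PT A h) (hn : PT A n)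
    (hk : PT A k) (hkb : PBd k) : PT A (fun x => mK K (h x) (n x) (k x)) :=
  have h1 : PT A (fun x => Fintype.card K * (2 * h x)) :=
    PT.mul (PT.const _) (PT.mul (PT.const 2) hh)
  PT.mod (PT.div hn (PT.pow h1 hk hkb)) h1

/-- Polynomial time of the values `ap x (i % h x)`. -/
def PTz (A : Set Word) {α : Type*} [Enc α] (h : α → ℕ) {T : Type*} [Fintype T]
    (ap : α → ℕ → T) : Prop := PTt A (fun p : α × ℕ => ap p.1 (p.2 % h p.1))

theorem PTz.at {h : α → ℕ} {T : Type*} [Fintype T] {ap : α → ℕ → T} (hap : PTz A h ap)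
    {β : Type*} [Enc β] {x : β → α} {i : β → ℕ} (hx : PT A x) (hi : PT A i) :
    PTt A (fun b => ap (x b) (i b % h (x b))) :=
  PTt.comp hap (hx.pair hi)

omit [Fintype K] [Field K] [CharP K 2] in
/-- The digits of a number. -/
theorem PTz.dg [Fintype K] {T : Type*} [Fintype T] [Nonempty T] {h z : α → ℕ} (hh : PT A h)
    (hhb : PBd h) (hpos : ∀ x, 0 < h x) (hz : PT A z) (g : T → K) :
    PTz A h (fun x i => g (dgT T (z x) i)) := by
  have h1 : PT A (fun p : α × ℕ => p.2 % h p.1) := PT.mod PT.snd' (hh.comp PT.fst')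
  have h2 : PBd (fun p : α × ℕ => p.2 % h p.1) :=
    (hhb.comp (PT.fst' (A := A))).mono fun p => (Nat.mod_lt _ (hpos _)).le
  exact (PTt.dg (hz.comp PT.fst') h1 h2).map g

variable {h : α → ℕ} {ap be : α → ℕ → K}

theorem PTt.unD {β : Type*} [Enc β] (hh : PT A h) (hhb : PBd h) (hap : PTz A h ap)
    (hbe : PTz A h be) {x : β → α} {s : β → Bool} {j j' : β → ℕ} {v : β → K}
    (hx : PT A x) (hs : PT A s) (hj : PT A j) (hv : PTt A v) (hj' : PT A j') :
    PTt A (fun b => unD (h (x b)) (ap (x b)) (be (x b)) (s b) (j b) (v b) (j' b)) := by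
  have hhx : PT A (fun b => h (x b)) := hh.comp hx
  have hhxb : PBd (fun b => h (x b)) := hhb.comp hx
  have h1 : PTt A (fun b => (bif decide (j' b % h (x b) = j b % h (x b)) then v b else 0 : K)) :=
    PTt.cond (PT.eqNat (PT.mod hj' hhx) (PT.mod hj hhx)) hv (PTt.const 0)
  have h2 : PTt A (fun b => prC K (v b * ap (x b) ((j' b + (h (x b) - j b % h (x b))) %
      h (x b)))) :=
    (hv.map₂ (hap.at hx (PT.add hj' (PT.sub hhx (PT.mod hj hhx)))) fun a c => a * c).map
      fun c => prC K c
  have h3 : PTt A (fun b => ∑ i ∈ range (h (x b)),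
      bt K (pK K (v b * ap (x b) ((i + (h (x b) - j b % h (x b))) % h (x b)))) *
        be (x b) ((j' b + (h (x b) - i % h (x b))) % h (x b))) := by
    refine PTt.sum hhx hhxb (f := fun b i =>
      bt K (pK K (v b * ap (x b) ((i + (h (x b) - j b % h (x b))) % h (x b)))) *
        be (x b) ((j' b + (h (x b) - i % h (x b))) % h (x b))) ?_
    have hm : PT A (fun p : β × ℕ => Min.min p.2 (h (x p.1))) :=
      PT.min PT.snd' (hhx.comp PT.fst')
    have hx' : PT A (fun p : β × ℕ => x p.1) := hx.comp PT.fst'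
    have hh' : PT A (fun p : β × ℕ => h (x p.1)) := hhx.comp PT.fst'
    have a1 : PTt A (fun p : β × ℕ => v p.1 * ap (x p.1)
        ((Min.min p.2 (h (x p.1)) + (h (x p.1) - j p.1 % h (x p.1))) % h (x p.1))) :=
      (hv.comp PT.fst').map₂ (hap.at hx' (PT.add hm (PT.sub hh' (PT.mod (hj.comp PT.fst') hh'))))
        fun a c => a * c
    have a2 : PTt A (fun p : β × ℕ => be (x p.1)
        ((j' p.1 + (h (x p.1) - Min.min p.2 (h (x p.1)) % h (x p.1))) % h (x p.1))) :=
      hbe.at hx' (PT.add (hj'.comp PT.fst') (PT.sub hh' (PT.mod hm hh')))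
    exact (a1.map₂ a2 fun a c => bt K (pK K a) * c)
  have h4 : PTt A (fun b => ((0 : CK K),
      (bif decide (j' b % h (x b) = j b % h (x b)) then v b else 0 : K))) :=
    (PTt.const 0).pair h1
  exact PTt.cond hs h4 (h2.pair h3)

theorem PTt.dirD {β : Type*} [Enc β] (hh : PT A h) (hhb : PBd h) (hap : PTz A h ap)
    (hbe : PTz A h be) (t : ℕ) {x : β → α} {n j' : β → ℕ} {u : β → K}
    (hx : PT A x) (hn : PT A n) (hu : PTt A u) (hj' : PT A j') :
    PTt A (fun b => dirD (h (x b)) (ap (x b)) (be (x b)) t (n b) (u b) (j' b)) := by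
  refine PTt.sum (PT.const t) (PBd.const t) (f := fun b k =>
    Q.unD (h (x b)) (ap (x b)) (be (x b)) (Q.mS (h (x b)) (Q.mK K (h (x b)) (n b) k))
      (Q.mJ (h (x b)) (Q.mK K (h (x b)) (n b) k))
      (u b * Q.mC K (h (x b)) (Q.mK K (h (x b)) (n b) k)) (j' b)) ?_
  have hm : PT A (fun p : β × ℕ => Min.min p.2 t) := PT.min PT.snd' (PT.const t)
  have hmb : PBd (fun p : β × ℕ => Min.min p.2 t) :=
    (PBd.const t).mono fun p => min_le_right _ _
  have hx' : PT A (fun p : β × ℕ => x p.1) := hx.comp PT.fst'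
  have hh' : PT A (fun p : β × ℕ => h (x p.1)) := hh.comp hx'
  have hk : PT A (fun p : β × ℕ => Q.mK K (h (x p.1)) (n p.1) (Min.min p.2 t)) :=
    PT.mK K hh' (hn.comp PT.fst') hm hmb
  exact PTt.unD hh hhb hap hbe hx' (PT.mS hh' hk) (PT.mJ hh' hk)
    ((hu.comp PT.fst').map₂ (PTt.mC hh' hk) fun a c => a * c) (hj'.comp PT.fst')

theorem PT.injB {β : Type*} [Enc β] (hh : PT A h) (hhb : PBd h) (hap : PTz A h ap)
    (hbe : PTz A h be) (t : ℕ) {x : β → α} {n : β → ℕ} (hx : PT A x) (hn : PT A n) :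
    PT A (fun b => injB (h (x b)) (ap (x b)) (be (x b)) t (n b)) := by
  have hhx : PT A (fun p : β × ℕ => h (x p.1)) := (hh.comp hx).comp PT.fst'
  have hhxb : PBd (fun p : β × ℕ => h (x p.1)) := (hhb.comp hx).comp (PT.fst' (A := A))
  have h0 : PTt A (fun q : (β × ℕ) × ℕ =>
      Q.dirD (h (x q.1.1)) (ap (x q.1.1)) (be (x q.1.1)) t (n q.1.1) (tOf K q.1.2) q.2) :=
    PTt.dirD hh hhb hap hbe t (hx.comp PT.fst'.fst) (hn.comp PT.fst'.fst)
      (PTt.tOf PT.fst'.snd) PT.snd'
  classical
  have h1 : PT A (fun q : (β × ℕ) × ℕ => ! decide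
      (Q.dirD (h (x q.1.1)) (ap (x q.1.1)) (be (x q.1.1)) t (n q.1.1) (tOf K q.1.2) q.2 = 0)) :=
    h0.mapP fun z => ! decide (z = 0)
  have h2 : PT A (fun p : β × ℕ => (List.range (h (x p.1))).any fun j' => ! decide
      (Q.dirD (h (x p.1)) (ap (x p.1)) (be (x p.1)) t (n p.1) (tOf K p.2) j' = 0)) :=
    PT.any (PT.range hhx hhxb) h1
  have h3 : PT A (fun p : β × ℕ => decide ((tOf K p.2 : K) = 0)) :=
    (PTt.tOf (T := K) PT.snd').mapP fun z => decide (z = 0)
  exact PT.all (PT.const _) (PT.or h3 h2)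

theorem PBd.cardIx (K : Type*) [Fintype K] {h : α → ℕ} (hhb : PBd h) (t : ℕ) :
    PBd (fun x => (Fintype.card K * (2 * h x)) ^ t) :=
  PBd.pow (PBd.mul (PBd.const _) (PBd.mul (PBd.const 2) hhb)) t

theorem PT.dList (hh : PT A h) (hhb : PBd h) (hap : PTz A h ap) (hbe : PTz A h be) (t : ℕ) :
    PT A (fun x => dList (h x) (ap x) (be x) t) := by
  have h1 : PT A (fun x => (Fintype.card K * (2 * h x)) ^ t) :=
    PT.powConst (PT.mul (PT.const _) (PT.mul (PT.const 2) hh)) t
  exact PT.filter (PT.range h1 (PBd.cardIx K hhb t)) (PT.injB hh hhb hap hbe t PT.fst' PT.snd')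

theorem PT.nD (hh : PT A h) (hhb : PBd h) (hap : PTz A h ap) (hbe : PTz A h be) (t : ℕ) :
    PT A (fun x => nD (h x) (ap x) (be x) t) := PT.length (PT.dList hh hhb hap hbe t)

theorem nD_le (h : ℕ) (ap be : ℕ → K) (t : ℕ) :
    nD h ap be t ≤ (Fintype.card K * (2 * h)) ^ t := by
  unfold Q.nD Q.dList
  refine (List.length_filter_le _ _).trans ?_
  rw [List.length_range]

theorem PBd.nD (ap be : α → ℕ → K) (hhb : PBd h) (t : ℕ) :
    PBd (fun x => nD (h x) (ap x) (be x) t) :=
  (PBd.cardIx K hhb t).mono fun x => nD_le (h x) (ap x) (be x) t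

theorem PT.dirN {β : Type*} [Enc β] (hh : PT A h) (hhb : PBd h) (hap : PTz A h ap)
    (hbe : PTz A h be) (t : ℕ) {x : β → α} {i : β → ℕ} {u : β → K}
    (hx : PT A x) (hi : PT A i) (hu : PTt A u) :
    PT A (fun b => dirN (h (x b)) (ap (x b)) (be (x b)) t (i b) (u b)) := by
  refine PT.fnum (hh.comp hx) (hhb.comp hx) ?_
  refine PTt.dirD hh hhb hap hbe t (hx.comp PT.fst') ?_ (hu.comp PT.fst')
    (PT.min PT.snd' ((hh.comp hx).comp PT.fst'))
  exact (PT.getD ((PT.dList hh hhb hap hbe t).comp hx) hi (PT.const 0)).comp PT.fst'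

end pt

end Vale.Agent.P330.Q
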