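import Vale.Agent.P330.Q.NumT
import Vale.Agent.P330.Q.YDef

/-!
# Project Q: numbers of the points of the code domain, operations in polynomial time

Functions `y : ZMod h → T` are numbers `< card T ^ h` (`numZ`, inverse `valZ`).  A function on
`ZMod h` is also used as the periodic function `pz y : ℕ → T`; `dgP T h x` is the periodic function
of the number `x`.  `cvN` : cyclic convolution of periodic functions.
-/

namespace Vale.Agent.P330.Q

open Vale.Agent.Lib.PolyTime

variable {A : Set Word} {α : Type*} [Enc α]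

/-! ### Sums, products -/

section PTsums

variable {T : Type*} [Fintype T]

theorem PTt.sum' [AddCommMonoid T] {n : α → ℕ} (hn : PT A n) (hnb : PBd n) {f : α → ℕ → T}
    (hf : PTt A (fun p : α × ℕ => f p.1 p.2)) :
    PTt A (fun a => ∑ i ∈ Finset.range (n a), f a i) :=
  PTt.sum hn hnb (hf.comp (PT.fst'.pair (PT.min PT.snd' (hn.comp PT.fst'))))

theorem PTt.prod' [CommMonoid T] {n : α → ℕ} (hn : PT A n) (hnb : PBd n) {f : α → ℕ → T}
    (hf : PTt A (fun p : α × ℕ => f p.1 p.2)) :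
    PTt A (fun a => ∏ i ∈ Finset.range (n a), f a i) :=
  PTt.prod hn hnb (hf.comp (PT.fst'.pair (PT.min PT.snd' (hn.comp PT.fst'))))

theorem PT.fnum' {h : α → ℕ} (hh : PT A h) (hhb : PBd h) {y : α → ℕ → T}
    (hy : PTt A (fun p : α × ℕ => y p.1 p.2)) : PT A (fun a => Q.fnum (h a) (y a)) :=
  PT.fnum hh hhb (hy.comp (PT.fst'.pair (PT.min PT.snd' (hh.comp PT.fst'))))

theorem PTt.add [Add T] {f g : α → T} (hf : PTt A f) (hg : PTt A g) :
    PTt A (fun a => f a + g a) := hf.map₂ hg fun x y => x + y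

theorem PTt.mul [Mul T] {f g : α → T} (hf : PTt A f) (hg : PTt A g) :
    PTt A (fun a => f a * g a) := hf.map₂ hg fun x y => x * y

theorem PTt.fst {S : Type*} [Fintype S] {f : α → T × S} (hf : PTt A f) :
    PTt A (fun a => (f a).1) := hf.map Prod.fst

theorem PTt.snd {S : Type*} [Fintype S] {f : α → T × S} (hf : PTt A f) :
    PTt A (fun a => (f a).2) := hf.map Prod.snd

/-- Bounded universal quantifier. -/
theorem PT.ballRange {n : α → ℕ} (hn : PT A n) (hnb : PBd n) {f : α → ℕ → Prop}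
    [∀ a i, Decidable (f a i)] (hf : PT A (fun p : α × ℕ => decide (f p.1 p.2))) :
    PT A (fun a => decide (∀ i < n a, f a i)) :=
  (PT.all (f := fun a i => decide (f a i)) (PT.range hn hnb) hf).congr fun a => by
    rw [List.all_eq, decide_eq_decide]
    simp

/-- Bounded existential quantifier. -/
theorem PT.bexRange {n : α → ℕ} (hn : PT A n) (hnb : PBd n) {f : α → ℕ → Prop}
    [∀ a i, Decidable (f a i)] (hf : PT A (fun p : α × ℕ => decide (f p.1 p.2))) :
    PT A (fun a => decide (∃ i < n a, f a i)) :=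
  (PT.any (f := fun a i => decide (f a i)) (PT.range hn hnb) hf).congr fun a => by
    rw [List.any_eq, decide_eq_decide]
    simp

end PTsums

/-! ### Cyclic indices -/

section cyclic

variable {h : ℕ} [NeZero h]

theorem sum_ZMod {M : Type*} [AddCommMonoid M] (g : ZMod h → M) :
    ∑ i, g i = ∑ i ∈ Finset.range h, g (i : ZMod h) := by
  refine Finset.sum_nbij' ZMod.val (fun i => (i : ZMod h)) ?_ ?_ ?_ ?_ ?_
  · intro i _
    exact Finset.mem_range.2 (ZMod.val_lt i)
  · intro i _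
    exact Finset.mem_univ _
  · intro i _
    exact ZMod.natCast_zmod_val i
  · intro i hi
    exact ZMod.val_natCast_of_lt (Finset.mem_range.1 hi)
  · intro i _
    rw [ZMod.natCast_zmod_val]

theorem prod_ZMod {M : Type*} [CommMonoid M] (g : ZMod h → M) :
    ∏ i, g i = ∏ i ∈ Finset.range h, g (i : ZMod h) := by
  refine Finset.prod_nbij' ZMod.val (fun i => (i : ZMod h)) ?_ ?_ ?_ ?_ ?_
  · intro i _
    exact Finset.mem_range.2 (ZMod.val_lt i)
  · intro i _
    exact Finset.mem_univ _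
  · intro i _
    exact ZMod.natCast_zmod_val i
  · intro i hi
    exact ZMod.val_natCast_of_lt (Finset.mem_range.1 hi)
  · intro i _
    rw [ZMod.natCast_zmod_val]

/-- A function on the cyclic group as a periodic function. -/
def pz {T : Type*} (y : ZMod h → T) (j : ℕ) : T := y (j : ZMod h)

/-- The periodic digits of a number. -/
noncomputable def dgP (T : Type*) [Fintype T] [Nonempty T] (h x j : ℕ) : T :=
  dgT T x (j % max h 1)

theorem dgP_eq {T : Type*} [Fintype T] [Nonempty T] (x j : ℕ) :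
    dgP T h x j = dgT T x (j : ZMod h).val := by
  unfold dgP
  rw [ZMod.val_natCast, max_eq_left (Nat.one_le_iff_ne_zero.2 (NeZero.ne h))]

/-- The function with a given number. -/
noncomputable def valZ (T : Type*) [Fintype T] [Nonempty T] (h x : ℕ) (j : ZMod h) : T :=
  dgT T x j.val

/-- Functions on the cyclic group as numbers. -/
noncomputable def numZ (T : Type*) [Fintype T] [Nonempty T] (h : ℕ) [NeZero h] :
    (ZMod h → T) ≃ Fin (Fintype.card T ^ h) where
  toFun y := ⟨fnum h (pz y), fnum_lt h _⟩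
  invFun x := valZ T h x
  left_inv y := by
    funext j
    show dgT T (fnum h (pz y)) j.val = y j
    rw [dgT_fnum _ (ZMod.val_lt j)]
    unfold pz
    rw [ZMod.natCast_zmod_val]
  right_inv x := by
    apply Fin.ext
    show fnum h (pz (valZ T h x)) = x
    rw [fnum_congr (y' := dgT T x) fun i hi => ?_]
    · exact fnum_dgT x.2
    · unfold pz valZ
      rw [ZMod.val_natCast_of_lt hi]

variable {T : Type*} [Fintype T] [Nonempty T]

theorem pz_valZ (x : ℕ) : pz (valZ T h x) = dgP T h x := by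
  funext j
  rw [dgP_eq]
  rfl

theorem valZ_fnum (y : ℕ → T) (j : ZMod h) :
    valZ T h (fnum h y) j = y j.val := dgT_fnum _ (ZMod.val_lt j)

theorem valZ_fnum_pz (y : ZMod h → T) : valZ T h (fnum h (pz y)) = y := (numZ T h).left_inv y

theorem fnum_valZ {x : ℕ} (hx : x < Fintype.card T ^ h) : fnum h (pz (valZ T h x)) = x :=
  congrArg Fin.val ((numZ T h).right_inv ⟨x, hx⟩)

theorem numZ_val (y : ZMod h → T) : (numZ T h y : ℕ) = fnum h (pz y) := rfl

theorem numZ_symm (x : Fin (Fintype.card T ^ h)) : (numZ T h).symm x = valZ T h x := rfl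

end cyclic

theorem PTt.dgP {T : Type*} [Fintype T] [Nonempty T] {h x j : α → ℕ} (hh : PT A h) (hhb : PBd h)
    (hx : PT A x) (hj : PT A j) : PTt A (fun a => dgP T (h a) (x a) (j a)) := by
  refine PTt.dg hx (PT.mod hj (PT.max hh (PT.const 1))) ?_
  refine (hhb.add (PBd.const 1)).mono fun a => ?_
  have h1 : 0 < max (h a) 1 := by omega
  have := Nat.mod_lt (j a) h1
  omega

/-! ### Cyclic convolution of periodic functions -/

section cvN

variable {R : Type*} [CommSemiring R]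

/-- Cyclic convolution of periodic functions. -/
def cvN (h : ℕ) (X Y : ℕ → R) (j : ℕ) : R := ∑ i ∈ Finset.range h, X i * Y (j + (h - i))

theorem cvN_pz {h : ℕ} [NeZero h] (x y : ZMod h → R) : cvN h (pz x) (pz y) = pz (cv x y) := by
  funext j
  unfold cvN pz cv
  rw [sum_ZMod]
  refine Finset.sum_congr rfl fun i hi => ?_
  congr 2
  rw [Nat.cast_add, Nat.cast_sub (Finset.mem_range.1 hi).le, ZMod.natCast_self, zero_sub,
    sub_eq_add_neg]

theorem PTt.cvN [Fintype R] {h : α → ℕ} (hh : PT A h) (hhb : PBd h) {X Y : α → ℕ → R}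
    (hX : PTt A (fun p : α × ℕ => X p.1 p.2)) (hY : PTt A (fun p : α × ℕ => Y p.1 p.2))
    {j : α → ℕ} (hj : PT A j) : PTt A (fun a => cvN (h a) (X a) (Y a) (j a)) :=
  PTt.sum' hh hhb (hX.mul (hY.comp (PT.fst'.pair
    (PT.add (hj.comp PT.fst') (PT.sub (hh.comp PT.fst') PT.snd')))))

end cvN

/-! ### Operations on the domain -/

section ops

variable {h : ℕ} [NeZero h]

theorem dgP_numZ {T : Type*} [Fintype T] [Nonempty T] (y : ZMod h → T) :
    dgP T h (numZ T h y) = pz y := by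
  rw [← pz_valZ]
  exact congrArg pz ((numZ T h).left_inv y)

/-- The shift of a periodic function. -/
def shR {T : Type*} (h : ℕ) (X : ℕ → T) (j : ℕ) : T := X (j + (h - 1))

/-- The inverse shift of a periodic function. -/
def shL {T : Type*} (X : ℕ → T) (j : ℕ) : T := X (j + 1)

variable {K : Type*} [Field K] [CharP K 2]

theorem pz_theta (y : YY K h) : pz (thetaY K h y) = shR h (pz y) := by
  funext j
  show y ((j : ZMod h) - 1) = y ((j + (h - 1) : ℕ) : ZMod h)
  rw [Nat.cast_add, Nat.cast_sub (Nat.one_le_iff_ne_zero.2 (NeZero.ne h)), ZMod.natCast_self,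
    Nat.cast_one, zero_sub, sub_eq_add_neg]

omit [NeZero h] in
theorem pz_theta_symm (y : YY K h) : pz ((thetaY K h).symm y) = shL (pz y) := by
  funext j
  show y ((j : ZMod h) + 1) = y ((j + 1 : ℕ) : ZMod h)
  rw [Nat.cast_add, Nat.cast_one]

/-- The bits of a number as a periodic function. -/
def bitP (T : Type*) [Zero T] [One T] (h x j : ℕ) : T := if x.testBit (j % max h 1) then 1 else 0

/-- The point of the cube with a given number. -/
def cub (h x : ℕ) : Cube h := fun i => if x.testBit i.val then 1 else 0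

omit [NeZero h] in
theorem cub_inj (hh : h ≠ 0) {x x' : ℕ} (hx : x < 2 ^ h) (hx' : x' < 2 ^ h)
    (e : cub h x = cub h x') : x = x' := by
  have : NeZero h := ⟨hh⟩
  refine Nat.eq_of_testBit_eq fun i => ?_
  by_cases hi : i < h
  · have h1 := congrFun e (i : ZMod h)
    unfold cub at h1
    rw [ZMod.val_natCast_of_lt hi] at h1
    by_cases h2 : x.testBit i <;> by_cases h3 : x'.testBit i <;> simp_all
  · have h2 : 2 ^ h ≤ 2 ^ i := Nat.pow_le_pow_right (by norm_num) (not_lt.1 hi)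
    rw [Nat.testBit_lt_two_pow (hx.trans_le h2), Nat.testBit_lt_two_pow (hx'.trans_le h2)]

/-- Sums over the cube as sums over numbers. -/
theorem sum_cub {M : Type*} [AddCommMonoid M] (g : Cube h → M) :
    ∑ b, g b = ∑ x ∈ Finset.range (2 ^ h), g (cub h x) := by
  have h1 : Function.Bijective (fun x : Fin (2 ^ h) => cub h x) := by
    rw [Fintype.bijective_iff_injective_and_card]
    refine ⟨fun x x' e => Fin.ext (cub_inj (NeZero.ne h) x.2 x'.2 e), ?_⟩
    rw [Fintype.card_fin, Fintype.card_fun, ZMod.card, ZMod.card]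
  rw [Finset.sum_range, ← h1.sum_comp]

theorem bitP_eq (T : Type*) [Zero T] [One T] (x j : ℕ) :
    bitP T h x j = if x.testBit (j : ZMod h).val then 1 else 0 := by
  unfold bitP
  rw [ZMod.val_natCast, max_eq_left (Nat.one_le_iff_ne_zero.2 (NeZero.ne h))]

omit [CharP K 2] in
theorem pz_btv_cub (x : ℕ) : (pz (btv (cub h x)) : ℕ → K) = bitP K h x := by
  funext j
  rw [bitP_eq]
  show bt K (if x.testBit (j : ZMod h).val then 1 else 0) = _
  split_ifs
  · exact bt_one K
  · exact bt_zero K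

end ops

theorem PTt.bitP {T : Type*} [Fintype T] [Zero T] [One T] {h x j : α → ℕ} (hh : PT A h)
    (hx : PT A x) (hj : PT A j) : PTt A (fun a => bitP T (h a) (x a) (j a)) :=
  PTt.ofBool (PT.testBit hx (PT.mod hj (PT.max hh (PT.const 1)))) fun b => if b then 1 else 0

section kernel

variable {K : Type*} [Field K]

/-- The determinant of `1 + N * diagonal (u, v)` by the formula of Ryser, where
`N = [[n11, 0], [n21, 1]]` with circulant blocks. -/
def detN (h : ℕ) (n11 n21 u v : ℕ → K) : K :=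
  ∑ s0 ∈ Finset.range (2 ^ h), ∑ s1 ∈ Finset.range (2 ^ h),
    (∏ i ∈ Finset.range h, ∑ j ∈ Finset.range h,
      if s0.testBit j then (if i = j then 1 else 0) + n11 (i + (h - j)) * u j else 0) *
    ∏ i ∈ Finset.range h, ((∑ j ∈ Finset.range h,
      if s0.testBit j then n21 (i + (h - j)) * u j else 0) +
        if s1.testBit i then 1 + v i else 0)

/-- The kernel: the sum of the determinants over the translates by `W`. -/
def kerN (h : ℕ) (al be n11 n21 u v : ℕ → K) : K :=
  ∑ x ∈ Finset.range (2 ^ h), detN h n11 n21 (fun j => u j + cvN h (bitP K h x) al j)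
    (fun j => v j + cvN h (bitP K h x) be j)

theorem PTt.detN [Fintype K] {h : α → ℕ} (hh : PT A h) (hhb : PBd (fun a => 2 ^ h a))
    {n11 n21 u v : α → ℕ → K} (h11 : PTt A (fun p : α × ℕ => n11 p.1 p.2))
    (h21 : PTt A (fun p : α × ℕ => n21 p.1 p.2)) (hu : PTt A (fun p : α × ℕ => u p.1 p.2))
    (hv : PTt A (fun p : α × ℕ => v p.1 p.2)) :
    PTt A (fun a => detN (h a) (n11 a) (n21 a) (u a) (v a)) := by
  have hhb' : PBd h := hhb.mono fun a => Nat.lt_two_pow_self.le
  have h2 : PT A (fun a => 2 ^ h a) := PT.pow (PT.const 2) hh hhb'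
  -- the inner sums
  have e1 : PTt A (fun p : ((α × ℕ) × ℕ) × ℕ => ∑ j ∈ Finset.range (h p.1.1.1),
      if p.1.1.2.testBit j then (if p.2 = j then 1 else 0) +
        n11 p.1.1.1 (p.2 + (h p.1.1.1 - j)) * u p.1.1.1 j else 0) := by
    have g1 : PT A (fun p : ((α × ℕ) × ℕ) × ℕ => p.1.1.1) := PT.fst'.fst.fst
    have g2 : PT A (fun p : (((α × ℕ) × ℕ) × ℕ) × ℕ => p.1.1.1.1) := PT.fst'.fst.fst.fst
    refine PTt.sum' (hh.comp g1) (PBd.comp hhb' g1) ?_
    refine PTt.ite (PT.testBit PT.fst'.fst.fst.snd PT.snd' |>.congr fun a => ?_) ?_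
      (PTt.const 0)
    · simp
    · refine PTt.add (PTt.ite (PT.eqNat PT.fst'.snd PT.snd') (PTt.const 1) (PTt.const 0))
        (PTt.mul (h11.comp (g2.pair (PT.add PT.fst'.snd (PT.sub (hh.comp g2) PT.snd'))))
          (hu.comp (g2.pair PT.snd')))
  have e2 : PTt A (fun p : ((α × ℕ) × ℕ) × ℕ => (∑ j ∈ Finset.range (h p.1.1.1),
      if p.1.1.2.testBit j then n21 p.1.1.1 (p.2 + (h p.1.1.1 - j)) * u p.1.1.1 j else 0) +
        if p.1.2.testBit p.2 then 1 + v p.1.1.1 p.2 else 0) := by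
    have g1 : PT A (fun p : ((α × ℕ) × ℕ) × ℕ => p.1.1.1) := PT.fst'.fst.fst
    have g2 : PT A (fun p : (((α × ℕ) × ℕ) × ℕ) × ℕ => p.1.1.1.1) := PT.fst'.fst.fst.fst
    refine PTt.add (PTt.sum' (hh.comp g1) (PBd.comp hhb' g1) ?_) ?_
    · refine PTt.ite (PT.testBit PT.fst'.fst.fst.snd PT.snd' |>.congr fun a => ?_)
        (PTt.mul (h21.comp (g2.pair (PT.add PT.fst'.snd (PT.sub (hh.comp g2) PT.snd'))))
          (hu.comp (g2.pair PT.snd'))) (PTt.const 0)
      simp
    · refine PTt.ite (PT.testBit PT.fst'.snd PT.snd' |>.congr fun a => ?_)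
        (PTt.add (PTt.const 1) (hv.comp (g1.pair PT.snd'))) (PTt.const 0)
      simp
  have k1 : PT A (fun p : α × ℕ => 2 ^ h p.1) := h2.comp PT.fst'
  have k2 : PBd (fun p : α × ℕ => 2 ^ h p.1) := PBd.comp (b := fun a => 2 ^ h a) hhb (PT.fst' (A := A))
  have k3 : PT A (fun p : (α × ℕ) × ℕ => h p.1.1) := hh.comp PT.fst'.fst
  have k4 : PBd (fun p : (α × ℕ) × ℕ => h p.1.1) :=
    PBd.comp hhb' (PT.fst (PT.fst' (A := A) (α := α × ℕ) (β := ℕ)))
  exact PTt.sum' h2 hhb (PTt.sum' k1 k2 (PTt.mul (PTt.prod' k3 k4 e1) (PTt.prod' k3 k4 e2)))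

theorem PTt.kerN [Fintype K] {h : α → ℕ} (hh : PT A h) (hhb : PBd (fun a => 2 ^ h a))
    {al be n11 n21 u v : α → ℕ → K} (hal : PTt A (fun p : α × ℕ => al p.1 p.2))
    (hbe : PTt A (fun p : α × ℕ => be p.1 p.2)) (h11 : PTt A (fun p : α × ℕ => n11 p.1 p.2))
    (h21 : PTt A (fun p : α × ℕ => n21 p.1 p.2)) (hu : PTt A (fun p : α × ℕ => u p.1 p.2))
    (hv : PTt A (fun p : α × ℕ => v p.1 p.2)) :
    PTt A (fun a => kerN (h a) (al a) (be a) (n11 a) (n21 a) (u a) (v a)) := by
  have hhb' : PBd h := hhb.mono fun a => Nat.lt_two_pow_self.le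
  have h2 : PT A (fun a => 2 ^ h a) := PT.pow (PT.const 2) hh hhb'
  have g0 : PT A (fun p : α × ℕ => h p.1) := hh.comp PT.fst'
  have g0b : PBd (fun p : α × ℕ => 2 ^ h p.1) := PBd.comp (b := fun a => 2 ^ h a) hhb (PT.fst' (A := A))
  have q1 : PT A (fun p : (α × ℕ) × ℕ => h p.1.1) := hh.comp PT.fst'.fst
  have q2 : PBd (fun p : (α × ℕ) × ℕ => h p.1.1) :=
    PBd.comp hhb' (PT.fst (PT.fst' (A := A) (α := α × ℕ) (β := ℕ)))
  have r1 : PT A (fun p : ((α × ℕ) × ℕ) × ℕ => p.1.1.1) := PT.fst'.fst.fst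
  have x1 : PTt A (fun p : ((α × ℕ) × ℕ) × ℕ => Q.bitP K (h p.1.1.1) p.1.1.2 p.2) :=
    PTt.bitP (hh.comp r1) PT.fst'.fst.snd PT.snd'
  have c1 : PTt A (fun p : (α × ℕ) × ℕ =>
      Q.cvN (h p.1.1) (Q.bitP K (h p.1.1) p.1.2) (al p.1.1) p.2) :=
    PTt.cvN q1 q2 x1 (hal.comp (r1.pair PT.snd')) PT.snd'
  have c2 : PTt A (fun p : (α × ℕ) × ℕ =>
      Q.cvN (h p.1.1) (Q.bitP K (h p.1.1) p.1.2) (be p.1.1) p.2) :=
    PTt.cvN q1 q2 x1 (hbe.comp (r1.pair PT.snd')) PT.snd'
  have g1 : PT A (fun p : (α × ℕ) × ℕ => p.1.1) := PT.fst'.fst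
  exact PTt.sum' h2 hhb (PTt.detN g0 g0b (h11.comp (g1.pair PT.snd')) (h21.comp (g1.pair PT.snd'))
    (PTt.add (hu.comp (g1.pair PT.snd')) c1) (PTt.add (hv.comp (g1.pair PT.snd')) c2))

end kernel

/-! ### The data `α, β, α'` as a number -/

section data

variable (K : Type*) [Field K] [Fintype K]

/-- The digits of the data. -/
abbrev T3 : Type _ := K × K × K

/-- The element `α`. -/
noncomputable def alZ (h z : ℕ) (j : ZMod h) : K := (valZ (T3 K) h z j).1

/-- The element `β`. -/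
noncomputable def beZ (h z : ℕ) (j : ZMod h) : K := (valZ (T3 K) h z j).2.1

/-- The inverse of `α`. -/
noncomputable def apZ (h z : ℕ) (j : ZMod h) : K := (valZ (T3 K) h z j).2.2

/-- The periodic function `α`. -/
noncomputable def alP (h z j : ℕ) : K := (dgP (T3 K) h z j).1

/-- The periodic function `β`. -/
noncomputable def beP (h z j : ℕ) : K := (dgP (T3 K) h z j).2.1

/-- The periodic function `α'`. -/
noncomputable def apP (h z j : ℕ) : K := (dgP (T3 K) h z j).2.2

theorem pz_alZ (h z : ℕ) [NeZero h] : pz (alZ K h z) = alP K h z := by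
  funext j
  exact congrArg (fun t : T3 K => t.1) (congrFun (pz_valZ (T := T3 K) (h := h) z) j)

theorem pz_beZ (h z : ℕ) [NeZero h] : pz (beZ K h z) = beP K h z := by
  funext j
  exact congrArg (fun t : T3 K => t.2.1) (congrFun (pz_valZ (T := T3 K) (h := h) z) j)

theorem pz_apZ (h z : ℕ) [NeZero h] : pz (apZ K h z) = apP K h z := by
  funext j
  exact congrArg (fun t : T3 K => t.2.2) (congrFun (pz_valZ (T := T3 K) (h := h) z) j)

theorem PTt.alP {h z j : α → ℕ} (hh : PT A h) (hhb : PBd h) (hz : PT A z) (hj : PT A j) :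
    PTt A (fun a => alP K (h a) (z a) (j a)) := (PTt.dgP hh hhb hz hj).fst

theorem PTt.beP {h z j : α → ℕ} (hh : PT A h) (hhb : PBd h) (hz : PT A z) (hj : PT A j) :
    PTt A (fun a => beP K (h a) (z a) (j a)) := (PTt.dgP hh hhb hz hj).snd.fst

theorem PTt.apP {h z j : α → ℕ} (hh : PT A h) (hhb : PBd h) (hz : PT A z) (hj : PT A j) :
    PTt A (fun a => apP K (h a) (z a) (j a)) := (PTt.dgP hh hhb hz hj).snd.snd

/-- The first circulant block of `N`. -/
noncomputable def n11P (h z : ℕ) : ℕ → K := cvN h (alP K h z) (fun j => apP K h z j ^ 2)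

/-- The second circulant block of `N`. -/
noncomputable def n21P (h z : ℕ) : ℕ → K :=
  cvN h (fun j => beP K h z j + beP K h z j ^ 2) (fun j => apP K h z j ^ 2)

theorem PTt.n11P {h z j : α → ℕ} (hh : PT A h) (hhb : PBd h) (hz : PT A z) (hj : PT A j) :
    PTt A (fun a => n11P K (h a) (z a) (j a)) :=
  PTt.cvN hh hhb (PTt.alP K (hh.comp PT.fst') (PBd.comp hhb (PT.fst' (A := A)))
    (hz.comp PT.fst') PT.snd') ((PTt.apP K (hh.comp PT.fst') (PBd.comp hhb (PT.fst' (A := A)))
    (hz.comp PT.fst') PT.snd').map fun x => x ^ 2) hj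

theorem PTt.n21P {h z j : α → ℕ} (hh : PT A h) (hhb : PBd h) (hz : PT A z) (hj : PT A j) :
    PTt A (fun a => n21P K (h a) (z a) (j a)) :=
  PTt.cvN hh hhb ((PTt.beP K (hh.comp PT.fst') (PBd.comp hhb (PT.fst' (A := A)))
    (hz.comp PT.fst') PT.snd').map fun x => x + x ^ 2)
    ((PTt.apP K (hh.comp PT.fst') (PBd.comp hhb (PT.fst' (A := A)))
    (hz.comp PT.fst') PT.snd').map fun x => x ^ 2) hj

end data

section ext

variable (K : Type*) [Field K] [CharP K 2] [Fintype K]

/-- The first half of the section of a point. -/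
noncomputable def sec1 (h z y : ℕ) : ℕ → K :=
  cvN h (alP K h z) (fun j => CK.val K (dgP (TY K) h y j).1)

/-- The second half of the section of a point. -/
noncomputable def sec2 (h y j : ℕ) : K := (dgP (TY K) h y j).2

/-- **The extension on numbers**: `z` the data, `f` a function on the numbers of the points of the
cube, `y` a point of the domain. -/
noncomputable def extN (h z : ℕ) (f : ℕ → K) (y : ℕ) : K :=
  ∑ b ∈ Finset.range (2 ^ h), f b * kerN h (alP K h z) (beP K h z) (n11P K h z) (n21P K h z)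
    (sec1 K h z y) (fun j => sec2 K h y j + bitP K h b j)

theorem PTt.extN {h z y : α → ℕ} (hh : PT A h) (hhb : PBd (fun a => 2 ^ h a)) (hz : PT A z)
    (hy : PT A y) {f : α → ℕ → K} (hf : PTt A (fun p : α × ℕ => f p.1 p.2)) :
    PTt A (fun a => extN K (h a) (z a) (f a) (y a)) := by
  have hhb' : PBd h := hhb.mono fun a => Nat.lt_two_pow_self.le
  have h2 : PT A (fun a => 2 ^ h a) := PT.pow (PT.const 2) hh hhb'
  have g0 : PT A (fun p : α × ℕ => h p.1) := hh.comp PT.fst'
  have g0b : PBd (fun p : α × ℕ => 2 ^ h p.1) :=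
    PBd.comp (b := fun a => 2 ^ h a) hhb (PT.fst' (A := A))
  have r0 : PT A (fun p : (α × ℕ) × ℕ => p.1.1) := PT.fst'.fst
  have r1 : PT A (fun p : (α × ℕ) × ℕ => h p.1.1) := hh.comp r0
  have r2 : PBd (fun p : (α × ℕ) × ℕ => h p.1.1) := PBd.comp hhb' r0
  have r3 : PT A (fun p : (α × ℕ) × ℕ => z p.1.1) := hz.comp r0
  have r4 : PT A (fun p : (α × ℕ) × ℕ => y p.1.1) := hy.comp r0
  have t0 : PT A (fun p : ((α × ℕ) × ℕ) × ℕ => p.1.1.1) := PT.fst'.fst.fst
  have s1 : PTt A (fun p : (α × ℕ) × ℕ => sec1 K (h p.1.1) (z p.1.1) (y p.1.1) p.2) :=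
    PTt.cvN r1 r2 (PTt.alP K (hh.comp t0) (PBd.comp hhb' t0) (hz.comp t0) PT.snd')
      ((PTt.dgP (hh.comp t0) (PBd.comp hhb' t0) (hy.comp t0) PT.snd').fst.map fun c =>
        CK.val K c) PT.snd'
  have s2 : PTt A (fun p : (α × ℕ) × ℕ => sec2 K (h p.1.1) (y p.1.1) p.2) :=
    (PTt.dgP r1 r2 r4 PT.snd').snd
  exact PTt.sum' h2 hhb (PTt.mul hf (PTt.kerN g0 g0b (PTt.alP K r1 r2 r3 PT.snd')
    (PTt.beP K r1 r2 r3 PT.snd') (PTt.n11P K r1 r2 r3 PT.snd') (PTt.n21P K r1 r2 r3 PT.snd')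
    s1 (s2.add (PTt.bitP r1 PT.fst'.snd PT.snd'))))

end ext

end Vale.Agent.P330.Q
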