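import Mathlib

/-!
# Parameters of project Q

The field has `q = 2 ^ s` elements, `s` even, the elementary bias is `1 - 1 / (M (s + 5))`, the
directions are sums of `t` elementary directions.  Degrees are multiples of `t`, everything else is
polynomial in `q`.
-/

namespace Vale.Agent.P330.Q

/-- For all constants `C`, `k`, `M` there are an even `s` and `t` such that the degree `C t` is at
most `q = 2 ^ s` and the bias `(1 - 1 / (M (s + 5))) ^ t` is at most `1 / (C q ^ k)`. -/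
theorem exists_params (C k M : ℕ) (hM : 1 ≤ M) : ∃ s t : ℕ, Even s ∧ 4 ≤ s ∧ 1 ≤ t ∧
    C * t ≤ 2 ^ s ∧
    (1 - 1 / ((M * (s + 5) : ℕ) : ℝ)) ^ t * (C * (2 ^ s) ^ k) ≤ 1 := by
  set A : ℕ := C * M * (k + C + 1) with hA
  set u : ℕ := 81 * A + 1 with hu
  have hu1 : 1 ≤ u := by omega
  set s : ℕ := 4 * u with hs
  set m : ℕ := M * (s + 5) with hm
  set n : ℕ := k * s + C + 1 with hn
  have hm1 : 1 ≤ m := Nat.mul_pos hM (by omega)
  refine ⟨s, m * n, ⟨2 * u, by omega⟩, by omega, Nat.mul_pos hm1 (by omega), ?_, ?_⟩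
  · -- `C t ≤ 2 ^ s`
    have h1 : s + 5 ≤ 9 * u := by omega
    have h2 : n ≤ (k + C + 1) * (9 * u) := by
      have : k * s ≤ k * (9 * u) := Nat.mul_le_mul_left _ (by omega)
      nlinarith
    have h3 : C * (m * n) ≤ A * (81 * (u * u)) := by
      calc C * (m * n) = C * M * ((s + 5) * n) := by rw [hm]; ring
        _ ≤ C * M * ((9 * u) * ((k + C + 1) * (9 * u))) :=
          Nat.mul_le_mul_left _ (Nat.mul_le_mul h1 h2)
        _ = A * (81 * (u * u)) := by rw [hA]; ring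
    have h4 : u < 2 ^ u := Nat.lt_two_pow_self
    have h5 : A * 81 ≤ 2 ^ u := by omega
    calc C * (m * n) ≤ A * (81 * (u * u)) := h3
      _ = (A * 81) * (u * u) := by ring
      _ ≤ 2 ^ u * (2 ^ u * 2 ^ u) := Nat.mul_le_mul h5 (Nat.mul_le_mul h4.le h4.le)
      _ = 2 ^ (3 * u) := by rw [← pow_add, ← pow_add]; congr 1; omega
      _ ≤ 2 ^ s := Nat.pow_le_pow_right (by norm_num) (by omega)
  · -- the bias
    have hm0 : (0 : ℝ) < (m : ℝ) := by exact_mod_cast hm1
    have h1 : (1 - 1 / (m : ℝ)) ^ m ≤ 1 / 2 := by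
      have h2 := Real.one_sub_div_pow_le_exp_neg (n := m) (t := 1) (by exact_mod_cast hm1)
      refine h2.trans ?_
      rw [Real.exp_neg, one_div]
      refine inv_anti₀ (by norm_num) ?_
      have := Real.add_one_le_exp (1 : ℝ)
      linarith
    have h0 : (0 : ℝ) ≤ 1 - 1 / (m : ℝ) := by
      rw [sub_nonneg, div_le_one hm0]
      exact_mod_cast hm1
    have h3 : (1 - 1 / (m : ℝ)) ^ (m * n) ≤ (1 / 2) ^ n := by
      rw [pow_mul]
      exact pow_le_pow_left₀ (by positivity) h1 _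
    have h4 : ((C : ℝ) * (2 ^ s) ^ k) ≤ 2 ^ n := by
      have h5 : (C : ℝ) ≤ 2 ^ C := by
        exact_mod_cast (Nat.lt_two_pow_self (n := C)).le
      calc (C : ℝ) * (2 ^ s) ^ k ≤ 2 ^ C * (2 ^ s) ^ k :=
            mul_le_mul_of_nonneg_right h5 (by positivity)
        _ = 2 ^ (C + k * s) := by rw [← pow_mul, ← pow_add, mul_comm s k]
        _ ≤ 2 ^ n := pow_le_pow_right₀ (by norm_num) (by omega)
    calc (1 - 1 / (m : ℝ)) ^ (m * n) * (C * (2 ^ s) ^ k)
        ≤ (1 / 2) ^ n * 2 ^ n := mul_le_mul h3 h4 (by positivity) (by positivity)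
      _ = 1 := by rw [← mul_pow]; norm_num

end Vale.Agent.P330.Q
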