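import Mathlib

/-!
# Extended states: the path from a configuration to its successor

A dynamics `Dyn X` consists of configurations, of which some are valid, of the maps `step false`
(successor) and `step true` (predecessor) and of the start `w0`.

An extended state has two sides (`false` = `A`, `true` = `B`).  Every side has a base (a
configuration) and a height `≤ m` (the number of entries on its stack of partial sums).  The side is
full if its height is `m`.  The bit `rel` tells whether `B` is the successor of `A` (`true`) or `B`
equals `A` (`false`).  In a good state one side is full; a full side has a valid base and determines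
the base of the other side.
-/

namespace Vale.Agent.P330.Q

/-- A dynamics. -/
structure Dyn (X : Type*) where
  /-- valid configurations -/
  Valid : X → Prop
  /-- successor (`false`) and predecessor (`true`) -/
  step : Bool → X → X
  /-- the start -/
  w0 : X
  valid0 : Valid w0
  inv : ∀ z w, Valid w → Valid (step z w) → step (!z) (step z w) = w
  start : ¬ Valid (step true w0)

/-- Extended states. -/
@[ext] structure St (X : Type*) where
  /-- `true`: `B` is the successor of `A`; `false`: `B` equals `A` -/
  rel : Bool
  /-- the bases of the two sides -/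
  base : Bool → X
  /-- the heights of the two sides -/
  ht : Bool → ℕ

namespace Dyn

variable {X : Type*} (D : Dyn X)

/-- The base of the other side, given the relation, the full side and its base. -/
def other (r σ : Bool) (x : X) : X := if r then D.step σ x else x

/-- Good extended states. -/
def VE (m : ℕ) (s : St X) : Prop :=
  (∀ σ, s.ht σ ≤ m) ∧ (∃ σ, s.ht σ = m) ∧
    ∀ σ, s.ht σ = m → D.Valid (s.base σ) ∧ s.base (!σ) = D.other s.rel σ (s.base σ)

/-- One step of the extended dynamics: the growing side is `g = z xor rel`.  It grows if it is not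
full; otherwise the other side shrinks, and if this is not possible then the relation changes. -/
def stepE (m : ℕ) (z : Bool) (s : St X) : St X :=
  if s.ht (xor z s.rel) ≠ m then
    ⟨s.rel, s.base, Function.update s.ht (xor z s.rel) (s.ht (xor z s.rel) + 1)⟩
  else if s.ht (!(xor z s.rel)) ≠ 0 then
    ⟨s.rel, s.base, Function.update s.ht (!(xor z s.rel)) (s.ht (!(xor z s.rel)) - 1)⟩
  else
    ⟨!s.rel, Function.update s.base (!(xor z s.rel))
      (D.other (!s.rel) (xor z s.rel) (s.base (xor z s.rel))), s.ht⟩

/-- The start of the extended dynamics: `B` is full with the start, `A` has the (not valid)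
predecessor and is almost full. -/
def st0 (m : ℕ) : St X :=
  ⟨true, fun σ => if σ then D.w0 else D.step true D.w0, fun σ => if σ then m else m - 1⟩

variable {D} {m : ℕ}

theorem VE.other_full {s : St X} (h : D.VE m s) {σ : Bool} (hσ : s.ht σ ≠ m) :
    s.ht (!σ) = m := by
  obtain ⟨-, ⟨σ', h'⟩, -⟩ := h
  cases σ <;> cases σ' <;> simp_all

theorem ve_st0 (hm : 0 < m) : D.VE m (D.st0 m) := by
  refine ⟨fun σ => ?_, ⟨true, by simp [st0]⟩, fun σ hσ => ?_⟩
  · cases σ <;> simp [st0]
  · cases σ
    · simp only [st0, Bool.false_eq_true, if_false] at hσ
      omega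
    · exact ⟨D.valid0, by simp [st0, other]⟩

theorem start_st0 (hm : 0 < m) : ¬ D.VE m (D.stepE m true (D.st0 m)) := by
  intro h
  have h1 : D.stepE m true (D.st0 m) =
      ⟨true, (D.st0 m).base, Function.update (D.st0 m).ht false m⟩ := by
    have e : (D.st0 m).ht false + 1 = m := by simp only [st0, Bool.false_eq_true, if_false]; omega
    have e' : (D.st0 m).ht false ≠ m := by omega
    simp only [stepE, show (D.st0 m).rel = true from rfl, Bool.xor_true, Bool.not_true]
    rw [if_pos e', e]
  rw [h1] at h
  have h2 := (h.2.2 false (by simp)).1
  exact D.start (by simpa [st0] using h2)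

/-- The extended dynamics is reversible. -/
theorem inv_stepE {z : Bool} {s : St X} (h : D.VE m s) (hm : 0 < m) :
    D.stepE m (!z) (D.stepE m z s) = s := by
  obtain ⟨r, b, t⟩ := s
  obtain ⟨hle, hex, hfull⟩ := h
  simp only at hle hex hfull
  have hxor : xor (!z) r = !(xor z r) := by cases z <;> cases r <;> rfl
  have hxor2 : xor (!z) (!r) = xor z r := by cases z <;> cases r <;> rfl
  generalize hg : xor z r = g at hxor hxor2
  have hgg : g ≠ !g := by cases g <;> decide
  have hgg' : (!g) ≠ g := hgg.symm
  by_cases h1 : t g ≠ m
  · have h2 : t (!g) = m := by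
      obtain ⟨σ, hσ⟩ := hex
      by_cases hσg : σ = g
      · subst hσg; exact absurd hσ h1
      · rwa [show σ = !g by revert hσg; cases σ <;> cases g <;> simp] at hσ
    have e1 : D.stepE m z ⟨r, b, t⟩ = ⟨r, b, Function.update t g (t g + 1)⟩ := by
      simp only [stepE, hg]
      rw [if_pos h1]
    rw [e1]
    simp only [stepE, hxor, Bool.not_not]
    rw [if_neg (by rw [Function.update_of_ne hgg']; simp [h2]),
      if_pos (by rw [Function.update_self]; omega)]
    ext σ
    · rfl
    · rfl
    · by_cases hσ : σ = g
      · subst hσ; simp
      · simp [Function.update_of_ne hσ]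
  push Not at h1
  by_cases h2 : t (!g) ≠ 0
  · have e1 : D.stepE m z ⟨r, b, t⟩ = ⟨r, b, Function.update t (!g) (t (!g) - 1)⟩ := by
      simp only [stepE, hg]
      rw [if_neg (by simp [h1]), if_pos h2]
    rw [e1]
    simp only [stepE, hxor, Bool.not_not]
    have h3 := hle (!g)
    rw [if_pos (by rw [Function.update_self]; omega)]
    ext σ
    · rfl
    · rfl
    · by_cases hσ : σ = !g
      · subst hσ
        simp only [Function.update_self]
        omega
      · simp [Function.update_of_ne hσ]
  · push Not at h2
    have e1 : D.stepE m z ⟨r, b, t⟩ =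
        ⟨!r, Function.update b (!g) (D.other (!r) g (b g)), t⟩ := by
      simp only [stepE, hg]
      rw [if_neg (by simp [h1]), if_neg (by simp [h2])]
    rw [e1]
    simp only [stepE, hxor2, Bool.not_not]
    rw [if_neg (by simp [h1]), if_neg (by simp [h2])]
    have h3 := (hfull g h1).2
    ext σ
    · rfl
    · by_cases hσ : σ = !g
      · subst hσ
        simp only [Function.update_self, Function.update_of_ne hgg]
        exact h3.symm
      · simp [Function.update_of_ne hσ]
    · rfl

/-- A step from a good state leads to a good state, unless the configuration of the full side has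
no valid successor (predecessor). -/
theorem not_ve_stepE (hm : 0 < m) {z : Bool} {s : St X} (h : D.VE m s)
    (h' : ¬ D.VE m (D.stepE m z s)) :
    s.rel = true ∧ s.ht z = m ∧ s.ht (!z) + 1 = m ∧ D.Valid (s.base z) ∧
      s.base (!z) = D.step z (s.base z) ∧ ¬ D.Valid (D.step z (s.base z)) := by
  obtain ⟨r, b, t⟩ := s
  obtain ⟨hle, hex, hfull⟩ := h
  simp only at hle hex hfull ⊢
  generalize hg : xor z r = g at *
  have hgg : g ≠ !g := by cases g <;> decide
  have hgg' : (!g) ≠ g := hgg.symm
  have hcase : ∀ σ, σ = g ∨ σ = !g := by intro σ; cases σ <;> cases g <;> simp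
  by_cases h1 : t g ≠ m
  · have h2 : t (!g) = m := by
      obtain ⟨σ, hσ⟩ := hex
      rcases hcase σ with rfl | rfl
      · exact absurd hσ h1
      · exact hσ
    have e1 : D.stepE m z ⟨r, b, t⟩ = ⟨r, b, Function.update t g (t g + 1)⟩ := by
      simp only [stepE, hg]
      rw [if_pos h1]
    rw [e1] at h'
    obtain ⟨hv, hb⟩ := hfull (!g) h2
    rw [Bool.not_not] at hb
    have hlt : t g < m := lt_of_le_of_ne (hle g) h1
    -- the new height must be `m`
    have h3 : t g + 1 = m := by
      by_contra h3
      refine h' ⟨fun σ => ?_, ⟨!g, ?_⟩, fun σ hσ => ?_⟩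
      · rcases hcase σ with rfl | rfl
        · simp only [Function.update_self]; omega
        · simp only [Function.update_of_ne hgg']; exact hle _
      · simp only [Function.update_of_ne hgg', h2]
      · rcases hcase σ with rfl | rfl
        · simp only [Function.update_self] at hσ
          exact absurd hσ h3
        · exact hfull (!g) h2
    have h4 : ¬ (D.Valid (b g) ∧ b (!g) = D.other r g (b g)) := by
      intro h4
      refine h' ⟨fun σ => ?_, ⟨!g, ?_⟩, fun σ hσ => ?_⟩
      · rcases hcase σ with rfl | rfl
        · simp only [Function.update_self]; omega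
        · simp only [Function.update_of_ne hgg']; exact hle _
      · simp only [Function.update_of_ne hgg', h2]
      · rcases hcase σ with rfl | rfl
        · exact h4
        · exact hfull (!g) h2
    cases r with
    | false =>
      simp only [other, Bool.false_eq_true, if_false] at hb h4
      exact absurd ⟨hb ▸ hv, hb.symm⟩ h4
    | true =>
      simp only [other, if_true] at hb h4
      have hz : (!g) = z := by rw [← hg]; cases z <;> rfl
      have hz' : (!z) = g := by rw [← hz, Bool.not_not]
      rw [hz] at h2 hv hb h4
      refine ⟨rfl, h2, by rw [hz']; exact h3, hv, by rw [hz']; exact hb, fun h5 => h4 ?_⟩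
      refine ⟨hb ▸ h5, ?_⟩
      rw [hb]
      have := D.inv z (b z) hv h5
      rw [hz'] at this
      exact this.symm
  push Not at h1
  exfalso
  by_cases h2 : t (!g) ≠ 0
  · have e1 : D.stepE m z ⟨r, b, t⟩ = ⟨r, b, Function.update t (!g) (t (!g) - 1)⟩ := by
      simp only [stepE, hg]
      rw [if_neg (by simp [h1]), if_pos h2]
    rw [e1] at h'
    refine h' ⟨fun σ => ?_, ⟨g, ?_⟩, fun σ hσ => ?_⟩
    · rcases hcase σ with rfl | rfl
      · simp only [Function.update_of_ne hgg]; exact hle _
      · simp only [Function.update_self]; have := hle (!g); omega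
    · simp only [Function.update_of_ne hgg, h1]
    · rcases hcase σ with rfl | rfl
      · exact hfull _ h1
      · simp only [Function.update_self] at hσ
        have := hle (!g)
        omega
  · push Not at h2
    have e1 : D.stepE m z ⟨r, b, t⟩ =
        ⟨!r, Function.update b (!g) (D.other (!r) g (b g)), t⟩ := by
      simp only [stepE, hg]
      rw [if_neg (by simp [h1]), if_neg (by simp [h2])]
    rw [e1] at h'
    refine h' ⟨hle, hex, fun σ hσ => ?_⟩
    rcases hcase σ with rfl | rfl
    · refine ⟨?_, ?_⟩
      · simp only [Function.update_of_ne hgg]; exact (hfull _ h1).1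
      · simp only [Function.update_self, Function.update_of_ne hgg]
    · simp only at hσ
      omega

/-- The extended dynamics. -/
def ext (D : Dyn X) (m : ℕ) (hm : 0 < m) : Dyn (St X) where
  Valid := D.VE m
  step := D.stepE m
  w0 := D.st0 m
  valid0 := ve_st0 hm
  inv _ _ h _ := inv_stepE h hm
  start := start_st0 hm

/-- A good state without good successor reveals a valid configuration (the base of the full side
`A`) without valid successor. -/
theorem reveal_false (hm : 0 < m) {s : St X} (h : D.VE m s)
    (h' : ¬ D.VE m (D.stepE m false s)) :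
    D.Valid (s.base false) ∧ ¬ D.Valid (D.step false (s.base false)) :=
  ⟨(not_ve_stepE hm h h').2.2.2.1, (not_ve_stepE hm h h').2.2.2.2.2⟩

/-- A good state, different from the start, without good predecessor reveals a valid configuration
(the base of the full side `B`), different from the start, without valid predecessor. -/
theorem reveal_true (hm : 0 < m) {s : St X} (h : D.VE m s) (hs : s ≠ D.st0 m)
    (h' : ¬ D.VE m (D.stepE m true s)) :
    D.Valid (s.base true) ∧ s.base true ≠ D.w0 ∧ ¬ D.Valid (D.step true (s.base true)) := by
  obtain ⟨h1, h2, h3, h4, h5, h6⟩ := not_ve_stepE hm h h'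
  refine ⟨h4, fun h7 => hs ?_, h6⟩
  obtain ⟨r, b, t⟩ := s
  simp only [Bool.not_true] at h1 h2 h3 h4 h5 h6 h7
  ext σ
  · rw [h1]; rfl
  · cases σ
    · simp only [h5, h7, st0, Bool.false_eq_true, if_false]
    · simp only [h7, st0, if_true]
  · cases σ
    · simp only [st0, Bool.false_eq_true, if_false]; omega
    · simp only [h2, st0, if_true]

end Dyn

end Vale.Agent.P330.Q
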