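import Vale.Agent.P330.Q.SitesDef

/-!
# Project Q: the sites as numbers, correctness
-/

namespace Vale.Agent.P330.Q

open Finset
open Vale.Agent.P318.S (crv Low sgn ind CharBd fdist word crv_cons)
open scoped BigOperators

variable {N : Code}

namespace CNum

variable {I : CInst N} (n : CNum I)

/-! ### Functionals -/

theorem dg_cE (c : I.E) (j : I.R) : dgT N.F (n.cE c) (n.eR j) = c j := by
  show dgT N.F (numT N.F n.nR ((Equiv.arrowCongr n.eR (Equiv.refl N.F)) c)) (n.eR j) = c j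
  rw [dgT_numT]
  simp [Equiv.arrowCongr]

theorem cE_of (c : I.E) (f : ℕ → N.F) (h : ∀ j, f (n.eR j) = c j) :
    fnum n.nR f = (n.cE c : ℕ) := by
  show _ = ((numT N.F n.nR ((Equiv.arrowCongr n.eR (Equiv.refl N.F)) c) : Fin _) : ℕ)
  rw [numT_val]
  refine fnum_congr fun i hi => ?_
  rw [ext0_of_lt _ hi]
  have := h (n.eR.symm ⟨i, hi⟩)
  rw [Equiv.apply_symm_apply] at this
  rw [this]
  rfl

/-! ### Coefficients -/

theorem dg_padE (p : I.E × (Fin 2 → Fin N.D → I.E)) (o : Option (Fin 2 × Fin N.D)) (j : I.R) :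
    dgT N.F (n.padE p) ((n.eR j : ℕ) + n.nR * mIx N o) = padFn I p (o, j) := by
  have h1 : ((n.eR j : ℕ) + n.nR * mIx N o) =
      ((((mIx N).prodCongr n.eR).trans finProdFinEquiv) (o, j) : Fin (M N * n.nR)) := by
    simp [finProdFinEquiv]
  rw [h1]
  show dgT N.F (numT N.F (M N * n.nR) ((Equiv.arrowCongr (((mIx N).prodCongr n.eR).trans
    finProdFinEquiv) (Equiv.refl N.F)) (padFn I p))) _ = _
  rw [dgT_numT]
  simp [Equiv.arrowCongr]

theorem padE_of (p : I.E × (Fin 2 → Fin N.D → I.E)) (f : ℕ → N.F)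
    (h : ∀ o j, f ((n.eR j : ℕ) + n.nR * mIx N o) = padFn I p (o, j)) :
    fnum (M N * n.nR) f = (n.padE p : ℕ) := by
  show _ = ((numT N.F (M N * n.nR) ((Equiv.arrowCongr (((mIx N).prodCongr n.eR).trans
    finProdFinEquiv) (Equiv.refl N.F)) (padFn I p)) : Fin _) : ℕ)
  rw [numT_val]
  refine fnum_congr fun i hi => ?_
  rw [ext0_of_lt _ hi]
  obtain ⟨⟨o, j⟩, hoj⟩ := (((mIx N).prodCongr n.eR).trans finProdFinEquiv).surjective ⟨i, hi⟩
  have h1 : ((n.eR j : ℕ) + n.nR * mIx N o) = i := by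
    have := congrArg Fin.val hoj
    simpa [finProdFinEquiv] using this
  have h2 := h o j
  rw [h1] at h2
  rw [h2, ← hoj]
  simp [Equiv.arrowCongr]

/-! ### Numbers of points and pads -/

theorem Qc_pos : 0 < n.Qc := by unfold Qc; have := Fintype.card_pos (α := N.F); positivity

theorem eP_val (p : I.P) : (n.eP p : ℕ) = (n.eY p.1 : ℕ) * n.Qc + n.cE p.2 := by
  show ((finProdFinEquiv (n.eY p.1, n.cE p.2) : Fin (n.nY * n.Qc)) : ℕ) = _
  rw [finProdFinEquiv_apply_val]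
  ring

theorem eii_val (i : Fin 2 → I.ι) : (n.eii i : ℕ) = (n.eι (i 0) : ℕ) * n.nι + n.eι (i 1) := by
  show ((finProdFinEquiv (n.eι (i 0), n.eι (i 1)) : Fin (n.nι * n.nι)) : ℕ) = _
  rw [finProdFinEquiv_apply_val]
  ring

theorem eZ_val (z : I.Z) : (n.eZ z : ℕ) =
    (n.padE (z.1, z.2.1) : ℕ) * (n.nι * n.nι) + n.eii z.2.2 := by
  show ((finProdFinEquiv (n.padE (z.1, z.2.1), n.eii z.2.2) :
    Fin (n.Qe * (n.nι * n.nι))) : ℕ) = _
  rw [finProdFinEquiv_apply_val]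
  ring

theorem NZ_pos : 0 < n.NZ := by
  obtain ⟨z⟩ : Nonempty I.Z :=
    ⟨(fun _ => 0, fun _ _ _ => 0, fun _ => Classical.arbitrary _)⟩
  exact lt_of_le_of_lt (Nat.zero_le _) (n.eZ z).2

theorem num_div (ω : I.P × I.Z) : n.num ω / n.NZ = (n.eP ω.1 : ℕ) := by
  unfold num
  rw [add_comm, Nat.add_mul_div_right _ _ n.NZ_pos, Nat.div_eq_of_lt (n.eZ ω.2).2, zero_add]

theorem num_mod (ω : I.P × I.Z) : n.num ω % n.NZ = (n.eZ ω.2 : ℕ) := by
  unfold num
  rw [add_comm, Nat.add_mul_mod_self_right, Nat.mod_eq_of_lt (n.eZ ω.2).2]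

theorem yN_num (ω : I.P × I.Z) : n.yN (n.num ω) = (n.eY ω.1.1 : ℕ) := by
  unfold yN
  rw [n.num_div, n.eP_val, add_comm, Nat.add_mul_div_right _ _ n.Qc_pos,
    Nat.div_eq_of_lt (n.cE ω.1.2).2, zero_add]
  exact min_eq_left (n.eY ω.1.1).2.le

theorem cN_num (ω : I.P × I.Z) : n.cN (n.num ω) = (n.cE ω.1.2 : ℕ) := by
  unfold cN
  rw [n.num_div, n.eP_val, add_comm, Nat.add_mul_mod_self_right, Nat.mod_eq_of_lt (n.cE ω.1.2).2]
  exact min_eq_left (n.cE ω.1.2).2.le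

theorem nι_pos : 0 < n.nι :=
  lt_of_le_of_lt (Nat.zero_le _) (n.eι (Classical.arbitrary _)).2

theorem ii_num (ω : I.P × I.Z) :
    n.num ω % n.NZ % (n.nι * n.nι) = (n.eii ω.2.2.2 : ℕ) := by
  rw [n.num_mod, n.eZ_val, add_comm, Nat.add_mul_mod_self_right,
    Nat.mod_eq_of_lt (n.eii ω.2.2.2).2]

theorem eN_num (ω : I.P × I.Z) : n.eN (n.num ω) = (n.padE (ω.2.1, ω.2.2.1) : ℕ) := by
  unfold eN
  rw [n.num_mod, n.eZ_val, add_comm, Nat.add_mul_div_right _ _ (Nat.mul_pos n.nι_pos n.nι_pos),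
    Nat.div_eq_of_lt (n.eii ω.2.2.2).2, zero_add]

theorem iN_num (ω : I.P × I.Z) (b : Fin 2) :
    n.iN (n.num ω) b = (n.eι (ω.2.2.2 b) : ℕ) := by
  unfold iN
  rw [n.ii_num, n.eii_val]
  fin_cases b
  · simp only [Fin.zero_eta, if_true]
    rw [add_comm, Nat.add_mul_div_right _ _ n.nι_pos, Nat.div_eq_of_lt (n.eι _).2, zero_add]
    exact min_eq_left (n.eι _).2.le
  · simp only [Fin.mk_one, one_ne_zero, if_false]
    rw [add_comm, Nat.add_mul_mod_self_right, Nat.mod_eq_of_lt (n.eι _).2]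
    exact min_eq_left (n.eι _).2.le

theorem num_asm (y : I.Y) (c : I.E) (c2 : I.E) (C : Fin 2 → Fin N.D → I.E) (i : Fin 2 → I.ι) :
    n.asm (n.eY y) (n.cE c) (n.padE (c2, C)) (n.eii i) = n.num ((y, c), (c2, C, i)) := by
  unfold asm num
  rw [n.eP_val, n.eZ_val]

/-! ### Raw reads -/

theorem crvN_eq (p : I.E × (Fin 2 → Fin N.D → I.E)) (b : Fin 2) (u : N.F) (j : I.R) :
    n.crvN b u (n.padE p) (n.eR j) = (∑ k : Fin N.D, u ^ ((k : ℕ) + 1) • p.2 b k) j := by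
  unfold crvN
  rw [Finset.sum_apply]
  refine Finset.sum_congr rfl fun k _ => ?_
  rw [n.dg_padE]
  rfl

theorem c2N_eq (p : I.E × (Fin 2 → Fin N.D → I.E)) (j : I.R) :
    n.c2N (n.padE p) (n.eR j) = p.1 j := by
  unfold c2N
  rw [n.dg_padE]
  rfl

variable {n}

theorem Ok.rdN_num (h : n.Ok) (R : N.Raw) (ω : I.P × I.Z) :
    n.rdN R (n.num ω) = n.num (I.rd R ω) := by
  obtain ⟨⟨y, c⟩, c2, C, i⟩ := ω
  have hy := n.yN_num ((y, c), (c2, C, i))
  have hc := n.cN_num ((y, c), (c2, C, i))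
  have he := n.eN_num ((y, c), (c2, C, i))
  have hi := n.iN_num ((y, c), (c2, C, i))
  have hii := n.ii_num ((y, c), (c2, C, i))
  dsimp only at hy hc he hi hii
  rcases R with ⟨k, p⟩ | u
  · show n.asm _ _ _ _ = _
    rw [hy, hc, he, hi, hii, h.g_ok, min_eq_left (n.eY _).2.le, h.d_ok,
      min_eq_left (n.eY _).2.le, h.add_ok]
    have h1 : fnum n.nR (fun j => (if p.1 = 0 then n.AN k (n.eY y) (n.cE c) j else 0) +
        n.c2N (n.padE (c2, C)) j + n.crvN p.1 p.2 (n.padE (c2, C)) j) =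
        (n.cE (rdPos I.r (I.g k y) (I.A k y c) i C c2 p).2 : ℕ) := by
      refine n.cE_of _ _ fun j => ?_
      rw [n.c2N_eq, n.crvN_eq, rdPos]
      dsimp only
      rw [crv_cons, Pi.add_apply]
      congr 1
      split_ifs
      · rw [h.A_ok, Pi.add_apply]
      · rw [zero_add]
    have h2 : fnum (M N * n.nR) (fun t => if t / n.nR = mIx N none then
        dgT N.F (n.cE c) (t % n.nR) else dgT N.F (n.padE (c2, C)) t) =
        (n.padE (c, C) : ℕ) := by
      refine n.padE_of _ _ fun o j => ?_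
      have h3 : 0 < n.nR := lt_of_le_of_lt (Nat.zero_le _) (n.eR j).2
      have h4 : ((n.eR j : ℕ) + n.nR * mIx N o) / n.nR = mIx N o := by
        rw [Nat.add_mul_div_left _ _ h3, Nat.div_eq_of_lt (n.eR j).2, zero_add]
      have h5 : ((n.eR j : ℕ) + n.nR * mIx N o) % n.nR = n.eR j := by
        rw [Nat.add_mul_mod_self_left, Nat.mod_eq_of_lt (n.eR j).2]
      rw [h4, h5]
      rcases o with _ | ⟨b, k⟩
      · rw [if_pos rfl, n.dg_cE]
        rfl
      · rw [if_neg, n.dg_padE]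
        · rfl
        · intro h6
          have h7 := (mIx N).injective (Fin.ext h6)
          exact absurd h7 (by simp)
    rw [h1, h2]
    exact n.num_asm _ _ _ _ _
  · show n.asm _ _ _ _ = _
    rw [hy, hc, he, hi, hii, h.d_ok, min_eq_left (n.eY _).2.le, h.add_ok]
    have h1 : fnum n.nR (fun j => dgT N.F (n.cE c) j + n.crvN 0 u (n.padE (c2, C)) j) =
        (n.cE (crv (Fin.cons c (C 0) : Fin (N.D + 1) → I.E) u) : ℕ) := by
      refine n.cE_of _ _ fun j => ?_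
      rw [n.dg_cE, n.crvN_eq, crv_cons, Pi.add_apply]
    rw [h1]
    exact n.num_asm _ _ _ _ _

theorem Ok.cbN_num (h : n.Ok) (v : N.V) (ω : I.P × I.Z) :
    n.cbN v (n.num ω) = I.v v ω.1.1 ω.1.2 := by
  unfold cbN
  rw [n.yN_num, n.cN_num, h.v_ok]

/-! ### The expanders -/

open Vale.Agent.P330.S (mgs mgN gap_mgs gap_congr zEquiv zEquiv_val)

/-- a type with `m ^ 2` numbered elements as pairs of residues -/
def sqE {V : Type*} {k m : ℕ} [NeZero m] (e : V ≃ Fin k) (h : k = m * m) :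
    V ≃ ZMod m × ZMod m :=
  e.trans ((finCongr h).trans
    (finProdFinEquiv.symm.trans ((zEquiv _).symm.prodCongr (zEquiv _).symm)))

theorem sqE_num {V : Type*} {k m : ℕ} [NeZero m] (e : V ≃ Fin k) (h : k = m * m) (v : V) :
    (e v : ℕ) = (sqE e h v).1.val * m + (sqE e h v).2.val := by
  have h1 : (finCongr h (e v)) =
      finProdFinEquiv (zEquiv _ (sqE e h v).1, zEquiv _ (sqE e h v).2) := by
    unfold sqE
    simp only [Equiv.trans_apply, Equiv.prodCongr_apply, Prod.map, Equiv.apply_symm_apply]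
    rw [Prod.mk.eta, Equiv.apply_symm_apply]
  have h2 := congrArg Fin.val h1
  simp only [finCongr_apply, Fin.val_cast, finProdFinEquiv_apply_val, zEquiv_val] at h2
  rw [h2]
  ring

/-- the expander on a type with `m ^ 2` numbered elements -/
def mgE {V : Type*} {k m : ℕ} [NeZero m] (e : V ≃ Fin k) (h : k = m * m) (j : Fin 4) : V ≃ V :=
  ((sqE e h).trans (mgs _ j)).trans (sqE e h).symm

theorem gap_mgE {V : Type*} [Fintype V] {k m : ℕ} [NeZero m] (e : V ≃ Fin k) (h : k = m * m) :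
    H855.Gap (mgE e h) (73 / 80) := gap_congr (sqE e h) (gap_mgs _)

theorem mgN_eq {V : Type*} {k m : ℕ} [NeZero m] (e : V ≃ Fin k) (h : k = m * m) (j : Fin 4)
    (v : V) : mgN m j (e v) = e (mgE e h j v) := by
  have hm : 0 < m := Nat.pos_of_ne_zero (NeZero.ne m)
  have hk : j = 0 ∨ j = 1 ∨ j = 2 ∨ j = 3 := by clear hm; revert j; decide
  generalize hq : sqE e h v = q
  have h1 := sqE_num e h v
  have h2 := sqE_num e h (mgE e h j v)
  have h3 : sqE e h (mgE e h j v) = mgs _ j q := by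
    rw [← hq]
    show sqE e h ((sqE e h).symm (mgs _ j (sqE e h v))) = _
    rw [Equiv.apply_symm_apply]
  rw [h3] at h2
  rw [hq] at h1
  have hy := ZMod.val_lt q.2
  have e1 : (e v : ℕ) / m = q.1.val := by
    rw [h1, add_comm, Nat.add_mul_div_right _ _ hm, Nat.div_eq_of_lt hy, zero_add]
  have e2 : (e v : ℕ) % m = q.2.val := by
    rw [h1, add_comm, Nat.add_mul_mod_self_right, Nat.mod_eq_of_lt hy]
  rw [h2]
  have key : ∀ a b : ZMod m, (a + 2 * b).val = (a.val + 2 * b.val) % m := by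
    intro a b
    have : ((a.val + 2 * b.val : ℕ) : ZMod m) = a + 2 * b := by
      push_cast
      rw [ZMod.natCast_zmod_val, ZMod.natCast_zmod_val]
    rw [← this, ZMod.val_natCast]
  have key1 : ∀ a b : ZMod m, (a + 2 * b + 1).val = (a.val + 2 * b.val + 1) % m := by
    intro a b
    have : ((a.val + 2 * b.val + 1 : ℕ) : ZMod m) = a + 2 * b + 1 := by
      push_cast
      rw [ZMod.natCast_zmod_val, ZMod.natCast_zmod_val]
    rw [← this, ZMod.val_natCast]
  rcases hk with rfl | rfl | rfl | rfl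
  · simp only [mgN, mgs, Lib.PCP.MGG.shear1, Equiv.coe_fn_mk, e1, e2, add_zero, key]
  · simp only [mgN, mgs, Lib.PCP.MGG.shear1, Equiv.coe_fn_mk, e1, e2, key1]
  · simp only [mgN, mgs, Lib.PCP.MGG.shear2, Equiv.coe_fn_mk, e1, e2, add_zero, key]
  · simp only [mgN, mgs, Lib.PCP.MGG.shear2, Equiv.coe_fn_mk, e1, e2, key1]

variable (n)

theorem mP_ne (h : n.NP = n.mP * n.mP) : NeZero n.mP := by
  refine ⟨fun h0 => ?_⟩
  rw [h0] at h
  have := (n.eP (0, fun _ => 0)).2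
  omega

theorem mZ_ne (h : n.NZ = n.mZ * n.mZ) : NeZero n.mZ := by
  refine ⟨fun h0 => ?_⟩
  rw [h0] at h
  have := n.NZ_pos
  omega

/-- the expander on the points of the table -/
noncomputable def sP (h : n.Ok) : Fin 4 → I.P ≃ I.P :=
  have := n.mP_ne h.P_sq
  mgE n.eP h.P_sq

/-- the expander on the pads -/
noncomputable def sZ (h : n.Ok) : Fin 4 → I.Z ≃ I.Z :=
  have := n.mZ_ne h.Z_sq
  mgE n.eZ h.Z_sq

theorem gap_sP (h : n.Ok) : H855.Gap (n.sP h) (73 / 80) :=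
  have := n.mP_ne h.P_sq
  gap_mgE n.eP h.P_sq

theorem gap_sZ [Fintype I.Z] (h : n.Ok) : H855.Gap (n.sZ h) (73 / 80) :=
  have := n.mZ_ne h.Z_sq
  gap_mgE n.eZ h.Z_sq

theorem mgN_sP (h : n.Ok) (j : Fin 4) (p : I.P) :
    mgN n.mP j (n.eP p) = n.eP (n.sP h j p) :=
  have := n.mP_ne h.P_sq
  mgN_eq n.eP h.P_sq j p

theorem mgN_sZ (h : n.Ok) (j : Fin 4) (z : I.Z) :
    mgN n.mZ j (n.eZ z) = n.eZ (n.sZ h j z) :=
  have := n.mZ_ne h.Z_sq
  mgN_eq n.eZ h.Z_sq j z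

/-! ### The numbering of the sites of the network -/

theorem nbN_num (h : n.Ok) (k : Fin 8) (ω : I.P × I.Z) :
    n.nbN k (n.num ω) = n.num (if hk : (k : ℕ) < 4 then (ω.1, n.sZ h ⟨k, hk⟩ ω.2)
      else (n.sP h ⟨k - 4, by omega⟩ ω.1, ω.2)) := by
  unfold nbN
  rw [n.num_div, n.num_mod]
  split_ifs with hk
  · rw [n.mgN_sZ h]
    rfl
  · rw [n.mgN_sP h]
    rfl

end CNum

end Vale.Agent.P330.Q
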