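import Vale.Agent.P330.Q.Low
import Vale.Agent.P330.Q.LTC.Read
import Vale.Agent.P330.Q.NumT
import Vale.Agent.P330.Q.DecNet
import Vale.Agent.P330.S.NumRdPT

/-!
# Project Q: the sites as numbers

`CNum I`: numbers for the points, the components and the directions of an instance `I`, and the
moves, functional maps and public bits on numbers.  From this:
* `CNum.cE`, `CNum.padE`, `CNum.eP`, `CNum.eZ`: numbers of functionals, of the coefficients of the
  curves, of the points of the table, of the pads; `CNum.num` numbers of the sites;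
* `CNum.rdN`, `CNum.cbN`, `CNum.nbN`: raw reads, public bits, neighbours on numbers;
* `CNum.sP`, `CNum.sZ`: the expanders.
-/

namespace Vale.Agent.P330.Q

open Finset
open Vale.Agent.P318.S (crv Low sgn ind CharBd fdist word)
open scoped BigOperators

variable {N : Code}

/-- Numbers for an instance. -/
structure CNum (I : CInst N) where
  /-- number of points -/
  nY : ℕ
  eY : I.Y ≃ Fin nY
  /-- number of components -/
  nR : ℕ
  eR : I.R ≃ Fin nR
  /-- number of directions -/
  nι : ℕ
  eι : I.ι ≃ Fin nι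
  /-- addition of points -/
  addN : ℕ → ℕ → ℕ
  /-- moves -/
  gN : N.K ⊕ N.KT → ℕ → ℕ
  /-- the point `r i u` -/
  dN : N.F → ℕ → ℕ
  /-- functional maps: number of the point, number of the functional, number of the component -/
  AN : N.K ⊕ N.KT → ℕ → ℕ → ℕ → N.F
  /-- public bits: number of the point, number of the functional -/
  vN : N.V → ℕ → ℕ → Bool
  /-- roots of the numbers of points of the table and of pads -/
  mP : ℕ
  mZ : ℕ

namespace CNum

variable {I : CInst N} (n : CNum I)

/-- number of the coefficients of the curves, and one -/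
def M (N : Code) : ℕ := Fintype.card (Option (Fin 2 × Fin N.D))

/-- numbers of the coefficients of the curves -/
noncomputable def mIx (N : Code) : Option (Fin 2 × Fin N.D) ≃ Fin (M N) :=
  (Fintype.equivFinOfCardEq rfl)

/-- number of functionals -/
def Qc : ℕ := Fintype.card N.F ^ n.nR

/-- numbers of functionals -/
noncomputable def cE : I.E ≃ Fin n.Qc :=
  (Equiv.arrowCongr n.eR (Equiv.refl N.F)).trans (numT N.F n.nR)

/-- the coefficients of the curves as one function -/
def padFn (I : CInst N) : I.E × (Fin 2 → Fin N.D → I.E) ≃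
    (Option (Fin 2 × Fin N.D) × I.R → N.F) where
  toFun p o := match o with
    | (none, r) => p.1 r
    | (some (b, j), r) => p.2 b j r
  invFun f := (fun r => f (none, r), fun b j r => f (some (b, j), r))
  left_inv _ := rfl
  right_inv f := by
    funext ⟨o, r⟩
    rcases o with _ | ⟨b, j⟩ <;> rfl

/-- number of the coefficients of the curves -/
def Qe : ℕ := Fintype.card N.F ^ (M N * n.nR)

/-- numbers of the coefficients of the curves -/
noncomputable def padE : I.E × (Fin 2 → Fin N.D → I.E) ≃ Fin n.Qe :=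
  (padFn I).trans ((Equiv.arrowCongr (((mIx N).prodCongr n.eR).trans finProdFinEquiv)
    (Equiv.refl N.F)).trans (numT N.F (M N * n.nR)))

/-- number of points of the table -/
def NP : ℕ := n.nY * n.Qc

/-- number of pads -/
def NZ : ℕ := n.Qe * (n.nι * n.nι)

/-- numbers of the points of the table -/
noncomputable def eP : I.P ≃ Fin n.NP := (n.eY.prodCongr n.cE).trans finProdFinEquiv

/-- numbers of the pairs of directions -/
def eii : (Fin 2 → I.ι) ≃ Fin (n.nι * n.nι) :=
  (finTwoArrowEquiv I.ι).trans ((n.eι.prodCongr n.eι).trans finProdFinEquiv)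

/-- numbers of the pads -/
noncomputable def eZ : I.Z ≃ Fin n.NZ :=
  (Equiv.prodAssoc _ _ _).symm.trans ((n.padE.prodCongr n.eii).trans finProdFinEquiv)

/-- number of the site -/
noncomputable def num (ω : I.P × I.Z) : ℕ := (n.eP ω.1 : ℕ) * n.NZ + (n.eZ ω.2 : ℕ)

/-! ### Parts of the number of a site -/

/-- number of the point -/
def yN (s : ℕ) : ℕ := min (s / n.NZ / n.Qc) n.nY

/-- number of the functional -/
def cN (s : ℕ) : ℕ := min (s / n.NZ % n.Qc) n.Qc

/-- number of the coefficients -/
def eN (s : ℕ) : ℕ := s % n.NZ / (n.nι * n.nι)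

/-- numbers of the directions -/
def iN (s : ℕ) (b : Fin 2) : ℕ :=
  if b = 0 then min (s % n.NZ % (n.nι * n.nι) / n.nι) n.nι
  else min (s % n.NZ % (n.nι * n.nι) % n.nι) n.nι

/-- value of the curve without the first term, at the component number `j` -/
noncomputable def crvN (b : Fin 2) (u : N.F) (e j : ℕ) : N.F :=
  ∑ k : Fin N.D, u ^ ((k : ℕ) + 1) * dgT N.F e (j + n.nR * mIx N (some (b, k)))

/-- first term of the curve -/
noncomputable def c2N (e j : ℕ) : N.F := dgT N.F e (j + n.nR * mIx N none)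

/-- the number with the given parts -/
def asm (y c e ii : ℕ) : ℕ := (y * n.Qc + c) * n.NZ + (e * (n.nι * n.nι) + ii)

/-- **The raw reads on numbers.** -/
noncomputable def rdN : N.Raw → ℕ → ℕ
  | .inl (k, p), s =>
    n.asm (n.addN (min (n.gN k (n.yN s)) n.nY) (min (n.dN p.2 (n.iN s p.1)) n.nY))
      (fnum n.nR fun j => (if p.1 = 0 then n.AN k (n.yN s) (n.cN s) j else 0) +
        n.c2N (n.eN s) j + n.crvN p.1 p.2 (n.eN s) j)
      (fnum (M N * n.nR) fun t => if t / n.nR = mIx N none then dgT N.F (n.cN s) (t % n.nR)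
        else dgT N.F (n.eN s) t)
      (s % n.NZ % (n.nι * n.nι))
  | .inr u, s =>
    n.asm (n.addN (n.yN s) (min (n.dN u (n.iN s 0)) n.nY))
      (fnum n.nR fun j => dgT N.F (n.cN s) j + n.crvN 0 u (n.eN s) j)
      (n.eN s) (s % n.NZ % (n.nι * n.nι))

/-- **Public bits on numbers.** -/
def cbN (v : N.V) (s : ℕ) : Bool := n.vN v (n.yN s) (n.cN s)

/-- **Neighbours on numbers.** -/
def nbN (k : Fin 8) (s : ℕ) : ℕ :=
  if h : (k : ℕ) < 4 then s / n.NZ * n.NZ + S.mgN n.mZ ⟨k, h⟩ (s % n.NZ)
  else S.mgN n.mP ⟨k - 4, by omega⟩ (s / n.NZ) * n.NZ + s % n.NZ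

/-- **What has to be known of the numbers.** -/
structure Ok : Prop where
  add_ok : ∀ y y', n.addN (n.eY y) (n.eY y') = n.eY (y + y')
  g_ok : ∀ k y, n.gN k (n.eY y) = n.eY (I.g k y)
  d_ok : ∀ u i, n.dN u (n.eι i) = n.eY (I.r i u)
  A_ok : ∀ k y c j, n.AN k (n.eY y) (n.cE c) (n.eR j) = I.A k y c j
  v_ok : ∀ v y c, n.vN v (n.eY y) (n.cE c) = I.v v y c
  P_sq : n.NP = n.mP * n.mP
  Z_sq : n.NZ = n.mZ * n.mZ

open Vale.Agent.Lib.PolyTime in
/-- **Everything is computable in polynomial time** for a family of instances. All arguments are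
clamped. -/
structure OkPT (A : Set Word) {α : Type*} [Enc α] {I : α → CInst N} (n : ∀ a, CNum (I a)) :
    Prop where
  nY : PT A (fun a => (n a).nY)
  nYb : PBd (fun a => (n a).nY)
  nR : PT A (fun a => (n a).nR)
  Qcb : PBd (fun a => (n a).Qc)
  nι : PT A (fun a => (n a).nι)
  nιb : PBd (fun a => (n a).nι)
  mP : PT A (fun a => (n a).mP)
  mZ : PT A (fun a => (n a).mZ)
  add : PT A (fun p : α × ℕ × ℕ => (n p.1).addN (min p.2.1 (n p.1).nY) (min p.2.2 (n p.1).nY))
  g : ∀ k, PT A (fun p : α × ℕ => (n p.1).gN k (min p.2 (n p.1).nY))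
  d : ∀ u, PT A (fun p : α × ℕ => (n p.1).dN u (min p.2 (n p.1).nι))
  Af : ∀ k, PTt A (fun p : α × ℕ × ℕ × ℕ =>
    (n p.1).AN k (min p.2.1 (n p.1).nY) (min p.2.2.1 (n p.1).Qc) (min p.2.2.2 (n p.1).nR))
  v : ∀ v, PT A (fun p : α × ℕ × ℕ =>
    (n p.1).vN v (min p.2.1 (n p.1).nY) (min p.2.2 (n p.1).Qc))

end CNum

end Vale.Agent.P330.Q
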