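import Vale.Agent.P330.Q.Mux
import Vale.Agent.P330.S.Germ
import Vale.Agent.P330.S.Prop2

/-!
# Networks over a local code: codes, contraction, multiplexers in the limit
-/

namespace Vale.Agent.P330.Q

open Filter PCP.AR
open H855 (mean)
open S (IsB Tst Ctl target ThOK TfOK HoldAt FollowAt aef ae_iff ae_of_le ae_of_small ae_pr_lt
  ae_fst base_of_ae exists_of_ae ae_map_bij ae_fiber ae_prod_fst pr_fiber)

variable {N : LSpec}

namespace GLim

variable (A : GLim N)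

/-- sequences of configurations -/
abbrev Cfg : Type := ∀ n, (A.I n).Cf

/-- the right value of the component `c` of the code of `w` -/
abbrev cod (w : A.Cfg) (c : N.C) : A.Pt → Bool := fun ω => (A.I ω.1).cod (w ω.1) c ω.2.1

/-- Register `z` holds the code of `w`, up to a null set. -/
def SCodes (z : Bool) (w : A.Cfg) : Prop :=
  ∀ c : N.C, A.Is (A.cod w c) (.x z c) ∧ A.Is (A.cod w c) (.lo z c) ∧
    A.Is (A.cod w c) (.hi z c)

/-- Register `z` holds the code of `w`, up to `ρ'`. -/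
def SNr (ρ' : ℝ) (z : Bool) (w : A.Cfg) : Prop :=
  ∀ᶠ n in (A.U : Filter ℕ), (A.I n).Near (A.ε n) ρ' (A.x n) z (w n)

/-- The corrected reads of the next configuration are right, up to `ρ'`. -/
def SNrA (ρ' : ℝ) (z : Bool) (w : A.Cfg) : Prop :=
  ∀ᶠ n in (A.U : Filter ℕ), NearA (A.I n) (A.ε n) ρ' (A.x n) z (w n)

/-- All registers are right at the site. -/
def SRt (z : Bool) (w : A.Cfg) (ω : A.Pt) : Prop :=
  Rt (A.I ω.1) (A.ε ω.1) (A.x ω.1) z (w ω.1) ω.2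

/-- all reads used by `h z` and `a z` are right -/
def Reads (z : Bool) (w : A.Cfg) (ω : A.Pt) : Prop :=
  ∀ k : N.K, A.SRt z w (A.rd (N.rd k).1 ω)

/-- the limits of the averages of the control bits -/
noncomputable def qs (i : Fin 3) : ℝ := A.av (.q i)

/-- the limits of the averages of the tests -/
noncomputable def Ts (k : Tst) : ℝ := A.av (.t k)

/-- next configurations -/
def stp (z : Bool) (w : A.Cfg) : A.Cfg := fun n => (A.I n).step z (w n)

variable {A}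

/-! ### Control bits -/

theorem fin_th (j : Fin 3) (l : Fin 5) : ∀ᶠ ω in A.F,
    ((((l : ℕ) : ℝ) + 1) / 6 < A.qs j → IsB (A.ε ω.1) true (A.v (.th j l) ω)) ∧
      (A.qs j < (((l : ℕ) : ℝ) + 1) / 6 → IsB (A.ε ω.1) false (A.v (.th j l) ω)) := by
  rcases lt_trichotomy ((((l : ℕ) : ℝ) + 1) / 6) (A.qs j) with h | h | h
  · filter_upwards [A.th_true (i := j) (l := l) h] with ω hω
    exact ⟨fun _ => hω, fun h' => absurd h' (not_lt.2 h.le)⟩
  · exact Eventually.of_forall fun ω =>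
      ⟨fun h' => absurd h' (not_lt.2 h.symm.le), fun h' => absurd h' (not_lt.2 h.le)⟩
  · filter_upwards [A.th_false (i := j) (l := l) h] with ω hω
    exact ⟨fun h' => absurd h' (not_lt.2 h.le), fun _ => hω⟩

theorem fin_tf (k : Tst) : ∀ᶠ ω in A.F,
    ((A.τ : ℝ) < A.Ts k → IsB (A.ε ω.1) true (A.v (.tf k) ω)) ∧
      (A.Ts k < (A.τ : ℝ) → IsB (A.ε ω.1) false (A.v (.tf k) ω)) := by
  rcases lt_trichotomy (A.τ : ℝ) (A.Ts k) with h | h | h
  · filter_upwards [A.tf_true (k := k) h] with ω hω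
    exact ⟨fun _ => hω, fun h' => absurd h' (not_lt.2 h.le)⟩
  · exact Eventually.of_forall fun ω =>
      ⟨fun h' => absurd h' (not_lt.2 h.symm.le), fun h' => absurd h' (not_lt.2 h.le)⟩
  · filter_upwards [A.tf_false (k := k) h] with ω hω
    exact ⟨fun h' => absurd h' (not_lt.2 h.le), fun _ => hω⟩

/-- **Control bits.** -/
theorem s_ctl (i : Fin 3) (b : Bool) (h : ∀ y : Ctl, ThOK A.qs y.th → TfOK (A.τ : ℝ) A.Ts y.tf →
    target y.th y.v (y.sg false) (y.sg true) i = b) : A.qs i = if b then 1 else 0 := by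
  have h1 : A.Is (fun _ => b) (.q i) := by
    have e1 : ∀ᶠ ω in A.F, ∀ (j : Fin 3) (l : Fin 5),
        ((((l : ℕ) : ℝ) + 1) / 6 < A.qs j → IsB (A.ε ω.1) true (A.v (.th j l) ω)) ∧
        (A.qs j < (((l : ℕ) : ℝ) + 1) / 6 → IsB (A.ε ω.1) false (A.v (.th j l) ω)) := by
      rw [eventually_all]
      intro j
      rw [eventually_all]
      exact fun l => fin_th j l
    have e2 : ∀ᶠ ω in A.F, ∀ k : Tst,
        ((A.τ : ℝ) < A.Ts k → IsB (A.ε ω.1) true (A.v (.tf k) ω)) ∧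
        (A.Ts k < (A.τ : ℝ) → IsB (A.ε ω.1) false (A.v (.tf k) ω)) := by
      rw [eventually_all]
      exact fun k => fin_tf k
    filter_upwards [A.rel (.q i), e1, e2] with ω g1 g2 g3
    exact ctl_pt g1 ((A.facts ω.1).rd_self _) g2 g3 h
  cases b with
  | false => exact av_of_is_false h1
  | true => exact av_of_is_true h1

/-! ### Thresholds in front of the multiplexers -/

theorem th_hold {z : Bool} (h : HoldAt A.qs z) :
    ∀ᶠ ω in A.F, IsB (A.ε ω.1) z (A.v (.th 1 (if z then 1 else 3)) ω) := by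
  cases z with
  | false =>
    have h' : A.qs 1 < 2 / 3 := by simpa [HoldAt] using h
    exact A.th_false (i := 1) (l := 3) (by
      have : A.av (.q 1) < 2 / 3 := h'
      norm_num
      linarith)
  | true =>
    have h' : 1 / 3 < A.qs 1 := by simpa [HoldAt] using h
    exact A.th_true (i := 1) (l := 1) (by
      have : 1 / 3 < A.av (.q 1) := h'
      norm_num
      linarith)

theorem th_follow {z : Bool} (h : FollowAt A.qs z) :
    ∀ᶠ ω in A.F, IsB (A.ε ω.1) (!z) (A.v (.th 1 (if z then 1 else 3)) ω) := by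
  cases z with
  | false =>
    have h' : 2 / 3 < A.qs 1 := by simpa [FollowAt] using h
    exact A.th_true (i := 1) (l := 3) (by
      have : 2 / 3 < A.av (.q 1) := h'
      norm_num
      linarith)
  | true =>
    have h' : A.qs 1 < 1 / 3 := by simpa [FollowAt] using h
    exact A.th_false (i := 1) (l := 1) (by
      have : A.av (.q 1) < 1 / 3 := h'
      norm_num
      linarith)

theorem th_s_lt (h : A.qs 2 < 1 / 6) : ∀ᶠ ω in A.F, IsB (A.ε ω.1) false (A.v (.th 2 0) ω) :=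
  A.th_false (i := 2) (l := 0) (by
    have : A.av (.q 2) < 1 / 6 := h
    norm_num
    linarith)

theorem th_s_gt (h : 1 / 6 < A.qs 2) : ∀ᶠ ω in A.F, IsB (A.ε ω.1) true (A.v (.th 2 0) ω) :=
  A.th_true (i := 2) (l := 0) (by
    have : 1 / 6 < A.av (.q 2) := h
    norm_num
    linarith)

theorem th_a_lt (h : A.qs 0 < 1 / 2) : ∀ᶠ ω in A.F, IsB (A.ε ω.1) false (A.v (.th 0 2) ω) :=
  A.th_false (i := 0) (l := 2) (by
    have : A.av (.q 0) < 1 / 2 := h
    norm_num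
    linarith)

theorem th_a_gt (h : 1 / 2 < A.qs 0) : ∀ᶠ ω in A.F, IsB (A.ε ω.1) true (A.v (.th 0 2) ω) :=
  A.th_true (i := 0) (l := 2) (by
    have : 1 / 2 < A.av (.q 0) := h
    norm_num
    linarith)

/-! ### Codes -/

theorem scodes_of_m {z : Bool} {w : A.Cfg} (h : ∀ c, A.Is (A.cod w c) (.m z c)) :
    A.SCodes z w := fun c =>
  A.codes_of_m (z := z) (c := c)
    (g := fun p => (A.I p.1).cod (w p.1) c p.2) (h c)

theorem srt_of_codes {z : Bool} {w : A.Cfg} (h : A.SCodes z w) :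
    ∀ᶠ ω in A.F, A.SRt z w ω := by
  have h1 : ∀ᶠ ω in A.F, ∀ c : N.C, IsB (A.ε ω.1) (A.cod w c ω) (A.v (.x z c) ω) := by
    rw [eventually_all]
    exact fun c => (h c).1
  filter_upwards [h1] with ω hω
  exact hω

theorem snr_of_codes {z : Bool} {w : A.Cfg} {ρ' : ℝ} (hρ : 0 < ρ') (h : A.SCodes z w) :
    A.SNr ρ' z w := by
  filter_upwards [ae_pr_lt (srt_of_codes h) hρ] with n hn
  rw [near_iff]
  exact hn.le

theorem cod_congr {w w' : A.Cfg} (h : ∀ᶠ n in (A.U : Filter ℕ), w n = w' n) :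
    ∀ᶠ ω in A.F, ∀ c, A.cod w c ω = A.cod w' c ω := by
  have := ae_fst (Ω := fun n => (A.I n).P × (A.I n).Z) (Q := fun n => w n = w' n) h
  filter_upwards [this] with ω hω c
  show (A.I ω.1).cod (w ω.1) c ω.2.1 = (A.I ω.1).cod (w' ω.1) c ω.2.1
  rw [hω]

theorem scodes_congr {z : Bool} {w w' : A.Cfg} (h : ∀ᶠ n in (A.U : Filter ℕ), w n = w' n)
    (hc : A.SCodes z w) : A.SCodes z w' := by
  intro c
  obtain ⟨a1, a2, a3⟩ := hc c
  have h1 := cod_congr h
  refine ⟨?_, ?_, ?_⟩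
  · filter_upwards [a1, h1] with ω g1 g2
    rw [← g2]; exact g1
  · filter_upwards [a2, h1] with ω g1 g2
    rw [← g2]; exact g1
  · filter_upwards [a3, h1] with ω g1 g2
    rw [← g2]; exact g1

theorem snr_congr {ρ' : ℝ} {z : Bool} {w w' : A.Cfg} (h : ∀ᶠ n in (A.U : Filter ℕ), w n = w' n)
    (hc : A.SNr ρ' z w) : A.SNr ρ' z w' := by
  filter_upwards [h, hc] with n h1 h2
  rw [← h1]
  exact h2

/-! ### Comparisons -/

theorem s_E0_complete {w : A.Cfg} (h1 : A.SCodes false w) (h2 : A.SCodes true w) :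
    A.Ts .E0 = 0 := by
  refine av_of_is_false ?_
  filter_upwards [A.rel (.t .E0), srt_of_codes h1, srt_of_codes h2] with ω g1 g2 g3
  exact E0_pt (A.facts ω.1) g1 g2 g3

theorem s_D_complete {z : Bool} (h1 : A.SCodes z fun n => (A.I n).w0) : A.Ts (.D z) = 0 := by
  refine av_of_is_false ?_
  filter_upwards [A.rel (.t (.D z)), srt_of_codes h1] with ω g1 g2
  exact D_pt (A.facts ω.1) g1 g2

theorem s_E0_sound {ρ' : ℝ} (hρ : 0 < ρ') (hτ : (A.τ : ℝ) < A.θ - 3 * ρ') {w w' : A.Cfg}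
    (h : A.Ts .E0 ≤ A.τ) (h1 : A.SNr ρ' false w) (h2 : A.SNr ρ' true w') :
    ∀ᶠ n in (A.U : Filter ℕ), w n = w' n := by
  by_contra hcon
  have hne : ∀ᶠ n in (A.U : Filter ℕ), w n ≠ w' n := Ultrafilter.eventually_not.2 hcon
  have key : A.θ - 3 * ρ' ≤ A.av (.t .E0) := by
    refine le_av_of_pr ?_
    filter_upwards [h1, h2, hne, A.β_lim.eventually (gt_mem_nhds hρ)] with n g1 g2 g3 g4
    have := E0_lower (A.facts n) ((A.obeys n).2 (.t .E0)) g1 g2 g3
    linarith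
  have : A.av (.t .E0) ≤ A.τ := h
  linarith

theorem s_D_sound {ρ' : ℝ} (hρ : 0 < ρ') (hτ : (A.τ : ℝ) < A.θ - 3 * ρ') {z : Bool}
    {w : A.Cfg} (h : A.Ts (.D z) ≤ A.τ) (h1 : A.SNr ρ' z w) :
    ∀ᶠ n in (A.U : Filter ℕ), w n = (A.I n).w0 := by
  by_contra hcon
  have hne : ∀ᶠ n in (A.U : Filter ℕ), w n ≠ (A.I n).w0 := Ultrafilter.eventually_not.2 hcon
  have key : A.θ - 3 * ρ' ≤ A.av (.t (.D z)) := by
    refine le_av_of_pr ?_
    filter_upwards [h1, hne, A.β_lim.eventually (gt_mem_nhds hρ)] with n g1 g3 g4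
    have := D_lower (A.facts n) ((A.obeys n).2 (.t (.D z))) g1 g3
    linarith
  have : A.av (.t (.D z)) ≤ A.τ := h
  linarith

theorem s_E1_sound {ρ' C : ℝ} (hρ : 0 < ρ') (hτ : (A.τ : ℝ) < A.θ - (2 + C) * ρ')
    {w w' : A.Cfg} (h : A.Ts .E1 ≤ A.τ) (h1 : A.SNrA (C * ρ') false w) (h2 : A.SNr ρ' true w') :
    ∀ᶠ n in (A.U : Filter ℕ), w' n = w n := by
  by_contra hcon
  have hne : ∀ᶠ n in (A.U : Filter ℕ), w' n ≠ w n := Ultrafilter.eventually_not.2 hcon
  have key : A.θ - (2 + C) * ρ' ≤ A.av (.t .E1) := by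
    refine le_av_of_pr ?_
    filter_upwards [h1, h2, hne, A.β_lim.eventually (gt_mem_nhds hρ)] with n g1 g2 g3 g4
    have := E1_lower (A.facts n) ((A.obeys n).2 (.t .E1)) g1 g2 g3
    linarith
  have : A.av (.t .E1) ≤ A.τ := h
  linarith

theorem s_E1_complete {w : A.Cfg}
    (h1 : ∀ c, A.Is (A.cod w c) (.a false c)) (h2 : A.SCodes true w) : A.Ts .E1 = 0 := by
  refine av_of_is_false ?_
  have h3 : ∀ᶠ ω in A.F, ∀ c : N.C, IsB (A.ε ω.1) (A.cod w c ω) (A.v (.a false c) ω) := by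
    rw [eventually_all]
    exact h1
  filter_upwards [A.rel (.t .E1), h3, srt_of_codes h2] with ω g1 g2 g3
  exact E1_pt (A.facts ω.1) g1 g2 g3

/-! ### Corrected reads -/

theorem h_reads (z : Bool) (w : A.Cfg) : ∀ᶠ ω in A.F, A.Reads z w ω →
    ∀ c, IsB (A.ε ω.1) (A.cod w c ω) (A.v (.h z c) ω) := by
  have h1 : ∀ᶠ ω in A.F, ∀ c, (net N A.τ (.h z c)).Rel (A.I ω.1).sem (A.ε ω.1) (A.lam ω.1)
      (A.x ω.1) (.h z c) ω.2 := by
    rw [eventually_all]
    exact fun c => A.rel (.h z c)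
  filter_upwards [h1] with ω g1 g2 c
  exact h_pt ((A.facts ω.1).h_ok (w ω.1) c ω.2) (g1 c) g2

theorem a_reads (z : Bool) (w : A.Cfg) (hv : ∀ᶠ n in (A.U : Filter ℕ), (A.I n).Valid (w n)) :
    ∀ᶠ ω in A.F, A.Reads z w ω →
      ∀ c, IsB (A.ε ω.1) (A.cod (A.stp z w) c ω) (A.v (.a z c) ω) := by
  have h1 : ∀ᶠ ω in A.F, ∀ c, (net N A.τ (.a z c)).Rel (A.I ω.1).sem (A.ε ω.1) (A.lam ω.1)
      (A.x ω.1) (.a z c) ω.2 := by
    rw [eventually_all]
    exact fun c => A.rel (.a z c)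
  have h2 := ae_fst (Ω := fun n => (A.I n).P × (A.I n).Z)
    (Q := fun n => (A.I n).Valid (w n)) hv
  filter_upwards [h1, h2] with ω g1 g2 g3 c
  exact a_pt ((A.facts ω.1).a_ok z (w ω.1) g2 c ω.2) (g1 c) g3

theorem reads_of_srt {z : Bool} {w : A.Cfg} (h : ∀ᶠ ω in A.F, A.SRt z w ω) :
    ∀ᶠ ω in A.F, A.Reads z w ω := by
  unfold Reads
  rw [eventually_all]
  exact fun k => A.ae_rd h _

theorem reads_of_codes {z : Bool} {w : A.Cfg} (h : A.SCodes z w) :
    ∀ᶠ ω in A.F, A.Reads z w ω := reads_of_srt (srt_of_codes h)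

theorem a_is' {z : Bool} {w : A.Cfg} (hv : ∀ᶠ n in (A.U : Filter ℕ), (A.I n).Valid (w n))
    (h : A.SCodes z w) (c : N.C) : A.Is (A.cod (A.stp z w) c) (.a z c) := by
  filter_upwards [a_reads z w hv, reads_of_codes h] with ω g1 g2
  exact g1 g2 c

/-- union bound over the reads -/
theorem pr_reads {K : Type} [Fintype K] (n : ℕ) (R : K → N.Rd) (G : (A.I n).Site → Prop) :
    pr (fun ω => ∃ k, G ((A.I n).rd (R k) ω)) ≤ Fintype.card K * pr G :=
  S.pr_exists_le (fun (k : K) ω => G ((A.I n).rd (R k) ω)) (pr G) fun k =>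
    (pr_equiv (Equiv.ofBijective _ ((A.facts n).rd_bij (R k))) G).le

theorem a_near {z : Bool} {w : A.Cfg} {ρ' : ℝ} (hρ : 0 < ρ') (hn : A.SNr ρ' z w)
    (hv : ∀ᶠ n in (A.U : Filter ℕ), (A.I n).Valid (w n)) :
    A.SNrA ((Fintype.card N.K + 1) * ρ') z (A.stp z w) := by
  filter_upwards [hn, ae_pr_lt (a_reads z w hv) hρ] with n h1 h2
  rw [near_iff] at h1
  have h3 := A.pr_reads n (fun k : N.K => (N.rd k).1)
    (fun σ => ¬ Rt (A.I n) (A.ε n) (A.x n) z (w n) σ)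
  have h4 := pr_or (fun ω : (A.I n).Site => ∃ k : N.K,
    ¬ Rt (A.I n) (A.ε n) (A.x n) z (w n) ((A.I n).rd (N.rd k).1 ω))
    (fun ω : (A.I n).Site => ¬ (A.Reads z w (⟨n, ω⟩ : A.Pt) →
      ∀ c, IsB (A.ε n) (A.cod (A.stp z w) c (⟨n, ω⟩ : A.Pt)) (A.v (.a z c) (⟨n, ω⟩ : A.Pt))))
  have h5 : pr (fun ω : (A.I n).Site => ∃ c : N.C, ¬ IsB (A.ε n)
      ((A.I n).cod (A.stp z w n) c ω.1) (A.x n (.a z c) ω)) ≤ _ :=
    le_trans (pr_mono fun ω hω => ?_) h4
  · have h6 : (Fintype.card N.K : ℝ) * pr (fun σ => ¬ Rt (A.I n) (A.ε n) (A.x n) z (w n) σ) ≤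
      Fintype.card N.K * ρ' := mul_le_mul_of_nonneg_left h1 (Nat.cast_nonneg _)
    have h7 : pr (fun ω : (A.I n).Site => ∃ c : N.C, ¬ IsB (A.ε n)
      ((A.I n).cod (A.stp z w n) c ω.1) (A.x n (.a z c) ω)) ≤
        (Fintype.card N.K + 1) * ρ' := by
      have h2' := h2.le
      linarith
    exact h7
  · obtain ⟨c, hc⟩ := hω
    by_cases hr : A.Reads z w (⟨n, ω⟩ : A.Pt)
    · exact Or.inr fun h => hc (h hr c)
    · left
      unfold Reads at hr
      push Not at hr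
      exact hr

/-! ### Contraction -/

/-- Bad points: for some register in `Z` and some component, what is written is wrong on a
quarter of the pads. -/
def BadM (I : LInst N) (ε : ℝ) (x : LReg N.C → I.Site → ℝ) (Z : Finset Bool)
    (w : Bool → I.Cf) (p : I.P) : Prop :=
  1 / 4 ≤ pr (fun y : I.Z => ∃ z ∈ Z, ∃ c : N.C,
    ¬ IsB ε (I.cod (w z) c p) (x (.m z c) (p, y)))

/-- The register `z` is right at `σ` if its point is not bad. -/
theorem rt_of_not_bad {I : LInst N} {τ : ℚ} {ε lam : ℝ} {x : LReg N.C → I.Site → ℝ}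
    {Z : Finset Bool} {w : Bool → I.Cf} (hε : 0 ≤ ε) (hε' : ε < 1 / 100)
    (h01 : ∀ ρ ω, 0 ≤ x ρ ω ∧ x ρ ω ≤ 1) {z : Bool} (hz : z ∈ Z) {σ : I.Site}
    (hrel : ∀ c, (net N τ (.x z c)).Rel I.sem ε lam x (.x z c) σ)
    (hp : ∀ c, |x (.p z c) σ - (∑ y : I.Z, x (.m z c) (σ.1, y)) / Fintype.card I.Z| ≤ 1 / 16)
    (hB : ¬ BadM I ε x Z w σ.1) :
    Rt I ε x z (w z) σ := by
  intro c
  obtain ⟨r1, r2⟩ := hrel c
  have h2 := abs_le.1 (hp c)
  have h3 : pr (fun y : I.Z => ¬ IsB ε (I.cod (w z) c σ.1) (x (.m z c) (σ.1, y))) ≤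
      1 / 4 := le_trans (pr_mono fun y hy => ⟨z, hz, c, hy⟩) (not_le.1 hB).le
  have h4 := S.mean_of_pr hε (fun y => (h01 (.m z c) (σ.1, y)).1)
    (fun y => (h01 (.m z c) (σ.1, y)).2) h3
  rcases hb : I.cod (w z) c σ.1 with _ | _
  · have h5 := h4.2 hb
    apply r2
    push_cast
    linarith
  · have h5 := h4.1 hb
    apply r1
    push_cast
    linarith

/-- **Contraction**, finite form. -/
theorem contraction_fin {θ ρ₁ g : ℝ} {I : LInst N} (F : I.Facts θ ρ₁ g) (B : I.P → Prop)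
    (W G N1 N2 : I.Site → Prop)
    (h1 : ∀ p, B p → 1 / 4 ≤ pr (fun y : I.Z => W (p, y)))
    (h2 : ∀ ω, W ω → N1 ω ∨ ∃ k : N.K, G (I.rd (N.rd k).1 ω))
    (h3 : ∀ σ, G σ → N2 σ ∨ B σ.1)
    (h4 : 4 * (pr N1 + Fintype.card N.K * pr G) ≤ ρ₁) :
    pr B ≤ 16 * (pr N1 + Fintype.card N.K * pr N2) := by
  have hrd : ∀ H : I.Site → Prop, pr (fun ω => ∃ k : N.K, H (I.rd (N.rd k).1 ω)) ≤
      Fintype.card N.K * pr H := fun H =>
    S.pr_exists_le (fun (k : N.K) ω => H (I.rd (N.rd k).1 ω)) (pr H) fun k =>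
      (pr_equiv (Equiv.ofBijective _ (F.rd_bij (N.rd k).1)) H).le
  -- first bound
  have hB : pr B ≤ ρ₁ := by
    have e1 := pr_fiber W (1 / 4)
    have e2 : pr B ≤ pr (fun p : I.P => (1 / 4 : ℝ) ≤ pr fun y : I.Z => W (p, y)) := pr_mono h1
    have e3 := (pr_mono h2).trans (pr_or N1 (fun ω => ∃ k : N.K, G (I.rd (N.rd k).1 ω)))
    have e4 := hrd G
    linarith
  -- second bound
  have hs := F.samp B hB
  set M : I.Site → Prop := fun ω => N1 ω ∨ ∃ k : N.K, N2 (I.rd (N.rd k).1 ω) with hM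
  have e1 : pr B ≤ pr (fun p : I.P => (1 / 8 : ℝ) ≤ pr fun y : I.Z => M (p, y)) +
      pr (fun p : I.P => (1 / 8 : ℝ) ≤ pr fun y : I.Z => ∃ k : N.K,
        B (I.rd (N.rd k).1 (p, y)).1) := by
    refine (pr_mono fun p hp => ?_).trans (pr_or _ _)
    by_contra hc
    push Not at hc
    have a1 : pr (fun y : I.Z => W (p, y)) ≤ pr (fun y : I.Z => M (p, y) ∨ ∃ k : N.K,
        B (I.rd (N.rd k).1 (p, y)).1) := by
      refine pr_mono fun y hy => ?_
      rcases h2 _ hy with h | ⟨k, hk⟩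
      · exact Or.inl (Or.inl h)
      · rcases h3 _ hk with h | h
        · exact Or.inl (Or.inr ⟨k, h⟩)
        · exact Or.inr ⟨k, h⟩
    have a2 := pr_or (fun y : I.Z => M (p, y)) (fun y => ∃ k : N.K,
        B (I.rd (N.rd k).1 (p, y)).1)
    have a3 := h1 p hp
    linarith [hc.1, hc.2]
  have e2 := pr_fiber M (1 / 8)
  have e3 := pr_or N1 (fun ω => ∃ k : N.K, N2 (I.rd (N.rd k).1 ω))
  have e4 := hrd N2
  have e5 : pr M ≤ pr N1 + pr (fun ω => ∃ k : N.K, N2 (I.rd (N.rd k).1 ω)) := e3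
  linarith

/-- Bad points at the site. -/
def BadAtSite (Z : Finset Bool) (w : Bool → A.Cfg) (ω : A.Pt) : Prop :=
  BadM (A.I ω.1) (A.ε ω.1) (A.x ω.1) Z (fun z => w z ω.1) ω.2.1

theorem rt_of_not_badAtSite (Z : Finset Bool) (w : Bool → A.Cfg) :
    ∀ᶠ ω in A.F, ¬ BadAtSite Z w ω → ∀ z ∈ Z, A.SRt z (w z) ω := by
  have h1 : ∀ᶠ ω in A.F, ∀ z c, (net N A.τ (.x z c)).Rel (A.I ω.1).sem (A.ε ω.1)
      (A.lam ω.1) (A.x ω.1) (.x z c) ω.2 :=
    Filter.eventually_all.2 fun z => Filter.eventually_all.2 fun c => A.rel (.x z c)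
  have h2 : ∀ᶠ ω in A.F, ∀ z c, |A.v (.p z c) ω - A.pm (.m z c) ω| < 1 / 16 :=
    Filter.eventually_all.2 fun z => Filter.eventually_all.2 fun c =>
      A.ra_false (ρ := .p z c) (ρ' := .m z c) rfl (by norm_num)
  filter_upwards [h1, h2] with ω g1 g2 hb z hz
  exact rt_of_not_bad (w := fun z => w z ω.1) (A.ε_pos _).le (A.ε_lt _)
    (fun ρ σ => (A.obeys ω.1).1 ρ σ) hz (g1 z) (fun c => (g2 z c).le) hb

/-- `ρ'` is small enough for the contraction. -/
def Small (A : GLim N) (ρ' : ℝ) : Prop :=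
  0 ≤ ρ' ∧ 0 < A.ρ₁ ∧ 16 * (Fintype.card N.K * ρ') ≤ A.ρ₁

theorem not_badAtSite (Z : Finset Bool) (w : Bool → A.Cfg) {ρ' : ℝ} (hρ : A.Small ρ')
    (hn : ∀ z ∈ Z, A.SNr ρ' z (w z))
    (H : ∀ᶠ ω in A.F, (∀ z ∈ Z, A.Reads z (w z) ω) → ∀ z ∈ Z, ∀ c,
      IsB (A.ε ω.1) (A.cod (w z) c ω) (A.v (.m z c) ω)) :
    ∀ᶠ ω in A.F, ¬ BadAtSite Z w ω := by
  classical
  obtain ⟨hρ0, hρ1, hρ2⟩ := hρ
  have hx := rt_of_not_badAtSite Z w
  refine ae_of_small fun η hη => ?_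
  set K : ℝ := ((Fintype.card N.K : ℕ) : ℝ) with hK
  have hK0 : 0 ≤ K := Nat.cast_nonneg _
  have hη1 : (0 : ℝ) < A.ρ₁ / 8 := by positivity
  have hη2 : (0 : ℝ) < η / (16 * (K + 1)) := by positivity
  have hN' : ∀ᶠ n in (A.U : Filter ℕ), ∀ z ∈ Z, (A.I n).Near (A.ε n) ρ' (A.x n) z (w z n) := by
    rw [Filter.eventually_all_finset]
    exact hn
  filter_upwards [ae_pr_lt H (lt_min hη1 hη2), ae_pr_lt hx hη2, hN'] with n h1 h2 h3
  set I := A.I n with hI
  set B : I.P → Prop := BadM I (A.ε n) (A.x n) Z (fun z => w z n) with hB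
  set W : I.Site → Prop := fun ω => ∃ z ∈ Z, ∃ c : N.C,
    ¬ IsB (A.ε n) (I.cod (w z n) c ω.1) (A.x n (.m z c) ω) with hW
  set G : I.Site → Prop := fun σ => ∃ z ∈ Z, ¬ Rt I (A.ε n) (A.x n) z (w z n) σ with hG
  set N1 : I.Site → Prop := fun ω => ¬ ((∀ z ∈ Z, A.Reads z (w z) (⟨n, ω⟩ : A.Pt)) → ∀ z ∈ Z, ∀ c,
      IsB (A.ε n) (A.cod (w z) c (⟨n, ω⟩ : A.Pt)) (A.v (.m z c) (⟨n, ω⟩ : A.Pt))) with hN1
  set N2 : I.Site → Prop := fun ω => ¬ (¬ BadAtSite Z w (⟨n, ω⟩ : A.Pt) →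
    ∀ z ∈ Z, A.SRt z (w z) (⟨n, ω⟩ : A.Pt)) with hN2
  have g0 : pr G ≤ 2 * ρ' := by
    have := MLT.pr_union Z (fun z σ => ¬ Rt I (A.ε n) (A.x n) z (w z n) σ) ρ'
      (fun z hz => near_iff.1 (h3 z hz))
    refine le_trans this ?_
    have : (Z.card : ℝ) ≤ 2 := by
      have := Finset.card_le_univ Z
      simp at this
      exact_mod_cast this
    exact mul_le_mul_of_nonneg_right this hρ0
  have key := contraction_fin (A.facts n) B W G N1 N2 (fun p hp => hp) (fun ω hω => ?_)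
    (fun σ hσ => ?_) ?_
  · have e1 : pr (fun ω : I.Site => ¬ ¬ BadAtSite Z w (⟨n, ω⟩ : A.Pt)) = pr B := by
      rw [← pr_fst (Ω := I.P) (Ω' := I.Z) B]
      exact pr_congr fun ω => not_not
    have e2 : pr N1 < η / (16 * (K + 1)) := h1.trans_le (min_le_right _ _)
    have e3 : pr N2 < η / (16 * (K + 1)) := h2
    have e4 : K * pr N2 ≤ K * (η / (16 * (K + 1))) := mul_le_mul_of_nonneg_left e3.le hK0
    have e5 : η / (16 * (K + 1)) + K * (η / (16 * (K + 1))) = η / 16 := by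
      field_simp
      ring
    have e6 : pr (fun ω : I.Site => ¬ ¬ BadAtSite Z w (⟨n, ω⟩ : A.Pt)) ≤ η := by
      rw [e1]
      linarith
    exact e6
  · by_cases g1 : N1 ω
    · exact Or.inl g1
    right
    by_contra g2
    obtain ⟨z, hz, c, hc⟩ := hω
    refine hc (not_not.1 g1 (fun z hz k => ?_) z hz c)
    by_contra h
    exact g2 ⟨k, z, hz, h⟩
  · by_cases hb : B σ.1
    · exact Or.inr hb
    · left
      obtain ⟨z, hz, h⟩ := hσ
      exact fun hc => h (hc hb z hz)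
  · have e1 : pr N1 ≤ A.ρ₁ / 8 := (h1.trans_le (min_le_left _ _)).le
    have e2 : K * pr G ≤ K * (2 * ρ') := mul_le_mul_of_nonneg_left g0 hK0
    linarith

/-- **Joint contraction**: if the registers in `Z` are near the codes and, at almost all sites,
right reads give right values of `m`, then the registers hold the codes up to null sets. -/
theorem joint (Z : Finset Bool) (w : Bool → A.Cfg) {ρ' : ℝ} (hρ : A.Small ρ')
    (hn : ∀ z ∈ Z, A.SNr ρ' z (w z))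
    (H : ∀ᶠ ω in A.F, (∀ z ∈ Z, A.Reads z (w z) ω) → ∀ z ∈ Z, ∀ c,
      IsB (A.ε ω.1) (A.cod (w z) c ω) (A.v (.m z c) ω)) :
    ∀ z ∈ Z, A.SCodes z (w z) := by
  have hrt : ∀ᶠ ω in A.F, ∀ z ∈ Z, A.SRt z (w z) ω := by
    filter_upwards [rt_of_not_badAtSite Z w, not_badAtSite Z w hρ hn H] with ω g1 g2
    exact g1 g2
  have hrr : ∀ᶠ ω in A.F, ∀ z ∈ Z, A.Reads z (w z) ω := by
    have h1 : ∀ᶠ ω in A.F, ∀ k : N.K, ∀ z ∈ Z, A.SRt z (w z) (A.rd (N.rd k).1 ω) :=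
      Filter.eventually_all.2 fun _ => A.ae_rd hrt _
    filter_upwards [h1] with ω g1 z hz k
    exact g1 k z hz
  intro z hz
  refine scodes_of_m fun c => ?_
  filter_upwards [H, hrr] with ω g1 g2
  exact g1 g2 z hz c

theorem single {z : Bool} {w : A.Cfg} {ρ' : ℝ} (hρ : A.Small ρ') (hn : A.SNr ρ' z w)
    (H : ∀ᶠ ω in A.F, A.Reads z w ω →
      ∀ c, IsB (A.ε ω.1) (A.cod w c ω) (A.v (.m z c) ω)) : A.SCodes z w := by
  refine joint {z} (fun _ => w) hρ (fun z' hz' => ?_) ?_ z (Finset.mem_singleton_self z)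
  · rw [Finset.mem_singleton.1 hz']; exact hn
  · filter_upwards [H] with ω g1 g2 z' hz' c
    rw [Finset.mem_singleton.1 hz']
    exact g1 (g2 z (Finset.mem_singleton_self z)) c

/-! ### Multiplexers -/

theorem rel_m (z : Bool) : ∀ᶠ ω in A.F, ∀ c : N.C,
    (net N A.τ (.m z c)).Rel (A.I ω.1).sem (A.ε ω.1) (A.lam ω.1) (A.x ω.1) (.m z c) ω.2 := by
  rw [eventually_all]
  exact fun c => A.rel (.m z c)

theorem m_start (h : A.qs 2 < 1 / 6) (z : Bool) : A.SCodes z fun n => (A.I n).w0 := by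
  refine scodes_of_m fun c => ?_
  filter_upwards [A.rel (.m z c), th_s_lt h] with ω g1 g2
  exact mux_pt g1 ((A.facts ω.1).rd_self _) _ (Or.inr ((A.facts ω.1).start_cb c ω.2))
    (Or.inl g2) (Or.inl g2) (Or.inl g2)

theorem m_hold0 {ρ' : ℝ} (P : A.Small ρ') {z : Bool} (hz : HoldAt A.qs z)
    (h : A.SNr ρ' z fun n => (A.I n).w0) : A.SCodes z fun n => (A.I n).w0 := by
  refine single P h ?_
  filter_upwards [rel_m z, th_hold hz, h_reads z fun n => (A.I n).w0] with ω g1 g2 g3 g4 c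
  exact mux_pt (g1 c) ((A.facts ω.1).rd_self _) _ (Or.inr ((A.facts ω.1).start_cb c ω.2))
    (Or.inr (Or.inr (g3 g4 c))) (Or.inr (Or.inl g2)) (Or.inr (Or.inl g2))

theorem m_hold {ρ' : ℝ} (P : A.Small ρ') (hs : 1 / 6 < A.qs 2) {z : Bool} {w : A.Cfg}
    (hz : HoldAt A.qs z) (h : A.SNr ρ' z w) : A.SCodes z w := by
  refine single P h ?_
  filter_upwards [rel_m z, th_s_gt hs, th_hold hz, h_reads z w] with ω g1 g0 g2 g3 g4 c
  exact mux_pt (g1 c) ((A.facts ω.1).rd_self _) _ (Or.inl g0) (Or.inr (Or.inr (g3 g4 c)))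
    (Or.inr (Or.inl g2)) (Or.inr (Or.inl g2))

theorem m_copy (hs : 1 / 6 < A.qs 2) (ha : A.qs 0 < 1 / 2) {z : Bool}
    {w : A.Cfg} (hz : FollowAt A.qs z) (h : A.SCodes (!z) w) : A.SCodes z w := by
  refine scodes_of_m fun c => ?_
  filter_upwards [A.rel (.m z c), th_s_gt hs, th_follow hz, th_a_lt ha, h_reads (!z) w,
    reads_of_codes h] with ω g1 g0 g2 g3 g4 g5
  exact mux_pt g1 ((A.facts ω.1).rd_self _) _ (Or.inl g0) (Or.inr (Or.inl g2))
    (Or.inr (Or.inr (Or.inr (g4 g5 c)))) (Or.inr (Or.inr (Or.inl g3)))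

theorem m_step (hs : 1 / 6 < A.qs 2) (ha : 1 / 2 < A.qs 0)
    {z : Bool} {w : A.Cfg} (hz : FollowAt A.qs z)
    (hw : ∀ᶠ n in (A.U : Filter ℕ), (A.I n).Valid (w n)) (h : A.SCodes (!z) w) :
    A.SCodes z (A.stp (!z) w) := by
  refine scodes_of_m fun c => ?_
  filter_upwards [A.rel (.m z c), th_s_gt hs, th_follow hz, th_a_gt ha,
    a_reads (!z) w hw, reads_of_codes h] with ω g1 g0 g2 g3 g4 g5
  exact mux_pt g1 ((A.facts ω.1).rd_self _) _ (Or.inl g0) (Or.inr (Or.inl g2))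
    (Or.inr (Or.inr (Or.inl g3))) (Or.inr (Or.inr (Or.inr (g4 g5 c))))

theorem m_both {ρ' : ℝ} (P : A.Small ρ') (hs : 1 / 6 < A.qs 2) (ha : A.qs 0 < 1 / 2)
    {w : A.Cfg} (h1 : A.SNr ρ' false w) (h2 : A.SNr ρ' true w) :
    A.SCodes false w ∧ A.SCodes true w := by
  have key : ∀ z ∈ ({false, true} : Finset Bool), A.SCodes z w := by
    refine joint {false, true} (fun _ => w) P (fun z _ => ?_) ?_
    · cases z
      · exact h1
      · exact h2
    · filter_upwards [rel_m false, rel_m true, th_s_gt hs, th_a_lt ha, h_reads false w,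
        h_reads true w] with ω g1 g2 g3 g4 g5 g6 g7 z _ c
      have e1 := g5 (g7 false (by simp)) c
      have e2 := g6 (g7 true (by simp)) c
      cases z
      · exact mux_pt (g1 c) ((A.facts ω.1).rd_self _) _ (Or.inl g3) (Or.inr (Or.inr e1))
          (Or.inr (Or.inr (Or.inr e2))) (Or.inr (Or.inr (Or.inl g4)))
      · exact mux_pt (g2 c) ((A.facts ω.1).rd_self _) _ (Or.inl g3) (Or.inr (Or.inr e2))
          (Or.inr (Or.inr (Or.inr e1))) (Or.inr (Or.inr (Or.inl g4)))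
  exact ⟨key false (by simp), key true (by simp)⟩

theorem m_link {ρ' : ℝ} (P : A.Small ρ') (hs : 1 / 6 < A.qs 2) (ha : 1 / 2 < A.qs 0)
    {w w' : A.Cfg} (hw : ∀ᶠ n in (A.U : Filter ℕ), (A.I n).Valid (w n))
    (hw' : ∀ᶠ n in (A.U : Filter ℕ), (A.I n).Valid (w' n))
    (e1 : ∀ᶠ n in (A.U : Filter ℕ), A.stp false w n = w' n)
    (e2 : ∀ᶠ n in (A.U : Filter ℕ), A.stp true w' n = w n)
    (h1 : A.SNr ρ' false w) (h2 : A.SNr ρ' true w') :
    A.SCodes false w ∧ A.SCodes true w' := by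
  have key : ∀ z ∈ ({false, true} : Finset Bool), A.SCodes z (if z then w' else w) := by
    refine joint {false, true} (fun z => if z then w' else w) P (fun z _ => ?_) ?_
    · cases z
      · exact h1
      · exact h2
    · filter_upwards [rel_m false, rel_m true, th_s_gt hs, th_a_gt ha, h_reads false w,
        h_reads true w', a_reads false w hw, a_reads true w' hw', cod_congr e1,
        cod_congr e2] with ω g1 g2 g3 g4 g5 g6 g7 g8 g9 g10 g11 z _ c
      have r1 : A.Reads false w ω := g11 false (by simp)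
      have r2 : A.Reads true w' ω := g11 true (by simp)
      have f1 := g5 r1 c
      have f2 := g6 r2 c
      have f3 := g7 r1 c
      have f4 := g8 r2 c
      rw [g9 c] at f3
      rw [g10 c] at f4
      cases z
      · exact mux_pt (g1 c) ((A.facts ω.1).rd_self _) _ (Or.inl g3) (Or.inr (Or.inr f1))
          (Or.inr (Or.inr (Or.inl g4))) (Or.inr (Or.inr (Or.inr f4)))
      · exact mux_pt (g2 c) ((A.facts ω.1).rd_self _) _ (Or.inl g3) (Or.inr (Or.inr f2))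
          (Or.inr (Or.inr (Or.inl g4))) (Or.inr (Or.inr (Or.inr f3)))
  exact ⟨key false (by simp), key true (by simp)⟩

end GLim

end Vale.Agent.P330.Q
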