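import Vale.Agent.P330.Q.TSDist
import Vale.Agent.P330.Q.Reads

/-!
# Test soundness, part 2: the line test and the corrected reads

`ltc_core`: if the line test fails with small probability, then there is a word `s` of low degree
on most lines such that every corrected read of the table is right with high probability.
`dist_core`: with the consistency test, the table is close to the table of `s`.
`dec`: decoding of a field element from all its bits.
-/

set_option linter.unusedSectionVars false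

namespace Vale.Agent.P330.Q.TS

open Finset
open Vale.Agent.P318.S (crv Low sgn ind CharBd fdist word PolyLe expect_nn expect_mono
  expect_shift sgn_add sum_sgn_char abs_sgn expect_prod' ind_add_le ind_nonneg ind_le_one
  expect_eval2 expect_cons phi_sep zmod2_cases)
open scoped BigOperators

/-! ### Decoding a field element -/

section dec

variable {F : Type*} [Field F]

open Classical in
/-- The field element with the bits `b`. -/
noncomputable def dec (φ : F →+ ZMod 2) (b : F → ZMod 2) : F :=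
  if h : ∃ v, ∀ l, φ (l * v) = b l then h.choose else 0

theorem dec_eq [Fintype F] [CharP F 2] (φ : F →+ ZMod 2) (hφ : φ ≠ 0) {b : F → ZMod 2} {v : F}
    (h : ∀ l, φ (l * v) = b l) : dec φ b = v := by
  have hex : ∃ v, ∀ l, φ (l * v) = b l := ⟨v, h⟩
  rw [dec, dif_pos hex]
  have h1 := hex.choose_spec
  have h2 : ∀ a, φ (a * (hex.choose - v)) = 0 := by
    intro a
    rw [mul_sub, map_sub, h1, h, sub_self]
  exact sub_eq_zero.1 (phi_sep φ hφ h2)

end dec

section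

variable {F Y ι κ : Type*} [Field F] [Fintype F] [DecidableEq F] [CharP F 2]
  [AddCommGroup Y] [Fintype Y] [DecidableEq Y] [Fintype ι] [Nonempty ι]
  [Fintype κ] [DecidableEq κ] {D : ℕ}

theorem expect_qpad (h : QPad F κ ι D → ℝ) :
    𝔼 z, h z = 𝔼 i : Fin 2 → ι, 𝔼 C : Fin 2 → Fin D → κ → F, 𝔼 c : κ → F, h (c, (C, i)) := by
  rw [expect_prod' h, Finset.expect_comm (s := (univ : Finset (κ → F)))]
  rw [expect_prod' (fun z : (Fin 2 → Fin D → κ → F) × (Fin 2 → ι) => 𝔼 c : κ → F, h (c, z)),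
    Finset.expect_comm]

/-- The line test. -/
theorem expect_line (r : ι → F →+ Y) (σ : Y → (κ → F) → ZMod 2) :
    𝔼 x : Y × (κ → F), 𝔼 z : QPad F κ ι D,
      ind (tsum σ (r (z.2.2 0)) x.1 (Fin.cons x.2 (z.2.1 0) : Fin (D + 1) → κ → F)) =
    eps D r σ := by
  have h1 : ∀ x : Y × (κ → F), 𝔼 z : QPad F κ ι D,
      ind (tsum σ (r (z.2.2 0)) x.1 (Fin.cons x.2 (z.2.1 0) : Fin (D + 1) → κ → F)) =
      𝔼 i : ι, 𝔼 C : Fin D → κ → F,
        ind (tsum σ (r i) x.1 (Fin.cons x.2 C : Fin (D + 1) → κ → F)) := by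
    intro x
    rw [expect_qpad]
    simp only [Fintype.expect_const]
    have h2 : ∀ i : Fin 2 → ι, 𝔼 C : Fin 2 → Fin D → κ → F,
        ind (tsum σ (r (i 0)) x.1 (Fin.cons x.2 (C 0) : Fin (D + 1) → κ → F)) =
        𝔼 C : Fin D → κ → F,
          ind (tsum σ (r (i 0)) x.1 (Fin.cons x.2 C : Fin (D + 1) → κ → F)) := fun i =>
      expect_eval2 (fun C : Fin D → κ → F =>
        ind (tsum σ (r (i 0)) x.1 (Fin.cons x.2 C : Fin (D + 1) → κ → F))) 0
    simp only [h2]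
    exact expect_eval2 (fun i : ι => 𝔼 C : Fin D → κ → F,
      ind (tsum σ (r i) x.1 (Fin.cons x.2 C : Fin (D + 1) → κ → F))) 0
  simp only [h1]
  rw [expect_prod' (fun x : Y × (κ → F) => 𝔼 i : ι, 𝔼 C : Fin D → κ → F,
        ind (tsum σ (r i) x.1 (Fin.cons x.2 C : Fin (D + 1) → κ → F))), eps_eq_del]
  rfl

/-- An error of a corrected read. -/
def err (φ : F →+ ZMod 2) (σ : Y → (κ → F) → ZMod 2) (r : ι → F →+ Y) (s : Y → κ → F)
    (y : Y) (L : κ → F) (z : QPad F κ ι D) : ℝ :=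
  ind (rdSum σ r y L z.2.2 z.2.1 z.1 + φ (∑ j, L j * s y j))

theorem err_nonneg (φ : F →+ ZMod 2) (σ : Y → (κ → F) → ZMod 2) (r : ι → F →+ Y) (s : Y → κ → F)
    (y : Y) (L : κ → F) (z : QPad F κ ι D) : 0 ≤ err φ σ r s y L z := ind_nonneg _

theorem ind_eq_zero {a : ZMod 2} (h : ind a = 0) : a = 0 := by
  rcases zmod2_cases a with rfl | rfl
  · rfl
  · simp [ind] at h

theorem eq_of_add {a b : ZMod 2} (h : a + b = 0) : a = b := by
  revert a b; decide

theorem one_le_ind {a : ZMod 2} (h : a ≠ 0) : 1 ≤ ind a := by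
  rcases zmod2_cases a with rfl | rfl
  · exact absurd rfl h
  · simp [ind]

/-- **The line test.** -/
theorem ltc_core (φ : F →+ ZMod 2) (hφ : φ ≠ 0) {q : ℕ}
    (hq : Fintype.card F = q) (hD : q ≤ 2 * D + 1) (hD2 : D + 2 ≤ q)
    (hY : ∀ y : Y, y + y = 0) (r : ι → F →+ Y) (hr : ∀ i, Function.Injective (r i)) {lam : ℝ}
    (hb : Spr r lam) (hlam : (q : ℝ) * lam ≤ 1 / 16) (σ : Y → (κ → F) → ZMod 2) {τ : ℝ}
    (hτ : 𝔼 x : Y × (κ → F), 𝔼 z : QPad F κ ι D,
      ind (tsum σ (r (z.2.2 0)) x.1 (Fin.cons x.2 (z.2.1 0) : Fin (D + 1) → κ → F)) ≤ τ)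
    (hτ1 : τ ≤ 1 / (160 * (q : ℝ) ^ 2)) :
    ∃ (s : Y → κ → F) (I : Finset ι), I.Nonempty ∧
      (∀ i ∈ I, ∀ y, Low (q - 2 - D) fun u : F => s (y + r i u)) ∧
      (1 - 4 * q * τ) * Fintype.card ι ≤ #I ∧
      ∀ (yv : Y × (κ → F) → Y), (∀ h : Y → ℝ, 𝔼 x, h (yv x) = 𝔼 y, h y) →
        ∀ L : Y × (κ → F) → κ → F,
        𝔼 x : Y × (κ → F), 𝔼 z : QPad F κ ι D, err φ σ r s (yv x) (L x) z ≤ (6 + 8 * q) * τ := by
  have hq2 : (2 : ℝ) ≤ q := by
    have : 2 ≤ q := by omega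
    exact_mod_cast this
  have hq0 : (0 : ℝ) < q := by linarith
  have hE : Nonempty (κ → F) := ⟨0⟩
  have hYn : Nonempty Y := ⟨0⟩
  have hι : (0 : ℝ) < Fintype.card ι := by exact_mod_cast Fintype.card_pos
  rw [expect_line] at hτ
  have heps0 : 0 ≤ eps D r σ := eps_nonneg r σ
  have hτ0 : 0 ≤ τ := heps0.trans hτ
  obtain ⟨b, s, I, hI, hd, hc, hbI, hlow⟩ := ltc_structure φ hφ hq hD hD2 hY r hr hb hlam σ
    (hτ.trans hτ1)
  have hcard : (1 - 4 * q * τ) * Fintype.card ι ≤ #I := by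
    refine le_trans (mul_le_mul_of_nonneg_right ?_ hι.le) hc
    have : 4 * q * eps D r σ ≤ 4 * q * τ := by
      apply mul_le_mul_of_nonneg_left hτ (by positivity)
    linarith
  have hη : fdist σ (word φ b s) ≤ 3 * τ / q :=
    hd.trans (div_le_div_of_nonneg_right (by linarith) hq0.le)
  refine ⟨s, I, hI, hlow, hcard, ?_⟩
  intro yv hyv L
  have h1 := read_err φ hq r σ b s I hD2 hlow hbI yv hyv L hη hcard
  have h2 : ∀ x : Y × (κ → F), 𝔼 z : QPad F κ ι D, err φ σ r s (yv x) (L x) z =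
      𝔼 i : Fin 2 → ι, 𝔼 C : Fin 2 → Fin D → κ → F, 𝔼 c : κ → F,
        ind (rdSum σ r (yv x) (L x) i C c + φ (∑ j, L x j * s (yv x) j)) := fun x =>
    expect_qpad _
  simp only [h2]
  refine h1.trans ?_
  have h3 : 2 * ((q : ℝ) - 1) * (3 * τ / q) ≤ 6 * τ := by
    have : 2 * ((q : ℝ) - 1) * (3 * τ / q) = 6 * τ * ((q - 1) / q) := by
      field_simp
      ring
    rw [this]
    have h4 : ((q : ℝ) - 1) / q ≤ 1 := by rw [div_le_one hq0]; linarith
    have h5 : 0 ≤ 6 * τ := by linarith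
    nlinarith
  nlinarith

/-- **The consistency test.** -/
theorem dist_core (φ : F →+ ZMod 2) (r : ι → F →+ Y) (σ : Y → (κ → F) → ZMod 2)
    (s : Y → κ → F) {τ η : ℝ}
    (h1 : 𝔼 x : Y × (κ → F), 𝔼 z : QPad F κ ι D,
      ind (rdSum σ r x.1 x.2 z.2.2 z.2.1 z.1 + σ x.1 x.2) ≤ τ)
    (h2 : 𝔼 x : Y × (κ → F), 𝔼 z : QPad F κ ι D, err φ σ r s x.1 x.2 z ≤ η) :
    fdist σ (word φ 0 s) ≤ τ + η := by
  have hE : Nonempty (κ → F) := ⟨0⟩
  have h3 : fdist σ (word φ 0 s) ≤ 𝔼 x : Y × (κ → F), 𝔼 z : QPad F κ ι D,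
      (ind (rdSum σ r x.1 x.2 z.2.2 z.2.1 z.1 + σ x.1 x.2) + err φ σ r s x.1 x.2 z) := by
    unfold fdist
    rw [expect_prod' (fun x : Y × (κ → F) => 𝔼 z : QPad F κ ι D,
      (ind (rdSum σ r x.1 x.2 z.2.2 z.2.1 z.1 + σ x.1 x.2) + err φ σ r s x.1 x.2 z))]
    refine expect_mono fun y => expect_mono fun c => ?_
    rw [← Fintype.expect_const (ι := QPad F κ ι D) (ind (σ y c + word φ 0 s y c))]
    refine expect_mono fun z => ?_
    refine le_trans (le_of_eq ?_) (ind_add_le _ _)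
    congr 1
    simp only [word, Pi.zero_apply, zero_add]
    generalize rdSum σ r y c z.2.2 z.2.1 z.1 = a
    generalize σ y c = b
    generalize φ (∑ j, c j * s y j) = e
    revert a b e; decide
  refine h3.trans ?_
  simp only [Finset.expect_add_distrib]
  exact add_le_add h1 h2

end

end Vale.Agent.P330.Q.TS
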